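import Vale.Agent.Lib.P120.UR.Base

/-!
The limit functional `ell Φ = lim_k ∫ Φ u_k dν_k` of a blow-up sequence.
-/

open MeasureTheory Filter Set Metric Module
open scoped Topology ENNReal NNReal RealInnerProductSpace

namespace Vale.Agent.P120

variable {d n : ℕ}

/-- Cauchy-Schwarz for integrals of real functions. -/
lemma Ell.cauchy {α : Type*} [MeasurableSpace α] {m : Measure α} {f g : α → ℝ}
    (hf : Integrable (fun x => f x ^ 2) m) (hg : Integrable (fun x => g x ^ 2) m)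
    (hfg : Integrable (fun x => f x * g x) m) :
    (∫ x, f x * g x ∂m) ^ 2 ≤ (∫ x, f x ^ 2 ∂m) * ∫ x, g x ^ 2 ∂m := by
  have key : ∀ t : ℝ, 0 ≤ (∫ x, g x ^ 2 ∂m) * (t * t) + (2 * ∫ x, f x * g x ∂m) * t +
      ∫ x, f x ^ 2 ∂m := by
    intro t
    have h1 : (∫ x, g x ^ 2 ∂m) * (t * t) + (2 * ∫ x, f x * g x ∂m) * t + ∫ x, f x ^ 2 ∂m =
        ∫ x, (f x + t * g x) ^ 2 ∂m := by
      have h2 : (fun x => (f x + t * g x) ^ 2) = fun x => (t * t) * g x ^ 2 +
          (2 * t) * (f x * g x) + f x ^ 2 := by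
        funext x; ring
      have hi1 : Integrable (fun x => (t * t) * g x ^ 2) m := hg.const_mul _
      have hi2 : Integrable (fun x => (2 * t) * (f x * g x)) m := hfg.const_mul _
      have hi12 : Integrable (fun x => (t * t) * g x ^ 2 + (2 * t) * (f x * g x)) m := hi1.add hi2
      rw [h2, integral_add hi12 hf, integral_add hi1 hi2, integral_const_mul, integral_const_mul]
      ring
    rw [h1]
    exact integral_nonneg fun _ => sq_nonneg _
  have hdisc := discrim_le_zero key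
  unfold discrim at hdisc
  linarith only [hdisc]

theorem BSeq.continuous_u {C c : ℝ} (S : BSeq n d C c) (k : ℕ) : Continuous (S.u k) := by
  have h := (continuous_hgt (S.U k) (S.M k) (S.b k)).const_smul (S.ε k)⁻¹
  exact h

theorem ell_integrable {C c : ℝ} (S : BSeq n d C c) (k : ℕ) {Φ : E d → ℝ} (hΦ : Continuous Φ)
    (hc : HasCompactSupport Φ) : Integrable (fun y => Φ y • S.u k y) (S.ν k) := by
  have := (S.hU k).isLocallyFinite
  exact (hΦ.smul (S.continuous_u k)).integrable_of_hasCompactSupport hc.smul_right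

theorem ell_integrableOn {C c : ℝ} (S : BSeq n d C c) (k : ℕ) {f : E d → ℝ} (hf : Continuous f)
    (R : ℝ) : IntegrableOn f (ball 0 R) (S.ν k) := by
  have := (S.hU k).isLocallyFinite
  have h1 : IntegrableOn f (closedBall 0 R) (S.ν k) :=
    hf.continuousOn.integrableOn_compact (isCompact_closedBall 0 R)
  exact h1.mono_set ball_subset_closedBall

theorem ell_growth {C c : ℝ} (S : BSeq n d C c) (k : ℕ) {R : ℝ} (hR : 1 ≤ R) :
    ∫ y in ball 0 R, ‖S.u k y‖ ^ 2 ∂(S.ν k) ≤ R ^ (n + 3) := by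
  have h1 := S.hG k R hR
  have hε := S.hε0 k
  have h2 : ∀ y, ‖S.u k y‖ ^ 2 = ((S.ε k)⁻¹) ^ 2 * ‖hgt (S.U k) (S.M k) (S.b k) y‖ ^ 2 := by
    intro y
    unfold BSeq.u
    rw [norm_smul, mul_pow, norm_inv, Real.norm_eq_abs, abs_of_pos hε]
  simp only [h2]
  rw [integral_const_mul]
  calc ((S.ε k)⁻¹) ^ 2 * ∫ y in ball 0 R, ‖hgt (S.U k) (S.M k) (S.b k) y‖ ^ 2 ∂(S.ν k)
      ≤ ((S.ε k)⁻¹) ^ 2 * (S.ε k ^ 2 * R ^ (n + 3) / 1) := by gcongr
    _ = R ^ (n + 3) := by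
        field_simp

/-- The basic bound. -/
theorem ell_basic {C c : ℝ} (S : BSeq n d C c) (k : ℕ) {Φ : E d → ℝ} (hΦ : Continuous Φ)
    {R : ℝ} (hR : 1 ≤ R) (hs : ∀ y, R ≤ ‖y‖ → Φ y = 0) :
    ‖∫ y, Φ y • S.u k y ∂(S.ν k)‖ ^ 2 ≤ (∫ y, Φ y ^ 2 ∂(S.ν k)) * R ^ (n + 3) := by
  have hu := S.continuous_u k
  have hout : ∀ y, y ∉ ball (0 : E d) R → Φ y = 0 := by
    intro y hy
    rw [mem_ball, dist_zero_right, not_lt] at hy
    exact hs y hy
  have e1 : ∫ y, Φ y • S.u k y ∂(S.ν k) = ∫ y in ball 0 R, Φ y • S.u k y ∂(S.ν k) := by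
    symm
    apply setIntegral_eq_integral_of_forall_compl_eq_zero
    intro y hy
    rw [hout y hy, zero_smul]
  have e2 : ∫ y, Φ y ^ 2 ∂(S.ν k) = ∫ y in ball 0 R, |Φ y| ^ 2 ∂(S.ν k) := by
    symm
    have : ∫ y in ball 0 R, |Φ y| ^ 2 ∂(S.ν k) = ∫ y in ball 0 R, Φ y ^ 2 ∂(S.ν k) := by
      congr 1
      ext1 y
      exact sq_abs _
    rw [this]
    apply setIntegral_eq_integral_of_forall_compl_eq_zero
    intro y hy
    rw [hout y hy]
    simp
  rw [e1, e2]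
  have h1 : ‖∫ y in ball 0 R, Φ y • S.u k y ∂(S.ν k)‖ ≤
      ∫ y in ball 0 R, |Φ y| * ‖S.u k y‖ ∂(S.ν k) := by
    refine (norm_integral_le_integral_norm _).trans (le_of_eq ?_)
    congr 1
    ext1 y
    rw [norm_smul, Real.norm_eq_abs]
  have h2 := Ell.cauchy (m := (S.ν k).restrict (ball 0 R)) (f := fun y => |Φ y|)
    (g := fun y => ‖S.u k y‖)
    (ell_integrableOn S k (hΦ.abs.pow 2) R) (ell_integrableOn S k (hu.norm.pow 2) R)
    (ell_integrableOn S k (hΦ.abs.mul hu.norm) R)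
  calc ‖∫ y in ball 0 R, Φ y • S.u k y ∂(S.ν k)‖ ^ 2
      ≤ (∫ y in ball 0 R, |Φ y| * ‖S.u k y‖ ∂(S.ν k)) ^ 2 := by gcongr
    _ ≤ (∫ y in ball 0 R, |Φ y| ^ 2 ∂(S.ν k)) * ∫ y in ball 0 R, ‖S.u k y‖ ^ 2 ∂(S.ν k) := h2
    _ ≤ _ := by
        apply mul_le_mul_of_nonneg_left (ell_growth S k hR)
        exact integral_nonneg fun y => by positivity

/-- The bound in terms of the supremum. -/
theorem ell_basic_sup {C c : ℝ} (S : BSeq n d C c) (k : ℕ) {Φ : E d → ℝ} (hΦ : Continuous Φ)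
    {R : ℝ} (hR : 1 ≤ R) (hs : ∀ y, R ≤ ‖y‖ → Φ y = 0) {B : ℝ} (hB : ∀ y, |Φ y| ≤ B) :
    ‖∫ y, Φ y • S.u k y ∂(S.ν k)‖ ^ 2 ≤ B ^ 2 * (C * R ^ n * R ^ (n + 3)) := by
  have hU := S.hU k
  have hC := hU.1
  have hR0 : 0 < R := by linarith
  have hout : ∀ y, y ∉ closedBall (0 : E d) R → Φ y ^ 2 = 0 := by
    intro y hy
    rw [mem_closedBall, dist_zero_right, not_le] at hy
    rw [hs y hy.le]
    simp
  have h1 : ∫ y, Φ y ^ 2 ∂(S.ν k) ≤ B ^ 2 * (C * R ^ n) := by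
    rw [← setIntegral_eq_integral_of_forall_compl_eq_zero hout]
    have hfin : S.ν k (closedBall 0 R) < ⊤ := hU.closedBall_lt_top 0 R
    have h2 : ‖∫ y in closedBall 0 R, Φ y ^ 2 ∂(S.ν k)‖ ≤
        B ^ 2 * (S.ν k).real (closedBall 0 R) := by
      apply norm_setIntegral_le_of_norm_le_const hfin
      intro y _
      rw [Real.norm_eq_abs, abs_pow]
      exact pow_le_pow_left₀ (abs_nonneg _) (hB y) 2
    have h3 : (S.ν k).real (closedBall 0 R) ≤ C * R ^ n :=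
      ENNReal.toReal_le_of_le_ofReal (by positivity) (hU.2 0 R hR0)
    calc ∫ y in closedBall 0 R, Φ y ^ 2 ∂(S.ν k)
        ≤ ‖∫ y in closedBall 0 R, Φ y ^ 2 ∂(S.ν k)‖ := le_abs_self _
      _ ≤ B ^ 2 * (S.ν k).real (closedBall 0 R) := h2
      _ ≤ B ^ 2 * (C * R ^ n) := by gcongr
  calc _ ≤ (∫ y, Φ y ^ 2 ∂(S.ν k)) * R ^ (n + 3) := ell_basic S k hΦ hR hs
    _ ≤ (B ^ 2 * (C * R ^ n)) * R ^ (n + 3) := by gcongr
    _ = _ := by ring

theorem ell_radius {Φ : E d → ℝ} (hc : HasCompactSupport Φ) :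
    ∃ R : ℝ, 1 ≤ R ∧ ∀ y, R ≤ ‖y‖ → Φ y = 0 := by
  obtain ⟨R, hR⟩ := hc.isCompact.isBounded.subset_closedBall (0 : E d)
  refine ⟨max R 0 + 1, by linarith [le_max_right R 0], ?_⟩
  intro y hy
  by_contra hcon
  have h1 : y ∈ tsupport Φ := subset_tsupport Φ hcon
  have h2 := hR h1
  rw [mem_closedBall, dist_zero_right] at h2
  have := le_max_left R 0
  linarith

theorem ell_bdd {Φ : E d → ℝ} (hΦ : Continuous Φ) (hc : HasCompactSupport Φ) :
    ∃ B : ℝ, 0 ≤ B ∧ ∀ y, |Φ y| ≤ B := by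
  obtain ⟨B, hB⟩ := hc.exists_bound_of_continuous hΦ
  exact ⟨B, (norm_nonneg _).trans (hB 0), hB⟩

/-- `UR/Ell.lean` -/
theorem ell_tendsto {C c : ℝ} (S : BSeq n d C c) {Φ : E d → ℝ} (hΦ : Continuous Φ)
    (hc : HasCompactSupport Φ) :
    Tendsto (fun k => ∫ y, Φ y • S.u k y ∂(S.ν k)) (hyperfilter ℕ : Filter ℕ) (𝓝 (S.ell Φ)) := by
  obtain ⟨R, hR, hs⟩ := ell_radius hc
  obtain ⟨B, hB0, hB⟩ := ell_bdd hΦ hc
  have hC : 0 < C := (S.hU 0).1
  set K : ℝ := Real.sqrt (B ^ 2 * (C * R ^ n * R ^ (n + 3))) with hK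
  have hR0 : 0 < R := by linarith
  have h1 : ∀ k, (∫ y, Φ y • S.u k y ∂(S.ν k)) ∈ closedBall (0 : E d) K := by
    intro k
    rw [mem_closedBall, dist_zero_right]
    exact Real.le_sqrt_of_sq_le (ell_basic_sup S k hΦ hR hs hB)
  unfold BSeq.ell
  apply tendsto_nhds_limUnder
  have hcomp : IsCompact (closedBall (0 : E d) K) := isCompact_closedBall 0 K
  have h2 : (((hyperfilter ℕ).map (fun k => ∫ y, Φ y • S.u k y ∂(S.ν k)) : Ultrafilter (E d)) :
      Filter (E d)) ≤ 𝓟 (closedBall (0 : E d) K) := by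
    rw [le_principal_iff, Ultrafilter.coe_map, mem_map]
    exact Filter.univ_mem' h1
  obtain ⟨x, _, hx⟩ := hcomp.ultrafilter_le_nhds _ h2
  exact ⟨x, hx⟩

theorem ell_bound {C c cl cu : ℝ} {S : BSeq n d C c} (L : BLim S cl cu) {Φ : E d → ℝ}
    (hΦ : Continuous Φ) {R : ℝ} (hR : 1 ≤ R) (hs : ∀ y, R ≤ ‖y‖ → Φ y = 0) :
    ‖S.ell Φ‖ ^ 2 ≤ (∫ y, Φ y ^ 2 ∂L.σ) * R ^ (n + 3) := by
  have hc : HasCompactSupport Φ := by
    apply HasCompactSupport.of_support_subset_isCompact (isCompact_closedBall (0 : E d) R)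
    intro y hy
    rw [mem_closedBall, dist_zero_right]
    by_contra hcon
    push Not at hcon
    exact hy (hs y hcon.le)
  have h1 := ell_tendsto S hΦ hc
  have h2 : Tendsto (fun k => ‖∫ y, Φ y • S.u k y ∂(S.ν k)‖ ^ 2) (hyperfilter ℕ : Filter ℕ)
      (𝓝 (‖S.ell Φ‖ ^ 2)) := (h1.norm).pow 2
  have hc2 : HasCompactSupport (fun y => Φ y ^ 2) := by
    apply HasCompactSupport.of_support_subset_isCompact (isCompact_closedBall (0 : E d) R)
    intro y hy
    rw [mem_closedBall, dist_zero_right]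
    by_contra hcon
    push Not at hcon
    apply hy
    simp only [hs y hcon.le]
    norm_num
  have h3 := (L.hUL (fun y => Φ y ^ 2) (hΦ.pow 2) hc2).mul_const (R ^ (n + 3))
  exact le_of_tendsto_of_tendsto' h2 h3 fun k => ell_basic S k hΦ hR hs

theorem ell_add {C c : ℝ} (S : BSeq n d C c) {Φ Ψ : E d → ℝ} (hΦ : Continuous Φ)
    (hc : HasCompactSupport Φ) (hΨ : Continuous Ψ) (hc' : HasCompactSupport Ψ) :
    S.ell (fun y => Φ y + Ψ y) = S.ell Φ + S.ell Ψ := by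
  have hca : HasCompactSupport (fun y => Φ y + Ψ y) := hc.add hc'
  have h1 := ell_tendsto S (Φ := fun y => Φ y + Ψ y) (hΦ.add hΨ) hca
  have h2 := (ell_tendsto S hΦ hc).add (ell_tendsto S hΨ hc')
  refine tendsto_nhds_unique h1 (h2.congr fun k => ?_)
  rw [← integral_add (ell_integrable S k hΦ hc) (ell_integrable S k hΨ hc')]
  congr 1
  ext1 y
  rw [add_smul]

theorem ell_smul {C c : ℝ} (S : BSeq n d C c) {Φ : E d → ℝ} (hΦ : Continuous Φ)
    (hc : HasCompactSupport Φ) (a : ℝ) : S.ell (fun y => a * Φ y) = a • S.ell Φ := by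
  have hca : HasCompactSupport (fun y => a * Φ y) := hc.mul_left
  have h1 := ell_tendsto S (Φ := fun y => a * Φ y) (continuous_const.mul hΦ) hca
  have h2 := (ell_tendsto S hΦ hc).const_smul a
  refine tendsto_nhds_unique h1 (h2.congr fun k => ?_)
  rw [← integral_smul]
  congr 1
  ext1 y
  rw [smul_smul]

theorem ell_moving {C c : ℝ} (S : BSeq n d C c) (f : ℕ → E d → ℝ) (g : E d → ℝ)
    (hf : ∀ k, Continuous (f k)) (hg : Continuous g) (R : ℝ) (hfR : ∀ k y, R < ‖y‖ → f k y = 0)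
    (hlim : ∀ ε > 0, ∀ᶠ k in (hyperfilter ℕ : Filter ℕ), ∀ y, |f k y - g y| ≤ ε) :
    Tendsto (fun k => ∫ y, f k y • S.u k y ∂(S.ν k)) (hyperfilter ℕ : Filter ℕ)
      (𝓝 (S.ell g)) := by
  have hC : 0 < C := (S.hU 0).1
  have hgR : ∀ y, R < ‖y‖ → g y = 0 := by
    intro y hy
    by_contra hcon
    have h1 := hlim (|g y| / 2) (by positivity)
    obtain ⟨k, hk⟩ := h1.exists
    have h2 := hk y
    rw [hfR k y hy, zero_sub, abs_neg] at h2
    have h3 : 0 < |g y| := abs_pos.2 hcon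
    linarith
  set R' : ℝ := max R 0 + 1 with hR'
  have hR'1 : 1 ≤ R' := by linarith [le_max_right R 0]
  have hRR' : R < R' := by linarith [le_max_left R 0]
  have hcs : ∀ φ : E d → ℝ, (∀ y, R < ‖y‖ → φ y = 0) → HasCompactSupport φ := by
    intro φ hφ
    apply HasCompactSupport.of_support_subset_isCompact (isCompact_closedBall (0 : E d) R)
    intro y hy
    rw [mem_closedBall, dist_zero_right]
    by_contra hcon
    push Not at hcon
    exact hy (hφ y hcon)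
  have h1 := ell_tendsto S hg (hcs g hgR)
  have h2 : Tendsto (fun k => (∫ y, f k y • S.u k y ∂(S.ν k)) - ∫ y, g y • S.u k y ∂(S.ν k))
      (hyperfilter ℕ : Filter ℕ) (𝓝 0) := by
    rw [Metric.tendsto_nhds]
    intro δ hδ
    set Q : ℝ := C * R' ^ n * R' ^ (n + 3) with hQ
    have hR'0 : 0 < R' := by linarith
    have hQ0 : 0 < Q := by positivity
    have h3 := hlim (δ / 2 / Real.sqrt Q) (by positivity)
    filter_upwards [h3] with k hk
    rw [dist_zero_right, ← integral_sub (ell_integrable S k (hf k) (hcs _ (hfR k)))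
      (ell_integrable S k hg (hcs g hgR))]
    have h4 : ∫ y, (f k y • S.u k y - g y • S.u k y) ∂(S.ν k) =
        ∫ y, (f k y - g y) • S.u k y ∂(S.ν k) := by
      congr 1
      ext1 y
      rw [sub_smul]
    rw [h4]
    have h5 := ell_basic_sup S k (Φ := fun y => f k y - g y) ((hf k).sub hg) hR'1
      (fun y hy => by
        rw [hfR k y (hRR'.trans_le hy), hgR y (hRR'.trans_le hy), sub_zero]) hk
    have h6 : (δ / 2 / Real.sqrt Q) ^ 2 * Q = (δ / 2) ^ 2 := by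
      rw [div_pow, Real.sq_sqrt hQ0.le]
      field_simp
    rw [← hQ, h6] at h5
    have h7 : ‖∫ y, (f k y - g y) • S.u k y ∂(S.ν k)‖ ≤ δ / 2 :=
      (sq_le_sq₀ (norm_nonneg _) (by positivity)).1 h5
    linarith
  have h3 := h2.add h1
  rw [zero_add] at h3
  refine h3.congr fun k => ?_
  rw [sub_add_cancel]

end Vale.Agent.P120
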