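import Vale.Agent.Lib.P120.UR.Basic

/-!
P120, module LopFacts: elementary facts on the symmetrised half-Laplacian `Lop`.
-/

open MeasureTheory Filter Set Metric Module
open scoped Topology ENNReal NNReal RealInnerProductSpace

namespace Vale.Agent.P120

/-- The dominating kernel of `Lop`. -/
noncomputable def lopDom (n : ℕ) (z : E n) : ℝ := min 1 (‖z‖ ^ 2) * (‖z‖ ^ (n + 1))⁻¹

theorem lopDom_nonneg (n : ℕ) (z : E n) : 0 ≤ lopDom n z := by
  unfold lopDom
  have : (0 : ℝ) ≤ min 1 (‖z‖ ^ 2) := le_min zero_le_one (by positivity)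
  positivity

theorem lopDom_integrable (n : ℕ) (hn : 1 ≤ n) : Integrable (lopDom n) := by
  have hfr : finrank ℝ (E n) = n := finrank_euclideanSpace_fin
  have hnt : Nontrivial (E n) := by
    apply Module.nontrivial_of_finrank_pos (R := ℝ)
    rw [hfr]
    omega
  have h := (integrable_fun_norm_addHaar (volume : Measure (E n))
    (f := fun t : ℝ => min 1 (t ^ 2) * (t ^ (n + 1))⁻¹)).2 ?_
  · exact h
  rw [hfr, ← Ioc_union_Ioi_eq_Ioi (zero_le_one (α := ℝ))]
  obtain ⟨m, rfl⟩ : ∃ m, n = m + 1 := ⟨n - 1, by omega⟩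
  refine IntegrableOn.union ?_ ?_
  · have h1 : IntegrableOn (fun _ : ℝ => (1 : ℝ)) (Ioc 0 1) volume :=
      integrableOn_const (by simp) (by simp)
    refine h1.congr_fun (fun y hy => ?_) measurableSet_Ioc
    have hy0 : 0 < y := hy.1
    have hmin : min 1 (y ^ 2) = y ^ 2 := min_eq_right (by nlinarith only [hy.2, hy0])
    simp only [hmin, smul_eq_mul, Nat.add_sub_cancel]
    field_simp
    ring
  · have h1 : IntegrableOn (fun t : ℝ => t ^ (-2 : ℝ)) (Ioi 1) volume :=
      integrableOn_Ioi_rpow_of_lt (by norm_num) zero_lt_one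
    refine h1.congr_fun (fun y hy => ?_) measurableSet_Ioi
    have hy1 : 1 < y := hy
    have hy0 : 0 < y := by linarith
    have hmin : min 1 (y ^ 2) = 1 := min_eq_left (by nlinarith only [hy1])
    have hr : y ^ (-2 : ℝ) = (y ^ 2)⁻¹ := by
      rw [Real.rpow_neg hy0.le, show (2 : ℝ) = ((2 : ℕ) : ℝ) by norm_num, Real.rpow_natCast]
    simp only [hmin, smul_eq_mul, Nat.add_sub_cancel, hr]
    field_simp
    ring

/-- Bound of the symmetric second difference. -/
theorem lop_secondDiff (n : ℕ) (f : E n → ℝ) (hf : ContDiff ℝ 2 f) (hfc : HasCompactSupport f) :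
    ∃ B : ℝ, 0 ≤ B ∧ ∀ v z, |2 * f v - f (v + z) - f (v - z)| ≤ B * min 1 (‖z‖ ^ 2) := by
  obtain ⟨C, hC⟩ := hfc.exists_bound_of_continuous hf.continuous
  obtain ⟨K, hK⟩ := ContDiff.lipschitzWith_of_hasCompactSupport (𝕂 := ℝ) (n := 1)
    (hfc.fderiv ℝ) (hf.fderiv_right (m := 1) (by norm_num)) one_ne_zero
  have hC0 : 0 ≤ C := (norm_nonneg _).trans (hC 0)
  refine ⟨max (4 * C) (2 * K), le_max_of_le_left (by positivity), fun v z => ?_⟩
  have hB : (0 : ℝ) ≤ max (4 * C) (2 * K) := le_max_of_le_left (by positivity)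
  rw [mul_min_of_nonneg _ _ hB]
  refine le_min ?_ ?_
  · rw [mul_one]
    refine le_trans ?_ (le_max_left _ _)
    have h1 := hC v
    have h2 := hC (v + z)
    have h3 := hC (v - z)
    rw [Real.norm_eq_abs, abs_le] at h1 h2 h3
    rw [abs_le]
    constructor <;> linarith [h1.1, h1.2, h2.1, h2.2, h3.1, h3.2]
  · refine le_trans ?_ (mul_le_mul_of_nonneg_right (le_max_right _ _) (sq_nonneg _))
    have hdiff : Differentiable ℝ f := hf.differentiable (by norm_num)
    have hder : ∀ t ∈ Icc (0 : ℝ) 1, HasDerivWithinAt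
        (fun t : ℝ => f (v + t • z) + f (v - t • z))
        (fderiv ℝ f (v + t • z) z - fderiv ℝ f (v - t • z) z) (Icc 0 1) t := by
      intro t _
      have h1 : HasDerivAt (fun t : ℝ => v + t • z) z t := by
        have := (hasDerivAt_id t).smul_const z
        simpa using this.const_add v
      have h2 : HasDerivAt (fun t : ℝ => v - t • z) (-z) t := by
        have := (hasDerivAt_id t).smul_const z
        simpa using this.const_sub v
      have h3 := (hdiff (v + t • z)).hasFDerivAt.comp_hasDerivAt t h1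
      have h4 := (hdiff (v - t • z)).hasFDerivAt.comp_hasDerivAt t h2
      have h5 := (h3.add h4).hasDerivWithinAt (s := Icc 0 1)
      rw [map_neg, ← sub_eq_add_neg] at h5
      exact h5
    have hbd : ∀ t ∈ Ico (0 : ℝ) 1,
        ‖fderiv ℝ f (v + t • z) z - fderiv ℝ f (v - t • z) z‖ ≤ 2 * K * ‖z‖ ^ 2 := by
      intro t ht
      have h1 : fderiv ℝ f (v + t • z) z - fderiv ℝ f (v - t • z) z =
          (fderiv ℝ f (v + t • z) - fderiv ℝ f (v - t • z)) z := rfl
      have h2 : ‖fderiv ℝ f (v + t • z) - fderiv ℝ f (v - t • z)‖ ≤ K * (2 * ‖z‖) := by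
        refine (hK.norm_sub_le _ _).trans ?_
        refine mul_le_mul_of_nonneg_left ?_ K.coe_nonneg
        have h3 : (v + t • z) - (v - t • z) = (2 * t) • z := by
          rw [mul_smul, two_smul]; abel
        rw [h3, norm_smul, Real.norm_eq_abs, abs_of_nonneg (by linarith [ht.1])]
        exact mul_le_mul_of_nonneg_right (by linarith [ht.2]) (norm_nonneg _)
      rw [h1]
      refine (ContinuousLinearMap.le_opNorm _ _).trans ?_
      calc _ ≤ (K * (2 * ‖z‖)) * ‖z‖ := mul_le_mul_of_nonneg_right h2 (norm_nonneg _)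
        _ = 2 * K * ‖z‖ ^ 2 := by ring
    have h := norm_image_sub_le_of_norm_deriv_le_segment_01' hder hbd
    simp only [one_smul, zero_smul, add_zero, sub_zero] at h
    rw [Real.norm_eq_abs, abs_sub_comm] at h
    have he : 2 * f v - f (v + z) - f (v - z) = f v + f v - (f (v + z) + f (v - z)) := by ring
    rw [he]
    exact h

theorem lop_measurable_ker (n : ℕ) : Measurable (fun z : E n => (‖z‖ ^ (n + 1))⁻¹) :=
  (measurable_norm.pow_const _).inv

theorem lop_integrand_measurable (n : ℕ) (f : E n → ℝ) (hf : Continuous f) (v : E n) :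
    Measurable (fun z : E n => (2 * f v - f (v + z) - f (v - z)) * (‖z‖ ^ (n + 1))⁻¹) := by
  refine Measurable.mul ?_ (lop_measurable_ker n)
  have h : Continuous (fun z : E n => 2 * f v - f (v + z) - f (v - z)) := by fun_prop
  exact h.measurable

theorem lop_integrand_bound (n : ℕ) (f : E n → ℝ) {B : ℝ}
    (hB : ∀ v z, |2 * f v - f (v + z) - f (v - z)| ≤ B * min 1 (‖z‖ ^ 2)) (v z : E n) :
    ‖(2 * f v - f (v + z) - f (v - z)) * (‖z‖ ^ (n + 1))⁻¹‖ ≤ B * lopDom n z := by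
  rw [Real.norm_eq_abs, abs_mul, abs_of_nonneg (a := (‖z‖ ^ (n + 1))⁻¹) (by positivity)]
  unfold lopDom
  rw [← mul_assoc]
  exact mul_le_mul_of_nonneg_right (hB v z) (by positivity)

theorem Lop_integrable (n : ℕ) (hn : 1 ≤ n) (f : E n → ℝ) (hf : ContDiff ℝ 2 f)
    (hfc : HasCompactSupport f) (v : E n) :
    Integrable (fun z : E n => (2 * f v - f (v + z) - f (v - z)) * (‖z‖ ^ (n + 1))⁻¹) := by
  obtain ⟨B, _, hB⟩ := lop_secondDiff n f hf hfc
  exact ((lopDom_integrable n hn).const_mul B).mono'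
    (lop_integrand_measurable n f hf.continuous v).aestronglyMeasurable
    (Eventually.of_forall fun z => lop_integrand_bound n f hB v z)

theorem Lop_continuous (n : ℕ) (hn : 1 ≤ n) (f : E n → ℝ) (hf : ContDiff ℝ 2 f)
    (hfc : HasCompactSupport f) : Continuous (Lop n f) := by
  obtain ⟨B, _, hB⟩ := lop_secondDiff n f hf hfc
  unfold Lop
  refine continuous_of_dominated (bound := fun z => B * lopDom n z)
    (fun v => (lop_integrand_measurable n f hf.continuous v).aestronglyMeasurable)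
    (fun v => Eventually.of_forall fun z => lop_integrand_bound n f hB v z)
    ((lopDom_integrable n hn).const_mul B) (Eventually.of_forall fun z => ?_)
  have hc := hf.continuous
  fun_prop

theorem lop_bounded (n : ℕ) (hn : 1 ≤ n) (f : E n → ℝ) (hf : ContDiff ℝ 2 f)
    (hfc : HasCompactSupport f) : ∃ B0 : ℝ, ∀ v, |Lop n f v| ≤ B0 := by
  obtain ⟨B, _, hB⟩ := lop_secondDiff n f hf hfc
  refine ⟨∫ z, B * lopDom n z, fun v => ?_⟩
  rw [← Real.norm_eq_abs]
  exact norm_integral_le_of_norm_le ((lopDom_integrable n hn).const_mul B)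
    (Eventually.of_forall fun z => lop_integrand_bound n f hB v z)

/-- Passage from a bound for large `v` to a global bound. -/
theorem lop_global_bound {n : ℕ} (F : E n → ℝ) (m : ℕ) {B0 A1 R0 : ℝ} (hR0 : 1 ≤ R0)
    (hB : ∀ v, |F v| ≤ B0) (hA : ∀ v, R0 ≤ ‖v‖ → |F v| ≤ A1 * (‖v‖ ^ m)⁻¹) :
    ∃ A : ℝ, ∀ v, |F v| ≤ A * ((1 + ‖v‖) ^ m)⁻¹ := by
  have hB0 : 0 ≤ B0 := (abs_nonneg _).trans (hB 0)
  refine ⟨B0 * (1 + R0) ^ m + |A1| * 2 ^ m, fun v => ?_⟩
  have hv := norm_nonneg v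
  have hp : 0 < (1 + ‖v‖) ^ m := by positivity
  rcases le_total R0 ‖v‖ with h | h
  · refine (hA v h).trans ?_
    have hv0 : 0 < ‖v‖ := by linarith
    have h1 : (‖v‖ ^ m)⁻¹ ≤ 2 ^ m * ((1 + ‖v‖) ^ m)⁻¹ := by
      rw [← div_eq_mul_inv, inv_eq_one_div, div_le_div_iff₀ (by positivity) hp, one_mul,
        ← mul_pow]
      exact pow_le_pow_left₀ (by positivity) (by linarith) m
    calc A1 * (‖v‖ ^ m)⁻¹ ≤ |A1| * (‖v‖ ^ m)⁻¹ :=
          mul_le_mul_of_nonneg_right (le_abs_self _) (by positivity)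
      _ ≤ |A1| * (2 ^ m * ((1 + ‖v‖) ^ m)⁻¹) := mul_le_mul_of_nonneg_left h1 (abs_nonneg _)
      _ = 0 + |A1| * 2 ^ m * ((1 + ‖v‖) ^ m)⁻¹ := by ring
      _ ≤ B0 * (1 + R0) ^ m * ((1 + ‖v‖) ^ m)⁻¹ + |A1| * 2 ^ m * ((1 + ‖v‖) ^ m)⁻¹ := by
          gcongr
          positivity
      _ = _ := by ring
  · refine (hB v).trans ?_
    have h1 : 1 ≤ (1 + R0) ^ m * ((1 + ‖v‖) ^ m)⁻¹ := by
      rw [← div_eq_mul_inv, one_le_div hp]
      exact pow_le_pow_left₀ (by positivity) (by linarith) m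
    calc B0 = B0 * 1 + 0 := by ring
      _ ≤ B0 * ((1 + R0) ^ m * ((1 + ‖v‖) ^ m)⁻¹) + |A1| * 2 ^ m * ((1 + ‖v‖) ^ m)⁻¹ := by
          gcongr
          positivity
      _ = _ := by ring

/-- Radius of the support. -/
theorem lop_exists_radius {n : ℕ} (f : E n → ℝ) (hfc : HasCompactSupport f) :
    ∃ r : ℝ, 1 ≤ r ∧ ∀ x, r < ‖x‖ → f x = 0 := by
  obtain ⟨r, hr⟩ := hfc.isCompact.isBounded.subset_closedBall (0 : E n)
  refine ⟨max 1 r, le_max_left _ _, fun x hx => ?_⟩
  refine image_eq_zero_of_notMem_tsupport fun hmem => ?_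
  have h := hr hmem
  rw [mem_closedBall, dist_zero_right] at h
  exact absurd (h.trans (le_max_right 1 r)) (not_le.2 hx)

theorem Lop_decay (n : ℕ) (hn : 1 ≤ n) (f : E n → ℝ) (hf : ContDiff ℝ 2 f)
    (hfc : HasCompactSupport f) : ∃ A : ℝ, ∀ v, |Lop n f v| ≤ A * ((1 + ‖v‖) ^ (n + 1))⁻¹ := by
  obtain ⟨B0, hB0⟩ := lop_bounded n hn f hf hfc
  obtain ⟨r, hr1, hr⟩ := lop_exists_radius f hfc
  have hint : Integrable f := hf.continuous.integrable_of_hasCompactSupport hfc
  refine lop_global_bound (Lop n f) (n + 1) (B0 := B0) (A1 := 2 * (∫ x, |f x|) * 2 ^ (n + 1))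
    (R0 := 2 * r) (by linarith) hB0 fun v hv => ?_
  have hv0 : 0 < ‖v‖ := by linarith
  have hfv : f v = 0 := hr v (by linarith)
  have key : ∀ y z : E n, ‖v‖ - ‖y‖ ≤ ‖z‖ → |f y| * (‖z‖ ^ (n + 1))⁻¹ ≤
      |f y| * (2 ^ (n + 1) * (‖v‖ ^ (n + 1))⁻¹) := by
    intro y z hyz
    rcases lt_or_ge r ‖y‖ with h | h
    · rw [hr y h]; simp
    · refine mul_le_mul_of_nonneg_left ?_ (abs_nonneg _)
      have hz : ‖v‖ / 2 ≤ ‖z‖ := by linarith
      have hz0 : 0 < ‖z‖ := by linarith
      rw [← div_eq_mul_inv, inv_eq_one_div, div_le_div_iff₀ (by positivity) (by positivity),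
        one_mul, ← mul_pow]
      exact pow_le_pow_left₀ (by positivity) (by linarith) _
  unfold Lop
  have hI1 : Integrable (fun z : E n => |f (v + z)|) := (hint.comp_add_left v).abs
  have hI2 : Integrable (fun z : E n => |f (v - z)|) := (hint.comp_sub_left v).abs
  have hE1 : ∫ z : E n, |f (v + z)| = ∫ z, |f z| := integral_add_left_eq_self (fun z => |f z|) v
  have hE2 : ∫ z : E n, |f (v - z)| = ∫ z, |f z| := integral_sub_left_eq_self (fun z => |f z|) _ v
  have hle : ‖∫ z : E n, (2 * f v - f (v + z) - f (v - z)) * (‖z‖ ^ (n + 1))⁻¹‖ ≤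
      ∫ z : E n, (|f (v + z)| + |f (v - z)|) * (2 ^ (n + 1) * (‖v‖ ^ (n + 1))⁻¹) := by
    refine norm_integral_le_of_norm_le ((hI1.add hI2).mul_const _)
      (Eventually.of_forall fun z => ?_)
    rw [hfv, Real.norm_eq_abs, abs_mul, abs_of_nonneg (a := (‖z‖ ^ (n + 1))⁻¹) (by positivity)]
    have h1 : |2 * 0 - f (v + z) - f (v - z)| ≤ |f (v + z)| + |f (v - z)| := by
      have : 2 * 0 - f (v + z) - f (v - z) = -(f (v + z) + f (v - z)) := by ring
      rw [this, abs_neg]
      exact abs_add_le _ _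
    have h2 := key (v + z) z (by
      have := norm_sub_le (v + z) z
      rw [add_sub_cancel_right] at this
      linarith)
    have h3 := key (v - z) z (by
      have := norm_add_le (v - z) z
      rw [sub_add_cancel] at this
      linarith)
    calc _ ≤ (|f (v + z)| + |f (v - z)|) * (‖z‖ ^ (n + 1))⁻¹ :=
          mul_le_mul_of_nonneg_right h1 (by positivity)
      _ = |f (v + z)| * (‖z‖ ^ (n + 1))⁻¹ + |f (v - z)| * (‖z‖ ^ (n + 1))⁻¹ := by ring
      _ ≤ _ := add_le_add h2 h3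
      _ = _ := by ring
  rw [Real.norm_eq_abs] at hle
  refine hle.trans (le_of_eq ?_)
  rw [integral_mul_const, integral_add hI1 hI2, hE1, hE2]
  ring

theorem lop_inv_pow_sub {a b r : ℝ} (m : ℕ) (hb : 0 < b) (hab : |a - b| ≤ r) (hr : r ≤ b / 2) :
    |(a ^ m)⁻¹ - (b ^ m)⁻¹| ≤ r * m * 2 ^ (2 * m) * (b ^ (m + 1))⁻¹ := by
  have h1 := (abs_le.1 hab).1
  have h2 := (abs_le.1 hab).2
  have hr0 : 0 ≤ r := (abs_nonneg _).trans hab
  have ha : b / 2 ≤ a := by linarith
  have ha0 : 0 < a := by linarith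
  have hpa : 0 < a ^ m := pow_pos ha0 m
  have hpb : 0 < b ^ m := pow_pos hb m
  have he : (a ^ m)⁻¹ - (b ^ m)⁻¹ = (b ^ m - a ^ m) / (a ^ m * b ^ m) := by
    field_simp
  rw [he, abs_div, abs_of_pos (mul_pos hpa hpb)]
  rcases Nat.eq_zero_or_pos m with rfl | hm
  · simp
  have h3 : |b ^ m - a ^ m| ≤ r * m * (2 * b) ^ (m - 1) := by
    refine (abs_pow_sub_pow_le b a m).trans ?_
    have h4 : max |b| |a| ≤ 2 * b := by
      rw [abs_of_pos hb, abs_of_pos ha0]
      exact max_le (by linarith) (by linarith)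
    have h5 : |b - a| ≤ r := by rw [abs_sub_comm]; exact hab
    have h6 : (0 : ℝ) ≤ max |b| |a| := le_max_of_le_left (abs_nonneg _)
    exact mul_le_mul (mul_le_mul_of_nonneg_right h5 (Nat.cast_nonneg _))
      (pow_le_pow_left₀ h6 h4 _) (pow_nonneg h6 _) (by positivity)
  have h7 : (b / 2) ^ m ≤ a ^ m := pow_le_pow_left₀ (by positivity) ha m
  rw [div_le_iff₀ (mul_pos hpa hpb)]
  refine h3.trans ?_
  obtain ⟨k, rfl⟩ : ∃ k, m = k + 1 := ⟨m - 1, by omega⟩
  simp only [Nat.add_sub_cancel]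
  have h8 : r * ((k + 1 : ℕ) : ℝ) * 2 ^ (2 * (k + 1)) * (b ^ (k + 1 + 1))⁻¹ *
      ((b / 2) ^ (k + 1) * b ^ (k + 1)) ≤ r * ((k + 1 : ℕ) : ℝ) * 2 ^ (2 * (k + 1)) *
      (b ^ (k + 1 + 1))⁻¹ * (a ^ (k + 1) * b ^ (k + 1)) := by
    refine mul_le_mul_of_nonneg_left ?_ (by positivity)
    exact mul_le_mul_of_nonneg_right h7 hpb.le
  refine le_trans ?_ h8
  have h9 : (b ^ (k + 1 + 1))⁻¹ * (b ^ (k + 1) * b ^ (k + 1)) = b ^ k := by
    rw [inv_mul_eq_iff_eq_mul₀ (by positivity)]
    ring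
  have h10 : (2 : ℝ) ^ (2 * (k + 1)) = 2 ^ (k + 1) * (2 * 2 ^ k) := by ring
  have h11 : r * ((k + 1 : ℕ) : ℝ) * 2 ^ (2 * (k + 1)) * (b ^ (k + 1 + 1))⁻¹ *
      ((b / 2) ^ (k + 1) * b ^ (k + 1)) = r * ((k + 1 : ℕ) : ℝ) * (2 * (2 * b) ^ k) := by
    rw [div_pow, h10]
    calc r * ((k + 1 : ℕ) : ℝ) * (2 ^ (k + 1) * (2 * 2 ^ k)) * (b ^ (k + 1 + 1))⁻¹ *
          (b ^ (k + 1) / 2 ^ (k + 1) * b ^ (k + 1))
        = r * ((k + 1 : ℕ) : ℝ) * ((2 ^ (k + 1) / 2 ^ (k + 1)) * (2 * 2 ^ k)) *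
          ((b ^ (k + 1 + 1))⁻¹ * (b ^ (k + 1) * b ^ (k + 1))) := by ring
      _ = r * ((k + 1 : ℕ) : ℝ) * (2 * (2 * b) ^ k) := by
          rw [h9, div_self (by positivity), mul_pow]
          ring
  rw [h11]
  refine mul_le_mul_of_nonneg_left ?_ (by positivity)
  have h12 : 0 < (2 * b) ^ k := by positivity
  linarith

theorem Lop_decay_zero (n : ℕ) (hn : 1 ≤ n) (f : E n → ℝ) (hf : ContDiff ℝ 2 f)
    (hfc : HasCompactSupport f) (h0 : ∫ v, f v = 0) :
    ∃ A : ℝ, ∀ v, |Lop n f v| ≤ A * ((1 + ‖v‖) ^ (n + 2))⁻¹ := by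
  obtain ⟨B0, hB0⟩ := lop_bounded n hn f hf hfc
  obtain ⟨r, hr1, hr⟩ := lop_exists_radius f hfc
  have hint : Integrable f := hf.continuous.integrable_of_hasCompactSupport hfc
  refine lop_global_bound (Lop n f) (n + 2) (B0 := B0)
    (A1 := 2 * (∫ x, |f x|) * (r * ((n + 1 : ℕ) : ℝ) * 2 ^ (2 * (n + 1))))
    (R0 := 2 * r) (by linarith) hB0 fun v hv => ?_
  have hv0 : 0 < ‖v‖ := by linarith
  have hfv : f v = 0 := hr v (by linarith)
  have key : ∀ y z : E n, |‖z‖ - ‖v‖| ≤ ‖y‖ →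
      |f y| * |(‖z‖ ^ (n + 1))⁻¹ - (‖v‖ ^ (n + 1))⁻¹| ≤
      |f y| * (r * ((n + 1 : ℕ) : ℝ) * 2 ^ (2 * (n + 1)) * (‖v‖ ^ (n + 2))⁻¹) := by
    intro y z hyz
    rcases lt_or_ge r ‖y‖ with h | h
    · rw [hr y h]; simp
    · refine mul_le_mul_of_nonneg_left ?_ (abs_nonneg _)
      exact lop_inv_pow_sub (n + 1) hv0 (hyz.trans h) (by linarith)
  have hI1' : Integrable (fun z : E n => f (v + z)) := hint.comp_add_left v
  have hI2' : Integrable (fun z : E n => f (v - z)) := hint.comp_sub_left v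
  have hI1 : Integrable (fun z : E n => |f (v + z)|) := (hint.comp_add_left v).abs
  have hI2 : Integrable (fun z : E n => |f (v - z)|) := (hint.comp_sub_left v).abs
  have hE1 : ∫ z : E n, |f (v + z)| = ∫ z, |f z| := integral_add_left_eq_self (fun z => |f z|) v
  have hE2 : ∫ z : E n, |f (v - z)| = ∫ z, |f z| := integral_sub_left_eq_self (fun z => |f z|) _ v
  have hZ : ∫ z : E n, (f (v + z) + f (v - z)) * (‖v‖ ^ (n + 1))⁻¹ = 0 := by
    rw [integral_mul_const, integral_add hI1' hI2', integral_add_left_eq_self f v,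
      integral_sub_left_eq_self f _ v, h0]
    simp
  have hL : Lop n f v = ∫ z : E n, -((f (v + z) + f (v - z)) *
      ((‖z‖ ^ (n + 1))⁻¹ - (‖v‖ ^ (n + 1))⁻¹)) := by
    have h1 : Lop n f v = Lop n f v +
        ∫ z : E n, (f (v + z) + f (v - z)) * (‖v‖ ^ (n + 1))⁻¹ := by rw [hZ, add_zero]
    have hadd : Integrable (fun z : E n => (f (v + z) + f (v - z)) * (‖v‖ ^ (n + 1))⁻¹) :=
      (hI1'.add hI2').mul_const _
    rw [h1]
    unfold Lop
    rw [← integral_add (Lop_integrable n hn f hf hfc v) hadd]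
    refine integral_congr_ae (Eventually.of_forall fun z => ?_)
    simp only [hfv]
    ring
  rw [hL]
  have hle : ‖∫ z : E n, -((f (v + z) + f (v - z)) *
      ((‖z‖ ^ (n + 1))⁻¹ - (‖v‖ ^ (n + 1))⁻¹))‖ ≤
      ∫ z : E n, (|f (v + z)| + |f (v - z)|) *
        (r * ((n + 1 : ℕ) : ℝ) * 2 ^ (2 * (n + 1)) * (‖v‖ ^ (n + 2))⁻¹) := by
    refine norm_integral_le_of_norm_le ((hI1.add hI2).mul_const _)
      (Eventually.of_forall fun z => ?_)
    rw [norm_neg, Real.norm_eq_abs, abs_mul]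
    have h2 := key (v + z) z (by
      have := abs_norm_sub_norm_le z (-v)
      rw [norm_neg, sub_neg_eq_add, add_comm] at this
      exact this)
    have h3 := key (v - z) z (by
      have := abs_norm_sub_norm_le v z
      rw [abs_sub_comm] at this
      exact this)
    calc _ ≤ (|f (v + z)| + |f (v - z)|) * |(‖z‖ ^ (n + 1))⁻¹ - (‖v‖ ^ (n + 1))⁻¹| :=
          mul_le_mul_of_nonneg_right (abs_add_le _ _) (abs_nonneg _)
      _ = |f (v + z)| * |(‖z‖ ^ (n + 1))⁻¹ - (‖v‖ ^ (n + 1))⁻¹| +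
          |f (v - z)| * |(‖z‖ ^ (n + 1))⁻¹ - (‖v‖ ^ (n + 1))⁻¹| := by ring
      _ ≤ _ := add_le_add h2 h3
      _ = _ := by ring
  rw [Real.norm_eq_abs] at hle
  refine hle.trans (le_of_eq ?_)
  rw [integral_mul_const, integral_add hI1 hI2, hE1, hE2]
  ring

/-- `Lop` commutes with convolution. -/
theorem Lop_conv (n : ℕ) (hn : 1 ≤ n) (f η : E n → ℝ) (hf : ContDiff ℝ 2 f)
    (hfc : HasCompactSupport f) (hη : Continuous η) (hηc : HasCompactSupport η) (v : E n) :
    Lop n (fun x => ∫ w, η w * f (x - w)) v = ∫ w, η w * Lop n f (v - w) := by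
  obtain ⟨B, hB0, hB⟩ := lop_secondDiff n f hf hfc
  have hfcont := hf.continuous
  have hηint : Integrable η := hη.integrable_of_hasCompactSupport hηc
  have hI : ∀ x : E n, Integrable (fun w => η w * f (x - w)) := by
    intro x
    refine Continuous.integrable_of_hasCompactSupport (by fun_prop) ?_
    exact hηc.mul_right
  have hprod : Integrable (Function.uncurry fun (z w : E n) =>
      η w * ((2 * f (v - w) - f (v - w + z) - f (v - w - z)) * (‖z‖ ^ (n + 1))⁻¹))
      (volume.prod volume) := by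
    have hd : Integrable (fun p : E n × E n => (B * lopDom n p.1) * |η p.2|)
        (volume.prod volume) :=
      Integrable.mul_prod ((lopDom_integrable n hn).const_mul B) hηint.abs
    refine hd.mono' ?_ (Eventually.of_forall fun p => ?_)
    · have h1 : Continuous (fun p : E n × E n =>
          η p.2 * (2 * f (v - p.2) - f (v - p.2 + p.1) - f (v - p.2 - p.1))) := by fun_prop
      have h2 : Measurable (fun p : E n × E n => (‖p.1‖ ^ (n + 1))⁻¹) :=
        (lop_measurable_ker n).comp measurable_fst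
      have h3 : (Function.uncurry fun (z w : E n) =>
          η w * ((2 * f (v - w) - f (v - w + z) - f (v - w - z)) * (‖z‖ ^ (n + 1))⁻¹)) =
          fun p : E n × E n =>
          (η p.2 * (2 * f (v - p.2) - f (v - p.2 + p.1) - f (v - p.2 - p.1))) *
            (‖p.1‖ ^ (n + 1))⁻¹ := by
        funext p
        simp only [Function.uncurry]
        ring
      rw [h3]
      exact (h1.measurable.mul h2).aestronglyMeasurable
    · simp only [Function.uncurry]
      rw [norm_mul, mul_comm, Real.norm_eq_abs (η p.2)]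
      exact mul_le_mul_of_nonneg_right (lop_integrand_bound n f hB (v - p.2) p.1) (abs_nonneg _)
  calc Lop n (fun x => ∫ w, η w * f (x - w)) v
      = ∫ z : E n, ∫ w : E n,
          η w * ((2 * f (v - w) - f (v - w + z) - f (v - w - z)) * (‖z‖ ^ (n + 1))⁻¹) := by
        unfold Lop
        refine integral_congr_ae (Eventually.of_forall fun z => ?_)
        simp only
        have hs : Integrable (fun w => 2 * (η w * f (v - w)) - η w * f (v + z - w)) :=
          ((hI v).const_mul 2).sub (hI (v + z))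
        rw [← integral_const_mul, ← integral_sub ((hI v).const_mul 2) (hI (v + z)),
          ← integral_sub hs (hI (v - z)), ← integral_mul_const]
        refine integral_congr_ae (Eventually.of_forall fun w => ?_)
        have e1 : v + z - w = v - w + z := by abel
        have e2 : v - z - w = v - w - z := by abel
        simp only [e1, e2]
        ring
    _ = ∫ w : E n, ∫ z : E n,
          η w * ((2 * f (v - w) - f (v - w + z) - f (v - w - z)) * (‖z‖ ^ (n + 1))⁻¹) :=
        integral_integral_swap hprod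
    _ = ∫ w, η w * Lop n f (v - w) := by
        refine integral_congr_ae (Eventually.of_forall fun w => ?_)
        simp only [Lop]
        rw [integral_const_mul]

end Vale.Agent.P120
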