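import Vale.Agent.Lib.P120.UR.FlatDiff
import Vale.Agent.Lib.P120.UR.LopFacts

/-!
P120: Liouville theorem for the half Laplacian on `ℝ^n`.
-/

open MeasureTheory Filter Set Metric Module
open scoped Topology ENNReal NNReal RealInnerProductSpace Convolution

namespace Vale.Agent.P120

variable {n : ℕ}

/-- Iterated differences along a list of increments. -/
def flDD : List (E n) → (E n → ℝ) → (E n → ℝ)
  | [], w => w
  | z :: l, w => flDD l (fun v => w (v + z) - w v)

theorem flDD_add (l : List (E n)) : ∀ (f g : E n → ℝ) (v : E n),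
    flDD l (fun v => f v + g v) v = flDD l f v + flDD l g v := by
  induction l with
  | nil => intro f g v; rfl
  | cons z l ih =>
    intro f g v
    simp only [flDD]
    rw [← ih]
    congr 1
    funext v
    ring

theorem flDD_trans (l : List (E n)) : ∀ (f : E n → ℝ) (x v : E n),
    flDD l (fun v => f (v + x)) v = flDD l f (v + x) := by
  induction l with
  | nil => intro f x v; rfl
  | cons z l ih =>
    intro f x v
    simp only [flDD]
    rw [← ih (fun v => f (v + z) - f v) x v]
    congr 1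
    funext v
    rw [add_right_comm]

theorem flDD_zero (l : List (E n)) (v : E n) : flDD l (fun _ => (0 : ℝ)) v = 0 := by
  have := flDD_add l (fun _ => 0) (fun _ => 0) v
  simp only [add_zero] at this
  linarith

theorem flDD_neg (l : List (E n)) (f : E n → ℝ) (v : E n) :
    flDD l (fun v => -f v) v = -flDD l f v := by
  have := flDD_add l f (fun v => -f v) v
  simp only [add_neg_cancel] at this
  rw [flDD_zero] at this
  linarith

theorem flDD_sub (l : List (E n)) (f g : E n → ℝ) (v : E n) :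
    flDD l (fun v => f v - g v) v = flDD l f v - flDD l g v := by
  have := flDD_add l f (fun v => -g v) v
  rw [flDD_neg] at this
  simp only [sub_eq_add_neg]
  exact this

theorem flDD_cons (z : E n) (l : List (E n)) (f : E n → ℝ) (v : E n) :
    flDD (z :: l) f v = flDD l f (v + z) - flDD l f v := by
  simp only [flDD]
  rw [flDD_sub, flDD_trans]

/-- Scaling of top order differences. -/
theorem flDD_scale (l : List (E n)) : ∀ (w : E n → ℝ),
    (∀ l' : List (E n), l'.length = l.length + 1 → ∀ v, flDD l' w v = 0) →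
    ∀ (N : ℕ) (v : E n), flDD (l.map (fun z => (N : ℝ) • z)) w v = (N : ℝ) ^ l.length * flDD l w v := by
  induction l with
  | nil => intro w _ N v; simp [flDD]
  | cons z l ih =>
    intro w hw N v
    have hz : ∀ l' : List (E n), l'.length = l.length + 1 →
        ∀ v, flDD l' (fun v => w (v + z) - w v) v = 0 := fun l' hl' v => by
      have := hw (z :: l') (by simp [hl']) v
      simpa [flDD] using this
    have hconst : ∀ v x, flDD l (fun v => w (v + z) - w v) (v + x)
        = flDD l (fun v => w (v + z) - w v) v := by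
      intro v x
      have := hz (x :: l) (by simp) v
      rw [flDD_cons] at this
      linarith
    have hih := ih (fun v => w (v + z) - w v) hz N
    -- the difference with increment `N z` is a telescoping sum
    have htel : ∀ k : ℕ, ∀ v, flDD (l.map (fun z => (N : ℝ) • z))
        (fun v => w (v + (k : ℝ) • z) - w v) v
        = k * ((N : ℝ) ^ l.length * flDD l (fun v => w (v + z) - w v) v) := by
      intro k
      induction k with
      | zero =>
        intro v
        simp only [Nat.cast_zero, zero_smul, add_zero, sub_self, zero_mul]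
        exact flDD_zero _ _
      | succ k ihk =>
        intro v
        have e : (fun v => w (v + ((k + 1 : ℕ) : ℝ) • z) - w v)
            = fun v => (w (v + (k : ℝ) • z) - w v)
              + (fun u => w (u + z) - w u) (v + (k : ℝ) • z) := by
          funext v
          have : v + ((k + 1 : ℕ) : ℝ) • z = v + (k : ℝ) • z + z := by
            push_cast; module
          simp only [this]
          ring
        have h3 : flDD (l.map (fun z => (N : ℝ) • z))
            (fun v => (fun u => w (u + z) - w u) (v + (k : ℝ) • z)) v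
            = flDD (l.map (fun z => (N : ℝ) • z)) (fun u => w (u + z) - w u) (v + (k : ℝ) • z) :=
          flDD_trans _ (fun u => w (u + z) - w u) _ _
        rw [e, flDD_add, ihk, h3, hih, hconst]
        push_cast
        ring
    simp only [List.map_cons, List.length_cons, flDD]
    rw [htel N v, pow_succ]
    ring

theorem flDD_continuous (l : List (E n)) : ∀ (w : E n → ℝ), Continuous w →
    Continuous (flDD l w) := by
  induction l with
  | nil => intro w hw; exact hw
  | cons z l ih =>
    intro w hw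
    exact ih _ ((hw.comp (continuous_id.add continuous_const)).sub hw)

theorem fl_int_ball {f : E n → ℝ} (hf : Continuous f) (x : E n) (R : ℝ) :
    IntegrableOn f (ball x R) :=
  (hf.continuousOn.integrableOn_compact (isCompact_closedBall x R)).mono_set ball_subset_closedBall

/-- Integral over a translated ball. -/
theorem fl_trans {u : E n → ℝ} (hu : Continuous u) (R : ℝ) (z : E n) :
    ∫ v in ball (0 : E n) R, u (v + z) ^ 2 ≤ ∫ v in ball (0 : E n) (R + ‖z‖), u v ^ 2 := by
  have h1 : ∫ v in ball (0 : E n) R, u (v + z) ^ 2 = ∫ v in ball z R, u v ^ 2 := by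
    have hpre : (fun v : E n => v + z) ⁻¹' (ball z R) = ball 0 R := by
      ext v
      simp [mem_ball, dist_eq_norm]
    rw [← hpre]
    exact (measurePreserving_add_right (volume : Measure (E n)) z).setIntegral_preimage_emb
      (MeasurableEquiv.addRight z).measurableEmbedding (fun v => u v ^ 2) (ball z R)
  rw [h1]
  refine setIntegral_mono_set (fl_int_ball (hu.pow 2) _ _)
    (Eventually.of_forall fun v => sq_nonneg _) (LE.le.eventuallyLE ?_)
  intro v hv
  rw [mem_ball, dist_eq_norm] at hv ⊢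
  rw [sub_zero]
  calc ‖v‖ = ‖(v - z) + z‖ := by rw [sub_add_cancel]
    _ ≤ ‖v - z‖ + ‖z‖ := norm_add_le _ _
    _ < R + ‖z‖ := by linarith

/-- `L²` bound for iterated differences. -/
theorem fl_diff_bound (l : List (E n)) : ∀ (w : E n → ℝ), Continuous w → ∀ R : ℝ,
    ∫ v in ball (0 : E n) R, flDD l w v ^ 2 ≤
      4 ^ l.length * ∫ v in ball (0 : E n) (R + (l.map (fun z => ‖z‖)).sum), w v ^ 2 := by
  induction l with
  | nil => intro w _ R; simp [flDD]
  | cons z l ih =>
    intro w hw R
    have hc : Continuous (fun v => w (v + z) - w v) :=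
      (hw.comp (continuous_id.add continuous_const)).sub hw
    have h1 := ih (fun v => w (v + z) - w v) hc R
    simp only [flDD, List.length_cons, List.map_cons, List.sum_cons]
    refine h1.trans ?_
    have h2 : ∀ R' : ℝ, ∫ v in ball (0 : E n) R', (w (v + z) - w v) ^ 2 ≤
        4 * ∫ v in ball (0 : E n) (R' + ‖z‖), w v ^ 2 := by
      intro R'
      have hcz : Continuous (fun v => w (v + z)) := hw.comp (continuous_id.add continuous_const)
      have a1 : ∫ v in ball (0 : E n) R', (w (v + z) - w v) ^ 2 ≤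
          ∫ v in ball (0 : E n) R', (2 * w (v + z) ^ 2 + 2 * w v ^ 2) := by
        refine setIntegral_mono (fl_int_ball (hc.pow 2) _ _)
          (fl_int_ball ((continuous_const.mul (hcz.pow 2)).add (continuous_const.mul (hw.pow 2)))
            _ _) fun v => ?_
        have := sq_nonneg (w (v + z) + w v)
        dsimp only
        linarith only [this]
      have c1 : Continuous (fun v => 2 * w (v + z) ^ 2) := continuous_const.mul (hcz.pow 2)
      have c2 : Continuous (fun v => 2 * w v ^ 2) := continuous_const.mul (hw.pow 2)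
      have a2 : ∫ v in ball (0 : E n) R', (2 * w (v + z) ^ 2 + 2 * w v ^ 2)
          = 2 * (∫ v in ball (0 : E n) R', w (v + z) ^ 2)
            + 2 * (∫ v in ball (0 : E n) R', w v ^ 2) := by
        rw [integral_add (fl_int_ball c1 _ _) (fl_int_ball c2 _ _), integral_const_mul,
          integral_const_mul]
      have a3 := fl_trans hw R' z
      have a4 : ∫ v in ball (0 : E n) R', w v ^ 2 ≤ ∫ v in ball (0 : E n) (R' + ‖z‖), w v ^ 2 :=
        setIntegral_mono_set (fl_int_ball (hw.pow 2) _ _)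
          (Eventually.of_forall fun v => sq_nonneg _)
          (LE.le.eventuallyLE (ball_subset_ball (by linarith [norm_nonneg z])))
      linarith
    calc 4 ^ l.length * ∫ v in ball (0 : E n) (R + (l.map (fun z => ‖z‖)).sum),
          (w (v + z) - w v) ^ 2
        ≤ 4 ^ l.length * (4 * ∫ v in ball (0 : E n) (R + (l.map (fun z => ‖z‖)).sum + ‖z‖),
            w v ^ 2) := mul_le_mul_of_nonneg_left (h2 _) (by positivity)
      _ = _ := by
        rw [pow_succ, mul_assoc]
        congr 3
        rw [add_assoc, add_comm (l.map (fun z => ‖z‖)).sum]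

/-- Top order differences of order at least `2` vanish, by growth. -/
theorem fl_drop (w : E n → ℝ) (hw : Continuous w) (A : ℝ)
    (hg : ∀ R : ℝ, 1 ≤ R → ∫ v in ball (0 : E n) R, w v ^ 2 ≤ A * R ^ (n + 3)) (j : ℕ)
    (hj : 2 ≤ j) (hv : ∀ l : List (E n), l.length = j + 1 → ∀ v, flDD l w v = 0) :
    ∀ l : List (E n), l.length = j → ∀ v, flDD l w v = 0 := by
  intro l hl v
  set ω : ℝ := (volume : Measure (E n)).real (ball (0 : E n) 1) with hω
  have hω0 : 0 < ω := by
    rw [hω, Measure.real, ENNReal.toReal_pos_iff]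
    exact ⟨measure_ball_pos _ _ one_pos, measure_ball_lt_top⟩
  set c : ℝ := flDD l w v with hc
  have hconst : ∀ x, flDD l w x = c := by
    intro x
    have := hv ((x - v) :: l) (by simp [hl]) v
    rw [flDD_cons, add_sub_cancel] at this
    rw [hc]; linarith
  set S : ℝ := (l.map (fun z => ‖z‖)).sum with hS
  have hS0 : 0 ≤ S := List.sum_nonneg (by
    intro x hx
    rw [List.mem_map] at hx
    obtain ⟨z, _, rfl⟩ := hx
    exact norm_nonneg z)
  have hA : 0 ≤ A := by
    have h1 := hg 1 le_rfl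
    have h2 : 0 ≤ ∫ v in ball (0 : E n) 1, w v ^ 2 := integral_nonneg fun v => sq_nonneg _
    simp only [one_pow, mul_one] at h1
    linarith
  set B : ℝ := 4 ^ j * (A * (1 + S) ^ (n + 3)) with hB
  have hB0 : 0 ≤ B := by positivity
  have key : ∀ N : ℕ, 1 ≤ N → c ^ 2 * ω * N ≤ B := by
    intro N hN
    have hNr : (1 : ℝ) ≤ N := by exact_mod_cast hN
    have hN0 : (0 : ℝ) < N := by linarith
    have h1 := fl_diff_bound (l.map (fun z => (N : ℝ) • z)) w hw N
    have h2 : ∀ x, flDD (l.map (fun z => (N : ℝ) • z)) w x = (N : ℝ) ^ j * c := by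
      intro x
      rw [flDD_scale l w (by rw [hl]; exact hv) N x, hconst, hl]
    have h3 : ((l.map (fun z => (N : ℝ) • z)).map (fun z => ‖z‖)).sum = N * S := by
      rw [List.map_map, hS, ← List.sum_map_mul_left]
      congr 1
      refine List.map_congr_left fun z _ => ?_
      simp [norm_smul]
    have h4 : ∫ x in ball (0 : E n) N, flDD (l.map (fun z => (N : ℝ) • z)) w x ^ 2
        = (N : ℝ) ^ (2 * j) * c ^ 2 * (N ^ n * ω) := by
      simp only [h2]
      rw [setIntegral_const, smul_eq_mul, Measure.real, Measure.addHaar_ball_of_pos _ _ hN0,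
        ENNReal.toReal_mul, ENNReal.toReal_ofReal (by positivity)]
      have : finrank ℝ (E n) = n := finrank_euclideanSpace_fin
      rw [this, hω, Measure.real]
      ring
    rw [h3, h4, List.length_map, hl] at h1
    have h5 : ∫ x in ball (0 : E n) (N + N * S), w x ^ 2 ≤ A * (N ^ (n + 3) * (1 + S) ^ (n + 3)) := by
      have h6 := hg (N + N * S) (by nlinarith only [hS0, hNr])
      have h7 : (N : ℝ) + N * S = N * (1 + S) := by ring
      rw [h7] at h6 ⊢
      rwa [mul_pow] at h6
    have h8 : (N : ℝ) ^ (2 * j) * c ^ 2 * (N ^ n * ω) ≤ B * N ^ (n + 3) := by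
      refine h1.trans ((mul_le_mul_of_nonneg_left h5 (by positivity)).trans (le_of_eq ?_))
      rw [hB]; ring
    -- divide
    obtain ⟨i, rfl⟩ := Nat.exists_eq_add_of_le hj
    have h9 : (N : ℝ) ^ (2 * (2 + i)) * c ^ 2 * (N ^ n * ω)
        = (c ^ 2 * ω * N * N ^ (2 * i)) * N ^ (n + 3) := by ring
    rw [h9] at h8
    have h10 := le_of_mul_le_mul_right h8 (by positivity)
    have h11 : (1 : ℝ) ≤ N ^ (2 * i) := one_le_pow₀ hNr
    have h12 : 0 ≤ c ^ 2 * ω * N := by positivity
    nlinarith only [h10, h11, h12]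
  by_contra hne
  have hc2 : 0 < c ^ 2 * ω := by positivity
  obtain ⟨N, hN⟩ := exists_nat_gt (B / (c ^ 2 * ω))
  rw [div_lt_iff₀ hc2] at hN
  have hN1 : 1 ≤ N + 1 := by omega
  have := key (N + 1) hN1
  push_cast at this
  linarith only [hc2, hN, this]

/-- A continuous function with vanishing second differences is affine. -/
theorem fl_affine (w : E n → ℝ) (hw : Continuous w)
    (hv : ∀ y z v, w (v + y + z) - w (v + y) - (w (v + z) - w v) = 0) :
    ∃ (a : ℝ) (B : E n →L[ℝ] ℝ), ∀ v, w v = a + B v := by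
  let f : E n →+ ℝ :=
    { toFun := fun z => w z - w 0
      map_zero' := by simp
      map_add' := by
        intro y z
        have := hv y z 0
        simp only [zero_add] at this
        linarith }
  have hf : Continuous f := hw.sub continuous_const
  refine ⟨w 0, f.toRealLinearMap hf, fun v => ?_⟩
  have : f.toRealLinearMap hf v = w v - w 0 := rfl
  rw [this]; ring

theorem fl_zero (w : E n → ℝ) (hw : Continuous w) (A : ℝ)
    (hg : ∀ R : ℝ, 1 ≤ R → ∫ v in ball (0 : E n) R, w v ^ 2 ≤ A * (R ^ (n + 3) / R ^ (n + 4))) :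
    ∀ v, w v = 0 := by
  intro v
  have h0 : ∀ R0 : ℝ, ∫ v in ball (0 : E n) R0, w v ^ 2 = 0 := by
    intro R0
    refine le_antisymm ?_ (integral_nonneg fun v => sq_nonneg _)
    have hbd : ∀ R : ℝ, max 1 R0 ≤ R → ∫ v in ball (0 : E n) R0, w v ^ 2 ≤ A / R := by
      intro R hR
      have hR1 : 1 ≤ R := (le_max_left _ _).trans hR
      have h1 := hg R hR1
      have h2 : ∫ v in ball (0 : E n) R0, w v ^ 2 ≤ ∫ v in ball (0 : E n) R, w v ^ 2 :=
        setIntegral_mono_set (fl_int_ball (hw.pow 2) _ _)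
          (Eventually.of_forall fun v => sq_nonneg _)
          (LE.le.eventuallyLE (ball_subset_ball ((le_max_right _ _).trans hR)))
      have h3 : A * (R ^ (n + 3) / R ^ (n + 4)) = A / R := by
        have : R ≠ 0 := by positivity
        field_simp
        ring
      rw [h3] at h1
      exact h2.trans h1
    have hlim : Tendsto (fun R : ℝ => A / R) atTop (𝓝 0) := tendsto_const_nhds.div_atTop tendsto_id
    exact ge_of_tendsto hlim ((eventually_ge_atTop (max 1 R0)).mono hbd)
  by_contra hne
  have hpos : 0 < w v ^ 2 := by positivity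
  have hopen : IsOpen {x : E n | w v ^ 2 / 2 < w x ^ 2} := isOpen_lt continuous_const (hw.pow 2)
  obtain ⟨r, hr, hsub⟩ := Metric.isOpen_iff.mp hopen v (by
    show w v ^ 2 / 2 < w v ^ 2
    linarith)
  have h1 : ∫ x in ball v r, (w v ^ 2 / 2) ≤ ∫ x in ball v r, w x ^ 2 :=
    setIntegral_mono_on (fl_int_ball continuous_const _ _) (fl_int_ball (hw.pow 2) _ _)
      measurableSet_ball fun x hx => (hsub hx).le
  have h2 : ∫ x in ball v r, w x ^ 2 ≤ ∫ x in ball (0 : E n) (‖v‖ + r), w x ^ 2 := by
    refine setIntegral_mono_set (fl_int_ball (hw.pow 2) _ _)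
      (Eventually.of_forall fun v => sq_nonneg _) (LE.le.eventuallyLE ?_)
    intro x hx
    rw [mem_ball, dist_eq_norm] at hx ⊢
    rw [sub_zero]
    calc ‖x‖ = ‖v + (x - v)‖ := by rw [add_sub_cancel]
      _ ≤ ‖v‖ + ‖x - v‖ := norm_add_le _ _
      _ < ‖v‖ + r := by linarith
  rw [h0] at h2
  rw [setIntegral_const, smul_eq_mul] at h1
  have h3 : 0 < (volume : Measure (E n)).real (ball v r) := by
    rw [Measure.real, ENNReal.toReal_pos_iff]
    exact ⟨measure_ball_pos _ _ hr, measure_ball_lt_top⟩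
  have h4 : 0 < (volume : Measure (E n)).real (ball v r) * (w v ^ 2 / 2) := by positivity
  linarith

theorem fl_iter (hn : 1 ≤ n) (i : ℕ) : ∀ (j : ℕ), i + j = n + 4 → ∀ (w : E n → ℝ),
    ContDiff ℝ 3 w → (∃ A : ℝ, ∀ R : ℝ, 1 ≤ R →
      ∫ v in ball (0 : E n) R, w v ^ 2 ≤ A * (R ^ (n + 3) / R ^ j)) →
    (∀ φ : E n → ℝ, ContDiff ℝ 3 φ → HasCompactSupport φ → ∫ v, φ v = 0 →
      ∫ v, w v * Lop n φ v = 0) →
    ∀ l : List (E n), l.length = i → ∀ v, flDD l w v = 0 := by
  induction i with
  | zero =>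
    intro j hj w hw hg _ l hl v
    obtain ⟨A, hA⟩ := hg
    rw [zero_add] at hj
    subst hj
    rw [List.length_eq_zero_iff] at hl
    subst hl
    exact fl_zero w hw.continuous A hA v
  | succ i ih =>
    intro j hj w hw hg heq l hl v
    obtain ⟨A, hA⟩ := hg
    cases l with
    | nil => simp at hl
    | cons z l =>
      obtain ⟨h1, h2, h3⟩ := flat_diff n hn w hw j A hA heq z
      exact ih (j + 1) (by omega) _ h1 h2 h3 l (by simpa using hl) v

/-- The smooth case. -/
theorem fl_smooth (hn : 1 ≤ n) (w : E n → ℝ) (hw : ContDiff ℝ 3 w) (A : ℝ)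
    (hg : ∀ R : ℝ, 1 ≤ R → ∫ v in ball (0 : E n) R, w v ^ 2 ≤ A * R ^ (n + 3))
    (heq : ∀ φ : E n → ℝ, ContDiff ℝ 3 φ → HasCompactSupport φ → ∫ v, φ v = 0 →
      ∫ v, w v * Lop n φ v = 0) (y z v : E n) :
    w (v + y + z) - w (v + y) - (w (v + z) - w v) = 0 := by
  have h0 := fl_iter hn (n + 4) 0 (by omega) w hw ⟨A, fun R hR => by simpa using hg R hR⟩ heq
  have h1 : ∀ k : ℕ, k ≤ n + 2 → ∀ l : List (E n), l.length = n + 4 - k → ∀ v, flDD l w v = 0 := by
    intro k
    induction k with
    | zero => intro _; exact h0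
    | succ k ih =>
      intro hk
      refine fl_drop w hw.continuous A hg (n + 4 - (k + 1)) (by omega) ?_
      intro l hl
      exact ih (by omega) l (by omega)
  have h2 := h1 (n + 2) le_rfl [z, y] (by simp) v
  simp only [flDD] at h2
  exact h2

theorem fl_ball_abs (u : E n → ℝ) (hu : Continuous u) (A : ℝ)
    (hgrow : ∀ R : ℝ, 1 ≤ R → ∫ v in ball (0 : E n) R, u v ^ 2 ≤ A * R ^ (n + 3)) (j : ℕ) :
    ∫ v in ball (0 : E n) (4 ^ j), |u v| ≤
      (1 / 2) * (A + (volume : Measure (E n)).real (ball (0 : E n) 1)) * (8 ^ j * (4 ^ j) ^ n) := by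
  set ω : ℝ := (volume : Measure (E n)).real (ball (0 : E n) 1) with hω
  have h8 : (0 : ℝ) < 8 ^ j := by positivity
  have h4 : (1 : ℝ) ≤ 4 ^ j := one_le_pow₀ (by norm_num)
  have c1 : Continuous (fun v => (1 / 2) * (((8 : ℝ) ^ j)⁻¹ * u v ^ 2)) :=
    continuous_const.mul (continuous_const.mul (hu.pow 2))
  have h1 : ∫ v in ball (0 : E n) (4 ^ j), |u v| ≤
      ∫ v in ball (0 : E n) (4 ^ j), ((1 / 2) * (((8 : ℝ) ^ j)⁻¹ * u v ^ 2) + (1 / 2) * 8 ^ j) := by
    refine setIntegral_mono (fl_int_ball hu.abs _ _)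
      (fl_int_ball (c1.add continuous_const) _ _) fun v => ?_
    have h2 : 2 * (8 : ℝ) ^ j * |u v| ≤ u v ^ 2 + (8 ^ j) ^ 2 := by
      have := sq_nonneg (|u v| - 8 ^ j)
      rw [sub_sq, sq_abs] at this
      linarith
    have h3 : |u v| ≤ (u v ^ 2 + (8 ^ j) ^ 2) / (2 * 8 ^ j) := by
      rw [le_div_iff₀ (by positivity)]
      linarith
    refine h3.trans (le_of_eq ?_)
    field_simp
  refine h1.trans ?_
  rw [integral_add (fl_int_ball c1 _ _) (fl_int_ball continuous_const _ _), integral_const_mul,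
    integral_const_mul, setIntegral_const, smul_eq_mul, Measure.real,
    Measure.addHaar_ball_of_pos _ _ (by positivity : (0 : ℝ) < 4 ^ j), ENNReal.toReal_mul,
    ENNReal.toReal_ofReal (by positivity), finrank_euclideanSpace_fin]
  have h5 := hgrow (4 ^ j) h4
  have h6 : ((8 : ℝ) ^ j)⁻¹ * (A * (4 ^ j) ^ (n + 3)) = A * (8 ^ j * (4 ^ j) ^ n) := by
    have h64 : ((4 : ℝ) ^ j) ^ 3 = 8 ^ j * 8 ^ j := by
      rw [← mul_pow, ← pow_mul, mul_comm j 3, pow_mul]; norm_num
    rw [pow_add, h64]
    field_simp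
  have h7 : ((8 : ℝ) ^ j)⁻¹ * ∫ v in ball (0 : E n) (4 ^ j), u v ^ 2
      ≤ A * (8 ^ j * (4 ^ j) ^ n) := by
    rw [← h6]
    exact mul_le_mul_of_nonneg_left h5 (by positivity)
  have h9 : (1 / 2 : ℝ) * (A + ω) * (8 ^ j * (4 ^ j) ^ n)
      = 1 / 2 * (A * (8 ^ j * (4 ^ j) ^ n)) + (4 ^ j) ^ n * ω * (1 / 2 * 8 ^ j) := by ring
  rw [h9]
  have h10 : (volume (ball (0 : E n) 1)).toReal = ω := rfl
  rw [h10]
  linarith

/-- The pairing with decaying functions. -/
theorem fl_pair (u g : E n → ℝ) (hu : Continuous u) (hg : Continuous g) (A B : ℝ)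
    (hA : 0 ≤ A) (hB : 0 ≤ B)
    (hgrow : ∀ R : ℝ, 1 ≤ R → ∫ v in ball (0 : E n) R, u v ^ 2 ≤ A * R ^ (n + 3))
    (hdec : ∀ v, |g v| ≤ B * ((1 + ‖v‖) ^ (n + 2))⁻¹) :
    Integrable (fun v => u v * g v) ∧ ∫ v, |u v * g v| ≤
      B * 4 ^ (n + 2) * (A + (volume : Measure (E n)).real (ball (0 : E n) 1)) := by
  set ω : ℝ := (volume : Measure (E n)).real (ball (0 : E n) 1) with hω
  have hω0 : 0 ≤ ω := measureReal_nonneg
  set c : ℝ := B * 4 ^ (n + 2) * ((1 / 2) * (A + ω)) with hc
  have hc0 : 0 ≤ c := by positivity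
  have hmain : ∫⁻ v, ENNReal.ofReal |u v * g v| ≤ ENNReal.ofReal (c * 2) := by
    have hpt : ∀ v, ENNReal.ofReal |u v * g v| ≤ ∑' j : ℕ, (ball (0 : E n) (4 ^ j)).indicator
        (fun v => ENNReal.ofReal (B * 4 ^ (n + 2) * (((4 : ℝ) ^ j) ^ (n + 2))⁻¹ * |u v|)) v := by
      intro v
      have hex : ∃ j : ℕ, ‖v‖ < 4 ^ j := pow_unbounded_of_one_lt _ (by norm_num)
      obtain ⟨j, hj, hmin⟩ : ∃ j : ℕ, ‖v‖ < 4 ^ j ∧ (4 : ℝ) ^ j ≤ 4 * (1 + ‖v‖) := by
        classical
        refine ⟨Nat.find hex, Nat.find_spec hex, ?_⟩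
        rcases Nat.eq_zero_or_pos (Nat.find hex) with h0 | h0
        · rw [h0, pow_zero]
          linarith [norm_nonneg v]
        · obtain ⟨i, hi⟩ := Nat.exists_eq_add_of_le' h0
          have h1 := Nat.find_min hex (m := i) (by omega)
          rw [not_lt] at h1
          rw [hi, pow_succ]
          linarith
      refine le_trans ?_ (ENNReal.le_tsum j)
      rw [indicator_of_mem (by rw [mem_ball, dist_zero_right]; exact hj)]
      refine ENNReal.ofReal_le_ofReal ?_
      rw [abs_mul, mul_comm]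
      refine mul_le_mul_of_nonneg_right ((hdec v).trans ?_) (abs_nonneg _)
      rw [mul_assoc]
      refine mul_le_mul_of_nonneg_left ?_ hB
      rw [← inv_pow, ← inv_pow, ← mul_pow]
      refine pow_le_pow_left₀ (by positivity) ?_ _
      rw [← div_eq_mul_inv, inv_eq_one_div, div_le_div_iff₀ (by positivity) (by positivity)]
      linarith
    calc ∫⁻ v, ENNReal.ofReal |u v * g v|
        ≤ ∫⁻ v, ∑' j : ℕ, (ball (0 : E n) (4 ^ j)).indicator
            (fun v => ENNReal.ofReal (B * 4 ^ (n + 2) * (((4 : ℝ) ^ j) ^ (n + 2))⁻¹ * |u v|)) v :=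
          lintegral_mono hpt
      _ = ∑' j : ℕ, ∫⁻ v, (ball (0 : E n) (4 ^ j)).indicator
            (fun v => ENNReal.ofReal (B * 4 ^ (n + 2) * (((4 : ℝ) ^ j) ^ (n + 2))⁻¹ * |u v|)) v := by
          refine lintegral_tsum fun j => ?_
          refine (Measurable.indicator ?_ measurableSet_ball).aemeasurable
          exact ENNReal.measurable_ofReal.comp (measurable_const.mul hu.abs.measurable)
      _ ≤ ∑' j : ℕ, ENNReal.ofReal (c * (1 / 2) ^ j) := by
          refine ENNReal.tsum_le_tsum fun j => ?_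
          rw [lintegral_indicator measurableSet_ball]
          have ci : Continuous
              (fun v => B * 4 ^ (n + 2) * (((4 : ℝ) ^ j) ^ (n + 2))⁻¹ * |u v|) :=
            continuous_const.mul hu.abs
          rw [← ofReal_integral_eq_lintegral_ofReal (fl_int_ball ci _ _)
            (Eventually.of_forall fun v => by positivity), integral_const_mul]
          refine ENNReal.ofReal_le_ofReal ?_
          have h1 := mul_le_mul_of_nonneg_left (fl_ball_abs u hu A hgrow j)
            (by positivity : 0 ≤ B * 4 ^ (n + 2) * (((4 : ℝ) ^ j) ^ (n + 2))⁻¹)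
          rw [← hω] at h1
          refine h1.trans (le_of_eq ?_)
          have h8 : (8 : ℝ) ^ j = (1 / 2) ^ j * (4 ^ j) ^ 2 := by
            rw [← pow_mul, mul_comm j 2, pow_mul, ← mul_pow]; norm_num
          rw [h8, hc]
          field_simp
          ring
      _ = ENNReal.ofReal (c * 2) := by
          have h2 : c * 2 = ∑' j : ℕ, c * (1 / 2 : ℝ) ^ j := by
            rw [tsum_mul_left, tsum_geometric_two]
          rw [h2, ENNReal.ofReal_tsum_of_nonneg (fun j => by positivity)
            (summable_geometric_two.mul_left c)]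
  have hmeas : AEStronglyMeasurable (fun v => u v * g v) (volume : Measure (E n)) :=
    (hu.mul hg).aestronglyMeasurable
  have hint : Integrable (fun v => u v * g v) := by
    refine ⟨hmeas, ?_⟩
    rw [hasFiniteIntegral_iff_norm]
    simp only [Real.norm_eq_abs]
    exact lt_of_le_of_lt hmain ENNReal.ofReal_lt_top
  refine ⟨hint, ?_⟩
  rw [integral_eq_lintegral_of_nonneg_ae (f := fun v => |u v * g v|)
    (Eventually.of_forall fun v => abs_nonneg _) (hu.mul hg).abs.aestronglyMeasurable]
  have h2 : B * 4 ^ (n + 2) * (A + ω) = c * 2 := by rw [hc]; ring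
  rw [h2]
  exact ENNReal.toReal_le_of_le_ofReal (by positivity) hmain

theorem fl_shift_growth (w : E n → ℝ) (hw : Continuous w) (A : ℝ) (hA : 0 ≤ A)
    (hg : ∀ R : ℝ, 1 ≤ R → ∫ v in ball (0 : E n) R, w v ^ 2 ≤ A * R ^ (n + 3))
    (t : E n) (ht : ‖t‖ ≤ 1) (R : ℝ) (hR : 1 ≤ R) :
    ∫ v in ball (0 : E n) R, w (v - t) ^ 2 ≤ A * 2 ^ (n + 3) * R ^ (n + 3) := by
  have h1 := fl_trans hw R (-t)
  simp only [← sub_eq_add_neg, norm_neg] at h1
  refine h1.trans ((hg (R + ‖t‖) (by linarith [norm_nonneg t])).trans ?_)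
  rw [mul_assoc, ← mul_pow]
  refine mul_le_mul_of_nonneg_left (pow_le_pow_left₀ (by positivity) ?_ _) hA
  linarith

section Mollify

variable (ρ : E n → ℝ) (hρc : Continuous ρ) (hρ0 : ∀ t, 0 ≤ ρ t) (hρ1 : ∫ t, ρ t = 1)
  (hρs : ∀ t, 1 < ‖t‖ → ρ t = 0)

include hρc hρs in
theorem fl_rho_int {f : E n → ℝ} (hf : Continuous f) : Integrable (fun t => ρ t * f t) := by
  have hcs : HasCompactSupport (fun t => ρ t * f t) := by
    refine HasCompactSupport.intro (isCompact_closedBall (0 : E n) 1) fun t ht => ?_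
    rw [mem_closedBall, dist_zero_right, not_le] at ht
    rw [hρs t ht, zero_mul]
  exact (hρc.mul hf).integrable_of_hasCompactSupport hcs

include hρc hρ0 hρ1 hρs in
theorem fl_conv_growth (w : E n → ℝ) (hw : Continuous w) (A : ℝ) (hA : 0 ≤ A)
    (hg : ∀ R : ℝ, 1 ≤ R → ∫ v in ball (0 : E n) R, w v ^ 2 ≤ A * R ^ (n + 3))
    (hWc : Continuous (fun v => ∫ t, ρ t * w (v - t)))
    (R : ℝ) (hR : 1 ≤ R) :
    ∫ v in ball (0 : E n) R, (∫ t, ρ t * w (v - t)) ^ 2 ≤ A * 2 ^ (n + 3) * R ^ (n + 3) := by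
  have hcw : ∀ v, Continuous (fun t => w (v - t)) := fun v =>
    hw.comp (continuous_const.sub continuous_id)
  -- Jensen
  have hJ : ∀ v, (∫ t, ρ t * w (v - t)) ^ 2 ≤ ∫ t, ρ t * w (v - t) ^ 2 := by
    intro v
    set a : ℝ := ∫ t, ρ t * w (v - t) with ha
    have i1 := fl_rho_int ρ hρc hρs (hcw v)
    have i2 : Integrable (fun t => ρ t * w (v - t) ^ 2) := fl_rho_int ρ hρc hρs ((hcw v).pow 2)
    have i0 : Integrable ρ := by simpa using fl_rho_int ρ hρc hρs (continuous_const (y := (1 : ℝ)))
    have i1' : Integrable (fun t => 2 * a * (ρ t * w (v - t))) := i1.const_mul _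
    have i0' : Integrable (fun t => a ^ 2 * ρ t) := i0.const_mul _
    have i21 : Integrable (fun t => ρ t * w (v - t) ^ 2 - 2 * a * (ρ t * w (v - t))) := i2.sub i1'
    have h0 : 0 ≤ ∫ t, (ρ t * w (v - t) ^ 2 - 2 * a * (ρ t * w (v - t)) + a ^ 2 * ρ t) := by
      refine integral_nonneg fun t => ?_
      have : ρ t * w (v - t) ^ 2 - 2 * a * (ρ t * w (v - t)) + a ^ 2 * ρ t
          = ρ t * (w (v - t) - a) ^ 2 := by ring
      show 0 ≤ ρ t * w (v - t) ^ 2 - 2 * a * (ρ t * w (v - t)) + a ^ 2 * ρ t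
      rw [this]
      exact mul_nonneg (hρ0 t) (sq_nonneg _)
    rw [integral_add i21 i0', integral_sub i2 i1', integral_const_mul, integral_const_mul, hρ1,
      ← ha] at h0
    linarith only [h0]
  -- Fubini
  have hFc : Continuous (fun p : E n × E n => ρ p.2 * w (p.1 - p.2) ^ 2) :=
    (hρc.comp continuous_snd).mul ((hw.comp (continuous_fst.sub continuous_snd)).pow 2)
  have hFi : Integrable (fun p : E n × E n => ρ p.2 * w (p.1 - p.2) ^ 2)
      ((volume.restrict (ball (0 : E n) R)).prod volume) := by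
    have e : (volume.restrict (ball (0 : E n) R)).prod (volume : Measure (E n))
        = ((volume : Measure (E n)).prod volume).restrict (ball (0 : E n) R ×ˢ univ) := by
      rw [← Measure.prod_restrict, Measure.restrict_univ]
    rw [e]
    have h1 : IntegrableOn (fun p : E n × E n => ρ p.2 * w (p.1 - p.2) ^ 2)
        (closedBall (0 : E n) R ×ˢ closedBall (0 : E n) 1)
        ((volume : Measure (E n)).prod volume) :=
      hFc.continuousOn.integrableOn_compact ((isCompact_closedBall _ _).prod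
        (isCompact_closedBall _ _))
    have h2 : IntegrableOn (fun p : E n × E n => ρ p.2 * w (p.1 - p.2) ^ 2)
        (closedBall (0 : E n) R ×ˢ univ) ((volume : Measure (E n)).prod volume) := by
      refine h1.of_forall_sdiff_eq_zero (measurableSet_closedBall.prod MeasurableSet.univ) ?_
      rintro ⟨x, t⟩ ⟨hx, hxt⟩
      have ht : 1 < ‖t‖ := by
        by_contra hcon
        apply hxt
        refine ⟨hx.1, ?_⟩
        rw [mem_closedBall, dist_zero_right]
        exact not_lt.mp hcon
      simp only [hρs t ht, zero_mul]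
    exact h2.mono_set (prod_mono ball_subset_closedBall subset_rfl)
  calc ∫ v in ball (0 : E n) R, (∫ t, ρ t * w (v - t)) ^ 2
      ≤ ∫ v in ball (0 : E n) R, ∫ t, ρ t * w (v - t) ^ 2 :=
        setIntegral_mono (fl_int_ball (hWc.pow 2) _ _) hFi.integral_prod_left hJ
    _ = ∫ t, ∫ v in ball (0 : E n) R, ρ t * w (v - t) ^ 2 := integral_integral_swap hFi
    _ = ∫ t, ρ t * ∫ v in ball (0 : E n) R, w (v - t) ^ 2 := by
        congr 1
        funext t
        rw [integral_const_mul]
    _ ≤ ∫ t, ρ t * (A * 2 ^ (n + 3) * R ^ (n + 3)) := by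
        have i0 : Integrable ρ := by
          simpa using fl_rho_int ρ hρc hρs (continuous_const (y := (1 : ℝ)))
        refine integral_mono_of_nonneg (Eventually.of_forall fun t => ?_) (i0.mul_const _)
          (Eventually.of_forall fun t => ?_)
        · exact mul_nonneg (hρ0 t) (integral_nonneg fun v => sq_nonneg _)
        · by_cases ht : ‖t‖ ≤ 1
          · exact mul_le_mul_of_nonneg_left (fl_shift_growth w hw A hA hg t ht R hR) (hρ0 t)
          · show ρ t * _ ≤ ρ t * _
            rw [hρs t (not_le.mp ht), zero_mul, zero_mul]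
    _ = A * 2 ^ (n + 3) * R ^ (n + 3) := by rw [integral_mul_const, hρ1, one_mul]

theorem fl_Lop_trans (φ : E n → ℝ) (t u : E n) :
    Lop n φ (u + t) = Lop n (fun x => φ (x + t)) u := by
  unfold Lop
  congr 1
  funext z
  rw [add_right_comm u t z, add_sub_right_comm u t z]

include hρc hρ0 hρs in
theorem fl_conv_eq (hn : 1 ≤ n) (w : E n → ℝ) (hw : Continuous w) (A : ℝ) (hA : 0 ≤ A)
    (hg : ∀ R : ℝ, 1 ≤ R → ∫ v in ball (0 : E n) R, w v ^ 2 ≤ A * R ^ (n + 3))
    (heq : ∀ φ : E n → ℝ, ContDiff ℝ 3 φ → HasCompactSupport φ → ∫ v, φ v = 0 →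
      ∫ v, w v * Lop n φ v = 0)
    (φ : E n → ℝ) (hφ : ContDiff ℝ 3 φ) (hφc : HasCompactSupport φ) (hφ0 : ∫ v, φ v = 0) :
    ∫ v, (∫ t, ρ t * w (v - t)) * Lop n φ v = 0 := by
  have hφ2 : ContDiff ℝ 2 φ := hφ.of_le (by norm_num)
  have hLc : Continuous (Lop n φ) := Lop_continuous n hn φ hφ2 hφc
  obtain ⟨B', hB'⟩ := Lop_decay_zero n hn φ hφ2 hφc hφ0
  set B : ℝ := max B' 0 with hB
  have hB0 : 0 ≤ B := le_max_right _ _
  have hdec : ∀ v, |Lop n φ v| ≤ B * ((1 + ‖v‖) ^ (n + 2))⁻¹ := fun v =>
    (hB' v).trans (mul_le_mul_of_nonneg_right (le_max_left _ _) (by positivity))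
  have hcw : ∀ t, Continuous (fun v => w (v - t)) := fun t =>
    hw.comp (continuous_id.sub continuous_const)
  set K : ℝ := B * 4 ^ (n + 2) * (A * 2 ^ (n + 3) + (volume : Measure (E n)).real (ball (0 : E n) 1))
    with hK
  have hpair : ∀ t : E n, ‖t‖ ≤ 1 → Integrable (fun v => w (v - t) * Lop n φ v) ∧
      ∫ v, |w (v - t) * Lop n φ v| ≤ K := fun t ht =>
    fl_pair (fun v => w (v - t)) (Lop n φ) (hcw t) hLc (A * 2 ^ (n + 3)) B (by positivity) hB0
      (fun R hR => fl_shift_growth w hw A hA hg t ht R hR) hdec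
  have hzero : ∀ t : E n, ∫ v, w (v - t) * Lop n φ v = 0 := by
    intro t
    have h1 : ∫ v, w (v - t) * Lop n φ v = ∫ u, w u * Lop n φ (u + t) := by
      rw [← integral_add_right_eq_self (fun v => w (v - t) * Lop n φ v) t]
      simp only [add_sub_cancel_right]
    rw [h1]
    simp only [fl_Lop_trans]
    refine heq (fun x => φ (x + t)) (hφ.comp (contDiff_id.add contDiff_const)) ?_ ?_
    · exact hφc.comp_homeomorph (Homeomorph.addRight t)
    · rw [integral_add_right_eq_self φ t]; exact hφ0
  have hFc : Continuous (fun p : E n × E n => ρ p.2 * w (p.1 - p.2) * Lop n φ p.1) :=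
    ((hρc.comp continuous_snd).mul (hw.comp (continuous_fst.sub continuous_snd))).mul
      (hLc.comp continuous_fst)
  have i0 : Integrable ρ := by
    simpa using fl_rho_int ρ hρc hρs (continuous_const (y := (1 : ℝ)))
  have hFi : Integrable (fun p : E n × E n => ρ p.2 * w (p.1 - p.2) * Lop n φ p.1)
      ((volume : Measure (E n)).prod volume) := by
    rw [integrable_prod_iff' hFc.aestronglyMeasurable]
    constructor
    · refine Eventually.of_forall fun t => ?_
      by_cases ht : ‖t‖ ≤ 1
      · have := (hpair t ht).1.const_mul (ρ t)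
        simpa only [mul_assoc] using this
      · simp only [hρs t (not_le.mp ht), zero_mul]
        exact integrable_zero _ _ _
    · refine Integrable.mono' (i0.mul_const K) ?_ (Eventually.of_forall fun t => ?_)
      · exact (hFc.norm.aestronglyMeasurable
          (μ := (volume : Measure (E n)).prod volume)).prod_swap.integral_prod_right'
      · rw [Real.norm_eq_abs, abs_of_nonneg (integral_nonneg fun v => norm_nonneg _)]
        by_cases ht : ‖t‖ ≤ 1
        · have h1 : ∀ v, ‖ρ t * w (v - t) * Lop n φ v‖ = ρ t * |w (v - t) * Lop n φ v| := by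
            intro v
            rw [Real.norm_eq_abs, mul_assoc, abs_mul, abs_of_nonneg (hρ0 t)]
          simp only [h1]
          rw [integral_const_mul]
          exact mul_le_mul_of_nonneg_left (hpair t ht).2 (hρ0 t)
        · simp [hρs t (not_le.mp ht)]
  calc ∫ v, (∫ t, ρ t * w (v - t)) * Lop n φ v
      = ∫ v, ∫ t, ρ t * w (v - t) * Lop n φ v := by
        congr 1
        funext v
        rw [integral_mul_const]
    _ = ∫ t, ∫ v, ρ t * w (v - t) * Lop n φ v := integral_integral_swap hFi
    _ = ∫ t, ρ t * ∫ v, w (v - t) * Lop n φ v := by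
        congr 1
        funext t
        simp only [mul_assoc]
        rw [integral_const_mul]
    _ = 0 := by simp [hzero]

end Mollify

theorem flat_liouville (n : ℕ) (hn : 1 ≤ n) (w : E n → ℝ) (hw : ContDiff ℝ 1 w)
    (hgrow : ∃ A : ℝ, ∀ R : ℝ, 1 ≤ R → ∫ v in ball (0 : E n) R, w v ^ 2 ≤ A * R ^ (n + 3))
    (heq : ∀ φ : E n → ℝ, ContDiff ℝ 3 φ → HasCompactSupport φ → ∫ v, φ v = 0 →
      ∫ v, w v * Lop n φ v = 0) :
    ∃ (a : ℝ) (B : E n →L[ℝ] ℝ), ∀ v, w v = a + B v := by
  obtain ⟨A, hg⟩ := hgrow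
  have hwc : Continuous w := hw.continuous
  have hA : 0 ≤ A := by
    have h1 := hg 1 le_rfl
    have h2 : 0 ≤ ∫ v in ball (0 : E n) 1, w v ^ 2 := integral_nonneg fun v => sq_nonneg _
    simp only [one_pow, mul_one] at h1
    linarith
  refine fl_affine w hwc fun y z v => ?_
  -- mollifiers
  let φ : ℕ → ContDiffBump (0 : E n) := fun k =>
    ⟨1 / (2 * ((k : ℝ) + 2)), 1 / ((k : ℝ) + 2), by positivity, by
      rw [div_lt_div_iff₀ (by positivity) (by positivity)]
      linarith only [(Nat.cast_nonneg k : (0 : ℝ) ≤ k)]⟩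
  have hφr : Tendsto (fun k => (φ k).rOut) atTop (𝓝 0) := by
    have : Tendsto (fun k : ℕ => 1 / (((k : ℝ) + 1) + 1)) atTop (𝓝 0) := by
      have h := (tendsto_one_div_add_atTop_nhds_zero_nat (𝕜 := ℝ)).comp (tendsto_add_atTop_nat 1)
      refine h.congr fun k => ?_
      simp
    refine this.congr fun k => ?_
    show 1 / (((k : ℝ) + 1) + 1) = 1 / ((k : ℝ) + 2)
    congr 1
    ring
  let W : ℕ → E n → ℝ := fun k v => ∫ t, (φ k).normed volume t * w (v - t)
  have hconv : ∀ k v, W k v = ((φ k).normed volume ⋆[ContinuousLinearMap.lsmul ℝ ℝ, volume] w) v :=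
    fun k v => rfl
  have hlim : ∀ v, Tendsto (fun k => W k v) atTop (𝓝 (w v)) := by
    intro v
    exact ContDiffBump.convolution_tendsto_right_of_continuous hφr hwc v
  have hWs : ∀ k, ContDiff ℝ 3 (W k) := by
    intro k
    exact (φ k).hasCompactSupport_normed.contDiff_convolution_left
      (ContinuousLinearMap.lsmul ℝ ℝ) ((φ k).contDiff_normed) hwc.locallyIntegrable
  have hρs : ∀ k, ∀ t, 1 < ‖t‖ → (φ k).normed volume t = 0 := by
    intro k t ht
    have h1 : t ∉ Function.support ((φ k).normed volume) := by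
      rw [ContDiffBump.support_normed_eq, mem_ball, dist_zero_right, not_lt]
      have : (φ k).rOut ≤ 1 := by
        show 1 / ((k : ℝ) + 2) ≤ 1
        rw [div_le_one (by positivity)]
        have := (Nat.cast_nonneg k : (0 : ℝ) ≤ k)
        linarith
      linarith
    simpa using h1
  have hρc : ∀ k, Continuous ((φ k).normed (volume : Measure (E n))) :=
    fun k => (φ k).continuous_normed
  have hW2 : ∀ k, W k (v + y + z) - W k (v + y) - (W k (v + z) - W k v) = 0 := by
    intro k
    refine fl_smooth hn (W k) (hWs k) (A * 2 ^ (n + 3)) ?_ ?_ y z v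
    · exact fl_conv_growth _ (hρc k) (fun t => (φ k).nonneg_normed t) (φ k).integral_normed
        (hρs k) w hwc A hA hg (hWs k).continuous
    · exact fl_conv_eq _ (hρc k) (fun t => (φ k).nonneg_normed t) (hρs k) hn w hwc A hA hg heq
  have h1 := ((hlim (v + y + z)).sub (hlim (v + y))).sub ((hlim (v + z)).sub (hlim v))
  have h2 : Tendsto (fun k => W k (v + y + z) - W k (v + y) - (W k (v + z) - W k v)) atTop
      (𝓝 0) := by
    simp only [hW2]
    exact tendsto_const_nhds
  exact tendsto_nhds_unique h1 h2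

end Vale.Agent.P120
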