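import Vale.Agent.Lib.P120.UR.WeakEqCore

/-!
The computation on the plane, for the module WeakEq.
-/

open MeasureTheory Filter Set Metric Module
open scoped Topology ENNReal NNReal RealInnerProductSpace

namespace Vale.Agent.P120



variable {n : ℕ}

lemma we_vol_UB (n : ℕ) : ∃ Cv : ℝ, UB n (volume : Measure (E n)) Cv := by
  refine ⟨(volume (ball (0 : E n) 1)).toReal, ?_, fun x r hr => ?_⟩
  · exact ENNReal.toReal_pos (measure_ball_pos _ _ one_pos).ne' measure_ball_lt_top.ne
  · rw [Measure.addHaar_closedBall _ _ hr.le, finrank_euclideanSpace_fin,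
      mul_comm, ENNReal.ofReal_mul ENNReal.toReal_nonneg,
      ENNReal.ofReal_toReal measure_ball_lt_top.ne]

lemma we_F_int {ρ : ℝ} (hρ : 0 < ρ) (hρ1 : ρ ≤ 1) :
    Integrable (weF n ρ : E n → ℝ) := by
  obtain ⟨Cv, hV⟩ := we_vol_UB n
  obtain ⟨ht, -⟩ := UB.tail hV 0 one_pos
  have hm : MeasurableSet (ball (0 : E n) 1)ᶜ := measurableSet_ball.compl
  have h1 : Integrable ((ball (0 : E n) 1)ᶜ.indicator fun z => wt n 0 z) :=
    ht.integrable_indicator hm
  have h2 : Integrable ((ball (0 : E n) 1).indicator fun _ => (ρ ^ (n + 1))⁻¹) :=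
    (integrable_indicator_iff measurableSet_ball).mpr
      (integrableOn_const measure_ball_lt_top.ne)
  refine (h1.add h2).mono' (weF_continuous hρ).aestronglyMeasurable
    (Eventually.of_forall fun z => ?_)
  rw [Real.norm_eq_abs, abs_of_nonneg (weF_nonneg hρ z), Pi.add_apply]
  by_cases hz : z ∈ ball (0 : E n) 1
  · rw [indicator_of_mem hz, indicator_of_notMem (by simpa using hz), zero_add]
    exact weF_le hρ z
  · rw [indicator_of_notMem hz, indicator_of_mem (by simpa using hz), add_zero]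
    rw [mem_ball, dist_zero_right, not_lt] at hz
    rw [weF_eq (by linarith), wt, zero_sub, norm_neg]

lemma we_taylor {Φ : E n → ℝ} (hΦ : ContDiff ℝ 3 Φ) (hΦc : HasCompactSupport Φ) :
    ∃ K : ℝ, 0 ≤ K ∧ ∀ v z : E n, |2 * Φ v - Φ (v + z) - Φ (v - z)| ≤ K * ‖z‖ ^ 2 := by
  have h1 : ContDiff ℝ 1 (fderiv ℝ Φ) := hΦ.fderiv_right (by norm_num)
  obtain ⟨K, hK⟩ := ContDiff.lipschitzWith_of_hasCompactSupport (hΦc.fderiv ℝ) h1 (by norm_num)
  refine ⟨2 * K, by positivity, fun v z => ?_⟩
  have hd : ∀ x ∈ closedBall v ‖z‖, DifferentiableAt ℝ Φ x := fun x _ =>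
    (hΦ.differentiable (by norm_num)) x
  have hbd : ∀ x ∈ closedBall v ‖z‖, ‖fderiv ℝ Φ x - fderiv ℝ Φ v‖ ≤ K * ‖z‖ := by
    intro x hx
    rw [← dist_eq_norm]
    refine (hK.dist_le_mul x v).trans ?_
    have : dist x v ≤ ‖z‖ := hx
    gcongr
  have hv : v ∈ closedBall v ‖z‖ := mem_closedBall_self (norm_nonneg z)
  have hp : v + z ∈ closedBall v ‖z‖ := by
    rw [mem_closedBall, dist_eq_norm, add_sub_cancel_left]
  have hq : v - z ∈ closedBall v ‖z‖ := by
    rw [mem_closedBall, dist_eq_norm]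
    simp
  have m1 := Convex.norm_image_sub_le_of_norm_fderiv_le' (𝕜 := ℝ) hd hbd
    (convex_closedBall v ‖z‖) hv hp
  have m2 := Convex.norm_image_sub_le_of_norm_fderiv_le' (𝕜 := ℝ) hd hbd
    (convex_closedBall v ‖z‖) hv hq
  rw [Real.norm_eq_abs] at m1 m2
  have e1 : v + z - v = z := by abel
  have e2 : v - z - v = -z := by abel
  rw [e1] at m1
  rw [e2, map_neg, norm_neg] at m2
  have e3 : 2 * Φ v - Φ (v + z) - Φ (v - z) =
      -(Φ (v + z) - Φ v - (fderiv ℝ Φ v) z) - (Φ (v - z) - Φ v - -(fderiv ℝ Φ v) z) := by ring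
  rw [e3]
  refine (abs_sub _ _).trans ?_
  rw [abs_neg]
  linarith only [m1, m2]

/-- The regularised kernel average on `ℝ^n` compared with half of `Lop`. -/
lemma we_plane (hn : 1 ≤ n) {Φ : E n → ℝ} (hΦ : ContDiff ℝ 3 Φ) (hΦc : HasCompactSupport Φ)
    {r : ℝ} (hr : 0 < r) (hs : ∀ v, r ≤ ‖v‖ → Φ v = 0) :
    ∃ A : ℝ, 0 ≤ A ∧ ∀ R ρ : ℝ, 2 * r ≤ R → 2 ≤ R → 0 < ρ → ρ ≤ 1 → ∀ v : E n,
      |(∫ w, cut R w * (Φ v - Φ w) * weF n ρ (v - w)) - 1 / 2 * Lop n Φ v| ≤ A * (ρ + 1 / R) ∧
      (r + 1 ≤ ‖v‖ →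
        (∫ w, cut R w * (Φ v - Φ w) * weF n ρ (v - w)) - 1 / 2 * Lop n Φ v = 0) := by
  obtain ⟨Cv, hV⟩ := we_vol_UB n
  obtain ⟨K2, hK2, hT⟩ := we_taylor hΦ hΦc
  obtain ⟨B, hB⟩ : ∃ B : ℝ, ∀ v, |Φ v| ≤ B := by
    obtain ⟨B, hB⟩ := hΦc.exists_bound_of_continuous hΦ.continuous
    exact ⟨B, fun v => by simpa using hB v⟩
  have hCv := hV.1
  have hB0 : 0 ≤ B := (abs_nonneg _).trans (hB 0)
  refine ⟨K2 * (2 ^ (n + 3) * Cv) + B * (2 ^ (n + 1) * Cv * 2), by positivity, ?_⟩
  intro R ρ hR hR2 hρ hρ1 v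
  have hR0 : 0 < R := by linarith
  have hFi := we_F_int (n := n) hρ hρ1
  have hFc := weF_continuous (n := n) (d := n) hρ
  have hcc := we_cut_continuous (d := n) R
  have hΦcont := hΦ.continuous
  -- integrability of a
  have hai : ∀ f : E n → ℝ, Continuous f → (∀ z, |f z| ≤ 2 * B + B) →
      Integrable (fun z => f z * weF n ρ z) := by
    intro f hf hfb
    refine (hFi.const_mul (2 * B + B)).mono' (hf.mul hFc).aestronglyMeasurable
      (Eventually.of_forall fun z => ?_)
    rw [norm_mul, Real.norm_eq_abs, Real.norm_eq_abs, abs_of_nonneg (weF_nonneg hρ z)]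
    exact mul_le_mul_of_nonneg_right (hfb z) (weF_nonneg (n := n) hρ z)
  have i1 : Integrable (fun z => (Φ v - Φ (v + z)) * weF n ρ z) := by
    refine hai _ (by fun_prop) fun z => ?_
    refine (abs_sub _ _).trans ?_
    have := hB v
    have := hB (v + z)
    linarith
  have i2 : Integrable (fun z => ((1 - cut R (v + z)) * Φ v) * weF n ρ z) := by
    refine hai _ (by fun_prop) fun z => ?_
    have h1 := we_cut_nonneg R (v + z)
    have h2 := we_cut_le_one R (v + z)
    rw [abs_mul, abs_of_nonneg (by linarith : 0 ≤ 1 - cut R (v + z))]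
    have := hB v
    have := abs_nonneg (Φ v)
    nlinarith
  -- substitution
  have s1 : ∫ w, cut R w * (Φ v - Φ w) * weF n ρ (v - w) =
      ∫ z, cut R (v + z) * (Φ v - Φ (v + z)) * weF n ρ z := by
    have h := integral_add_left_eq_self (μ := (volume : Measure (E n)))
      (fun w => cut R w * (Φ v - Φ w) * weF n ρ (v - w)) v
    rw [← h]
    refine integral_congr_ae (Eventually.of_forall fun z => ?_)
    simp only
    rw [← weF_neg ρ z]
    congr 2
    abel
  have s2 : ∫ z, cut R (v + z) * (Φ v - Φ (v + z)) * weF n ρ z =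
      (∫ z, (Φ v - Φ (v + z)) * weF n ρ z) - ∫ z, ((1 - cut R (v + z)) * Φ v) * weF n ρ z := by
    rw [← integral_sub i1 i2]
    refine integral_congr_ae (Eventually.of_forall fun z => ?_)
    simp only
    have h1 : (1 - cut R (v + z)) * Φ (v + z) = 0 := by
      rcases le_or_gt r ‖v + z‖ with h | h
      · rw [hs _ h, mul_zero]
      · rw [we_cut_eq_one hR0 (by linarith), sub_self, zero_mul]
    have h2 : cut R (v + z) * (Φ v - Φ (v + z)) =
        (Φ v - Φ (v + z)) - (1 - cut R (v + z)) * Φ v + (1 - cut R (v + z)) * Φ (v + z) := by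
      ring
    rw [h2, h1, add_zero, sub_mul]
  have i1' : Integrable (fun z => (Φ v - Φ (v - z)) * weF n ρ z) := by
    refine hai _ (by fun_prop) fun z => ?_
    refine (abs_sub _ _).trans ?_
    have := hB v
    have := hB (v - z)
    linarith
  have s3 : ∫ z, (Φ v - Φ (v + z)) * weF n ρ z = ∫ z, (Φ v - Φ (v - z)) * weF n ρ z := by
    have h := integral_neg_eq_self (fun z => (Φ v - Φ (v + z)) * weF n ρ z)
      (volume : Measure (E n))
    rw [← h]
    refine integral_congr_ae (Eventually.of_forall fun z => ?_)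
    simp only
    rw [weF_neg, ← sub_eq_add_neg]
  have s4 : ∫ z, (Φ v - Φ (v + z)) * weF n ρ z =
      1 / 2 * ∫ z, (2 * Φ v - Φ (v + z) - Φ (v - z)) * weF n ρ z := by
    have h : ∫ z, (2 * Φ v - Φ (v + z) - Φ (v - z)) * weF n ρ z =
        (∫ z, (Φ v - Φ (v + z)) * weF n ρ z) + ∫ z, (Φ v - Φ (v - z)) * weF n ρ z := by
      rw [← integral_add i1 i1']
      refine integral_congr_ae (Eventually.of_forall fun z => ?_)
      simp only
      ring
    rw [h, ← s3]
    ring
  have iL := Lop_integrable n hn Φ (hΦ.of_le (by norm_num)) hΦc v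
  have i3 : Integrable (fun z => (2 * Φ v - Φ (v + z) - Φ (v - z)) * weF n ρ z) := by
    have h := i1.add i1'
    refine h.congr (Eventually.of_forall fun z => ?_)
    simp only [Pi.add_apply]
    ring
  have s5 : (∫ w, cut R w * (Φ v - Φ w) * weF n ρ (v - w)) - 1 / 2 * Lop n Φ v =
      1 / 2 * (∫ z, (2 * Φ v - Φ (v + z) - Φ (v - z)) *
        (weF n ρ z - (‖z‖ ^ (n + 1))⁻¹)) - ∫ z, ((1 - cut R (v + z)) * Φ v) * weF n ρ z := by
    rw [s1, s2, s4]
    unfold Lop
    have h : ∫ z, (2 * Φ v - Φ (v + z) - Φ (v - z)) * (weF n ρ z - (‖z‖ ^ (n + 1))⁻¹) =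
        (∫ z, (2 * Φ v - Φ (v + z) - Φ (v - z)) * weF n ρ z) -
        ∫ z, (2 * Φ v - Φ (v + z) - Φ (v - z)) * (‖z‖ ^ (n + 1))⁻¹ := by
      rw [← integral_sub i3 iL]
      refine integral_congr_ae (Eventually.of_forall fun z => ?_)
      simp only
      ring
    rw [h]
    ring
  -- pointwise bound near zero
  have hpt : ∀ z : E n, |weF n ρ z - (‖z‖ ^ (n + 1))⁻¹| * ‖z‖ ^ 2 ≤
      (closedBall (0 : E n) ρ).indicator (fun z => ‖(0 : E n) - z‖ ^ 2 * wt n 0 z) z := by
    intro z
    rcases le_or_gt ρ ‖z‖ with h | h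
    · rw [weF_eq h, sub_self, abs_zero, zero_mul]
      exact indicator_nonneg (fun z _ => mul_nonneg (sq_nonneg _) (wt_nonneg _ _)) z
    · have hz : z ∈ closedBall (0 : E n) ρ := by
        rw [mem_closedBall, dist_zero_right]
        exact h.le
      rw [indicator_of_mem hz, wt, zero_sub, norm_neg, mul_comm]
      rcases eq_or_ne z 0 with rfl | hz0
      · simp
      · have h1 := weF_nonneg (n := n) hρ z
        have h2 := weF_le_ker (n := n) (ρ := ρ) hz0
        rw [abs_of_nonpos (by linarith)]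
        have : 0 ≤ ‖z‖ ^ 2 := by positivity
        nlinarith only [h1]
  obtain ⟨hni, hnb⟩ := UB.near hV 0 hρ
  constructor
  · have b1 : |∫ z, (2 * Φ v - Φ (v + z) - Φ (v - z)) * (weF n ρ z - (‖z‖ ^ (n + 1))⁻¹)| ≤
        K2 * (2 ^ (n + 3) * Cv * ρ) := by
      have hdom : ∀ z, ‖(2 * Φ v - Φ (v + z) - Φ (v - z)) * (weF n ρ z - (‖z‖ ^ (n + 1))⁻¹)‖ ≤
          K2 * (closedBall (0 : E n) ρ).indicator (fun z => ‖(0 : E n) - z‖ ^ 2 * wt n 0 z) z := by
        intro z
        rw [norm_mul, Real.norm_eq_abs, Real.norm_eq_abs]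
        calc |2 * Φ v - Φ (v + z) - Φ (v - z)| * |weF n ρ z - (‖z‖ ^ (n + 1))⁻¹|
            ≤ (K2 * ‖z‖ ^ 2) * |weF n ρ z - (‖z‖ ^ (n + 1))⁻¹| := by
              have := hT v z
              gcongr
          _ = K2 * (|weF n ρ z - (‖z‖ ^ (n + 1))⁻¹| * ‖z‖ ^ 2) := by ring
          _ ≤ _ := by
              have := hpt z
              gcongr
      have h := norm_integral_le_of_norm_le
        ((hni.integrable_indicator measurableSet_closedBall).const_mul K2)
        (Eventually.of_forall hdom)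
      rw [Real.norm_eq_abs, integral_const_mul, integral_indicator measurableSet_closedBall] at h
      exact h.trans (by gcongr)
    have b2 : |∫ z, ((1 - cut R (v + z)) * Φ v) * weF n ρ z| ≤
        B * (2 ^ (n + 1) * Cv / (R / 2)) := by
      obtain ⟨hti, htb⟩ := UB.tail hV 0 (s := R / 2) (by linarith)
      have hm : MeasurableSet (ball (0 : E n) (R / 2))ᶜ := measurableSet_ball.compl
      have hdom : ∀ z, ‖((1 - cut R (v + z)) * Φ v) * weF n ρ z‖ ≤
          B * (ball (0 : E n) (R / 2))ᶜ.indicator (fun z => wt n 0 z) z := by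
        intro z
        have h1 := we_cut_nonneg R (v + z)
        have h2 := we_cut_le_one R (v + z)
        have h3 : 0 ≤ (ball (0 : E n) (R / 2))ᶜ.indicator (fun z => wt n 0 z) z :=
          indicator_nonneg (fun z _ => wt_nonneg _ _) z
        rcases le_or_gt r ‖v‖ with h | h
        · rw [hs _ h, mul_zero, zero_mul, norm_zero]
          positivity
        · by_cases hz : z ∈ ball (0 : E n) (R / 2)
          · rw [mem_ball, dist_zero_right] at hz
            have : ‖v + z‖ ≤ R := by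
              have := norm_add_le v z
              linarith
            rw [we_cut_eq_one hR0 this, sub_self, zero_mul, zero_mul, norm_zero]
            positivity
          · rw [indicator_of_mem (by simpa using hz)]
            rw [mem_ball, dist_zero_right, not_lt] at hz
            rw [weF_eq (by linarith), wt, zero_sub, norm_neg, norm_mul, norm_mul,
              Real.norm_eq_abs, Real.norm_eq_abs, Real.norm_eq_abs,
              abs_of_nonneg (by linarith : 0 ≤ 1 - cut R (v + z)),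
              abs_of_nonneg (by positivity : 0 ≤ (‖z‖ ^ (n + 1))⁻¹)]
            have h4 : 1 - cut R (v + z) ≤ 1 := by linarith
            have h5 := hB v
            have h6 : 0 ≤ 1 - cut R (v + z) := by linarith
            calc (1 - cut R (v + z)) * |Φ v| * (‖z‖ ^ (n + 1))⁻¹
                ≤ 1 * B * (‖z‖ ^ (n + 1))⁻¹ := by gcongr
              _ = _ := by ring
      have h := norm_integral_le_of_norm_le ((hti.integrable_indicator hm).const_mul B)
        (Eventually.of_forall hdom)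
      rw [Real.norm_eq_abs, integral_const_mul, integral_indicator hm] at h
      exact h.trans (by gcongr)
    rw [s5]
    refine (abs_sub _ _).trans ?_
    rw [abs_mul, abs_of_pos (by norm_num : (0 : ℝ) < 1 / 2)]
    have h7 := abs_nonneg (∫ z, (2 * Φ v - Φ (v + z) - Φ (v - z)) *
      (weF n ρ z - (‖z‖ ^ (n + 1))⁻¹))
    have e1 : B * (2 ^ (n + 1) * Cv / (R / 2)) = B * (2 ^ (n + 1) * Cv * 2) * (1 / R) := by
      field_simp
    rw [e1] at b2
    have h8 : 0 ≤ K2 * (2 ^ (n + 3) * Cv) * (1 / R) := by positivity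
    have h9 : 0 ≤ B * (2 ^ (n + 1) * Cv * 2) * ρ := by positivity
    linarith only [b1, b2, h7, h8, h9]
  · intro hv
    rw [s5, hs v (by linarith)]
    have e1 : ∀ z, (2 * (0 : ℝ) - Φ (v + z) - Φ (v - z)) *
        (weF n ρ z - (‖z‖ ^ (n + 1))⁻¹) = 0 := by
      intro z
      rcases le_or_gt ρ ‖z‖ with h | h
      · rw [weF_eq h, sub_self, mul_zero]
      · have h1 : Φ (v + z) = 0 := by
          apply hs
          have := norm_sub_le (v + z) z
          rw [add_sub_cancel_right] at this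
          linarith
        have h2 : Φ (v - z) = 0 := by
          apply hs
          have := norm_add_le (v - z) z
          rw [sub_add_cancel] at this
          linarith
        rw [h1, h2]
        ring
    rw [integral_congr_ae (Eventually.of_forall e1)]
    simp only [mul_zero, zero_mul, integral_zero, sub_zero]

end Vale.Agent.P120
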