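import Vale.Agent.Lib.P120.UR.WeakEqEll
import Vale.Agent.Lib.P120.UR.WeakEqPlane

/-!
The equation for the limit of a blow-up sequence.
-/

open MeasureTheory Filter Set Metric Module
open scoped Topology ENNReal NNReal RealInnerProductSpace

namespace Vale.Agent.P120



variable {d n : ℕ}

/-- the module WeakEq: the equation for the limit. -/
theorem weak_eq {C c cl cu : ℝ} (hn : 1 ≤ n) (hC : 0 < C) (hc : 0 < c) (hcl : 0 < cl)
    {S : BSeq n d C c} (L : BLim S cl cu) (Φ : E n → ℝ) (hΦ : ContDiff ℝ 3 Φ)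
    (hΦc : HasCompactSupport Φ) (h0 : ∫ v, Φ v = 0) :
    Tendsto (fun R : ℝ => S.ell (fun y => cut R y * Lop n Φ (adjU L.V y))) atTop (𝓝 0) := by
  -- radius of the support
  obtain ⟨r, hr1, hs⟩ : ∃ r : ℝ, 1 ≤ r ∧ ∀ v, r ≤ ‖v‖ → Φ v = 0 := by
    obtain ⟨r0, hr0⟩ := hΦc.isCompact.isBounded.subset_closedBall 0
    refine ⟨max r0 0 + 1, by linarith [le_max_right r0 0], fun v hv => ?_⟩
    apply image_eq_zero_of_notMem_tsupport
    intro hmem
    have := hr0 hmem
    rw [mem_closedBall, dist_zero_right] at this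
    linarith [le_max_left r0 0]
  have hr0 : 0 < r := by linarith
  obtain ⟨B, hB⟩ : ∃ B : ℝ, ∀ v, |Φ v| ≤ B := by
    obtain ⟨B, hB⟩ := hΦc.exists_bound_of_continuous hΦ.continuous
    exact ⟨B, fun v => by simpa using hB v⟩
  have hB0 : 0 ≤ B := (abs_nonneg _).trans (hB 0)
  obtain ⟨KΦ, hKΦ⟩ := ContDiff.lipschitzWith_of_hasCompactSupport hΦc hΦ (by norm_num)
  have hΦcont := hΦ.continuous
  have hc00 : 0 < L.c0 := hcl.trans_le L.hcl
  have hadj : ∀ x y : E d, ‖adjU L.V x - adjU L.V y‖ ≤ ‖x - y‖ := by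
    intro x y
    rw [← map_sub]
    exact norm_adjU_le L.V _
  -- the extension of `Φ`
  set ψ : E d → ℝ := fun y => Φ (adjU L.V y) * cut r y with hψdef
  have hψlip : ∀ x y, |ψ x - ψ y| ≤ (KΦ + B * r⁻¹) * ‖x - y‖ := by
    intro x y
    have e : ψ x - ψ y = (Φ (adjU L.V x) - Φ (adjU L.V y)) * cut r x +
        Φ (adjU L.V y) * (cut r x - cut r y) := by
      simp only [hψdef]
      ring
    rw [e]
    refine (abs_add_le _ _).trans ?_
    rw [abs_mul, abs_mul, abs_of_nonneg (we_cut_nonneg r x)]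
    have h1 : |Φ (adjU L.V x) - Φ (adjU L.V y)| ≤ KΦ * ‖x - y‖ := by
      have := hKΦ.dist_le_mul (adjU L.V x) (adjU L.V y)
      rw [Real.dist_eq, dist_eq_norm] at this
      exact this.trans (by gcongr; exact hadj x y)
    have h2 := we_cut_le_one r x
    have h2' := we_cut_nonneg r x
    have h3 := hB (adjU L.V y)
    have h4 := we_cut_lip hr0 x y
    calc |Φ (adjU L.V x) - Φ (adjU L.V y)| * cut r x + |Φ (adjU L.V y)| * |cut r x - cut r y|
        ≤ (KΦ * ‖x - y‖) * 1 + B * (r⁻¹ * ‖x - y‖) := by gcongr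
      _ = _ := by ring
  have hψB : ∀ y, |ψ y| ≤ B := by
    intro y
    simp only [hψdef]
    rw [abs_mul, abs_of_nonneg (we_cut_nonneg r y)]
    have h1 := hB (adjU L.V y)
    have h2 := we_cut_le_one r y
    have h3 := we_cut_nonneg r y
    nlinarith only [abs_nonneg (Φ (adjU L.V y)), h1, h2]
  have hψs : ∀ y, 2 * r < ‖y‖ → ψ y = 0 := by
    intro y hy
    simp only [hψdef]
    rw [we_cut_eq_zero hr0 hy.le, mul_zero]
  have hψV : ∀ v, ψ (L.V v) = Φ v := by
    intro v
    simp only [hψdef]
    rw [adjU_U, we_cut_V]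
    rcases le_or_gt r ‖v‖ with h | h
    · rw [hs v h, zero_mul]
    · rw [we_cut_eq_one hr0 h.le, mul_one]
  have hψc : Continuous ψ := by
    have h1 := we_cut_continuous (d := d) r
    simp only [hψdef]
    fun_prop
  have hψ0 : ∫ y, ψ y ∂L.σ = 0 := by
    rw [we_int_sigma hcl L hψc]
    simp only [hψV, h0, mul_zero]
  obtain ⟨A, hA0, hA⟩ := we_ell_bound hC hc hcl L (by positivity : 0 ≤ KΦ + B * r⁻¹) hψlip hψB
    (by linarith : 2 ≤ 2 * r) hψs hψ0
  obtain ⟨Ap, hAp0, hAp⟩ := we_plane hn hΦ hΦc hr0 hs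
  obtain ⟨Cv, hV⟩ := we_vol_UB n
  have hCv := hV.1
  have hLc : Continuous (Lop n Φ) := Lop_continuous n hn Φ (hΦ.of_le (by norm_num)) hΦc
  set G0 : ℝ := L.c0 * (Cv * (2 * (r + 1)) ^ n) * (2 * (r + 1)) ^ (n + 3) with hG0
  have hG00 : 0 ≤ G0 := by rw [hG0]; positivity
  -- the main bound
  have main : ∀ R : ℝ, 8 * r ≤ R → ‖S.ell (fun y => cut R y * Lop n Φ (adjU L.V y))‖ ≤
      (2 / L.c0) * (2 * A / √R + L.c0 * Ap * (2 / R) * √G0) := by
    intro R hR
    have hR0 : 0 < R := by linarith
    have hR1 : 1 ≤ R := by linarith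
    set ρ : ℝ := 1 / R with hρdef
    have hρ : 0 < ρ := by positivity
    have hρ1 : ρ ≤ 1 := by
      rw [hρdef, div_le_one hR0]
      exact hR1
    obtain ⟨hTc, hTb⟩ := hA R ρ (by linarith) hρ hρ1
    set T : E d → ℝ := weT n L.σ R ρ ψ with hTdef
    set Θ : E d → ℝ := fun y => cut R y * Lop n Φ (adjU L.V y) with hΘdef
    set Er : E d → ℝ := fun y => T y - L.c0 / 2 * Θ y with hErdef
    set E1 : E d → ℝ := fun y => Er y * cut (r + 1) y with hE1def
    set E2 : E d → ℝ := fun y => Er y * (1 - cut (r + 1) y) with hE2def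
    have hcR := we_cut_continuous (d := d) R
    have hcr := we_cut_continuous (d := d) (r + 1)
    have hΘc : Continuous Θ := by
      simp only [hΘdef]
      fun_prop
    have hErc : Continuous Er := by
      simp only [hErdef]
      fun_prop
    have hE1c : Continuous E1 := by
      simp only [hE1def]
      fun_prop
    have hE2c : Continuous E2 := by
      simp only [hE2def]
      fun_prop
    have hΘz : ∀ y, 2 * R ≤ ‖y‖ → Θ y = 0 := by
      intro y hy
      simp only [hΘdef]
      rw [we_cut_eq_zero hR0 hy, zero_mul]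
    have hTz : ∀ y, 2 * R ≤ ‖y‖ → T y = 0 := by
      intro y hy
      simp only [hTdef, weT]
      rw [we_cut_eq_zero hR0 hy, zero_mul]
    have hErz : ∀ y, 2 * R ≤ ‖y‖ → Er y = 0 := by
      intro y hy
      simp only [hErdef]
      rw [hΘz y hy, hTz y hy]
      ring
    have hE1z : ∀ y, 2 * (r + 1) ≤ ‖y‖ → E1 y = 0 := by
      intro y hy
      simp only [hE1def]
      rw [we_cut_eq_zero (by linarith) hy, mul_zero]
    have hE2z : ∀ y, 2 * R ≤ ‖y‖ → E2 y = 0 := by
      intro y hy
      simp only [hE2def]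
      rw [hErz y hy, zero_mul]
    have hcs : ∀ (f : E d → ℝ) (a : ℝ), (∀ y, a ≤ ‖y‖ → f y = 0) → HasCompactSupport f := by
      intro f a hf
      refine HasCompactSupport.intro (isCompact_closedBall (0 : E d) a) fun y hy => ?_
      rw [mem_closedBall, dist_zero_right, not_le] at hy
      exact hf y hy.le
    -- values on the plane
    have hTV : ∀ v, T (L.V v) = cut R v * (L.c0 *
        ∫ w, cut R w * (Φ v - Φ w) * weF n ρ (v - w)) := by
      intro v
      simp only [hTdef, weT]
      rw [we_cut_V]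
      congr 1
      have hfc := weF_continuous (n := n) (d := d) hρ
      rw [we_int_sigma hcl L (by fun_prop)]
      congr 1
      refine integral_congr_ae (Eventually.of_forall fun w => ?_)
      simp only
      rw [we_cut_V, hψV, hψV]
      congr 1
      unfold weF
      rw [← map_sub, L.V.norm_map]
    have hΘV : ∀ v, Θ (L.V v) = cut R v * Lop n Φ v := by
      intro v
      simp only [hΘdef]
      rw [we_cut_V, adjU_U]
    have hErV : ∀ v, Er (L.V v) = L.c0 * (cut R v *
        ((∫ w, cut R w * (Φ v - Φ w) * weF n ρ (v - w)) - 1 / 2 * Lop n Φ v)) := by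
      intro v
      simp only [hErdef]
      rw [hTV, hΘV]
      ring
    -- first error
    have hb1 : ‖S.ell E1‖ ≤ L.c0 * Ap * (2 / R) * √G0 := by
      have h1 := ell_bound L hE1c (R := 2 * (r + 1)) (by linarith) hE1z
      set δ : ℝ := L.c0 * Ap * (2 / R) with hδ
      have hδ0 : 0 ≤ δ := by rw [hδ]; positivity
      have h2 : ∫ y, E1 y ^ 2 ∂L.σ ≤ L.c0 * (δ ^ 2 * (Cv * (2 * (r + 1)) ^ n)) := by
        rw [we_int_sigma hcl L (by fun_prop)]
        have h3 : |∫ v, E1 (L.V v) ^ 2| ≤ δ ^ 2 * (Cv * (2 * (r + 1)) ^ n) := by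
          refine we_abs_int_le hV (by linarith : 0 < r + 1) (by positivity) (fun v => ?_)
            fun v hv => ?_
          · rw [abs_of_nonneg (sq_nonneg _), ← sq_abs]
            have h4 : |E1 (L.V v)| ≤ δ := by
              simp only [hE1def]
              rw [hErV, we_cut_V, abs_mul, abs_mul, abs_mul, abs_of_pos hc00,
                abs_of_nonneg (we_cut_nonneg R v), abs_of_nonneg (we_cut_nonneg (r + 1) v)]
              have h5 := (hAp R ρ (by linarith) (by linarith) hρ hρ1 v).1
              have h6 := we_cut_le_one R v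
              have h7 := we_cut_le_one (r + 1) v
              have h6' := we_cut_nonneg R v
              have h7' := we_cut_nonneg (r + 1) v
              calc L.c0 * (cut R v * |(∫ w, cut R w * (Φ v - Φ w) * weF n ρ (v - w)) -
                    1 / 2 * Lop n Φ v|) * cut (r + 1) v
                  ≤ L.c0 * (1 * (Ap * (ρ + 1 / R))) * 1 := by gcongr
                _ = δ := by
                    rw [hδ, hρdef]
                    ring
            gcongr
          · rw [hE1z _ (by rw [L.V.norm_map]; exact hv)]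
            norm_num
        have h8 := (le_abs_self _).trans h3
        gcongr
      have h9 : ‖S.ell E1‖ ^ 2 ≤ (δ * √G0) ^ 2 := by
        refine h1.trans ?_
        have e9 : (δ * √G0) ^ 2 = δ ^ 2 * G0 := by
          rw [mul_pow, Real.sq_sqrt hG00]
        rw [e9, hG0]
        calc (∫ y, E1 y ^ 2 ∂L.σ) * (2 * (r + 1)) ^ (n + 3)
            ≤ (L.c0 * (δ ^ 2 * (Cv * (2 * (r + 1)) ^ n))) * (2 * (r + 1)) ^ (n + 3) := by gcongr
          _ = _ := by ring
      exact le_of_sq_le_sq h9 (by positivity)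
    -- second error
    have hb2 : S.ell E2 = 0 := by
      have h1 := ell_bound L hE2c (R := 2 * R) (by linarith) hE2z
      have h2 : ∫ y, E2 y ^ 2 ∂L.σ = 0 := by
        rw [we_int_sigma hcl L (by fun_prop)]
        have h3 : ∀ v, E2 (L.V v) ^ 2 = 0 := by
          intro v
          simp only [hE2def]
          rcases le_or_gt (r + 1) ‖v‖ with h | h
          · rw [hErV, (hAp R ρ (by linarith) (by linarith) hρ hρ1 v).2 h]
            ring
          · rw [we_cut_V, we_cut_eq_one (by linarith) h.le]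
            ring
        simp only [h3, integral_zero, mul_zero]
      rw [h2, zero_mul] at h1
      have h4 : ‖S.ell E2‖ = 0 := by
        have := norm_nonneg (S.ell E2)
        nlinarith only [h1]
      exact norm_eq_zero.mp h4
    -- combination
    have hcomb : S.ell T = (L.c0 / 2) • S.ell Θ + S.ell E1 + S.ell E2 := by
      have e : T = fun y => (fun y => L.c0 / 2 * Θ y + E1 y) y + E2 y := by
        funext y
        simp only [hE1def, hE2def, hErdef]
        ring
      have hcs1 : HasCompactSupport (fun y => L.c0 / 2 * Θ y) := hcs _ (2 * R) fun y hy => by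
        rw [hΘz y hy, mul_zero]
      have hcsE1 := hcs E1 _ hE1z
      have hcs3 : HasCompactSupport (fun y => L.c0 / 2 * Θ y + E1 y) := hcs _ (2 * R) fun y hy => by
        rw [hΘz y hy, hE1z y (by linarith)]
        ring
      rw [e, ell_add S (by fun_prop) hcs3 hE2c (hcs E2 _ hE2z),
        ell_add S (by fun_prop) hcs1 hE1c hcsE1, ell_smul S hΘc (hcs Θ _ hΘz)]
    have hΘe : S.ell Θ = (2 / L.c0) • (S.ell T - S.ell E1) := by
      rw [hcomb, hb2, add_zero, add_sub_cancel_right, smul_smul]
      have : 2 / L.c0 * (L.c0 / 2) = 1 := by field_simp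
      rw [this, one_smul]
    rw [hΘe, norm_smul, Real.norm_eq_abs, abs_of_pos (by positivity : 0 < 2 / L.c0)]
    have hsq : √ρ = 1 / √R := by
      rw [hρdef, Real.sqrt_div zero_le_one, Real.sqrt_one]
    have h10 : A * √ρ + A / √R = 2 * A / √R := by
      rw [hsq]
      ring
    rw [h10] at hTb
    have h11 := norm_sub_le (S.ell T) (S.ell E1)
    gcongr
    linarith
  -- the limit
  have hlim : Tendsto (fun R : ℝ => (2 / L.c0) * (2 * A / √R + L.c0 * Ap * (2 / R) * √G0)) atTop
      (𝓝 ((2 / L.c0) * (0 + L.c0 * Ap * 0 * √G0))) := by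
    refine Tendsto.const_mul _ (Tendsto.add ?_ (Tendsto.mul_const _ (Tendsto.const_mul _ ?_)))
    · exact Tendsto.div_atTop tendsto_const_nhds Real.tendsto_sqrt_atTop
    · exact Tendsto.div_atTop tendsto_const_nhds tendsto_id
  have hz : (2 / L.c0) * (0 + L.c0 * Ap * 0 * √G0) = 0 := by ring
  rw [hz] at hlim
  refine squeeze_zero_norm' ?_ hlim
  filter_upwards [eventually_ge_atTop (8 * r)] with R hR using main R hR

end Vale.Agent.P120
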