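import Vale.Agent.Lib.P120.UR.Base
import Vale.Agent.Lib.P120.UR.LopFacts
import Vale.Agent.Lib.P120.UR.FlatLiouville
import Vale.Agent.Lib.P120.UR.Ell
import Vale.Agent.Lib.P120.UR.WeakEq

/-!
P120, module Affine: the mollified limit of a blow-up sequence is affine.
-/

open MeasureTheory Filter Set Metric Module
open scoped Topology ENNReal NNReal RealInnerProductSpace BoundedContinuousFunction

namespace Vale.Agent.P120

variable {d n : ℕ}

/-! ### the cutoff -/

lemma affine_cut_continuous (R : ℝ) : Continuous (cut R : E d → ℝ) := by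
  unfold cut
  fun_prop

lemma affine_cut_nonneg (R : ℝ) (y : E d) : 0 ≤ cut R y := le_max_left _ _

lemma affine_cut_le_one (R : ℝ) (y : E d) : cut R y ≤ 1 :=
  max_le zero_le_one (min_le_left _ _)

lemma affine_abs_cut_le (R : ℝ) (y : E d) : |cut R y| ≤ 1 := by
  rw [abs_of_nonneg (affine_cut_nonneg R y)]; exact affine_cut_le_one R y

lemma affine_cut_eq_one {R : ℝ} (hR : 0 < R) {y : E d} (h : ‖y‖ ≤ R) : cut R y = 1 := by
  unfold cut
  have h1 : ‖y‖ / R ≤ 1 := (div_le_one hR).2 h
  rw [min_eq_left (by linarith), max_eq_right zero_le_one]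

lemma affine_cut_eq_zero {R : ℝ} (hR : 0 < R) {y : E d} (h : 2 * R ≤ ‖y‖) : cut R y = 0 := by
  unfold cut
  have h1 : 2 ≤ ‖y‖ / R := (le_div_iff₀ hR).2 h
  exact max_eq_left ((min_le_right _ _).trans (by linarith))

/-! ### the limit measure -/

section Limit

variable {C c cl cu : ℝ} {S : BSeq n d C c}

lemma affine_adj_V (L : BLim S cl cu) (v : E n) : adjU L.V (L.V v) = v := adjU_U L.V v

lemma affine_integral_sigma (L : BLim S cl cu) (hcl : 0 < cl) {F : E d → ℝ} (hF : Continuous F) :
    ∫ y, F y ∂L.σ = L.c0 * ∫ v, F (L.V v) := by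
  have hc0 : 0 ≤ L.c0 := hcl.le.trans L.hcl
  rw [L.hσ, integral_smul_measure, ENNReal.toReal_ofReal hc0, smul_eq_mul]
  rw [integral_map L.V.continuous.aemeasurable hF.aestronglyMeasurable]

/-- basic sup bound for the functional `ell` -/
lemma affine_ell_sup (L : BLim S cl cu) (hcl : 0 < cl) {Φ : E d → ℝ} (hΦ : Continuous Φ) {R : ℝ}
    (hR : 1 ≤ R) (hs : ∀ y, R ≤ ‖y‖ → Φ y = 0) {b : ℝ}
    (hb : ∀ w, |Φ (L.V w)| ≤ b) :
    ‖S.ell Φ‖ ^ 2 ≤ (cu * (b ^ 2 * volume.real (ball (0 : E n) R))) * R ^ (n + 3) := by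
  have hc0 : 0 ≤ L.c0 := hcl.le.trans L.hcl
  have hb0 : 0 ≤ b := (abs_nonneg _).trans (hb 0)
  refine (ell_bound L hΦ hR hs).trans ?_
  refine mul_le_mul_of_nonneg_right ?_ (by positivity)
  rw [affine_integral_sigma L hcl (by fun_prop)]
  have h1 : ∫ v, Φ (L.V v) ^ 2 ≤ b ^ 2 * volume.real (ball (0 : E n) R) := by
    have e1 : ∫ v, Φ (L.V v) ^ 2 = ∫ v in ball (0 : E n) R, Φ (L.V v) ^ 2 := by
      rw [setIntegral_eq_integral_of_forall_compl_eq_zero]
      intro v hv
      have : R ≤ ‖L.V v‖ := by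
        rw [L.V.norm_map]
        simpa using hv
      rw [hs _ this]; norm_num
    rw [e1]
    have h2 : ∫ v in ball (0 : E n) R, Φ (L.V v) ^ 2 ≤ ∫ v in ball (0 : E n) R, b ^ 2 := by
      refine setIntegral_mono_on ?_ ?_ measurableSet_ball ?_
      · refine Measure.integrableOn_of_bounded (M := b ^ 2) measure_ball_lt_top.ne ?_ ?_
        · exact (by fun_prop : Continuous fun v => Φ (L.V v) ^ 2).aestronglyMeasurable
        · refine Eventually.of_forall fun v => ?_
          rw [norm_pow, Real.norm_eq_abs]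
          exact pow_le_pow_left₀ (abs_nonneg _) (hb v) 2
      · exact integrableOn_const measure_ball_lt_top.ne
      · intro v _
        rw [← sq_abs]
        exact pow_le_pow_left₀ (abs_nonneg _) (hb v) 2
    refine h2.trans (le_of_eq ?_)
    rw [setIntegral_const, smul_eq_mul, mul_comm]
  calc L.c0 * ∫ v, Φ (L.V v) ^ 2 ≤ L.c0 * (b ^ 2 * volume.real (ball (0 : E n) R)) := by gcongr
    _ ≤ cu * (b ^ 2 * volume.real (ball (0 : E n) R)) := by
        have := L.hcu
        gcongr

lemma affine_ell_eq_zero (L : BLim S cl cu) (hcl : 0 < cl) {Φ : E d → ℝ} (hΦ : Continuous Φ)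
    {R : ℝ} (hR : 1 ≤ R) (hs : ∀ y, R ≤ ‖y‖ → Φ y = 0) (hb : ∀ w, Φ (L.V w) = 0) :
    S.ell Φ = 0 := by
  have := affine_ell_sup L hcl hΦ hR hs (b := 0) (fun w => by rw [hb w, abs_zero])
  have h2 : ‖S.ell Φ‖ ^ 2 ≤ 0 := by simpa using this
  have h3 : ‖S.ell Φ‖ = 0 := by nlinarith [norm_nonneg (S.ell Φ)]
  exact norm_eq_zero.1 h3

lemma affine_hcs {Φ : E d → ℝ} {R : ℝ} (hs : ∀ y, R ≤ ‖y‖ → Φ y = 0) : HasCompactSupport Φ := by
  refine HasCompactSupport.intro (isCompact_closedBall (0 : E d) R) fun y hy => hs y ?_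
  simp only [mem_closedBall, dist_zero_right, not_le] at hy
  exact hy.le

lemma affine_cut_mul_zero {R : ℝ} (hR : 0 < R) (f : E d → ℝ) (y : E d) (hy : 2 * R ≤ ‖y‖) :
    cut R y * f y = 0 := by
  rw [affine_cut_eq_zero hR hy, zero_mul]

lemma affine_cm_cont (R : ℝ) (f : E d →ᵇ ℝ) : Continuous (fun y => cut R y * f y) :=
  (affine_cut_continuous R).mul f.continuous

/-- the functional `f ↦ ell (cut R f)` on bounded continuous functions -/
noncomputable def affT (L : BLim S cl cu) (hcl : 0 < cl) (R : ℝ) (hR : 1 ≤ R) :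
    (E d →ᵇ ℝ) →L[ℝ] E d :=
  LinearMap.mkContinuous
    { toFun := fun f => S.ell (fun y => cut R y * f y)
      map_add' := fun f g => by
        have hR0 : 0 < R := by linarith
        rw [← ell_add S (affine_cm_cont R f)
          (affine_hcs (affine_cut_mul_zero hR0 f)) (affine_cm_cont R g)
          (affine_hcs (affine_cut_mul_zero hR0 g))]
        congr 1
        funext y
        simp [mul_add]
      map_smul' := fun a f => by
        have hR0 : 0 < R := by linarith
        have := ell_smul S (affine_cm_cont R f)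
          (affine_hcs (affine_cut_mul_zero hR0 f)) a
        simp only [RingHom.id_apply]
        rw [← this]
        congr 1
        funext y
        simp only [BoundedContinuousFunction.coe_smul, smul_eq_mul]
        ring }
    (Real.sqrt ((cu * volume.real (ball (0 : E n) (2 * R))) * (2 * R) ^ (n + 3)))
    (fun f => by
      have hR0 : 0 < R := by linarith
      have hcu : 0 ≤ cu := (hcl.le.trans L.hcl).trans L.hcu
      have h := affine_ell_sup L hcl (affine_cm_cont R f)
        (R := 2 * R) (by linarith) (affine_cut_mul_zero hR0 f) (b := ‖f‖) (fun w => by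
          rw [abs_mul]
          calc |cut R (L.V w)| * |f (L.V w)| ≤ 1 * ‖f‖ :=
                mul_le_mul (affine_abs_cut_le _ _) (f.norm_coe_le_norm _) (abs_nonneg _)
                  zero_le_one
            _ = ‖f‖ := one_mul _)
      show ‖S.ell (fun y => cut R y * f y)‖ ≤ _
      refine abs_le_of_sq_le_sq' ?_ (by positivity) |>.2
      rw [mul_pow, Real.sq_sqrt (by positivity)]
      refine h.trans (le_of_eq ?_)
      ring)

lemma affT_apply (L : BLim S cl cu) (hcl : 0 < cl) (R : ℝ) (hR : 1 ≤ R) (f : E d →ᵇ ℝ) :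
    affT L hcl R hR f = S.ell (fun y => cut R y * f y) := rfl

end Limit

/-! ### translates -/

section Tau

variable (π : E d →L[ℝ] E n)

/-- the bounded continuous function `y ↦ θ (v - π y)` -/
noncomputable def affTau {θ : E n → ℝ} (hθ : Continuous θ) (hc : HasCompactSupport θ) (v : E n) :
    E d →ᵇ ℝ :=
  BoundedContinuousFunction.ofNormedAddCommGroup (fun y => θ (v - π y))
    (hθ.comp (continuous_const.sub π.continuous)) (hc.exists_bound_of_continuous hθ).choose
    (fun _ => (hc.exists_bound_of_continuous hθ).choose_spec _)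

lemma affTau_apply {θ : E n → ℝ} (hθ : Continuous θ) (hc : HasCompactSupport θ) (v : E n)
    (y : E d) : affTau π hθ hc v y = θ (v - π y) := rfl

lemma affTau_lip {θ : E n → ℝ} (hθ : Continuous θ) (hc : HasCompactSupport θ) {K : ℝ≥0}
    (hK : LipschitzWith K θ) : LipschitzWith K (affTau π hθ hc) := by
  refine LipschitzWith.of_dist_le_mul fun v v' => ?_
  refine (BoundedContinuousFunction.dist_le (by positivity)).2 fun y => ?_
  rw [affTau_apply, affTau_apply]
  refine (hK.dist_le_mul _ _).trans (le_of_eq ?_)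
  rw [dist_sub_right]

/-- `f (v) = T (θ(v - π ·))` is `C^1` for `θ` of class `C^2` -/
lemma affTau_contDiff {F : Type*} [NormedAddCommGroup F] [NormedSpace ℝ F]
    (T : (E d →ᵇ ℝ) →L[ℝ] F) {η : E n → ℝ} (hη : ContDiff ℝ 2 η) (hc : HasCompactSupport η) :
    ContDiff ℝ 1 (fun v => T (affTau π hη.continuous hc v)) := by
  have hD : ContDiff ℝ 1 (fderiv ℝ η) := hη.fderiv_right (by norm_num)
  have hDc : HasCompactSupport (fderiv ℝ η) := hc.fderiv (𝕜 := ℝ)
  obtain ⟨K, hK⟩ := hD.lipschitzWith_of_hasCompactSupport hDc (by norm_num)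
  have hzc : ∀ z : E n, Continuous fun x => fderiv ℝ η x z := fun z =>
    hD.continuous.clm_apply continuous_const
  have hzs : ∀ z : E n, HasCompactSupport fun x => fderiv ℝ η x z := fun z =>
    hc.fderiv_apply (𝕜 := ℝ) z
  -- the derivative
  let f' : E n → (E n →L[ℝ] F) := fun v => LinearMap.toContinuousLinearMap
    { toFun := fun z => T (affTau π (hzc z) (hzs z) v)
      map_add' := fun z z' => by
        rw [← map_add]
        congr 1
        ext y
        simp [affTau_apply]
      map_smul' := fun a z => by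
        rw [RingHom.id_apply, ← map_smul]
        congr 1
        ext y
        simp [affTau_apply] }
  have hf' : ∀ v z, f' v z = T (affTau π (hzc z) (hzs z) v) := fun v z => rfl
  have hTn : 0 ≤ ‖T‖ := norm_nonneg T
  refine contDiff_one_iff_hasFDerivAt.2 ⟨f', ?_, ?_⟩
  · have : LipschitzWith (Real.toNNReal (‖T‖ * K)) f' := by
      refine LipschitzWith.of_dist_le_mul fun v v' => ?_
      rw [dist_eq_norm, Real.coe_toNNReal _ (by positivity)]
      refine ContinuousLinearMap.opNorm_le_bound _ (by positivity) fun z => ?_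
      rw [_root_.sub_apply, hf', hf', ← map_sub]
      refine (T.le_opNorm _).trans ?_
      have : ‖affTau π (hzc z) (hzs z) v - affTau π (hzc z) (hzs z) v'‖ ≤
          K * dist v v' * ‖z‖ := by
        refine (BoundedContinuousFunction.norm_le (by positivity)).2 fun y => ?_
        rw [BoundedContinuousFunction.coe_sub, Pi.sub_apply, affTau_apply, affTau_apply,
          ← _root_.sub_apply]
        refine (ContinuousLinearMap.le_opNorm _ _).trans ?_
        gcongr
        rw [← dist_eq_norm]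
        refine (hK.dist_le_mul _ _).trans (le_of_eq ?_)
        rw [dist_sub_right]
      calc ‖T‖ * _ ≤ ‖T‖ * (K * dist v v' * ‖z‖) := by gcongr
        _ = _ := by ring
    exact this.continuous
  · intro v
    rw [hasFDerivAt_iff_isLittleO_nhds_zero]
    have hb : (fun h => T (affTau π hη.continuous hc (v + h)) -
        T (affTau π hη.continuous hc v) - f' v h) =O[𝓝 0] fun h => ‖h‖ ^ 2 := by
      refine Asymptotics.IsBigO.of_bound (‖T‖ * K) (Eventually.of_forall fun h => ?_)
      rw [hf', ← map_sub, ← map_sub]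
      refine (T.le_opNorm _).trans ?_
      rw [norm_pow, norm_norm, mul_assoc]
      refine mul_le_mul_of_nonneg_left ?_ hTn
      refine (BoundedContinuousFunction.norm_le (by positivity)).2 fun y => ?_
      simp only [BoundedContinuousFunction.coe_sub, Pi.sub_apply, affTau_apply]
      have hmv := Convex.norm_image_sub_le_of_norm_hasFDerivWithin_le' (f := η)
        (f' := fderiv ℝ η) (φ := fderiv ℝ η (v - π y)) (s := segment ℝ (v - π y) (v + h - π y))
        (C := K * ‖h‖) (x := v - π y) (y := v + h - π y)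
        (fun x _ => ((hη.differentiable (by norm_num)) x).hasFDerivAt.hasFDerivWithinAt)
        (fun x hx => by
          rw [← dist_eq_norm]
          refine (hK.dist_le_mul _ _).trans ?_
          gcongr
          obtain ⟨a, b, ha, hb, hab, rfl⟩ := hx
          have : a • (v - π y) + b • (v + h - π y) - (v - π y) = b • h := by
            have : a = 1 - b := by linarith
            subst this
            module
          rw [dist_eq_norm, this, norm_smul, Real.norm_eq_abs, abs_of_nonneg hb]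
          have : b ≤ 1 := by linarith
          nlinarith only [norm_nonneg h, this])
        (convex_segment _ _) (left_mem_segment ℝ _ _) (right_mem_segment ℝ _ _)
      have e : v + h - π y - (v - π y) = h := by abel
      rw [e] at hmv
      refine hmv.trans (le_of_eq ?_)
      ring
    exact hb.trans_isLittleO (Asymptotics.isLittleO_norm_pow_id (by norm_num))

end Tau

/-! ### the mollified limit -/

section W

variable {C c cl cu : ℝ} {S : BSeq n d C c}

lemma affine_ell_congr (L : BLim S cl cu) (hcl : 0 < cl) {Φ Ψ : E d → ℝ} (hΦ : Continuous Φ)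
    (hΨ : Continuous Ψ) {R : ℝ} (hR : 1 ≤ R) (hs : ∀ y, R ≤ ‖y‖ → Φ y = 0)
    (hs' : ∀ y, R ≤ ‖y‖ → Ψ y = 0) (hb : ∀ w, Φ (L.V w) = Ψ (L.V w)) :
    S.ell Φ = S.ell Ψ := by
  have h1 : S.ell (fun y => Φ y + (-1) * Ψ y) = 0 := by
    refine affine_ell_eq_zero L hcl (by fun_prop) hR (fun y hy => ?_) (fun w => ?_)
    · rw [hs y hy, hs' y hy]; norm_num
    · rw [hb w]; ring
  have h2 := ell_add S hΦ (affine_hcs hs) (Ψ := fun y => (-1) * Ψ y) (by fun_prop)
    (affine_hcs (R := R) fun y hy => by rw [hs' y hy]; norm_num)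
  rw [h1, ell_smul S hΨ (affine_hcs hs')] at h2
  have h3 : S.ell Φ - S.ell Ψ = 0 := by
    rw [h2]; module
  exact sub_eq_zero.1 h3

/-- the mollified limit -/
noncomputable def affW (L : BLim S cl cu) (η : E n → ℝ) (v : E n) : E d :=
  S.ell (fun y => cut (‖v‖ + 1) y * η (v - adjU L.V y))

lemma affW_eq (L : BLim S cl cu) (hcl : 0 < cl) {η : E n → ℝ} (hη : Continuous η)
    (hs : ∀ v, 1 < ‖v‖ → η v = 0) {v : E n} {R : ℝ} (hR : ‖v‖ + 1 ≤ R) :
    S.ell (fun y => cut R y * η (v - adjU L.V y)) = affW L η v := by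
  have hv : 0 ≤ ‖v‖ := norm_nonneg v
  have hcont : ∀ R' : ℝ, Continuous fun y : E d => cut R' y * η (v - adjU L.V y) := fun R' =>
    (affine_cut_continuous R').mul (hη.comp (continuous_const.sub (adjU L.V).continuous))
  refine affine_ell_congr L hcl (hcont _) (hcont _) (R := 2 * R) (by linarith) (fun y hy => ?_)
    (fun y hy => ?_) (fun w => ?_)
  · rw [affine_cut_eq_zero (by linarith) hy, zero_mul]
  · rw [affine_cut_eq_zero (by linarith) (by linarith), zero_mul]
  · simp only [affine_adj_V]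
    by_cases hw : ‖w‖ ≤ ‖v‖ + 1
    · rw [affine_cut_eq_one (by linarith) (by rw [L.V.norm_map]; linarith),
        affine_cut_eq_one (by linarith) (by rw [L.V.norm_map]; linarith)]
    · push Not at hw
      have : 1 < ‖v - w‖ := by
        have := norm_sub_norm_le w v
        rw [norm_sub_rev] at this
        linarith
      rw [hs _ this, mul_zero, mul_zero]

lemma affine_hcs' {η : E n → ℝ} (hs : ∀ v, 1 < ‖v‖ → η v = 0) : HasCompactSupport η := by
  refine HasCompactSupport.intro (isCompact_closedBall (0 : E n) 1) fun y hy => hs y ?_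
  simpa using hy

lemma affW_eq_T (L : BLim S cl cu) (hcl : 0 < cl) {η : E n → ℝ} (hη : Continuous η)
    (hs : ∀ v, 1 < ‖v‖ → η v = 0) {v : E n} {R : ℝ} (hR1 : 1 ≤ R) (hR : ‖v‖ + 1 ≤ R) :
    affW L η v = affT L hcl R hR1 (affTau (adjU L.V) hη (affine_hcs' hs) v) := by
  rw [affT_apply, ← affW_eq L hcl hη hs hR]
  rfl

lemma affW_contDiff (L : BLim S cl cu) (hcl : 0 < cl) {η : E n → ℝ} (hη : ContDiff ℝ 2 η)
    (hs : ∀ v, 1 < ‖v‖ → η v = 0) : ContDiff ℝ 1 (affW L η) := by
  refine contDiff_iff_contDiffAt.2 fun v0 => ?_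
  have hR1 : 1 ≤ ‖v0‖ + 2 := by linarith [norm_nonneg v0]
  have h1 := (affTau_contDiff (adjU L.V) (affT L hcl (‖v0‖ + 2) hR1) hη
    (affine_hcs' hs)).contDiffAt (x := v0)
  refine h1.congr_of_eventuallyEq ?_
  filter_upwards [ball_mem_nhds v0 one_pos] with v hv
  refine affW_eq_T L hcl hη.continuous hs hR1 ?_
  have : ‖v‖ ≤ ‖v0‖ + ‖v - v0‖ := by
    have := norm_add_le v0 (v - v0)
    simpa using this
  have h2 : ‖v - v0‖ < 1 := by simpa [dist_eq_norm] using hv
  linarith

/-- pairing of `affW` with a function on a ball -/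
lemma affW_pairing (L : BLim S cl cu) (hcl : 0 < cl) {η : E n → ℝ} (hη : ContDiff ℝ 2 η)
    (hs : ∀ v, 1 < ‖v‖ → η v = 0) (g : E n → ℝ) (hg : Continuous g) {ρ R : ℝ} (hR1 : 1 ≤ R)
    (hR : ρ + 1 ≤ R) (i : Fin d) :
    Continuous (fun y : E d => ∫ v in ball (0 : E n) ρ, g v * η (v - adjU L.V y)) ∧
    ∫ v in ball (0 : E n) ρ, g v * affW L η v i =
      S.ell (fun y => cut R y * ∫ v in ball (0 : E n) ρ, g v * η (v - adjU L.V y)) i := by
  set τ := affTau (adjU L.V) hη.continuous (affine_hcs' hs) with hτ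
  obtain ⟨K, hK⟩ := hη.lipschitzWith_of_hasCompactSupport (affine_hcs' hs) (by norm_num)
  have hτc : Continuous τ := (affTau_lip (adjU L.V) hη.continuous (affine_hcs' hs) hK).continuous
  have hint : IntegrableOn (fun v => g v • τ v) (ball (0 : E n) ρ) :=
    ((hg.smul hτc).continuousOn.integrableOn_compact (isCompact_closedBall 0 ρ)).mono_set
      ball_subset_closedBall
  set G : E d →ᵇ ℝ := ∫ v in ball (0 : E n) ρ, g v • τ v with hG
  have hGy : ∀ y, G y = ∫ v in ball (0 : E n) ρ, g v * η (v - adjU L.V y) := by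
    intro y
    have := ContinuousLinearMap.integral_comp_comm
      (BoundedContinuousFunction.evalCLM (β := ℝ) ℝ y) hint
    rw [← hG] at this
    exact this.symm
  have hfun : (fun y : E d => ∫ v in ball (0 : E n) ρ, g v * η (v - adjU L.V y)) = G :=
    funext fun y => (hGy y).symm
  refine ⟨hfun ▸ G.continuous, ?_⟩
  have h2 : S.ell (fun y => cut R y * ∫ v in ball (0 : E n) ρ, g v * η (v - adjU L.V y)) =
      affT L hcl R hR1 G := by
    rw [affT_apply]
    congr 1
    funext y
    rw [hGy]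
  rw [h2]
  have h3 := ContinuousLinearMap.integral_comp_comm
    ((EuclideanSpace.proj (𝕜 := ℝ) i : E d →L[ℝ] ℝ).comp (affT L hcl R hR1)) hint
  rw [← hG] at h3
  have h4 : (((EuclideanSpace.proj (𝕜 := ℝ) i : E d →L[ℝ] ℝ).comp (affT L hcl R hR1)) G) =
      affT L hcl R hR1 G i := rfl
  rw [← h4, ← h3]
  refine setIntegral_congr_fun measurableSet_ball fun v hv => ?_
  have hv' : ‖v‖ < ρ := by simpa using hv
  simp only [ContinuousLinearMap.map_smul, smul_eq_mul]
  rw [affW_eq_T L hcl hη.continuous hs hR1 (by linarith)]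
  rfl

/-- Jensen on a ball -/
lemma affine_jensen {η w : E n → ℝ} (hη : Continuous η) (h0 : ∀ v, 0 ≤ η v)
    (hs : ∀ v, 1 < ‖v‖ → η v = 0) (h1 : ∫ v, η v = 1) (hw : Continuous w) (ρ : ℝ) (x : E n) :
    (∫ v in ball (0 : E n) ρ, w v * η (v - x)) ^ 2 ≤
      ∫ v in ball (0 : E n) ρ, w v ^ 2 * η (v - x) := by
  set m := ∫ v in ball (0 : E n) ρ, w v * η (v - x) with hm
  have hic : ∀ f : E n → ℝ, Continuous f → IntegrableOn f (ball (0 : E n) ρ) := fun f hf =>
    (hf.continuousOn.integrableOn_compact (isCompact_closedBall 0 ρ)).mono_set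
      ball_subset_closedBall
  have hcη : Continuous fun v => η (v - x) := hη.comp (continuous_id.sub continuous_const)
  have i1 : IntegrableOn (fun v => w v * η (v - x)) (ball (0 : E n) ρ) := hic _ (hw.mul hcη)
  have i2 : IntegrableOn (fun v => w v ^ 2 * η (v - x)) (ball (0 : E n) ρ) :=
    hic _ ((hw.pow 2).mul hcη)
  have i3 : IntegrableOn (fun v => η (v - x)) (ball (0 : E n) ρ) := hic _ hcη
  have hle : ∫ v in ball (0 : E n) ρ, η (v - x) ≤ 1 := by
    rw [← h1, ← integral_sub_right_eq_self η x]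
    refine setIntegral_le_integral ?_ (Eventually.of_forall fun v => h0 _)
    have hi : Integrable η := hη.integrable_of_hasCompactSupport (affine_hcs' hs)
    exact hi.comp_sub_right x
  have hpos : 0 ≤ ∫ v in ball (0 : E n) ρ, (w v - m) ^ 2 * η (v - x) :=
    integral_nonneg fun v => mul_nonneg (sq_nonneg _) (h0 _)
  have e : ∫ v in ball (0 : E n) ρ, (w v - m) ^ 2 * η (v - x) =
      (∫ v in ball (0 : E n) ρ, w v ^ 2 * η (v - x)) - 2 * m * m +
        m ^ 2 * ∫ v in ball (0 : E n) ρ, η (v - x) := by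
    have e1 : (fun v => (w v - m) ^ 2 * η (v - x)) = fun v =>
        (w v ^ 2 * η (v - x) - 2 * m * (w v * η (v - x))) + m ^ 2 * η (v - x) := by
      funext v; ring
    have i4 : IntegrableOn (fun v => 2 * m * (w v * η (v - x))) (ball (0 : E n) ρ) :=
      i1.const_mul _
    have i5 : IntegrableOn (fun v => w v ^ 2 * η (v - x) - 2 * m * (w v * η (v - x)))
      (ball (0 : E n) ρ) := i2.sub i4
    rw [e1, integral_add i5 (i3.const_mul _),
      integral_sub i2 i4, integral_const_mul, integral_const_mul, ← hm]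
  rw [e] at hpos
  linarith only [sq_nonneg m, mul_le_mul_of_nonneg_left hle (sq_nonneg m), hpos]

/-- Young's inequality in the form needed -/
lemma affine_young {η w u : E n → ℝ} (hη : Continuous η) (h0 : ∀ v, 0 ≤ η v)
    (hs : ∀ v, 1 < ‖v‖ → η v = 0) (h1 : ∫ v, η v = 1) (hw : Continuous w) (ρ : ℝ)
    (hu : Integrable fun x => u x ^ 2)
    (hle : ∀ x, u x ^ 2 ≤ (∫ v in ball (0 : E n) ρ, w v * η (v - x)) ^ 2) :
    ∫ x : E n, u x ^ 2 ≤ ∫ v in ball (0 : E n) ρ, w v ^ 2 := by
  set g2 : E n → ℝ := (ball (0 : E n) ρ).indicator (fun v => w v ^ 2) with hg2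
  set ηn : E n → ℝ := fun x => η (-x) with hηn
  have hi1 : Integrable g2 := by
    rw [hg2, integrable_indicator_iff measurableSet_ball]
    exact ((hw.pow 2).continuousOn.integrableOn_compact (isCompact_closedBall 0 ρ)).mono_set
      ball_subset_closedBall
  have hηnc : Continuous ηn := hη.comp continuous_neg
  have hηns : HasCompactSupport ηn := affine_hcs' fun v hv => hs _ (by rwa [norm_neg])
  have hi2 : Integrable ηn := hηnc.integrable_of_hasCompactSupport hηns
  have hce : ∀ x, (convolution g2 ηn (ContinuousLinearMap.mul ℝ ℝ) volume) x =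
      ∫ v in ball (0 : E n) ρ, w v ^ 2 * η (v - x) := by
    intro x
    rw [convolution_def, ← integral_indicator measurableSet_ball]
    congr 1
    funext v
    simp only [ContinuousLinearMap.mul_apply', hg2, hηn, neg_sub]
    by_cases hv : v ∈ ball (0 : E n) ρ
    · rw [indicator_of_mem hv, indicator_of_mem hv]
    · rw [indicator_of_notMem hv, indicator_of_notMem hv, zero_mul]
  have hctot : ∫ x, (convolution g2 ηn (ContinuousLinearMap.mul ℝ ℝ) volume) x =
      ∫ v in ball (0 : E n) ρ, w v ^ 2 := by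
    rw [integral_convolution _ hi1 hi2, ContinuousLinearMap.mul_apply', hg2,
      integral_indicator measurableSet_ball, hηn, integral_neg_eq_self η volume, h1, mul_one]
  rw [← hctot]
  refine integral_mono hu (Integrable.integrable_convolution _ hi1 hi2) fun x => ?_
  simp only [hce x]
  exact (hle x).trans (affine_jensen hη h0 hs h1 hw ρ x)

lemma affW_growth (L : BLim S cl cu) (hcl : 0 < cl) {η : E n → ℝ} (hη : ContDiff ℝ 2 η)
    (h0 : ∀ v, 0 ≤ η v) (hs : ∀ v, 1 < ‖v‖ → η v = 0) (h1 : ∫ v, η v = 1) (i : Fin d) {ρ : ℝ}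
    (hρ : 1 ≤ ρ) :
    ∫ v in ball (0 : E n) ρ, (affW L η v i) ^ 2 ≤ cu * (2 * (ρ + 1)) ^ (n + 3) := by
  have hc0 : 0 ≤ L.c0 := hcl.le.trans L.hcl
  have hcu : 0 ≤ cu := hc0.trans L.hcu
  have hWc : Continuous (affW L η) := (affW_contDiff L hcl hη hs).continuous
  set w : E n → ℝ := fun v => affW L η v i with hwdef
  have hw : Continuous w := by
    rw [hwdef]
    exact (EuclideanSpace.proj (𝕜 := ℝ) i : E d →L[ℝ] ℝ).continuous.comp hWc
  obtain ⟨hGc, hp⟩ := affW_pairing L hcl hη hs w hw (ρ := ρ) (R := ρ + 1) (by linarith) le_rfl i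
  set G : E d → ℝ := fun y => ∫ v in ball (0 : E n) ρ, w v * η (v - adjU L.V y) with hG
  set X := ∫ v in ball (0 : E n) ρ, w v ^ 2 with hX
  have hX0 : 0 ≤ X := integral_nonneg fun v => sq_nonneg _
  have hXe : X = S.ell (fun y => cut (ρ + 1) y * G y) i := by
    rw [← hp, hX]
    refine setIntegral_congr_fun measurableSet_ball fun v _ => ?_
    show w v ^ 2 = w v * w v
    ring
  have hb := ell_bound L (Φ := fun y => cut (ρ + 1) y * G y)
    ((affine_cut_continuous _).mul hGc) (R := 2 * (ρ + 1)) (by linarith)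
    (fun y hy => affine_cut_mul_zero (by linarith) G y hy)
  rw [affine_integral_sigma L hcl (by
    exact ((affine_cut_continuous _).mul hGc).pow 2)] at hb
  have hcoord : X ^ 2 ≤ ‖S.ell (fun y => cut (ρ + 1) y * G y)‖ ^ 2 := by
    rw [hXe, ← sq_abs, ← Real.norm_eq_abs]
    exact pow_le_pow_left₀ (norm_nonneg _) (PiLp.norm_apply_le _ i) 2
  have hkey : ∫ x : E n, (cut (ρ + 1) (L.V x) * G (L.V x)) ^ 2 ≤ X := by
    refine affine_young hη.continuous h0 hs h1 hw ρ ?_ fun x => ?_
    · refine Continuous.integrable_of_hasCompactSupport ?_ ?_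
      · exact (((affine_cut_continuous _).mul hGc).comp L.V.continuous).pow 2
      · refine HasCompactSupport.intro (isCompact_closedBall (0 : E n) (2 * (ρ + 1)))
          fun x hx => ?_
        have hx' : 2 * (ρ + 1) ≤ ‖L.V x‖ := by
          rw [L.V.norm_map]
          simp only [mem_closedBall, dist_zero_right, not_le] at hx
          exact hx.le
        rw [affine_cut_mul_zero (by linarith) G _ hx']
        norm_num
    · have hGx : G (L.V x) = ∫ v in ball (0 : E n) ρ, w v * η (v - x) := by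
        rw [hG]; simp only [affine_adj_V]
      rw [← hGx, mul_pow]
      have : cut (ρ + 1) (L.V x) ^ 2 ≤ 1 :=
        pow_le_one₀ (affine_cut_nonneg _ _) (affine_cut_le_one _ _)
      nlinarith only [sq_nonneg (G (L.V x)), this]
  have hfin : X ^ 2 ≤ cu * X * (2 * (ρ + 1)) ^ (n + 3) := by
    refine (hcoord.trans hb).trans ?_
    have hP : 0 ≤ (2 * (ρ + 1)) ^ (n + 3) := by positivity
    refine mul_le_mul_of_nonneg_right ?_ hP
    exact (mul_le_mul_of_nonneg_left hkey hc0).trans (mul_le_mul_of_nonneg_right L.hcu hX0)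
  rcases hX0.eq_or_lt with h | h
  · rw [← h]; positivity
  · have : X * X ≤ (cu * (2 * (ρ + 1)) ^ (n + 3)) * X := by linarith only [hfin]
    exact le_of_mul_le_mul_right this h

lemma affine_vol_ball (R : ℝ) (hR : 0 < R) :
    volume.real (ball (0 : E n) R) = R ^ n * volume.real (ball (0 : E n) 1) := by
  rw [Measure.real, Measure.addHaar_ball_of_pos _ _ hR, ENNReal.toReal_mul,
    ENNReal.toReal_ofReal (by positivity)]
  simp [Measure.real]

lemma affW_eqn (hn : 1 ≤ n) (hC : 0 < C) (hc : 0 < c) (hcl : 0 < cl) (L : BLim S cl cu)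
    {η : E n → ℝ} (hη : ContDiff ℝ 4 η) (h0 : ∀ v, 0 ≤ η v) (hs : ∀ v, 1 < ‖v‖ → η v = 0)
    (h1 : ∫ v, η v = 1) (i : Fin d) (φ : E n → ℝ) (hφ : ContDiff ℝ 3 φ)
    (hφc : HasCompactSupport φ) (hφ0 : ∫ v, φ v = 0) :
    ∫ v, affW L η v i * Lop n φ v = 0 := by
  by_cases hint : Integrable (fun v => affW L η v i * Lop n φ v)
  swap
  · exact integral_undef hint
  have hφ2 : ContDiff ℝ 2 φ := hφ.of_le (by norm_num)
  have hη2 : ContDiff ℝ 2 η := hη.of_le (by norm_num)
  have hLc : Continuous (Lop n φ) := Lop_continuous n hn φ hφ2 hφc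
  obtain ⟨A, hA⟩ := Lop_decay_zero n hn φ hφ2 hφc hφ0
  have hA0 : 0 ≤ A := by
    have := (abs_nonneg _).trans (hA 0)
    simpa using this
  -- the convolution
  set ηn : E n → ℝ := fun x => η (-x) with hηn
  have hηnc : Continuous ηn := hη.continuous.comp continuous_neg
  have hηns : HasCompactSupport ηn := affine_hcs' fun v hv => hs _ (by rwa [norm_neg])
  have hi2 : Integrable ηn := hηnc.integrable_of_hasCompactSupport hηns
  set Φ : E n → ℝ := fun x => ∫ w, ηn w * φ (x - w) with hΦ
  have hΦe : Φ = convolution ηn φ (ContinuousLinearMap.mul ℝ ℝ) volume := rfl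
  have hΦ3 : ContDiff ℝ 3 Φ := by
    rw [hΦe]
    exact hφc.contDiff_convolution_right (n := 3) _ hηnc.locallyIntegrable hφ
  have hΦc : HasCompactSupport Φ := by
    rw [hΦe]
    exact HasCompactSupport.convolution _ hηns hφc
  have hΦ0 : ∫ v, Φ v = 0 := by
    rw [hΦe, integral_convolution _ hi2
      (hφ.continuous.integrable_of_hasCompactSupport hφc), hφ0]
    simp
  have hLΦ : ∀ x, Lop n Φ x = ∫ v, Lop n φ v * η (v - x) := by
    intro x
    rw [hΦ, Lop_conv n hn φ ηn hφ2 hφc hηnc hηns x,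
      ← integral_sub_left_eq_self (fun v => Lop n φ v * η (v - x)) volume x]
    congr 1
    funext w
    simp only [hηn]
    rw [mul_comm, sub_sub_cancel_left]
  have hLΦc : Continuous (Lop n Φ) := Lop_continuous n hn Φ (hΦ3.of_le (by norm_num)) hΦc
  have hw := weak_eq hn hC hc hcl L Φ hΦ3 hΦc hΦ0
  -- integrals over balls
  have hG : ∀ ρ : ℝ, 0 < ρ → Continuous (fun y : E d => ∫ v in ball (0 : E n) ρ,
      Lop n φ v * η (v - adjU L.V y)) ∧ ∫ v in ball (0 : E n) ρ, Lop n φ v * affW L η v i =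
      S.ell (fun y => cut (ρ + 1) y * ∫ v in ball (0 : E n) ρ,
        Lop n φ v * η (v - adjU L.V y)) i := fun ρ hρ =>
    affW_pairing L hcl hη2 hs (Lop n φ) hLc (ρ := ρ) (R := ρ + 1) (by linarith) le_rfl i
  have hiη : ∀ x, Integrable (fun v => Lop n φ v * η (v - x)) := fun x => by
    refine Continuous.integrable_of_hasCompactSupport
      (hLc.mul (hη.continuous.comp (continuous_id.sub continuous_const))) ?_
    refine HasCompactSupport.intro (isCompact_closedBall x 1) fun v hv => ?_
    rw [hs (v - x) (by simpa [dist_eq_norm] using hv), mul_zero]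
  -- the remainder
  have hrem : ∀ ρ : ℝ, 0 < ρ → ‖S.ell (fun y => cut (ρ + 1) y * Lop n Φ (adjU L.V y)) -
      S.ell (fun y => cut (ρ + 1) y * ∫ v in ball (0 : E n) ρ,
        Lop n φ v * η (v - adjU L.V y))‖ ^ 2 ≤
      (cu * A ^ 2 * volume.real (ball (0 : E n) 1) * 2 ^ (2 * n + 3)) * (ρ + 1)⁻¹ := by
    intro ρ hρ
    have hGc := (hG ρ hρ).1
    set G : E d → ℝ := fun y => ∫ v in ball (0 : E n) ρ, Lop n φ v * η (v - adjU L.V y)
      with hGdef
    have hΦπ : Continuous fun y : E d => cut (ρ + 1) y * Lop n Φ (adjU L.V y) :=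
      (affine_cut_continuous _).mul (hLΦc.comp (adjU L.V).continuous)
    have hGπ : Continuous fun y : E d => cut (ρ + 1) y * G y :=
      (affine_cut_continuous _).mul hGc
    have e1 : S.ell (fun y => cut (ρ + 1) y * Lop n Φ (adjU L.V y)) -
        S.ell (fun y => cut (ρ + 1) y * G y) =
        S.ell (fun y => cut (ρ + 1) y * (Lop n Φ (adjU L.V y) - G y)) := by
      have hsm := ell_smul S hGπ
        (affine_hcs (affine_cut_mul_zero (R := ρ + 1) (by linarith) G)) (-1)
      have hadd := ell_add S hΦπ (affine_hcs (affine_cut_mul_zero (R := ρ + 1) (by linarith)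
        (fun y => Lop n Φ (adjU L.V y)))) (Ψ := fun y => (-1) * (cut (ρ + 1) y * G y))
        (continuous_const.mul hGπ)
        (affine_hcs (R := 2 * (ρ + 1)) fun y hy => by
          rw [affine_cut_mul_zero (R := ρ + 1) (by linarith) G y hy, mul_zero])
      rw [hsm] at hadd
      rw [sub_eq_add_neg, ← neg_one_smul ℝ, ← hadd]
      congr 1
      funext y
      ring
    rw [e1]
    have hb := affine_ell_sup L hcl (Φ := fun y => cut (ρ + 1) y *
      (Lop n Φ (adjU L.V y) - G y)) ((affine_cut_continuous _).mul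
        ((hLΦc.comp (adjU L.V).continuous).sub hGc)) (R := 2 * (ρ + 1)) (by linarith)
      (fun y hy => affine_cut_mul_zero (by linarith) (fun y => Lop n Φ (adjU L.V y) - G y) y hy)
      (b := A * ((1 + ρ) ^ (n + 2))⁻¹) (fun x => ?_)
    · refine hb.trans (le_of_eq ?_)
      rw [affine_vol_ball _ (by linarith : (0:ℝ) < 2 * (ρ + 1))]
      have h2 : (0 : ℝ) < ρ + 1 := by linarith
      have h3 : (1 + ρ) = ρ + 1 := by ring
      rw [h3]
      generalize ρ + 1 = t at h2
      simp only [mul_pow]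
      field_simp
      ring
    · rw [abs_mul]
      have hd : |Lop n Φ (adjU L.V (L.V x)) - G (L.V x)| ≤ A * ((1 + ρ) ^ (n + 2))⁻¹ := by
        rw [affine_adj_V, hLΦ x]
        have e2 : G (L.V x) = ∫ v in ball (0 : E n) ρ, Lop n φ v * η (v - x) := by
          rw [hGdef]; simp only [affine_adj_V]
        rw [e2, ← integral_add_compl measurableSet_ball (hiη x), add_sub_cancel_left,
          ← Real.norm_eq_abs]
        refine (norm_integral_le_integral_norm _).trans ?_
        have hηi : Integrable (fun v => η (v - x)) :=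
          (hη.continuous.integrable_of_hasCompactSupport (affine_hcs' hs)).comp_sub_right x
        calc ∫ v in (ball (0 : E n) ρ)ᶜ, ‖Lop n φ v * η (v - x)‖ ≤
            ∫ v in (ball (0 : E n) ρ)ᶜ, (A * ((1 + ρ) ^ (n + 2))⁻¹) * η (v - x) := by
              refine setIntegral_mono_on (hiη x).norm.integrableOn
                (hηi.const_mul _).integrableOn measurableSet_ball.compl fun v hv => ?_
              rw [norm_mul, Real.norm_eq_abs, Real.norm_eq_abs, abs_of_nonneg (h0 _)]
              refine mul_le_mul_of_nonneg_right ((hA v).trans ?_) (h0 _)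
              have hv' : ρ ≤ ‖v‖ := by simpa using hv
              gcongr
          _ ≤ ∫ v, (A * ((1 + ρ) ^ (n + 2))⁻¹) * η (v - x) := by
              refine setIntegral_le_integral (hηi.const_mul _) (Eventually.of_forall fun v => ?_)
              exact mul_nonneg (by positivity) (h0 _)
          _ = A * ((1 + ρ) ^ (n + 2))⁻¹ := by
              rw [integral_const_mul, integral_sub_right_eq_self η x, h1, mul_one]
      calc |cut (ρ + 1) (L.V x)| * |Lop n Φ (adjU L.V (L.V x)) - G (L.V x)| ≤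
          1 * (A * ((1 + ρ) ^ (n + 2))⁻¹) :=
            mul_le_mul (affine_abs_cut_le _ _) hd (abs_nonneg _) zero_le_one
        _ = _ := one_mul _
  -- the limit
  have hshift : Tendsto (fun ρ : ℝ => ρ + 1) atTop atTop :=
    tendsto_atTop_add_const_right _ _ tendsto_id
  have hrem0 : Tendsto (fun ρ : ℝ => S.ell (fun y => cut (ρ + 1) y * Lop n Φ (adjU L.V y)) -
      S.ell (fun y => cut (ρ + 1) y * ∫ v in ball (0 : E n) ρ,
        Lop n φ v * η (v - adjU L.V y))) atTop (𝓝 0) := by
    rw [tendsto_zero_iff_norm_tendsto_zero]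
    have hsq : Tendsto (fun ρ : ℝ => ‖S.ell (fun y => cut (ρ + 1) y * Lop n Φ (adjU L.V y)) -
      S.ell (fun y => cut (ρ + 1) y * ∫ v in ball (0 : E n) ρ,
        Lop n φ v * η (v - adjU L.V y))‖ ^ 2) atTop (𝓝 0) := by
      refine squeeze_zero' (Eventually.of_forall fun ρ => sq_nonneg _)
        ((eventually_gt_atTop 0).mono hrem) ?_
      have := (tendsto_inv_atTop_zero.comp hshift).const_mul
        (cu * A ^ 2 * volume.real (ball (0 : E n) 1) * 2 ^ (2 * n + 3))
      simpa using this
    have h3 := hsq.sqrt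
    simpa [Real.sqrt_sq (norm_nonneg _)] using h3
  have hI0 : Tendsto (fun ρ : ℝ => S.ell (fun y => cut (ρ + 1) y *
      ∫ v in ball (0 : E n) ρ, Lop n φ v * η (v - adjU L.V y))) atTop (𝓝 0) := by
    have := (hw.comp hshift).sub hrem0
    simpa using this
  have hI : Tendsto (fun ρ : ℝ => ∫ v in ball (0 : E n) ρ, affW L η v i * Lop n φ v) atTop
      (𝓝 0) := by
    have h4 : Tendsto (fun ρ : ℝ => S.ell (fun y => cut (ρ + 1) y *
      ∫ v in ball (0 : E n) ρ, Lop n φ v * η (v - adjU L.V y)) i) atTop (𝓝 0) := by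
      have := ((EuclideanSpace.proj (𝕜 := ℝ) i : E d →L[ℝ] ℝ).continuous.tendsto 0).comp hI0
      simpa [Function.comp_def] using this
    refine h4.congr' ?_
    filter_upwards [eventually_gt_atTop 0] with ρ hρ
    rw [← (hG ρ hρ).2]
    refine setIntegral_congr_fun measurableSet_ball fun v _ => ?_
    exact mul_comm _ _
  exact tendsto_nhds_unique
    ((aecover_ball tendsto_id).integral_tendsto_of_countably_generated hint) hI

end W

/-! ### coefficients of affine functions -/

lemma affine_coeff (n : ℕ) (A : ℝ) : ∃ K : ℝ, 0 < K ∧ ∀ (a : ℝ) (B : E n →L[ℝ] ℝ),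
    ∫ v in ball (0 : E n) 1, (a + B v) ^ 2 ≤ A → |a| ≤ K ∧ ‖B‖ ≤ K := by
  set m1 := volume.real (ball (0 : E n) 1) with hm1
  set m4 := volume.real (ball (0 : E n) (1 / 4)) with hm4
  have h1 : 0 < m1 := by
    rw [hm1, Measure.real]
    exact ENNReal.toReal_pos (measure_ball_pos _ _ one_pos).ne' measure_ball_lt_top.ne
  have h4 : 0 < m4 := by
    rw [hm4, Measure.real]
    exact ENNReal.toReal_pos (measure_ball_pos _ _ (by norm_num)).ne' measure_ball_lt_top.ne
  refine ⟨1 + |A| / m1 + 16 * |A| / m4, by positivity, fun a B hB => ?_⟩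
  have hic : ∀ f : E n → ℝ, Continuous f → IntegrableOn f (ball (0 : E n) 1) := fun f hf =>
    (hf.continuousOn.integrableOn_compact (isCompact_closedBall 0 1)).mono_set
      ball_subset_closedBall
  have hsym : ∫ v in ball (0 : E n) 1, (a - B v) ^ 2 = ∫ v in ball (0 : E n) 1, (a + B v) ^ 2 := by
    rw [← integral_indicator measurableSet_ball, ← integral_indicator measurableSet_ball,
      ← integral_neg_eq_self]
    congr 1
    funext v
    by_cases hv : v ∈ ball (0 : E n) 1
    · have hv' : -v ∈ ball (0 : E n) 1 := by simpa using hv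
      rw [indicator_of_mem hv, indicator_of_mem hv', map_neg]
      ring
    · have hv' : -v ∉ ball (0 : E n) 1 := by simpa using hv
      rw [indicator_of_notMem hv, indicator_of_notMem hv']
  have hsum : ∫ v in ball (0 : E n) 1, (a ^ 2 + B v ^ 2) ≤ A := by
    have e : ∫ v in ball (0 : E n) 1, (a ^ 2 + B v ^ 2) =
        (1 / 2) * (∫ v in ball (0 : E n) 1, (a + B v) ^ 2) +
        (1 / 2) * ∫ v in ball (0 : E n) 1, (a - B v) ^ 2 := by
      rw [← integral_const_mul, ← integral_const_mul, ← integral_add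
        ((hic _ (by fun_prop)).const_mul _) ((hic _ (by fun_prop)).const_mul _)]
      congr 1
      funext v
      ring
    rw [e, hsym]
    linarith
  have hA0 : 0 ≤ A := le_trans (integral_nonneg fun v => add_nonneg (sq_nonneg _) (sq_nonneg _)) hsum
  rw [abs_of_nonneg hA0]
  have hsplit : ∫ v in ball (0 : E n) 1, (a ^ 2 + B v ^ 2) =
      a ^ 2 * m1 + ∫ v in ball (0 : E n) 1, B v ^ 2 := by
    rw [integral_add (hic _ (by fun_prop)) (hic _ (by fun_prop)), setIntegral_const, smul_eq_mul,
      mul_comm]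
  have hBi : 0 ≤ ∫ v in ball (0 : E n) 1, B v ^ 2 := integral_nonneg fun v => sq_nonneg _
  have ha : a ^ 2 ≤ A / m1 := by
    rw [le_div_iff₀ h1]
    linarith
  have hBle : ∫ v in ball (0 : E n) 1, B v ^ 2 ≤ A := by
    nlinarith only [sq_nonneg a, h1, hsum, hsplit]
  have hBn : ‖B‖ ^ 2 ≤ 16 * A / m4 := by
    rcases eq_or_ne B 0 with h0 | h0
    · rw [h0, norm_zero, zero_pow two_ne_zero]; positivity
    set b := (InnerProductSpace.toDual ℝ (E n)).symm B with hb
    have hbn : ‖b‖ = ‖B‖ := (InnerProductSpace.toDual ℝ (E n)).symm.norm_map B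
    have hbv : ∀ v, B v = ⟪b, v⟫ := fun v => (InnerProductSpace.toDual_symm_apply).symm
    have hBpos : 0 < ‖B‖ := norm_pos_iff.2 h0
    have hbpos : 0 < ‖b‖ := by rw [hbn]; exact hBpos
    set p := (1 / (2 * ‖b‖)) • b with hp
    have hpn : ‖p‖ = 1 / 2 := by
      rw [hp, norm_smul, Real.norm_eq_abs, abs_of_pos (by positivity)]
      field_simp
    have hsub : ball p (1 / 4) ⊆ ball (0 : E n) 1 := by
      intro v hv
      have h : ‖v - p‖ < 1 / 4 := by simpa [dist_eq_norm] using hv
      have : ‖v‖ ≤ ‖p‖ + ‖v - p‖ := by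
        have := norm_add_le p (v - p)
        simpa using this
      simp only [mem_ball, dist_zero_right]
      linarith
    have hlow : ∀ v ∈ ball p (1 / 4), (‖B‖ / 4) ^ 2 ≤ B v ^ 2 := by
      intro v hv
      have h : ‖v - p‖ < 1 / 4 := by simpa [dist_eq_norm] using hv
      have e : B v = ‖b‖ / 2 + ⟪b, v - p⟫ := by
        rw [hbv, inner_sub_right]
        have : ⟪b, p⟫ = ‖b‖ / 2 := by
          rw [hp, inner_smul_right, real_inner_self_eq_norm_sq]
          field_simp
        rw [this]; ring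
      have h2 : |⟪b, v - p⟫| ≤ ‖b‖ * (1 / 4) :=
        (abs_real_inner_le_norm _ _).trans (by gcongr)
      have h3 := (abs_le.1 h2).1
      have h5 : ‖B‖ / 4 ≤ B v := by rw [e, ← hbn]; linarith
      exact pow_le_pow_left₀ (by positivity) h5 2
    have hsm : (‖B‖ / 4) ^ 2 * m4 ≤ A := by
      have e1 : (‖B‖ / 4) ^ 2 * m4 = ∫ v in ball p (1 / 4), (‖B‖ / 4) ^ 2 := by
        rw [setIntegral_const, smul_eq_mul, mul_comm, hm4]
        congr 1
        rw [Measure.real, Measure.real]
        congr 1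
        exact (Measure.addHaar_ball_center volume _ _).symm
      rw [e1]
      calc ∫ v in ball p (1 / 4), (‖B‖ / 4) ^ 2 ≤ ∫ v in ball p (1 / 4), B v ^ 2 :=
            setIntegral_mono_on (integrableOn_const measure_ball_lt_top.ne)
              ((hic _ (by fun_prop)).mono_set hsub) measurableSet_ball hlow
        _ ≤ ∫ v in ball (0 : E n) 1, B v ^ 2 :=
            setIntegral_mono_set (hic _ (by fun_prop))
              (Eventually.of_forall fun v => sq_nonneg _) hsub.eventuallyLE
        _ ≤ A := hBle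
    rw [le_div_iff₀ h4]
    linarith only [hsm]
  constructor
  · have h5 : |a| ≤ 1 + a ^ 2 := by
      rw [← sq_abs a]; linarith only [sq_nonneg (|a| - 1), abs_nonneg a]
    have : 0 ≤ 16 * A / m4 := by positivity
    linarith
  · have h5 : ‖B‖ ≤ 1 + ‖B‖ ^ 2 := by linarith only [sq_nonneg (‖B‖ - 1), norm_nonneg B]
    have : 0 ≤ A / m1 := by positivity
    linarith

/-- The mollified limit of a blow-up sequence is affine. -/
theorem exists_affine (n d : ℕ) (hn : 1 ≤ n) (C c cl cu : ℝ) (hC : 0 < C) (hc : 0 < c)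
    (hcl : 0 < cl) (hcu : cl ≤ cu) : ∃ CW : ℝ, 0 < CW ∧ ∀ (S : BSeq n d C c) (L : BLim S cl cu)
      (η : E n → ℝ), ContDiff ℝ 4 η → (∀ v, 0 ≤ η v) → (∀ v, 1 < ‖v‖ → η v = 0) →
      ∫ v, η v = 1 → ∃ (a : E d) (B : E n →L[ℝ] E d), ‖a‖ ≤ CW ∧ ‖B‖ ≤ CW ∧
        ∀ (v : E n) (R : ℝ), ‖v‖ + 1 ≤ R →
          S.ell (fun y => cut R y * η (v - adjU L.V y)) = a + B v := by
  obtain ⟨K, hK, hcoef⟩ := affine_coeff n (cu * (2 * (1 + 1)) ^ (n + 3))
  refine ⟨1 + Real.sqrt d * K, by positivity, ?_⟩
  intro S L η hη h0 hs h1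
  have hη2 : ContDiff ℝ 2 η := hη.of_le (by norm_num)
  have hcu0 : 0 < cu := hcl.trans_le hcu
  have hex : ∀ i : Fin d, ∃ (a : ℝ) (B : E n →L[ℝ] ℝ), ∀ v, affW L η v i = a + B v := by
    intro i
    refine flat_liouville n hn (fun v => affW L η v i) ?_ ?_ ?_
    · exact (EuclideanSpace.proj (𝕜 := ℝ) i : E d →L[ℝ] ℝ).contDiff.comp
        (affW_contDiff L hcl hη2 hs)
    · refine ⟨cu * 4 ^ (n + 3), fun R hR => ?_⟩
      refine (affW_growth L hcl hη2 h0 hs h1 i hR).trans ?_
      rw [mul_assoc, ← mul_pow]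
      exact mul_le_mul_of_nonneg_left (pow_le_pow_left₀ (by positivity) (by linarith) _) hcu0.le
    · intro φ hφ hφc hφ0
      exact affW_eqn hn hC hc hcl L hη h0 hs h1 i φ hφ hφc hφ0
  choose a B haB using hex
  have hbd : ∀ i, |a i| ≤ K ∧ ‖B i‖ ≤ K := by
    intro i
    refine hcoef (a i) (B i) ?_
    have h := affW_growth L hcl hη2 h0 hs h1 i (le_refl (1:ℝ))
    refine le_trans (le_of_eq ?_) h
    refine setIntegral_congr_fun measurableSet_ball fun v _ => ?_
    simp only [haB i v]
  let B' : E n →L[ℝ] E d := LinearMap.toContinuousLinearMap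
    { toFun := fun v => WithLp.toLp 2 (fun i => B i v)
      map_add' := fun v w => by ext i; simp
      map_smul' := fun t v => by ext i; simp }
  have hB' : ∀ v i, B' v i = B i v := fun v i => rfl
  have hnorm : ∀ (x : E d) (M : ℝ), 0 ≤ M → (∀ i, |x i| ≤ M) → ‖x‖ ≤ Real.sqrt d * M := by
    intro x M hM hx
    rw [EuclideanSpace.norm_eq]
    refine Real.sqrt_le_iff.2 ⟨by positivity, ?_⟩
    rw [mul_pow, Real.sq_sqrt (Nat.cast_nonneg d)]
    calc ∑ i, ‖x i‖ ^ 2 ≤ ∑ _i : Fin d, M ^ 2 := by
          refine Finset.sum_le_sum fun i _ => ?_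
          rw [Real.norm_eq_abs]
          exact pow_le_pow_left₀ (abs_nonneg _) (hx i) 2
      _ = d * M ^ 2 := by simp
  refine ⟨WithLp.toLp 2 a, B', ?_, ?_, ?_⟩
  · have := hnorm (WithLp.toLp 2 a) K hK.le (fun i => (hbd i).1)
    linarith
  · refine ContinuousLinearMap.opNorm_le_bound _ (by positivity) fun v => ?_
    have := hnorm (B' v) (K * ‖v‖) (by positivity) (fun i => by
      rw [hB', ← Real.norm_eq_abs]
      refine ((B i).le_opNorm v).trans ?_
      have := (hbd i).2
      gcongr)
    linarith only [norm_nonneg v, this]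
  · intro v R hR
    rw [affW_eq L hcl hη.continuous hs hR]
    ext i
    rw [haB i v]
    simp [hB']

end Vale.Agent.P120
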