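import Vale.Agent.Lib.P120.UR.Basic

/-!
Bounded overlap of separated points, and counting of separated points whose balls have mass.
-/

open MeasureTheory Filter Set Metric Module
open scoped Topology ENNReal NNReal RealInnerProductSpace

namespace Vale.Agent.P120

variable {d n : ℕ}

/-- `UR/Overlap.lean`: bounded overlap of separated points. -/
theorem overlap (d : ℕ) (K : ℝ) (hK : 0 < K) : ∃ N : ℕ, ∀ (s : ℝ), 0 < s → ∀ A : Finset (E d),
    (∀ p ∈ A, ∀ q ∈ A, p ≠ q → s ≤ ‖p - q‖) → ∀ y : E d,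
    (A.filter fun p => ‖p - y‖ ≤ K * s).card ≤ N := by
  classical
  obtain ⟨t, ht, hcov⟩ := Metric.totallyBounded_iff.1
    (isCompact_closedBall (0 : E d) K).totallyBounded (1 / 2) (by norm_num)
  refine ⟨ht.toFinset.card, fun s hs A hsep y => ?_⟩
  have hz : ∀ p : E d, ‖p - y‖ ≤ K * s → ∃ z ∈ t, ‖s⁻¹ • (p - y) - z‖ < 1 / 2 := by
    intro p hp
    have h1 : s⁻¹ • (p - y) ∈ closedBall (0 : E d) K := by
      rw [mem_closedBall_zero_iff, norm_smul, norm_inv, Real.norm_eq_abs, abs_of_pos hs,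
        inv_mul_le_iff₀ hs]
      linarith
    obtain ⟨z, hz, hz'⟩ := mem_iUnion₂.1 (hcov h1)
    exact ⟨z, hz, by rwa [mem_ball, dist_eq_norm] at hz'⟩
  set f : E d → E d := fun p => if h : ‖p - y‖ ≤ K * s then (hz p h).choose else 0 with hf
  have hf1 : ∀ p, ‖p - y‖ ≤ K * s → f p ∈ t ∧ ‖s⁻¹ • (p - y) - f p‖ < 1 / 2 := by
    intro p h
    have : f p = (hz p h).choose := by rw [hf]; simp only [h, dif_pos]
    rw [this]
    exact (hz p h).choose_spec
  refine Finset.card_le_card_of_injOn f ?_ ?_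
  · intro p hp
    rw [Finset.mem_coe, Finset.mem_filter] at hp
    rw [Finset.mem_coe, Set.Finite.mem_toFinset]
    exact (hf1 p hp.2).1
  · intro p hp q hq hpq
    rw [Finset.mem_coe, Finset.mem_filter] at hp hq
    by_contra hne
    have h1 := hsep p hp.1 q hq.1 hne
    have h2 := (hf1 p hp.2).2
    have h3 := (hf1 q hq.2).2
    rw [← hpq] at h3
    have h4 : ‖s⁻¹ • (p - q)‖ < 1 := by
      have h5 : s⁻¹ • (p - q) = (s⁻¹ • (p - y) - f p) - (s⁻¹ • (q - y) - f p) := by
        simp only [smul_sub]; abel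
      rw [h5]
      have h6 := norm_sub_le (s⁻¹ • (p - y) - f p) (s⁻¹ • (q - y) - f p)
      linarith
    rw [norm_smul, norm_inv, Real.norm_eq_abs, abs_of_pos hs, inv_mul_lt_iff₀ hs] at h4
    linarith

/-- `UR/Overlap.lean`: counting with the upper regular measure. -/
theorem count_le (n d : ℕ) (C c Lam : ℝ) (hC : 0 < C) (hc : 0 < c) (hLam : 0 < Lam) :
    ∃ Cn : ℝ, 0 < Cn ∧ ∀ (ν : Measure (E d)), UB n ν C → ∀ s : ℝ, 0 < s → ∀ A : Finset (E d),
    (∀ p ∈ A, ∀ q ∈ A, p ≠ q → s ≤ ‖p - q‖) →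
    (∀ p ∈ A, ENNReal.ofReal (c * s ^ n) ≤ ν (closedBall p (Lam * s))) →
    ∀ (y : E d) (ρ : ℝ), s ≤ ρ →
      ((A.filter fun p => ‖p - y‖ ≤ ρ).card : ℝ) * s ^ n ≤ Cn * ρ ^ n := by
  classical
  obtain ⟨N, hN⟩ := overlap d Lam hLam
  refine ⟨N * (C * (1 + Lam) ^ n) / c + 1, by positivity, ?_⟩
  intro ν hU s hs A hsep hmass y ρ hρ
  have hρ0 : 0 < ρ := lt_of_lt_of_le hs hρ
  set A' := A.filter fun p => ‖p - y‖ ≤ ρ with hA'
  have h1 : (A'.card : ℝ≥0∞) * ENNReal.ofReal (c * s ^ n) ≤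
      ∑ p ∈ A', ν (closedBall p (Lam * s)) := by
    rw [← nsmul_eq_mul]
    refine Finset.card_nsmul_le_sum _ _ _ fun p hp => ?_
    exact hmass p (Finset.mem_filter.1 hp).1
  have h2 : ∑ p ∈ A', ν (closedBall p (Lam * s)) ≤
      N * ν (closedBall y (ρ + Lam * s)) := by
    have e1 : ∑ p ∈ A', ν (closedBall p (Lam * s)) =
        ∫⁻ x, ∑ p ∈ A', (closedBall p (Lam * s)).indicator (fun _ => (1 : ℝ≥0∞)) x ∂ν := by
      rw [lintegral_finsetSum _ fun p _ => measurable_const.indicator measurableSet_closedBall]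
      refine Finset.sum_congr rfl fun p _ => ?_
      rw [lintegral_indicator measurableSet_closedBall, setLIntegral_const, one_mul]
    have e2 : (N : ℝ≥0∞) * ν (closedBall y (ρ + Lam * s)) =
        ∫⁻ x, (closedBall y (ρ + Lam * s)).indicator (fun _ => (N : ℝ≥0∞)) x ∂ν := by
      rw [lintegral_indicator measurableSet_closedBall, setLIntegral_const]
    rw [e1, e2]
    refine lintegral_mono fun x => ?_
    by_cases hx : x ∈ closedBall y (ρ + Lam * s)
    · rw [indicator_of_mem hx]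
      have e3 : ∑ p ∈ A', (closedBall p (Lam * s)).indicator (fun _ => (1 : ℝ≥0∞)) x =
          ((A'.filter fun p => ‖p - x‖ ≤ Lam * s).card : ℝ≥0∞) := by
        rw [Finset.card_filter, Nat.cast_sum]
        refine Finset.sum_congr rfl fun p _ => ?_
        by_cases h : ‖p - x‖ ≤ Lam * s
        · rw [if_pos h, indicator_of_mem (by rw [mem_closedBall, dist_comm, dist_eq_norm]; exact h)]
          simp
        · rw [if_neg h, indicator_of_notMem
            (by rw [mem_closedBall, dist_comm, dist_eq_norm]; exact h)]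
          simp
      rw [e3]
      have e4 : (A'.filter fun p => ‖p - x‖ ≤ Lam * s).card ≤ N :=
        (Finset.card_le_card (Finset.filter_subset_filter _ (Finset.filter_subset _ _))).trans
          (hN s hs A hsep x)
      exact Nat.cast_le.2 e4
    · rw [indicator_of_notMem hx]
      refine le_of_eq (Finset.sum_eq_zero fun p hp => indicator_of_notMem ?_ _)
      intro hxp
      apply hx
      rw [mem_closedBall, dist_eq_norm] at hxp ⊢
      have e5 := (Finset.mem_filter.1 hp).2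
      have e6 : x - y = (x - p) + (p - y) := by abel
      rw [e6]
      exact (norm_add_le _ _).trans (by linarith)
  have h3 : ν (closedBall y (ρ + Lam * s)) ≤ ENNReal.ofReal (C * (1 + Lam) ^ n * ρ ^ n) := by
    refine (hU.2 y (ρ + Lam * s) (by positivity)).trans (ENNReal.ofReal_le_ofReal ?_)
    rw [mul_assoc, ← mul_pow]
    refine mul_le_mul_of_nonneg_left (pow_le_pow_left₀ (by positivity) ?_ n) hC.le
    nlinarith
  have h4 : ENNReal.ofReal (A'.card * (c * s ^ n)) ≤
      ENNReal.ofReal (N * (C * (1 + Lam) ^ n * ρ ^ n)) := by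
    rw [ENNReal.ofReal_mul (Nat.cast_nonneg _), ENNReal.ofReal_mul (Nat.cast_nonneg _),
      ENNReal.ofReal_natCast, ENNReal.ofReal_natCast]
    exact (h1.trans h2).trans (mul_le_mul_right h3 _)
  rw [ENNReal.ofReal_le_ofReal_iff (by positivity)] at h4
  have h5 : (A'.card : ℝ) * s ^ n ≤ N * (C * (1 + Lam) ^ n) / c * ρ ^ n := by
    rw [div_mul_eq_mul_div, le_div_iff₀ hc]
    nlinarith
  have h6 : 0 < ρ ^ n := by positivity
  linarith only [h5, h6]

end Vale.Agent.P120
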