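import Vale.Agent.Lib.P120.UR.Base

/-!
P120: Poincare type inequality for the energy form (module `Poincare` of `blueprint/P120.md`).
-/

open MeasureTheory Filter Set Metric Module
open scoped Topology ENNReal NNReal RealInnerProductSpace

namespace Vale.Agent.P120

variable {d n : ℕ}

/-- variance identity on a finite measure -/
theorem poinc_var {κ : Measure (E d)} [IsFiniteMeasure κ] {ψ : E d → ℝ} (h1 : Integrable ψ κ)
    (h2 : Integrable (fun y => ψ y ^ 2) κ) (a : ℝ) (ha : a * κ.real univ = ∫ y, ψ y ∂κ) :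
    ∫ q : E d × E d, (ψ q.1 - ψ q.2) ^ 2 ∂(κ.prod κ) =
      2 * κ.real univ * ∫ y, (ψ y - a) ^ 2 ∂κ := by
  have e1 : ∫ q : E d × E d, (ψ q.1 - ψ q.2) ^ 2 ∂(κ.prod κ) =
      ∫ q : E d × E d, (ψ q.1 ^ 2 + ψ q.2 ^ 2 - 2 * (ψ q.1 * ψ q.2)) ∂(κ.prod κ) := by
    congr 1
    funext q
    ring
  have i1 : Integrable (fun q : E d × E d => ψ q.1 ^ 2) (κ.prod κ) := h2.comp_fst κ
  have i2 : Integrable (fun q : E d × E d => ψ q.2 ^ 2) (κ.prod κ) := h2.comp_snd κ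
  have i3 : Integrable (fun q : E d × E d => 2 * (ψ q.1 * ψ q.2)) (κ.prod κ) :=
    (h1.mul_prod h1).const_mul 2
  have e2 : ∫ q : E d × E d, ψ q.1 ^ 2 ∂(κ.prod κ) = κ.real univ * ∫ y, ψ y ^ 2 ∂κ := by
    have := integral_fun_fst (μ := κ) (ν := κ) (fun y => ψ y ^ 2)
    simpa [smul_eq_mul] using this
  have e3 : ∫ q : E d × E d, ψ q.2 ^ 2 ∂(κ.prod κ) = κ.real univ * ∫ y, ψ y ^ 2 ∂κ := by
    have := integral_fun_snd (μ := κ) (ν := κ) (fun y => ψ y ^ 2)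
    simpa [smul_eq_mul] using this
  have e4 : ∫ q : E d × E d, ψ q.1 * ψ q.2 ∂(κ.prod κ) = (∫ y, ψ y ∂κ) * ∫ y, ψ y ∂κ :=
    integral_prod_mul ψ ψ
  have e5 : ∫ y, (ψ y - a) ^ 2 ∂κ = (∫ y, ψ y ^ 2 ∂κ) - 2 * a * (∫ y, ψ y ∂κ) +
      a ^ 2 * κ.real univ := by
    have : ∫ y, (ψ y - a) ^ 2 ∂κ = ∫ y, (ψ y ^ 2 - 2 * a * ψ y + a ^ 2) ∂κ := by
      congr 1
      funext y
      ring
    have j1 : Integrable (fun y => 2 * a * ψ y) κ := h1.const_mul (2 * a)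
    have j2 : Integrable (fun y => ψ y ^ 2 - 2 * a * ψ y) κ := h2.sub j1
    rw [this, integral_add j2 (integrable_const _), integral_sub h2 j1, integral_const_mul,
      integral_const, smul_eq_mul]
    ring
  have i4 : Integrable (fun q : E d × E d => ψ q.1 ^ 2 + ψ q.2 ^ 2) (κ.prod κ) := i1.add i2
  rw [e1, integral_sub i4 i3, integral_add i1 i2, integral_const_mul, e2, e3, e4, e5, ← ha]
  ring

/-- the Poincare inequality with the average -/
theorem poinc_avg {ν : Measure (E d)} {C : ℝ} (hU : UB n ν C)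
    (hb : ∃ R0, ν (closedBall 0 R0)ᶜ = 0) {ψ : E d → ℝ} (hψ : Lip ψ) (p : E d) {ρ m : ℝ}
    (hρ : 0 < ρ) (hm : 0 < m) (hmass : m ≤ ν.real (closedBall p ρ)) :
    ∫ y in closedBall p ρ, (ψ y - (∫ z in closedBall p ρ, ψ z ∂ν) / ν.real (closedBall p ρ)) ^ 2 ∂ν
      ≤ (2 * ρ) ^ (n + 1) / (2 * m) *
      ∫ q in closedBall p ρ ×ˢ closedBall p ρ, (ψ q.1 - ψ q.2) ^ 2 * wt n q.1 q.2 ∂(ν.prod ν) := by
  have := UB.isFiniteMeasure hU hb
  have hM : 0 < ν.real (closedBall p ρ) := lt_of_lt_of_le hm hmass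
  set S : Set (E d) := closedBall p ρ with hS
  have hSm : MeasurableSet S := isClosed_closedBall.measurableSet
  have hcont : Continuous ψ := Lip.continuous hψ
  have hbd : ∃ B, ∀ y ∈ S, ‖ψ y‖ ≤ B := by
    obtain ⟨B, hB⟩ := (isCompact_closedBall p ρ).exists_bound_of_continuousOn hcont.continuousOn
    exact ⟨B, hB⟩
  obtain ⟨B, hB⟩ := hbd
  have h1 : Integrable ψ (ν.restrict S) := by
    refine Integrable.of_bound hcont.aestronglyMeasurable B ?_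
    filter_upwards [ae_restrict_mem hSm] with y hy using hB y hy
  have h2 : Integrable (fun y => ψ y ^ 2) (ν.restrict S) := by
    refine Integrable.of_bound (hcont.pow 2).aestronglyMeasurable (B ^ 2) ?_
    filter_upwards [ae_restrict_mem hSm] with y hy
    rw [norm_pow]
    exact pow_le_pow_left₀ (norm_nonneg _) (hB y hy) 2
  have hreal : (ν.restrict S).real univ = ν.real S := by
    simp [Measure.real]
  have hvar := poinc_var (κ := ν.restrict S) h1 h2 ((∫ z in S, ψ z ∂ν) / ν.real S) (by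
    rw [hreal]
    field_simp)
  rw [hreal, Measure.prod_restrict] at hvar
  have hI : Integrable (fun q : E d × E d => (ψ q.1 - ψ q.2) ^ 2 * wt n q.1 q.2) (ν.prod ν) := by
    have := En_integrable hU hb hψ hψ
    refine this.congr (Eventually.of_forall fun q => ?_)
    simp only [pow_two]
  have hI2 : IntegrableOn (fun q : E d × E d => (2 * ρ) ^ (n + 1) *
      ((ψ q.1 - ψ q.2) ^ 2 * wt n q.1 q.2)) (S ×ˢ S) (ν.prod ν) :=
    (hI.const_mul _).integrableOn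
  have hle : ∫ q in S ×ˢ S, (ψ q.1 - ψ q.2) ^ 2 ∂(ν.prod ν) ≤
      (2 * ρ) ^ (n + 1) * ∫ q in S ×ˢ S, (ψ q.1 - ψ q.2) ^ 2 * wt n q.1 q.2 ∂(ν.prod ν) := by
    rw [← integral_const_mul]
    refine integral_mono_of_nonneg (Eventually.of_forall fun q => sq_nonneg _) hI2 ?_
    filter_upwards [ae_restrict_mem (hSm.prod hSm)] with q hq
    rcases eq_or_ne q.1 q.2 with h | h
    · simp [h]
    · have hn : 0 < ‖q.1 - q.2‖ := norm_pos_iff.mpr (sub_ne_zero.mpr h)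
      have hd : ‖q.1 - q.2‖ ≤ 2 * ρ := by
        have a1 : dist q.1 p ≤ ρ := hq.1
        have a2 : dist q.2 p ≤ ρ := hq.2
        have a3 : dist q.1 q.2 ≤ dist q.1 p + dist q.2 p := dist_triangle_right _ _ _
        rw [← dist_eq_norm]
        linarith
      have hw : 1 ≤ (2 * ρ) ^ (n + 1) * wt n q.1 q.2 := by
        unfold wt
        rw [← div_eq_mul_inv, one_le_div (pow_pos hn _)]
        exact pow_le_pow_left₀ hn.le hd _
      have : (ψ q.1 - ψ q.2) ^ 2 * 1 ≤ (ψ q.1 - ψ q.2) ^ 2 * ((2 * ρ) ^ (n + 1) * wt n q.1 q.2) :=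
        mul_le_mul_of_nonneg_left hw (sq_nonneg _)
      calc (ψ q.1 - ψ q.2) ^ 2 = (ψ q.1 - ψ q.2) ^ 2 * 1 := by ring
        _ ≤ _ := this
        _ = _ := by ring
  have hJ0 : 0 ≤ ∫ q in S ×ˢ S, (ψ q.1 - ψ q.2) ^ 2 * wt n q.1 q.2 ∂(ν.prod ν) :=
    integral_nonneg fun q => mul_nonneg (sq_nonneg _) (wt_nonneg _ _)
  set J := ∫ q in S ×ˢ S, (ψ q.1 - ψ q.2) ^ 2 * wt n q.1 q.2 ∂(ν.prod ν) with hJ
  set V := ∫ y in S, (ψ y - (∫ z in S, ψ z ∂ν) / ν.real S) ^ 2 ∂ν with hV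
  have hV0 : 0 ≤ V := integral_nonneg fun q => sq_nonneg _
  rw [hvar] at hle
  rw [div_mul_eq_mul_div, le_div_iff₀ (by positivity)]
  linarith only [mul_le_mul_of_nonneg_right hmass hV0, hle]

theorem poincare_ball {ν : Measure (E d)} {C : ℝ} (hU : UB n ν C)
    (hb : ∃ R0, ν (closedBall 0 R0)ᶜ = 0) {ψ : E d → ℝ} (hψ : Lip ψ) (p : E d) {ρ m : ℝ}
    (hρ : 0 < ρ) (hm : 0 < m) (hmass : m ≤ ν.real (closedBall p ρ)) :
    ∃ a : ℝ, ∫ y in closedBall p ρ, (ψ y - a) ^ 2 ∂ν ≤ (2 * ρ) ^ (n + 1) / (2 * m) *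
      ∫ q in closedBall p ρ ×ˢ closedBall p ρ, (ψ q.1 - ψ q.2) ^ 2 * wt n q.1 q.2 ∂(ν.prod ν) :=
  ⟨_, poinc_avg hU hb hψ p hρ hm hmass⟩

theorem poincare_zero {ν : Measure (E d)} {C : ℝ} (hU : UB n ν C)
    (hb : ∃ R0, ν (closedBall 0 R0)ᶜ = 0) {ψ : E d → ℝ} (hψ : Lip ψ) (p : E d) {ρ m : ℝ}
    (hρ : 0 < ρ) (hm : 0 < m) (hmass : m ≤ ν.real (closedBall p ρ))
    (hs : ∀ y, ρ < ‖y - p‖ → ψ y = 0) (h0 : ∫ y, ψ y ∂ν = 0) :
    ∫ y, ψ y ^ 2 ∂ν ≤ (2 * ρ) ^ (n + 1) / (2 * m) * En n ν ψ := by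
  have hoff : ∀ y, y ∉ closedBall p ρ → ψ y = 0 := by
    intro y hy
    apply hs
    rw [mem_closedBall, dist_eq_norm] at hy
    exact lt_of_not_ge hy
  have e1 : ∫ y in closedBall p ρ, ψ y ∂ν = 0 := by
    rw [setIntegral_eq_integral_of_forall_compl_eq_zero hoff, h0]
  have e2 : ∫ y in closedBall p ρ, ψ y ^ 2 ∂ν = ∫ y, ψ y ^ 2 ∂ν := by
    apply setIntegral_eq_integral_of_forall_compl_eq_zero
    intro y hy
    rw [hoff y hy]
    norm_num
  have h := poinc_avg hU hb hψ p hρ hm hmass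
  rw [e1, zero_div] at h
  simp only [sub_zero] at h
  rw [e2] at h
  refine h.trans ?_
  have hI : Integrable (fun q : E d × E d => (ψ q.1 - ψ q.2) ^ 2 * wt n q.1 q.2) (ν.prod ν) := by
    have := En_integrable hU hb hψ hψ
    refine this.congr (Eventually.of_forall fun q => ?_)
    simp only [pow_two]
  refine mul_le_mul_of_nonneg_left ?_ (by positivity)
  unfold En
  exact setIntegral_le_integral hI (Eventually.of_forall fun q =>
    mul_nonneg (sq_nonneg _) (wt_nonneg _ _))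

end Vale.Agent.P120
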