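import Vale.Agent.Lib.P120.UR.Base
import Vale.Agent.Lib.P120.UR.Overlap
import Vale.Agent.Lib.P120.UR.Poincare

/-!
The scalar product of one level of the Bessel system with a coarse function (`cross_level`).
-/

open MeasureTheory Filter Set Metric Module
open scoped Topology ENNReal NNReal RealInnerProductSpace

namespace Vale.Agent.P120


variable {d n : ℕ}

/-- Cauchy-Schwarz for integrals of real functions. -/
lemma cl_integral_cauchy {α : Type*} [MeasurableSpace α] {m : Measure α} {f g : α → ℝ}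
    (hf : Integrable (fun x => f x ^ 2) m) (hg : Integrable (fun x => g x ^ 2) m)
    (hfg : Integrable (fun x => f x * g x) m) :
    (∫ x, f x * g x ∂m) ^ 2 ≤ (∫ x, f x ^ 2 ∂m) * ∫ x, g x ^ 2 ∂m := by
  have key : ∀ t : ℝ, 0 ≤ (∫ x, g x ^ 2 ∂m) * (t * t) + (2 * ∫ x, f x * g x ∂m) * t +
      ∫ x, f x ^ 2 ∂m := by
    intro t
    have h1 : (∫ x, g x ^ 2 ∂m) * (t * t) + (2 * ∫ x, f x * g x ∂m) * t + ∫ x, f x ^ 2 ∂m =
        ∫ x, (f x + t * g x) ^ 2 ∂m := by
      have h2 : (fun x => (f x + t * g x) ^ 2) = fun x => (t * t) * g x ^ 2 +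
          (2 * t) * (f x * g x) + f x ^ 2 := by
        funext x; ring
      have hi1 : Integrable (fun x => (t * t) * g x ^ 2) m := hg.const_mul _
      have hi2 : Integrable (fun x => (2 * t) * (f x * g x)) m := hfg.const_mul _
      have hi12 : Integrable (fun x => (t * t) * g x ^ 2 + (2 * t) * (f x * g x)) m := hi1.add hi2
      rw [h2, integral_add hi12 hf, integral_add hi1 hi2, integral_const_mul, integral_const_mul]
      ring
    rw [h1]
    exact integral_nonneg fun _ => sq_nonneg _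
  have hdisc := discrim_le_zero key
  unfold discrim at hdisc
  linarith only [hdisc]

/-- Continuous functions are integrable for bounded supports. -/
lemma cl_integrable {C : ℝ} {ν : Measure (E d)} (hU : UB n ν C)
    (hb : ∃ R0, ν (closedBall 0 R0)ᶜ = 0) {f : E d → ℝ}
    (hf : Continuous f) : Integrable f ν := by
  have : IsFiniteMeasure ν := UB.isFiniteMeasure hU hb
  obtain ⟨R0, hR0⟩ := hb
  have h1 : IntegrableOn f (closedBall 0 R0) ν :=
    hf.continuousOn.integrableOn_compact (isCompact_closedBall 0 R0)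
  have h2 : ν.restrict (closedBall 0 R0) = ν := by
    apply Measure.restrict_eq_self_of_ae_mem
    rw [ae_iff]
    exact hR0
  rw [IntegrableOn, h2] at h1
  exact h1

/-- `UR/CrossLevel.lean`: the scalar product with a coarse function. -/
theorem cross_level (n d : ℕ) (C c Lam : ℝ) (hC : 0 < C) (hc : 0 < c) (hLam : 1 ≤ Lam) :
    ∃ CX : ℝ, 0 < CX ∧ ∀ (ν : Measure (E d)), UB n ν C → (∃ R0, ν (closedBall 0 R0)ᶜ = 0) →
    ∀ s : ℝ, 0 < s → ∀ A : Finset (E d), (∀ p ∈ A, ∀ q ∈ A, p ≠ q → s ≤ ‖p - q‖) →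
    (∀ p ∈ A, ENNReal.ofReal (c * s ^ n) ≤ ν (closedBall p (Lam * s))) →
    ∀ ψ : E d → E d → ℝ, (∀ p ∈ A, Lip (ψ p) ∧ (∀ y, Lam * s < ‖y - p‖ → ψ p y = 0) ∧
      ∫ y, ψ p y ∂ν = 0 ∧ En n ν (ψ p) ≤ s⁻¹) → ∀ a : E d → ℝ, ∀ g : E d → ℝ, Lip g →
    |∫ y, g y * ∑ p ∈ A, a p * ψ p y ∂ν| ≤
      CX * Real.sqrt (s * En n ν g) * Real.sqrt (∑ p ∈ A, a p ^ 2) := by
  classical
  obtain ⟨M, hM⟩ := overlap d Lam (by linarith)
  set K : ℝ := (2 * Lam) ^ (n + 1) / (2 * c) with hK
  have hK0 : 0 < K := by positivity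
  refine ⟨K * Real.sqrt (M + 1), by positivity, ?_⟩
  intro ν hU hb s hs A hsep hmass ψ hψ a g hg
  have hfin : IsFiniteMeasure ν := UB.isFiniteMeasure hU hb
  have hLs : 0 < Lam * s := by positivity
  have hcs : 0 < c * s ^ n := by positivity
  have hmass' : ∀ p ∈ A, c * s ^ n ≤ ν.real (closedBall p (Lam * s)) := fun p hp =>
    (ENNReal.ofReal_le_iff_le_toReal (measure_ne_top _ _)).mp (hmass p hp)
  have hKs : (2 * (Lam * s)) ^ (n + 1) / (2 * (c * s ^ n)) = K * s := by
    rw [hK, show (2 * (Lam * s)) ^ (n + 1) = (2 * Lam) ^ (n + 1) * (s ^ n * s) by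
      rw [← mul_assoc, mul_pow (2 * Lam) s, pow_succ s]]
    field_simp
  -- local energies
  let F : E d × E d → ℝ := fun q => (g q.1 - g q.2) ^ 2 * wt n q.1 q.2
  have hF0 : ∀ q, 0 ≤ F q := fun q => mul_nonneg (sq_nonneg _) (wt_nonneg _ _)
  have hFint : Integrable F (ν.prod ν) := En_integrable_sq hU hb hg
  let I : E d → ℝ := fun p =>
    ∫ q in closedBall p (Lam * s) ×ˢ closedBall p (Lam * s), F q ∂(ν.prod ν)
  have hI0 : ∀ p, 0 ≤ I p := fun p => integral_nonneg hF0
  have hgc : Continuous g := hg.continuous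
  -- one node
  have hone : ∀ p ∈ A, (∫ y, g y * ψ p y ∂ν) ^ 2 ≤ K ^ 2 * s * I p := by
    intro p hp
    obtain ⟨hl, hsupp, h0, hE⟩ := hψ p hp
    have hψc : Continuous (ψ p) := hl.continuous
    obtain ⟨al, hal⟩ := poincare_ball hU hb hg p hLs hcs (hmass' p hp)
    rw [hKs] at hal
    have hψ2 := poincare_zero hU hb hl p hLs hcs (hmass' p hp) hsupp h0
    rw [hKs] at hψ2
    have hψ2' : ∫ y, ψ p y ^ 2 ∂ν ≤ K := by
      refine hψ2.trans ?_
      calc K * s * En n ν (ψ p) ≤ K * s * s⁻¹ := by gcongr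
        _ = K := by field_simp
    have hint : ∀ {f : E d → ℝ}, Continuous f → Integrable f ν :=
      fun hf => cl_integrable hU hb hf
    have e1 : ∫ y, g y * ψ p y ∂ν = ∫ y, (g y - al) * ψ p y ∂ν := by
      have h1 : ∀ y, (g y - al) * ψ p y = g y * ψ p y - al * ψ p y := fun y => by ring
      simp_rw [h1]
      rw [integral_sub (hint (by fun_prop)) (hint (by fun_prop)), integral_const_mul, h0]
      ring
    have e2 : ∫ y, (g y - al) * ψ p y ∂ν = ∫ y in closedBall p (Lam * s), (g y - al) * ψ p y ∂ν := by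
      symm
      apply setIntegral_eq_integral_of_forall_compl_eq_zero
      intro y hy
      rw [mem_closedBall, dist_eq_norm, not_le] at hy
      rw [hsupp y hy, mul_zero]
    rw [e1, e2]
    have h3 := cl_integral_cauchy (m := ν.restrict (closedBall p (Lam * s)))
      (f := fun y => g y - al) (g := ψ p)
      (hint (by fun_prop)).integrableOn (hint (by fun_prop)).integrableOn
      (hint (by fun_prop)).integrableOn
    refine h3.trans ?_
    have h4 : ∫ y in closedBall p (Lam * s), ψ p y ^ 2 ∂ν ≤ K := by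
      refine le_trans ?_ hψ2'
      exact setIntegral_le_integral (hint (by fun_prop)) (Eventually.of_forall fun y => sq_nonneg _)
    have h5 : 0 ≤ ∫ y in closedBall p (Lam * s), ψ p y ^ 2 ∂ν :=
      integral_nonneg fun y => sq_nonneg _
    calc (∫ y in closedBall p (Lam * s), (g y - al) ^ 2 ∂ν) *
          ∫ y in closedBall p (Lam * s), ψ p y ^ 2 ∂ν
        ≤ (K * s * I p) * K := by
          apply mul_le_mul hal h4 h5
          have := hI0 p
          positivity
      _ = K ^ 2 * s * I p := by ring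
  -- overlap
  have hsum : ∑ p ∈ A, I p ≤ M * En n ν g := by
    have h1 : ∀ p, I p = ∫ q, (closedBall p (Lam * s) ×ˢ closedBall p (Lam * s)).indicator F q
        ∂(ν.prod ν) := fun p => by
      rw [integral_indicator (measurableSet_closedBall.prod measurableSet_closedBall)]
    simp_rw [h1]
    have hint2 : ∀ p ∈ A, Integrable (fun q =>
        (closedBall p (Lam * s) ×ˢ closedBall p (Lam * s)).indicator F q) (ν.prod ν) := fun p _ =>
      hFint.indicator (measurableSet_closedBall.prod measurableSet_closedBall)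
    rw [← integral_finsetSum _ hint2]
    have h2 : (M : ℝ) * En n ν g = ∫ q, (M : ℝ) * F q ∂(ν.prod ν) := by
      rw [integral_const_mul]
      rfl
    rw [h2]
    refine integral_mono (integrable_finsetSum _ hint2) (hFint.const_mul _) ?_
    intro q
    simp only
    have h3 : ∀ p ∈ A, (closedBall p (Lam * s) ×ˢ closedBall p (Lam * s)).indicator F q ≤
        if ‖p - q.1‖ ≤ Lam * s then F q else 0 := by
      intro p _
      split_ifs with h
      · exact indicator_le_self' (fun _ _ => hF0 _) q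
      · rw [indicator_of_notMem]
        intro hq
        apply h
        have := hq.1
        rw [mem_closedBall, dist_eq_norm, norm_sub_rev] at this
        exact this
    refine (Finset.sum_le_sum h3).trans ?_
    rw [← Finset.sum_filter, Finset.sum_const, nsmul_eq_mul]
    have h4 := hM s hs A hsep q.1
    have h5 : ((A.filter fun p => ‖p - q.1‖ ≤ Lam * s).card : ℝ) ≤ M := by exact_mod_cast h4
    exact mul_le_mul_of_nonneg_right h5 (hF0 q)
  -- expand
  have hexp : ∫ y, g y * ∑ p ∈ A, a p * ψ p y ∂ν = ∑ p ∈ A, a p * ∫ y, g y * ψ p y ∂ν := by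
    have h1 : ∀ y, g y * ∑ p ∈ A, a p * ψ p y = ∑ p ∈ A, a p * (g y * ψ p y) := by
      intro y
      rw [Finset.mul_sum]
      exact Finset.sum_congr rfl fun p _ => by ring
    simp_rw [h1]
    rw [integral_finsetSum]
    · exact Finset.sum_congr rfl fun p _ => integral_const_mul _ _
    · intro p hp
      have hψc : Continuous (ψ p) := (hψ p hp).1.continuous
      exact cl_integrable hU hb (by fun_prop)
  rw [hexp]
  have hcs2 : (∑ p ∈ A, a p * ∫ y, g y * ψ p y ∂ν) ^ 2 ≤
      (∑ p ∈ A, a p ^ 2) * ∑ p ∈ A, (∫ y, g y * ψ p y ∂ν) ^ 2 :=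
    Finset.sum_mul_sq_le_sq_mul_sq A a _
  have hEn := En_nonneg (n := n) (ν := ν) g
  have h6 : ∑ p ∈ A, (∫ y, g y * ψ p y ∂ν) ^ 2 ≤ K ^ 2 * (M + 1) * (s * En n ν g) := by
    calc ∑ p ∈ A, (∫ y, g y * ψ p y ∂ν) ^ 2 ≤ ∑ p ∈ A, K ^ 2 * s * I p :=
          Finset.sum_le_sum hone
      _ = K ^ 2 * s * ∑ p ∈ A, I p := by rw [Finset.mul_sum]
      _ ≤ K ^ 2 * s * (M * En n ν g) := by gcongr
      _ ≤ K ^ 2 * s * ((M + 1) * En n ν g) := by gcongr; linarith
      _ = _ := by ring
  have h7 : (0 : ℝ) ≤ ∑ p ∈ A, a p ^ 2 := Finset.sum_nonneg fun p _ => sq_nonneg _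
  have h8 : (∑ p ∈ A, a p * ∫ y, g y * ψ p y ∂ν) ^ 2 ≤
      (K ^ 2 * (M + 1) * (s * En n ν g)) * (∑ p ∈ A, a p ^ 2) := by
    calc _ ≤ _ := hcs2
      _ ≤ (∑ p ∈ A, a p ^ 2) * (K ^ 2 * (M + 1) * (s * En n ν g)) := by gcongr
      _ = _ := by ring
  rw [← Real.sqrt_sq_eq_abs]
  refine (Real.sqrt_le_sqrt h8).trans (le_of_eq ?_)
  rw [Real.sqrt_mul (by positivity), Real.sqrt_mul (by positivity), Real.sqrt_mul (by positivity),
    Real.sqrt_sq hK0.le]

end Vale.Agent.P120
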