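import Vale.Agent.Lib.P120.UR.LevelEn
import Vale.Agent.Lib.P120.UR.CrossLevel

/-!
Almost orthogonality: the Carleson packing of the energies (`exists_energy`).
-/

open MeasureTheory Filter Set Metric Module
open scoped Topology ENNReal NNReal RealInnerProductSpace

namespace Vale.Agent.P120

variable {d n : ℕ}

section AO

variable {C CT : ℝ} {μ ν : Measure (E d)}

lemma ao_bdd_restrict (z : E d) (D : ℝ) :
    ∃ R0, (μ.restrict (closedBall z D)) (closedBall 0 R0)ᶜ = 0 := by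
  refine ⟨‖z‖ + D, ?_⟩
  rw [Measure.restrict_apply isClosed_closedBall.measurableSet.compl]
  have : (closedBall (0 : E d) (‖z‖ + D))ᶜ ∩ closedBall z D = ∅ := by
    ext y
    simp only [mem_inter_iff, mem_compl_iff, mem_closedBall, dist_zero_right, mem_empty_iff_false,
      iff_false, not_and, not_le]
    intro hy
    by_contra hcon
    push Not at hcon
    rw [dist_eq_norm] at hcon
    have : ‖y‖ ≤ ‖y - z‖ + ‖z‖ := by simpa using norm_add_le (y - z) z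
    linarith
  rw [this, measure_empty]

/-- One node: the best constant and an almost extremal function. -/
lemma ao_one (hU : UB n μ C) (hT : TB n μ CT) {z : E d} {D c Lam s : ℝ} (hD : 0 < D) (hc : 0 < c)
    (hs : 0 < s) (hLam : 1 ≤ Lam) {p : E d}
    (hm : ENNReal.ofReal (c * s ^ n) ≤ μ (closedBall z D ∩ closedBall p (Lam * s))) :
    ∃ a : ℝ, 0 ≤ a ∧ EnLe n (μ.restrict (closedBall z D)) Lam p s a ∧
      ∃ ψ : E d → ℝ, Lip ψ ∧ (∀ y, Lam * s < ‖y - p‖ → ψ y = 0) ∧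
        ∫ y, ψ y ∂(μ.restrict (closedBall z D)) = 0 ∧
        En n (μ.restrict (closedBall z D)) ψ ≤ s⁻¹ ∧
        a * s ^ n ≤ 2 * ‖BF n (μ.restrict (closedBall z D)) ψ‖ ^ 2 := by
  set ν := μ.restrict (closedBall z D) with hν
  have hUν : UB n ν C := UB.restrict hU _
  have hbν : ∃ R0, ν (closedBall 0 R0)ᶜ = 0 := ao_bdd_restrict z D
  have : IsFiniteMeasure ν := UB.isFiniteMeasure hUν hbν
  have hLs : 0 < Lam * s := by positivity
  have hmass : c * s ^ n ≤ ν.real (closedBall p (Lam * s)) := by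
    have h1 : ν (closedBall p (Lam * s)) = μ (closedBall z D ∩ closedBall p (Lam * s)) := by
      rw [hν, Measure.restrict_apply isClosed_closedBall.measurableSet, inter_comm]
    rw [← h1] at hm
    exact (ENNReal.ofReal_le_iff_le_toReal (measure_ne_top _ _)).mp hm
  have hcs : 0 < c * s ^ n := by positivity
  -- the bound
  have hbd : ∀ ψ : E d → ℝ, Lip ψ → (∀ y, Lam * s < ‖y - p‖ → ψ y = 0) → ∫ y, ψ y ∂ν = 0 →
      ‖BF n ν ψ‖ ^ 2 ≤ CT * D ^ n * ((2 * (Lam * s)) ^ (n + 1) / (2 * (c * s ^ n)) * En n ν ψ) := by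
    intro ψ hψ hsupp h0
    have h1 := poincare_zero hUν hbν hψ p hLs hcs hmass hsupp h0
    have h2 := hT.2 z D hD ψ hψ
    refine h2.trans ?_
    have h3 : 0 ≤ CT * D ^ n := mul_nonneg hT.1 (by positivity)
    exact mul_le_mul_of_nonneg_left h1 h3
  set Q : ℝ := CT * D ^ n * ((2 * (Lam * s)) ^ (n + 1) / (2 * (c * s ^ n))) / s ^ (n + 1) with hQ
  have hbd' : ∀ ψ : E d → ℝ, Lip ψ → (∀ y, Lam * s < ‖y - p‖ → ψ y = 0) → ∫ y, ψ y ∂ν = 0 →
      ‖BF n ν ψ‖ ^ 2 ≤ Q * (s ^ (n + 1) * En n ν ψ) := by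
    intro ψ hψ hsupp h0
    have h1 := hbd ψ hψ hsupp h0
    refine h1.trans (le_of_eq ?_)
    rw [hQ]
    field_simp
  let S : Set ℝ := {t | ∃ ψ : E d → ℝ, Lip ψ ∧ (∀ y, Lam * s < ‖y - p‖ → ψ y = 0) ∧
    ∫ y, ψ y ∂ν = 0 ∧ 0 < En n ν ψ ∧ t = ‖BF n ν ψ‖ ^ 2 / (s ^ (n + 1) * En n ν ψ)}
  have hSbdd : BddAbove S := by
    refine ⟨Q, ?_⟩
    rintro t ⟨ψ, hψ, hsupp, h0, hE, rfl⟩
    rw [div_le_iff₀ (by positivity)]
    exact hbd' ψ hψ hsupp h0
  have hSnn : ∀ t ∈ S, 0 ≤ t := by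
    rintro t ⟨ψ, hψ, hsupp, h0, hE, rfl⟩
    positivity
  have ha0 : 0 ≤ sSup S := Real.sSup_nonneg hSnn
  refine ⟨sSup S, ha0, ?_, ?_⟩
  · intro ψ hψ hsupp h0
    rcases (En_nonneg (n := n) (ν := ν) ψ).eq_or_lt with hE | hE
    · have h1 := hbd' ψ hψ hsupp h0
      rw [← hE] at h1 ⊢
      simpa using h1
    · have h1 : ‖BF n ν ψ‖ ^ 2 / (s ^ (n + 1) * En n ν ψ) ≤ sSup S :=
        le_csSup hSbdd ⟨ψ, hψ, hsupp, h0, hE, rfl⟩
      rw [div_le_iff₀ (by positivity)] at h1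
      rw [mul_assoc]
      exact h1
  · rcases ha0.eq_or_lt with ha | ha
    · refine ⟨fun _ => 0, Lip.zero, fun _ _ => rfl, by simp, ?_, ?_⟩
      · have : En n ν (fun _ : E d => (0 : ℝ)) = 0 := by simp [En]
        rw [this]
        positivity
      · rw [← ha]
        simp
    · have hne : S.Nonempty := by
        by_contra hcon
        rw [not_nonempty_iff_eq_empty] at hcon
        rw [hcon, Real.sSup_empty] at ha
        exact lt_irrefl _ ha
      have hlt : sSup S / 2 < sSup S := by linarith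
      obtain ⟨t, ⟨φ, hφ, hsupp, h0, hE, ht⟩, hlt'⟩ := exists_lt_of_lt_csSup hne hlt
      set al : ℝ := (Real.sqrt (s * En n ν φ))⁻¹ with hal
      have hsE : 0 < s * En n ν φ := by positivity
      have hal2 : al ^ 2 = (s * En n ν φ)⁻¹ := by
        rw [hal, inv_pow, Real.sq_sqrt hsE.le]
      refine ⟨fun y => al * φ y, Lip.const_mul al hφ, ?_, ?_, ?_, ?_⟩
      · intro y hy
        simp only
        rw [hsupp y hy, mul_zero]
      · rw [integral_const_mul, h0, mul_zero]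
      · rw [En_smul, hal2, mul_inv, mul_assoc, inv_mul_cancel₀ hE.ne', mul_one]
      · rw [BF_smul, norm_smul, mul_pow, Real.norm_eq_abs, sq_abs, hal2]
        have h1 : sSup S * s ^ n ≤ 2 * (t * s ^ n) := by
          have : (0 : ℝ) ≤ s ^ n := by positivity
          nlinarith only [hlt', this]
        refine h1.trans (le_of_eq ?_)
        rw [ht]
        field_simp
        ring

/-- Partial sums of `ρ^|l-k|`. -/
lemma ao_geom {ρ : ℝ} (h0 : 0 ≤ ρ) (h1 : ρ < 1) (N k : ℕ) (hk : k ≤ N) :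
    ∑ l ∈ Finset.range (N + 1), ρ ^ ((l - k) + (k - l)) ≤ 2 / (1 - ρ) := by
  have hgeo : ∀ m : ℕ, ∑ j ∈ Finset.range m, ρ ^ j ≤ 1 / (1 - ρ) := by
    intro m
    have := (summable_geometric_of_lt_one h0 h1).sum_le_tsum (Finset.range m)
      (fun i _ => pow_nonneg h0 i)
    rw [tsum_geometric_of_lt_one h0 h1] at this
    simpa using this
  rw [← Finset.sum_range_add_sum_Ico _ (show k ≤ N + 1 by omega)]
  have e1 : ∑ l ∈ Finset.range k, ρ ^ ((l - k) + (k - l)) ≤ 1 / (1 - ρ) := by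
    have h2 : ∑ l ∈ Finset.range k, ρ ^ ((l - k) + (k - l)) =
        ∑ l ∈ Finset.range k, (fun j => ρ ^ (j + 1)) (k - 1 - l) := by
      refine Finset.sum_congr rfl fun l hl => ?_
      have := Finset.mem_range.mp hl
      simp only
      congr 1
      omega
    rw [h2, Finset.sum_range_reflect (fun j => ρ ^ (j + 1)) k]
    refine le_trans (Finset.sum_le_sum fun j _ => ?_) (hgeo k)
    exact pow_le_pow_of_le_one h0 h1.le (Nat.le_succ j)
  have e2 : ∑ l ∈ Finset.Ico k (N + 1), ρ ^ ((l - k) + (k - l)) ≤ 1 / (1 - ρ) := by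
    rw [Finset.sum_Ico_eq_sum_range]
    refine le_trans (le_of_eq (Finset.sum_congr rfl fun j _ => ?_)) (hgeo (N + 1 - k))
    congr 1
    omega
  have : 2 / (1 - ρ) = 1 / (1 - ρ) + 1 / (1 - ρ) := by ring
  linarith

/-- The Schur type estimate. -/
lemma ao_schur {ρ B : ℝ} (h0 : 0 ≤ ρ) (h1 : ρ < 1) (hB : 0 ≤ B) (N : ℕ) (al : ℕ → ℝ)
    (hal : ∀ k, 0 ≤ al k) (I : ℕ → ℕ → ℝ)
    (hI : ∀ k ≤ N, ∀ l ≤ N, |I k l| ≤
      B * ρ ^ ((l - k) + (k - l)) * (Real.sqrt (al k) * Real.sqrt (al l))) :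
    ∑ k ∈ Finset.range (N + 1), ∑ l ∈ Finset.range (N + 1), I k l ≤
      B * (2 / (1 - ρ)) * ∑ k ∈ Finset.range (N + 1), al k := by
  have hρ : ∀ m : ℕ, 0 ≤ ρ ^ m := fun m => pow_nonneg h0 m
  have hsym : ∀ k l : ℕ, (l - k) + (k - l) = (k - l) + (l - k) := fun k l => add_comm _ _
  calc ∑ k ∈ Finset.range (N + 1), ∑ l ∈ Finset.range (N + 1), I k l
      ≤ ∑ k ∈ Finset.range (N + 1), ∑ l ∈ Finset.range (N + 1),
          (B / 2 * (ρ ^ ((l - k) + (k - l)) * al k) + B / 2 * (ρ ^ ((k - l) + (l - k)) * al l)) := by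
        refine Finset.sum_le_sum fun k hk => Finset.sum_le_sum fun l hl => ?_
        have hk' : k ≤ N := Nat.lt_succ_iff.mp (Finset.mem_range.mp hk)
        have hl' : l ≤ N := Nat.lt_succ_iff.mp (Finset.mem_range.mp hl)
        refine (le_abs_self _).trans ((hI k hk' l hl').trans ?_)
        rw [hsym l k]
        have h2 : Real.sqrt (al k) * Real.sqrt (al l) ≤ (al k + al l) / 2 := by
          have e1 := Real.sq_sqrt (hal k)
          have e2 := Real.sq_sqrt (hal l)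
          linarith only [sq_nonneg (Real.sqrt (al k) - Real.sqrt (al l)), e1, e2]
        have h3 : 0 ≤ B * ρ ^ ((l - k) + (k - l)) := mul_nonneg hB (hρ _)
        calc B * ρ ^ ((l - k) + (k - l)) * (Real.sqrt (al k) * Real.sqrt (al l))
            ≤ B * ρ ^ ((l - k) + (k - l)) * ((al k + al l) / 2) :=
              mul_le_mul_of_nonneg_left h2 h3
          _ = _ := by ring
    _ = B / 2 * ∑ k ∈ Finset.range (N + 1), al k *
          ∑ l ∈ Finset.range (N + 1), ρ ^ ((l - k) + (k - l)) +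
        B / 2 * ∑ l ∈ Finset.range (N + 1), al l *
          ∑ k ∈ Finset.range (N + 1), ρ ^ ((k - l) + (l - k)) := by
        simp_rw [Finset.sum_add_distrib]
        congr 1
        · simp_rw [Finset.mul_sum]
          refine Finset.sum_congr rfl fun k _ => Finset.sum_congr rfl fun l _ => by ring
        · rw [Finset.sum_comm]
          simp_rw [Finset.mul_sum]
          refine Finset.sum_congr rfl fun k _ => Finset.sum_congr rfl fun l _ => by ring
    _ ≤ B / 2 * ∑ k ∈ Finset.range (N + 1), al k * (2 / (1 - ρ)) +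
        B / 2 * ∑ l ∈ Finset.range (N + 1), al l * (2 / (1 - ρ)) := by
        gcongr with k hk k hk
        · exact hal k
        · exact ao_geom h0 h1 N k (Nat.lt_succ_iff.mp (Finset.mem_range.mp hk))
        · exact hal k
        · exact ao_geom h0 h1 N k (Nat.lt_succ_iff.mp (Finset.mem_range.mp hk))
    _ = B * (2 / (1 - ρ)) * ∑ k ∈ Finset.range (N + 1), al k := by
        rw [← Finset.sum_mul]
        ring

end AO

/-- The Bessel inequality of the whole system. -/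
lemma ao_bessel (n d : ℕ) (C c lam Lam : ℝ) (hC : 0 < C) (hc : 0 < c) (hlam : 0 < lam)
    (hlam1 : lam < 1) (hLam : 1 ≤ Lam) :
    ∃ CB : ℝ, 0 < CB ∧ ∀ (ν : Measure (E d)), UB n ν C → (∃ R0, ν (closedBall 0 R0)ᶜ = 0) →
      ∀ s0 : ℝ, 0 < s0 → ∀ (N : ℕ) (A : ℕ → Finset (E d)),
      (∀ k ≤ N, ∀ p ∈ A k, ∀ q ∈ A k, p ≠ q → s0 * lam ^ k ≤ ‖p - q‖) →
      (∀ k ≤ N, ∀ p ∈ A k, ENNReal.ofReal (c * (s0 * lam ^ k) ^ n) ≤
        ν (closedBall p (Lam * (s0 * lam ^ k)))) →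
      ∀ ψ : ℕ → E d → E d → ℝ, (∀ k ≤ N, ∀ p ∈ A k, Lip (ψ k p) ∧
        (∀ y, Lam * (s0 * lam ^ k) < ‖y - p‖ → ψ k p y = 0) ∧
        ∫ y, ψ k p y ∂ν = 0 ∧ En n ν (ψ k p) ≤ (s0 * lam ^ k)⁻¹) →
      ∀ a : ℕ → E d → ℝ,
      ∫ y, (∑ k ∈ Finset.range (N + 1), ∑ p ∈ A k, a k p * ψ k p y) ^ 2 ∂ν ≤
        CB * ∑ k ∈ Finset.range (N + 1), ∑ p ∈ A k, a k p ^ 2 := by
  obtain ⟨CL, hCL, HL⟩ := level_bounds n d C c Lam hC hc hLam
  obtain ⟨CX, hCX, HX⟩ := cross_level n d C c Lam hC hc hLam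
  set ρ := Real.sqrt lam with hρ
  have hρ0 : 0 ≤ ρ := Real.sqrt_nonneg _
  have hρ1 : ρ < 1 := by
    rw [hρ, Real.sqrt_lt' one_pos]
    simpa using hlam1
  have hρ2 : ρ ^ 2 = lam := Real.sq_sqrt hlam.le
  have h1ρ : 0 < 1 - ρ := by linarith
  refine ⟨CX * Real.sqrt CL * (2 / (1 - ρ)), by positivity, ?_⟩
  intro ν hU hb s0 hs0 N A hsep hmass ψ hψ a
  have hs : ∀ k, 0 < s0 * lam ^ k := fun k => by positivity
  let G : ℕ → E d → ℝ := fun k y => ∑ p ∈ A k, a k p * ψ k p y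
  let al : ℕ → ℝ := fun k => ∑ p ∈ A k, a k p ^ 2
  have hal : ∀ k, 0 ≤ al k := fun k => Finset.sum_nonneg fun p _ => sq_nonneg _
  have hGlip : ∀ k ≤ N, Lip (G k) := fun k hk => Lip.sum (A k) (a k) fun p hp => (hψ k hk p hp).1
  have hcross : ∀ k ≤ N, ∀ l ≤ N, k ≤ l → |∫ y, G k y * G l y ∂ν| ≤
      CX * Real.sqrt CL * ρ ^ (l - k) * (Real.sqrt (al k) * Real.sqrt (al l)) := by
    intro k hk l hl hkl
    have h1 := HX ν hU hb (s0 * lam ^ l) (hs l) (A l) (hsep l hl) (hmass l hl) (ψ l) (hψ l hl)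
      (a l) (G k) (hGlip k hk)
    have h2 := (HL ν hU hb (s0 * lam ^ k) (hs k) (A k) (hsep k hk) (hmass k hk) (ψ k) (hψ k hk)
      (a k)).2
    refine h1.trans ?_
    have h3 : s0 * lam ^ l * En n ν (G k) ≤ CL * (ρ ^ (l - k)) ^ 2 * al k := by
      have h4 : s0 * lam ^ l * En n ν (G k) ≤
          s0 * lam ^ l * (CL * (s0 * lam ^ k)⁻¹ * ∑ p ∈ A k, a k p ^ 2) :=
        mul_le_mul_of_nonneg_left h2 (hs l).le
      refine h4.trans (le_of_eq ?_)
      have h5 : lam ^ l = lam ^ k * (ρ ^ (l - k)) ^ 2 := by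
        rw [← pow_mul, mul_comm (l - k) 2, pow_mul, hρ2, ← pow_add]
        congr 1
        omega
      rw [h5]
      have h6 : lam ^ k ≠ 0 := by positivity
      change _ = CL * (ρ ^ (l - k)) ^ 2 * ∑ p ∈ A k, a k p ^ 2
      field_simp
    have h7 : Real.sqrt (s0 * lam ^ l * En n ν (G k)) ≤
        Real.sqrt CL * ρ ^ (l - k) * Real.sqrt (al k) := by
      refine (Real.sqrt_le_sqrt h3).trans (le_of_eq ?_)
      rw [Real.sqrt_mul (by positivity), Real.sqrt_mul hCL.le, Real.sqrt_sq (by positivity)]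
    calc CX * Real.sqrt (s0 * lam ^ l * En n ν (G k)) * Real.sqrt (∑ p ∈ A l, a l p ^ 2)
        ≤ CX * (Real.sqrt CL * ρ ^ (l - k) * Real.sqrt (al k)) *
          Real.sqrt (∑ p ∈ A l, a l p ^ 2) := by gcongr
      _ = _ := by
        change CX * (Real.sqrt CL * ρ ^ (l - k) * Real.sqrt (al k)) * Real.sqrt (al l) = _
        ring
  have hI : ∀ k ≤ N, ∀ l ≤ N, |∫ y, G k y * G l y ∂ν| ≤
      CX * Real.sqrt CL * ρ ^ ((l - k) + (k - l)) * (Real.sqrt (al k) * Real.sqrt (al l)) := by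
    intro k hk l hl
    rcases le_total k l with h | h
    · have := hcross k hk l hl h
      rwa [show (l - k) + (k - l) = l - k by omega]
    · have := hcross l hl k hk h
      rw [show (l - k) + (k - l) = k - l by omega, mul_comm (Real.sqrt (al k))]
      refine le_trans (le_of_eq ?_) this
      congr 1
      exact integral_congr_ae (Eventually.of_forall fun y => mul_comm _ _)
  have hint : ∀ k ≤ N, ∀ l ≤ N, Integrable (fun y => G k y * G l y) ν := fun k hk l hl =>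
    cl_integrable hU hb ((Lip.continuous (hGlip k hk)).mul (Lip.continuous (hGlip l hl)))
  have hexp : ∫ y, (∑ k ∈ Finset.range (N + 1), ∑ p ∈ A k, a k p * ψ k p y) ^ 2 ∂ν =
      ∑ k ∈ Finset.range (N + 1), ∑ l ∈ Finset.range (N + 1), ∫ y, G k y * G l y ∂ν := by
    have h1 : ∀ y, (∑ k ∈ Finset.range (N + 1), ∑ p ∈ A k, a k p * ψ k p y) ^ 2 =
        ∑ k ∈ Finset.range (N + 1), ∑ l ∈ Finset.range (N + 1), G k y * G l y := by
      intro y
      rw [sq, Finset.sum_mul_sum]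
    simp_rw [h1]
    rw [integral_finsetSum]
    · refine Finset.sum_congr rfl fun k hk => ?_
      rw [integral_finsetSum]
      intro l hl
      exact hint k (Nat.lt_succ_iff.mp (Finset.mem_range.mp hk)) l
        (Nat.lt_succ_iff.mp (Finset.mem_range.mp hl))
    · intro k hk
      refine integrable_finsetSum _ fun l hl => ?_
      exact hint k (Nat.lt_succ_iff.mp (Finset.mem_range.mp hk)) l
        (Nat.lt_succ_iff.mp (Finset.mem_range.mp hl))
  rw [hexp]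
  exact ao_schur hρ0 hρ1 (by positivity) N al hal (fun k l => ∫ y, G k y * G l y ∂ν) hI

/-- Carleson packing of the energies. -/
theorem exists_energy (n d : ℕ) (C c CT lam Lam : ℝ) (hC : 0 < C) (hc : 0 < c) (hlam : 0 < lam)
    (hlam1 : lam < 1) (hLam : 1 ≤ Lam) :
    ∃ CE : ℝ, 0 < CE ∧ ∀ (μ : Measure (E d)), UB n μ C → TB n μ CT → ∀ (z : E d) (D : ℝ), 0 < D →
      ∀ s0 : ℝ, 0 < s0 → s0 ≤ D → ∀ (N : ℕ) (A : ℕ → Finset (E d)),
      (∀ k ≤ N, ∀ p ∈ A k, ∀ q ∈ A k, p ≠ q → s0 * lam ^ k ≤ ‖p - q‖) →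
      (∀ k ≤ N, ∀ p ∈ A k, ENNReal.ofReal (c * (s0 * lam ^ k) ^ n) ≤
        μ (closedBall z D ∩ closedBall p (Lam * (s0 * lam ^ k)))) →
      ∃ e : ℕ → E d → ℝ, (∀ k p, 0 ≤ e k p) ∧
        (∀ k ≤ N, ∀ p ∈ A k,
          EnLe n (μ.restrict (closedBall z D)) Lam p (s0 * lam ^ k) (e k p)) ∧
        ∑ k ∈ Finset.range (N + 1), ∑ p ∈ A k, e k p * (s0 * lam ^ k) ^ n ≤ CE * D ^ n := by
  classical
  obtain ⟨CB, hCB, HB⟩ := ao_bessel n d C c lam Lam hC hc hlam hlam1 hLam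
  refine ⟨2 * (d * (|CT| * CB)) + 1, by positivity, ?_⟩
  intro μ hU hT z D hD s0 hs0 hs0D N A hsep hmass
  set ν := μ.restrict (closedBall z D) with hν
  have hUν : UB n ν C := UB.restrict hU _
  have hbν : ∃ R0, ν (closedBall 0 R0)ᶜ = 0 := ao_bdd_restrict z D
  have hs : ∀ k, 0 < s0 * lam ^ k := fun k => by positivity
  have key : ∀ k p, ∃ a : ℝ, ∃ ψ : E d → ℝ, 0 ≤ a ∧ (k ≤ N → p ∈ A k →
      (EnLe n ν Lam p (s0 * lam ^ k) a ∧
      Lip ψ ∧ (∀ y, Lam * (s0 * lam ^ k) < ‖y - p‖ → ψ y = 0) ∧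
        ∫ y, ψ y ∂ν = 0 ∧
        En n ν ψ ≤ (s0 * lam ^ k)⁻¹ ∧
        a * (s0 * lam ^ k) ^ n ≤ 2 * ‖BF n ν ψ‖ ^ 2)) := by
    intro k p
    by_cases h : k ≤ N ∧ p ∈ A k
    · obtain ⟨a, ha, h1, ψ, h2, h3, h4, h5, h6⟩ :=
        ao_one hU hT hD hc (hs k) hLam (hmass k h.1 p h.2)
      exact ⟨a, ψ, ha, fun _ _ => ⟨h1, h2, h3, h4, h5, h6⟩⟩
    · exact ⟨0, fun _ => 0, le_rfl, fun h1 h2 => absurd ⟨h1, h2⟩ h⟩
  choose e ψ he0 hkey using key
  refine ⟨e, he0, fun k hk p hp => (hkey k p hk hp).1, ?_⟩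
  have hψ : ∀ k ≤ N, ∀ p ∈ A k, Lip (ψ k p) ∧
        (∀ y, Lam * (s0 * lam ^ k) < ‖y - p‖ → ψ k p y = 0) ∧
        ∫ y, ψ k p y ∂ν = 0 ∧ En n ν (ψ k p) ≤ (s0 * lam ^ k)⁻¹ := fun k hk p hp =>
    ⟨(hkey k p hk hp).2.1, (hkey k p hk hp).2.2.1, (hkey k p hk hp).2.2.2.1,
      (hkey k p hk hp).2.2.2.2.1⟩
  have hmass' : ∀ k ≤ N, ∀ p ∈ A k, ENNReal.ofReal (c * (s0 * lam ^ k) ^ n) ≤
      ν (closedBall p (Lam * (s0 * lam ^ k))) := by
    intro k hk p hp
    have h1 : ν (closedBall p (Lam * (s0 * lam ^ k))) =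
        μ (closedBall z D ∩ closedBall p (Lam * (s0 * lam ^ k))) := by
      rw [hν, Measure.restrict_apply isClosed_closedBall.measurableSet, inter_comm]
    rw [h1]
    exact hmass k hk p hp
  have hbes := HB ν hUν hbν s0 hs0 N A hsep hmass' ψ hψ
  -- coordinatewise bound
  have hcoord : ∀ i : Fin d, ∑ k ∈ Finset.range (N + 1), ∑ p ∈ A k, (BF n ν (ψ k p) i) ^ 2 ≤
      |CT| * CB * D ^ n := by
    intro i
    set a : ℕ → E d → ℝ := fun k p => BF n ν (ψ k p) i with ha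
    set T : ℝ := ∑ k ∈ Finset.range (N + 1), ∑ p ∈ A k, (BF n ν (ψ k p) i) ^ 2 with hTdef
    have hT0 : 0 ≤ T := Finset.sum_nonneg fun k _ => Finset.sum_nonneg fun p _ => sq_nonneg _
    let Ψ : E d → ℝ := fun y => ∑ k ∈ Finset.range (N + 1), ∑ p ∈ A k, a k p * ψ k p y
    have hΨeq : Ψ = fun y => ∑ x ∈ (Finset.range (N + 1)).sigma A, a x.1 x.2 * ψ x.1 x.2 y := by
      funext y
      rw [Finset.sum_sigma]
    have hlip : ∀ x ∈ (Finset.range (N + 1)).sigma A, Lip (ψ x.1 x.2) := by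
      intro x hx
      rw [Finset.mem_sigma] at hx
      exact (hψ x.1 (Nat.lt_succ_iff.mp (Finset.mem_range.mp hx.1)) x.2 hx.2).1
    have hΨlip : Lip Ψ := by
      rw [hΨeq]
      exact Lip.sum _ (fun x : (_ : ℕ) × E d => a x.1 x.2) hlip
    have hBF : BF n ν Ψ = ∑ k ∈ Finset.range (N + 1), ∑ p ∈ A k, a k p • BF n ν (ψ k p) := by
      rw [hΨeq, BF_sum hUν hbν _ (fun x : (_ : ℕ) × E d => a x.1 x.2) hlip, Finset.sum_sigma]
    have hBFi : BF n ν Ψ i = T := by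
      rw [hBF, hTdef]
      simp only [WithLp.ofLp_sum, Finset.sum_apply, PiLp.smul_apply, smul_eq_mul]
      refine Finset.sum_congr rfl fun k _ => Finset.sum_congr rfl fun p _ => ?_
      rw [ha]
      simp only
      ring
    have h1 : T ^ 2 ≤ ‖BF n ν Ψ‖ ^ 2 := by
      rw [← hBFi]
      have := PiLp.norm_apply_le (BF n ν Ψ) i
      rw [Real.norm_eq_abs] at this
      rw [← sq_abs]
      gcongr
    have h2 : ‖BF n ν Ψ‖ ^ 2 ≤ CT * D ^ n * ∫ y, Ψ y ^ 2 ∂ν := hT.2 z D hD Ψ hΨlip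
    have h3 : ∫ y, Ψ y ^ 2 ∂ν ≤ CB * T := hbes a
    have hCT : |CT| = CT := abs_of_nonneg hT.1
    have h4 : T ^ 2 ≤ (|CT| * CB * D ^ n) * T := by
      rw [hCT]
      have h5 : CT * D ^ n * ∫ y, Ψ y ^ 2 ∂ν ≤ CT * D ^ n * (CB * T) :=
        mul_le_mul_of_nonneg_left h3 (mul_nonneg hT.1 (by positivity))
      calc T ^ 2 ≤ CT * D ^ n * (CB * T) := (h1.trans h2).trans h5
        _ = _ := by ring
    rcases hT0.eq_or_lt with h | h
    · rw [← h]
      positivity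
    · rw [sq] at h4
      exact le_of_mul_le_mul_right h4 h
  calc ∑ k ∈ Finset.range (N + 1), ∑ p ∈ A k, e k p * (s0 * lam ^ k) ^ n
      ≤ ∑ k ∈ Finset.range (N + 1), ∑ p ∈ A k, 2 * ‖BF n ν (ψ k p)‖ ^ 2 := by
        refine Finset.sum_le_sum fun k hk => Finset.sum_le_sum fun p hp => ?_
        exact (hkey k p (Nat.lt_succ_iff.mp (Finset.mem_range.mp hk)) hp).2.2.2.2.2
    _ = 2 * ∑ i : Fin d, ∑ k ∈ Finset.range (N + 1), ∑ p ∈ A k, (BF n ν (ψ k p) i) ^ 2 := by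
        rw [Finset.sum_comm' (t' := Finset.range (N + 1)) (s' := fun _ => Finset.univ)
          (by intro x y; simp)]
        rw [Finset.mul_sum]
        refine Finset.sum_congr rfl fun k _ => ?_
        rw [Finset.sum_comm, Finset.mul_sum]
        refine Finset.sum_congr rfl fun p _ => ?_
        rw [EuclideanSpace.norm_sq_eq]
        simp only [Real.norm_eq_abs, sq_abs]
    _ ≤ 2 * ∑ i : Fin d, |CT| * CB * D ^ n := by
        gcongr with i _
        exact hcoord i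
    _ = 2 * (d * (|CT| * CB)) * D ^ n := by
        rw [Finset.sum_const, Finset.card_univ, Fintype.card_fin, nsmul_eq_mul]
        ring
    _ ≤ (2 * (d * (|CT| * CB)) + 1) * D ^ n := by
        gcongr
        linarith

end Vale.Agent.P120
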