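import Vale.Agent.Lib.P120.UR.Base

/-!
# P120: comparison of the truncated forms `BF` and `BFc` for mean zero functions
-/

open MeasureTheory Filter Set Metric Module
open scoped Topology ENNReal NNReal RealInnerProductSpace

namespace Vale.Agent.P120

variable {d n : ℕ} {ν : Measure (E d)} {C : ℝ}

namespace BFcTail

/-- the form with a general weight -/
noncomputable def IW (n : ℕ) (ν : Measure (E d)) (ψ w : E d → ℝ) : E d :=
  ∫ p : E d × E d, (w p.1 * w p.2 * (ψ p.1 - ψ p.2)) • rieszKernel n (p.1 - p.2) ∂(ν.prod ν)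

/-- indicator weight -/
noncomputable def ind (R : ℝ) : E d → ℝ := (closedBall (0 : E d) R).indicator 1

theorem ind_of_le {R : ℝ} {y : E d} (h : ‖y‖ ≤ R) : ind R y = 1 := by
  rw [ind, indicator_of_mem (by simpa using h)]; rfl

theorem ind_of_lt {R : ℝ} {y : E d} (h : R < ‖y‖) : ind R y = 0 := by
  rw [ind, indicator_of_notMem (by simpa using h)]

theorem measurable_ind (R : ℝ) : Measurable (ind R : E d → ℝ) :=
  measurable_one.indicator measurableSet_closedBall

theorem abs_ind_le (R : ℝ) (y : E d) : |ind R y| ≤ 1 := by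
  rcases le_or_gt ‖y‖ R with h | h
  · rw [ind_of_le h, abs_one]
  · rw [ind_of_lt h, abs_zero]; exact zero_le_one

theorem abs_cut_le (R : ℝ) (y : E d) : |cut R y| ≤ 1 := by
  unfold cut
  rw [abs_of_nonneg (le_max_left _ _)]
  exact max_le zero_le_one (min_le_left _ _)

theorem measurable_cut (R : ℝ) : Measurable (cut R : E d → ℝ) := by
  unfold cut
  fun_prop

theorem cut_of_le {R : ℝ} (hR : 0 < R) {y : E d} (h : ‖y‖ ≤ R) : cut R y = 1 := by
  unfold cut
  have h1 : ‖y‖ / R ≤ 1 := (div_le_one hR).2 h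
  rw [min_eq_left (by linarith), max_eq_right zero_le_one]

theorem cut_of_lt {R : ℝ} (hR : 0 < R) {y : E d} (h : 2 * R < ‖y‖) : cut R y = 0 := by
  unfold cut
  have h1 : 2 ≤ ‖y‖ / R := (le_div_iff₀ hR).2 h.le
  rw [max_eq_left ((min_le_right _ _).trans (by linarith))]

/-- integrability of the weighted integrand -/
theorem integrable_IW (hU : UB n ν C) [SigmaFinite ν] {ψ w : E d → ℝ} (hψ : Lip ψ)
    (hw : Measurable w) (hw1 : ∀ y, |w y| ≤ 1) {T : ℝ} (hT : ∀ y, T < ‖y‖ → w y = 0) :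
    Integrable (fun p : E d × E d => (w p.1 * w p.2 * (ψ p.1 - ψ p.2)) •
      rieszKernel n (p.1 - p.2)) (ν.prod ν) := by
  have h0 : ν.restrict (closedBall 0 T) (closedBall 0 T)ᶜ = 0 := by
    rw [Measure.restrict_apply measurableSet_closedBall.compl, compl_inter_self, measure_empty]
  have h1 := BF_integrable (hU.restrict (closedBall 0 T)) ⟨T, h0⟩ hψ
  rw [Measure.prod_restrict] at h1
  have h2 := ((integrable_indicator_iff
    (measurableSet_closedBall.prod measurableSet_closedBall)).2 h1).norm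
  have hψm := hψ.continuous.measurable
  refine h2.mono' ?_ (Eventually.of_forall fun p => ?_)
  · have h3 : Measurable (fun p : E d × E d => rieszKernel n (p.1 - p.2)) :=
      measurable_rieszKernel.comp (by fun_prop)
    have h4 : Measurable (fun p : E d × E d => w p.1 * w p.2 * (ψ p.1 - ψ p.2)) := by fun_prop
    exact (h4.smul h3).aestronglyMeasurable
  · by_cases h1 : ‖p.1‖ ≤ T
    · by_cases h2 : ‖p.2‖ ≤ T
      · rw [indicator_of_mem (by simp [h1, h2]), norm_smul, norm_smul, norm_mul]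
        refine mul_le_mul_of_nonneg_right (mul_le_of_le_one_left (norm_nonneg _) ?_)
          (norm_nonneg _)
        rw [Real.norm_eq_abs, abs_mul]
        exact mul_le_one₀ (hw1 _) (abs_nonneg _) (hw1 _)
      · rw [hT _ (not_le.1 h2), mul_zero, zero_mul, zero_smul, norm_zero]
        exact norm_nonneg _
    · rw [hT _ (not_le.1 h1), zero_mul, zero_mul, zero_smul, norm_zero]
      exact norm_nonneg _

theorem key (hU : UB n ν C) [SigmaFinite ν] {ψ w : E d → ℝ} (hψ : Lip ψ) {r R T : ℝ}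
    (hr : 0 < r) (hψr : ∀ y, r < ‖y‖ → ψ y = 0) (hψ0 : ∫ y, ψ y ∂ν = 0) (hR : 4 * r ≤ R)
    (hw : Measurable w) (hw1 : ∀ y, |w y| ≤ 1) (hwR : ∀ y, ‖y‖ ≤ R → w y = 1)
    (hwT : ∀ y, T < ‖y‖ → w y = 0) :
    ‖IW n ν ψ w - IW n ν ψ (ind R)‖ ≤
      2 * (((n + 2) * 4 ^ (n + 1)) * (2 ^ (n + 1) * C) * r / R * ∫ y, |ψ y| ∂ν) := by
  have hlf := hU.isLocallyFinite
  have hR0 : 0 < R := by linarith
  have hC := hU.1
  set c : ℝ := (n + 2) * 4 ^ (n + 1) with hc
  have hc0 : 0 ≤ c := by positivity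
  have hψm : Measurable ψ := hψ.continuous.measurable
  have hψi : Integrable ψ ν := hψ.continuous.integrable_of_hasCompactSupport
    (HasCompactSupport.intro (isCompact_closedBall 0 r) fun x hx => hψr x (by simpa using hx))
  set g : E d → ℝ := fun y => w y - ind R y with hg
  have hgm : Measurable g := hw.sub (measurable_ind R)
  have hg0 : ∀ y, ‖y‖ ≤ R → g y = 0 := fun y hy => by
    rw [hg]; simp only; rw [hwR y hy, ind_of_le hy, sub_self]
  have hg1 : ∀ y, |g y| ≤ 1 := fun y => by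
    rcases le_or_gt ‖y‖ R with h | h
    · rw [hg0 y h, abs_zero]; exact zero_le_one
    · rw [hg]; simp only; rw [ind_of_lt h, sub_zero]; exact hw1 y
  have hgT : ∀ y, max R T < ‖y‖ → g y = 0 := fun y hy => by
    rw [hg]; simp only
    rw [hwT y ((le_max_right _ _).trans_lt hy), ind_of_lt ((le_max_left _ _).trans_lt hy), sub_self]
  -- the function `G y = |g y| wt 0 y`
  have htail := hU.tail (0 : E d) hR0
  have hGi : Integrable (fun y => |g y| * wt n 0 y) ν := by
    have h1 : Integrable ((Metric.ball (0 : E d) R)ᶜ.indicator (fun y => wt n 0 y)) ν :=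
      (integrable_indicator_iff measurableSet_ball.compl).2 htail.1
    refine h1.mono' ((hgm.abs.mul (measurable_wt_right 0)).aestronglyMeasurable)
      (Eventually.of_forall fun y => ?_)
    rw [Real.norm_eq_abs, abs_of_nonneg (mul_nonneg (abs_nonneg _) (wt_nonneg _ _))]
    rcases le_or_gt ‖y‖ R with h | h
    · rw [hg0 y h, abs_zero, zero_mul]
      exact indicator_nonneg (fun y _ => wt_nonneg _ _) y
    · rw [indicator_of_mem (by simpa using h.le)]
      exact mul_le_of_le_one_left (wt_nonneg _ _) (hg1 y)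
  have hGle : ∫ y, |g y| * wt n 0 y ∂ν ≤ 2 ^ (n + 1) * C / R := by
    refine le_trans ?_ htail.2
    rw [← integral_indicator measurableSet_ball.compl]
    refine integral_mono hGi ((integrable_indicator_iff measurableSet_ball.compl).2 htail.1)
      fun y => ?_
    simp only
    rcases le_or_gt ‖y‖ R with h | h
    · rw [hg0 y h, abs_zero, zero_mul]
      exact indicator_nonneg (fun y _ => wt_nonneg _ _) y
    · rw [indicator_of_mem (by simpa using h.le)]
      exact mul_le_of_le_one_left (wt_nonneg _ _) (hg1 y)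
  -- `G0`
  have hHi : Integrable (fun y => g y • rieszKernel n (-y)) ν := by
    have h1 : Integrable ((closedBall (0 : E d) (max R T)).indicator (fun _ => (R ^ n)⁻¹)) ν :=
      (integrable_indicator_iff measurableSet_closedBall).2
        (integrableOn_const (hU.closedBall_lt_top 0 _).ne)
    refine h1.mono' ((hgm.smul (measurable_rieszKernel.comp measurable_neg)).aestronglyMeasurable)
      (Eventually.of_forall fun y => ?_)
    rw [norm_smul, Real.norm_eq_abs]
    rcases le_or_gt ‖y‖ (max R T) with h | h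
    · rw [indicator_of_mem (by simpa using h)]
      rcases le_or_gt ‖y‖ R with h' | h'
      · rw [hg0 y h', abs_zero, zero_mul]; positivity
      · have h2 : ‖rieszKernel n (-y)‖ ≤ (R ^ n)⁻¹ :=
          norm_rieszKernel_le_of_le hR0 (by rw [norm_neg]; exact h'.le)
        calc |g y| * ‖rieszKernel n (-y)‖ ≤ 1 * (R ^ n)⁻¹ :=
              mul_le_mul (hg1 y) h2 (norm_nonneg _) zero_le_one
          _ = _ := one_mul _
    · rw [hgT y h, abs_zero, zero_mul]
      exact indicator_nonneg (fun y _ => by positivity) y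
  have hG0 : ∫ p : E d × E d, ψ p.1 • (g p.2 • rieszKernel n (-p.2)) ∂(ν.prod ν) = 0 := by
    rw [integral_prod_smul ψ (fun y => g y • rieszKernel n (-y)), hψ0, zero_smul]
  have hG0i : Integrable (fun p : E d × E d => ψ p.1 • (g p.2 • rieszKernel n (-p.2)))
      (ν.prod ν) := hψi.smul_prod hHi
  -- `F0`
  have hbound : ∀ p : E d × E d, ‖(ψ p.1 * g p.2) • (rieszKernel n (p.1 - p.2) -
      rieszKernel n (-p.2))‖ ≤ (c * r) * (|ψ p.1| * (|g p.2| * wt n 0 p.2)) := by
    intro p
    rw [norm_smul, Real.norm_eq_abs, abs_mul]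
    rcases le_or_gt ‖p.1‖ r with h1 | h1
    · rcases le_or_gt ‖p.2‖ R with h2 | h2
      · rw [hg0 _ h2, abs_zero, mul_zero, zero_mul, zero_mul, mul_zero, mul_zero]
      · have hne : -p.2 ≠ 0 := by
          intro h
          rw [neg_eq_zero] at h
          rw [h, norm_zero] at h2
          linarith
        have e1 : -p.2 - (p.1 - p.2) = -p.1 := by abel
        have h3 := rieszKernel_lipschitz (n := n) (-p.2) (p.1 - p.2) hne
          (by rw [e1, norm_neg, norm_neg]; linarith)
        rw [e1, norm_neg, norm_neg, norm_sub_rev] at h3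
        have h4 : wt n 0 p.2 = (‖p.2‖ ^ (n + 1))⁻¹ := by
          unfold wt; rw [zero_sub, norm_neg]
        rw [h4]
        calc |ψ p.1| * |g p.2| * ‖rieszKernel n (p.1 - p.2) - rieszKernel n (-p.2)‖
            ≤ |ψ p.1| * |g p.2| * (c * r * (‖p.2‖ ^ (n + 1))⁻¹) := by
              refine mul_le_mul_of_nonneg_left (h3.trans ?_) (by positivity)
              gcongr
          _ = _ := by ring
    · rw [hψr _ h1, abs_zero, zero_mul, zero_mul, zero_mul, mul_zero]
  have hF0i : Integrable (fun p : E d × E d => (ψ p.1 * g p.2) • (rieszKernel n (p.1 - p.2) -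
      rieszKernel n (-p.2))) (ν.prod ν) := by
    refine ((hψi.abs.mul_prod hGi).const_mul (c * r)).mono' ?_ (Eventually.of_forall hbound)
    have h1 : Measurable (fun p : E d × E d => rieszKernel n (p.1 - p.2) -
        rieszKernel n (-p.2)) :=
      (measurable_rieszKernel.comp (by fun_prop)).sub (measurable_rieszKernel.comp (by fun_prop))
    have h2 : Measurable (fun p : E d × E d => ψ p.1 * g p.2) := by fun_prop
    exact (h2.smul h1).aestronglyMeasurable
  have hF0 : ‖∫ p : E d × E d, (ψ p.1 * g p.2) • (rieszKernel n (p.1 - p.2) -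
      rieszKernel n (-p.2)) ∂(ν.prod ν)‖ ≤ c * (2 ^ (n + 1) * C) * r / R * ∫ y, |ψ y| ∂ν := by
    refine (norm_integral_le_of_norm_le ((hψi.abs.mul_prod hGi).const_mul (c * r))
      (Eventually.of_forall hbound)).trans ?_
    rw [integral_const_mul, integral_prod_mul (fun x => |ψ x|) (fun y => |g y| * wt n 0 y)]
    have h1 : 0 ≤ ∫ y, |ψ y| ∂ν := integral_nonneg fun _ => abs_nonneg _
    calc c * r * ((∫ x, |ψ x| ∂ν) * ∫ y, |g y| * wt n 0 y ∂ν)
        ≤ c * r * ((∫ x, |ψ x| ∂ν) * (2 ^ (n + 1) * C / R)) := by gcongr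
      _ = _ := by ring
  -- `F`
  have hFeq : (fun p : E d × E d => (ψ p.1 * g p.2) • rieszKernel n (p.1 - p.2)) =
      fun p => (ψ p.1 * g p.2) • (rieszKernel n (p.1 - p.2) - rieszKernel n (-p.2)) +
        ψ p.1 • (g p.2 • rieszKernel n (-p.2)) := by
    funext p
    rw [smul_sub, smul_smul, sub_add_cancel]
  have hFi : Integrable (fun p : E d × E d => (ψ p.1 * g p.2) • rieszKernel n (p.1 - p.2))
      (ν.prod ν) := by
    rw [hFeq]; exact hF0i.add hG0i
  have hF : ∫ p : E d × E d, (ψ p.1 * g p.2) • rieszKernel n (p.1 - p.2) ∂(ν.prod ν) =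
      ∫ p : E d × E d, (ψ p.1 * g p.2) • (rieszKernel n (p.1 - p.2) -
      rieszKernel n (-p.2)) ∂(ν.prod ν) := by
    rw [hFeq, integral_add hF0i hG0i, hG0, add_zero]
  -- the difference
  have hdiff : IW n ν ψ w - IW n ν ψ (ind R) =
      (2 : ℝ) • ∫ p : E d × E d, (ψ p.1 * g p.2) • rieszKernel n (p.1 - p.2) ∂(ν.prod ν) := by
    unfold IW
    rw [← integral_sub (integrable_IW hU hψ hw hw1 hwT)
      (integrable_IW hU hψ (measurable_ind R) (abs_ind_le R) fun y hy => ind_of_lt hy)]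
    have hsw : Integrable (fun p : E d × E d =>
        (ψ p.swap.1 * g p.swap.2) • rieszKernel n (p.swap.1 - p.swap.2)) (ν.prod ν) :=
      hFi.swap
    have hsw2 : ∫ p : E d × E d, (ψ p.swap.1 * g p.swap.2) •
        rieszKernel n (p.swap.1 - p.swap.2) ∂(ν.prod ν) =
        ∫ p : E d × E d, (ψ p.1 * g p.2) • rieszKernel n (p.1 - p.2) ∂(ν.prod ν) :=
      integral_prod_swap (fun p : E d × E d => (ψ p.1 * g p.2) • rieszKernel n (p.1 - p.2))
    rw [two_smul]
    nth_rewrite 2 [← hsw2]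
    rw [← integral_add hFi hsw]
    refine integral_congr_ae (Eventually.of_forall fun p => ?_)
    simp only [Prod.fst_swap, Prod.snd_swap]
    rw [rieszKernel_sub_comm p.1 p.2, smul_neg, ← sub_eq_add_neg, ← sub_smul, ← sub_smul]
    congr 1
    -- pointwise identity
    have hx : ∀ y, g y * ψ y = 0 := fun y => by
      rcases le_or_gt ‖y‖ R with h | h
      · rw [hg0 y h, zero_mul]
      · rw [hψr y (by linarith), mul_zero]
    have hi : ∀ y, ind R y * ψ y = ψ y := fun y => by
      rcases le_or_gt ‖y‖ R with h | h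
      · rw [ind_of_le h, one_mul]
      · rw [hψr y (by linarith), mul_zero]
    have e1 : ∀ y, w y = ind R y + g y := fun y => by rw [hg]; ring
    rw [e1 p.1, e1 p.2]
    have a1 := hx p.1
    have a2 := hx p.2
    have a3 := hi p.1
    have a4 := hi p.2
    linear_combination (ind R p.2 + g p.2) * a1 - (ind R p.1 + g p.1) * a2 + g p.2 * a3 -
      g p.1 * a4
  rw [hdiff, norm_smul, hF]
  calc ‖(2 : ℝ)‖ * ‖∫ p : E d × E d, (ψ p.1 * g p.2) • (rieszKernel n (p.1 - p.2) -
      rieszKernel n (-p.2)) ∂(ν.prod ν)‖ ≤ 2 * (c * (2 ^ (n + 1) * C) * r / R * ∫ y, |ψ y| ∂ν) := by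
        rw [Real.norm_eq_abs, abs_two]
        gcongr
    _ = _ := by ring

theorem BF_restrict_eq (ψ : E d → ℝ) [SigmaFinite ν] (T : ℝ) :
    BF n (ν.restrict (closedBall 0 T)) ψ = (1 / 2 : ℝ) • IW n ν ψ (ind T) := by
  unfold BF IW
  rw [Measure.prod_restrict, ← integral_indicator
    (measurableSet_closedBall.prod measurableSet_closedBall)]
  congr 1
  refine integral_congr_ae (Eventually.of_forall fun p => ?_)
  simp only
  by_cases h1 : ‖p.1‖ ≤ T
  · by_cases h2 : ‖p.2‖ ≤ T
    · rw [indicator_of_mem (by simp [h1, h2]), ind_of_le h1, ind_of_le h2]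
      simp
    · rw [indicator_of_notMem (by simp [h1, h2]), ind_of_lt (not_le.1 h2)]
      simp
  · rw [indicator_of_notMem (by simp [h1]), ind_of_lt (not_le.1 h1)]
    simp

end BFcTail

open BFcTail in
/-- `UR/BFcTail.lean`: comparison of `BF` and `BFc` (also with `ν.restrict (closedBall 0 R)`) for
mean zero functions, uniformly in the measure. -/
theorem bfc_tail (n d : ℕ) (C : ℝ) (hC : 0 < C) : ∃ Cb : ℝ, 0 < Cb ∧ ∀ (ν : Measure (E d)),
    UB n ν C → ∀ (ψ : E d → ℝ), Lip ψ → ∀ r : ℝ, 0 < r → (∀ y, r < ‖y‖ → ψ y = 0) →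
    ∫ y, ψ y ∂ν = 0 → ∀ R T : ℝ, 4 * r ≤ R → R ≤ T →
    ‖BF n (ν.restrict (closedBall 0 T)) ψ - BFc n ν R ψ‖ ≤ Cb * r / R * ∫ y, |ψ y| ∂ν ∧
    ‖BF n (ν.restrict (closedBall 0 T)) ψ - BF n (ν.restrict (closedBall 0 R)) ψ‖ ≤
      Cb * r / R * ∫ y, |ψ y| ∂ν := by
  refine ⟨2 * (((n + 2) * 4 ^ (n + 1)) * (2 ^ (n + 1) * C)), by positivity, ?_⟩
  intro ν hU ψ hψ r hr hψr hψ0 R T hR hRT
  have hsf := hU.sigmaFinite
  have hR0 : 0 < R := by linarith
  have hpos : 0 ≤ ∫ y, |ψ y| ∂ν := integral_nonneg fun _ => abs_nonneg _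
  have k1 := key hU hψ hr hψr hψ0 hR (measurable_ind T) (abs_ind_le T)
    (fun y hy => ind_of_le (hy.trans hRT)) (fun y hy => ind_of_lt hy)
  have k2 := key hU hψ hr hψr hψ0 hR (measurable_cut R) (abs_cut_le R)
    (fun y hy => cut_of_le hR0 hy) (fun y hy => cut_of_lt hR0 hy)
  have e : BFc n ν R ψ = (1 / 2 : ℝ) • IW n ν ψ (cut R) := rfl
  set B : ℝ := ((n : ℝ) + 2) * 4 ^ (n + 1) * (2 ^ (n + 1) * C) * r / R * ∫ y, |ψ y| ∂ν with hB
  have hB0 : 0 ≤ B := by positivity
  have hB2 : 2 * (((n : ℝ) + 2) * 4 ^ (n + 1) * (2 ^ (n + 1) * C)) * r / R * ∫ y, |ψ y| ∂ν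
      = 2 * B := by rw [hB]; ring
  rw [BF_restrict_eq, BF_restrict_eq, e, hB2, ← smul_sub, ← smul_sub, norm_smul, norm_smul]
  have h2 : ‖(1 / 2 : ℝ)‖ = 1 / 2 := by norm_num
  rw [h2]
  constructor
  · have h3 : IW n ν ψ (ind T) - IW n ν ψ (cut R) = (IW n ν ψ (ind T) - IW n ν ψ (ind R)) -
        (IW n ν ψ (cut R) - IW n ν ψ (ind R)) := by abel
    rw [h3]
    have h4 := norm_sub_le (IW n ν ψ (ind T) - IW n ν ψ (ind R))
        (IW n ν ψ (cut R) - IW n ν ψ (ind R))
    linarith
  · linarith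

end Vale.Agent.P120
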