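import Vale.Agent.Lib.P120.UR.LopFacts

/-!
P120, module HalfLap: the dilation identity for the truncated Riesz transform of a gradient.
-/

open MeasureTheory Filter Set Metric Module
open scoped Topology ENNReal NNReal RealInnerProductSpace

namespace Vale.Agent.P120

/-- `fderiv f (y+z) z - fderiv f (y-z) z`. -/
noncomputable def halfG {n : ℕ} (f : E n → ℝ) (y z : E n) : ℝ :=
  fderiv ℝ f (y + z) z - fderiv ℝ f (y - z) z

theorem halfG_continuous {n : ℕ} {f : E n → ℝ} (hf : ContDiff ℝ 3 f) :
    Continuous (fun p : E n × E n => halfG f p.1 p.2) := by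
  have h := hf.continuous_fderiv (by norm_num)
  unfold halfG
  exact ((h.comp (continuous_fst.add continuous_snd)).clm_apply continuous_snd).sub
    ((h.comp (continuous_fst.sub continuous_snd)).clm_apply continuous_snd)

theorem halfG_bound {n : ℕ} {f : E n → ℝ} (hf : ContDiff ℝ 3 f) (hfc : HasCompactSupport f) :
    ∃ B r : ℝ, 0 ≤ B ∧ 1 ≤ r ∧ (∀ x, r < ‖x‖ → fderiv ℝ f x = 0) ∧
      ∀ y z, |halfG f y z| ≤ B * (‖y‖ + r) ^ 2 * min 1 (‖z‖ ^ 2) := by
  obtain ⟨K, hK⟩ := ContDiff.lipschitzWith_of_hasCompactSupport (𝕂 := ℝ) (n := 2)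
    (hfc.fderiv ℝ) (hf.fderiv_right (m := 2) (by norm_num)) two_ne_zero
  have hr0 : ∃ r : ℝ, 1 ≤ r ∧ ∀ x, r < ‖x‖ → fderiv ℝ f x = 0 := by
    obtain ⟨r, hr⟩ := (hfc.fderiv ℝ).isCompact.isBounded.subset_closedBall (0 : E n)
    refine ⟨max 1 r, le_max_left _ _, fun x hx => ?_⟩
    refine image_eq_zero_of_notMem_tsupport fun hmem => ?_
    have h := hr hmem
    rw [mem_closedBall, dist_zero_right] at h
    exact absurd (h.trans (le_max_right 1 r)) (not_le.2 hx)
  obtain ⟨r, hr1, hr⟩ := hr0
  refine ⟨2 * K, r, by positivity, hr1, hr, fun y z => ?_⟩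
  have hy := norm_nonneg y
  have hz := norm_nonneg z
  have hb : |halfG f y z| ≤ 2 * K * ‖z‖ ^ 2 := by
    unfold halfG
    have h1 : fderiv ℝ f (y + z) z - fderiv ℝ f (y - z) z =
        (fderiv ℝ f (y + z) - fderiv ℝ f (y - z)) z := rfl
    rw [h1, ← Real.norm_eq_abs]
    refine (ContinuousLinearMap.le_opNorm _ _).trans ?_
    have h2 : ‖fderiv ℝ f (y + z) - fderiv ℝ f (y - z)‖ ≤ K * (2 * ‖z‖) := by
      refine (hK.norm_sub_le _ _).trans ?_
      refine mul_le_mul_of_nonneg_left ?_ K.coe_nonneg
      have h3 : (y + z) - (y - z) = (2 : ℝ) • z := by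
        rw [two_smul]; abel
      rw [h3, norm_smul, Real.norm_eq_abs, abs_two]
    calc _ ≤ (K * (2 * ‖z‖)) * ‖z‖ := mul_le_mul_of_nonneg_right h2 (norm_nonneg _)
      _ = 2 * K * ‖z‖ ^ 2 := by ring
  rcases lt_or_ge (‖y‖ + r) ‖z‖ with h | h
  · have e1 : fderiv ℝ f (y + z) = 0 := hr _ (by
      have := norm_sub_le (y + z) y
      rw [add_sub_cancel_left] at this
      linarith)
    have e2 : fderiv ℝ f (y - z) = 0 := hr _ (by
      have := norm_sub_le y (y - z)
      rw [sub_sub_cancel] at this
      linarith)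
    unfold halfG
    rw [e1, e2]
    simp only [ContinuousLinearMap.zero_apply, sub_zero, abs_zero]
    have : (0 : ℝ) ≤ min 1 (‖z‖ ^ 2) := le_min zero_le_one (by positivity)
    positivity
  · refine hb.trans ?_
    rw [mul_assoc (2 * (K : ℝ))]
    refine mul_le_mul_of_nonneg_left ?_ (by positivity)
    have h1 : 1 ≤ (‖y‖ + r) ^ 2 := one_le_pow₀ (by linarith)
    rw [mul_min_of_nonneg _ _ (by positivity)]
    refine le_min ?_ ?_
    · rw [mul_one]
      exact pow_le_pow_left₀ hz h 2
    · nlinarith only [sq_nonneg ‖z‖, h1]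

theorem halfG_dom {n : ℕ} {f : E n → ℝ} {B r : ℝ}
    (h : ∀ y z, |halfG f y z| ≤ B * (‖y‖ + r) ^ 2 * min 1 (‖z‖ ^ 2)) (y z : E n) :
    ‖halfG f y z * (‖z‖ ^ (n + 1))⁻¹‖ ≤ B * (‖y‖ + r) ^ 2 * lopDom n z := by
  rw [Real.norm_eq_abs, abs_mul, abs_of_nonneg (a := (‖z‖ ^ (n + 1))⁻¹) (by positivity)]
  unfold lopDom
  rw [← mul_assoc]
  exact mul_le_mul_of_nonneg_right (h y z) (by positivity)

theorem halfG_measurable {n : ℕ} {f : E n → ℝ} (hf : ContDiff ℝ 3 f) (y : E n) :
    Measurable (fun z : E n => halfG f y z * (‖z‖ ^ (n + 1))⁻¹) := by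
  refine Measurable.mul ?_ (lop_measurable_ker n)
  exact ((halfG_continuous hf).comp (continuous_const.prodMk continuous_id)).measurable

theorem halfG_integrable {n : ℕ} (hn : 1 ≤ n) {f : E n → ℝ} (hf : ContDiff ℝ 3 f)
    (hfc : HasCompactSupport f) (y : E n) :
    Integrable (fun z : E n => halfG f y z * (‖z‖ ^ (n + 1))⁻¹) := by
  obtain ⟨B, r, _, _, _, h⟩ := halfG_bound hf hfc
  exact ((lopDom_integrable n hn).const_mul (B * (‖y‖ + r) ^ 2)).mono'
    (halfG_measurable hf y).aestronglyMeasurable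
    (Eventually.of_forall fun z => halfG_dom h y z)

/-- Symmetrisation of the truncated integral. -/
theorem half_symm {n : ℕ} {f : E n → ℝ} (hf : ContDiff ℝ 3 f)
    (hfc : HasCompactSupport f) (y : E n) {ε : ℝ} (hε : 0 < ε) :
    ∫ x in {x | ε < ‖x - y‖}, fderiv ℝ f x (rieszKernel n (x - y)) =
      1 / 2 * ∫ z in {z | ε < ‖z‖}, halfG f y z * (‖z‖ ^ (n + 1))⁻¹ := by
  have hS : MeasurableSet {z : E n | ε < ‖z‖} := measurableSet_lt measurable_const measurable_norm
  have hS' : MeasurableSet {x : E n | ε < ‖x - y‖} :=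
    measurableSet_lt measurable_const (measurable_id.sub_const y).norm
  have hcf := hf.continuous_fderiv (by norm_num)
  set h : E n → ℝ := {z : E n | ε < ‖z‖}.indicator
    (fun z => fderiv ℝ f (y + z) (rieszKernel n z)) with hh
  have e1 : ∫ x in {x | ε < ‖x - y‖}, fderiv ℝ f x (rieszKernel n (x - y)) = ∫ z, h z := by
    rw [← integral_indicator hS', ← integral_sub_right_eq_self h y]
    refine integral_congr_ae (Eventually.of_forall fun x => ?_)
    simp only [hh, indicator, mem_setOf_eq, add_sub_cancel]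
  have hmeas : Measurable h := by
    refine Measurable.indicator ?_ hS
    have h1 : Measurable (fun z : E n => fderiv ℝ f (y + z)) :=
      (hcf.comp (continuous_const.add continuous_id)).measurable
    have h2 : (fun z : E n => fderiv ℝ f (y + z) (rieszKernel n z)) =
        fun z => (‖z‖ ^ (n + 1))⁻¹ * fderiv ℝ f (y + z) z := by
      ext z
      simp only [rieszKernel, map_smul, smul_eq_mul]
    rw [h2]
    refine (lop_measurable_ker n).mul ?_
    exact ((hcf.comp (continuous_const.add continuous_id)).clm_apply continuous_id).measurable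
  have hint : Integrable h := by
    obtain ⟨C, hC⟩ := (hfc.fderiv ℝ).exists_bound_of_continuous hcf
    have hC0 : 0 ≤ C := (norm_nonneg _).trans (hC 0)
    have hI : Integrable (fun z : E n => ‖fderiv ℝ f (y + z)‖ * (ε ^ n)⁻¹) := by
      have := (hcf.integrable_of_hasCompactSupport (μ := volume) (hfc.fderiv ℝ)).norm
      exact (this.comp_add_left y).mul_const _
    refine hI.mono' hmeas.aestronglyMeasurable (Eventually.of_forall fun z => ?_)
    simp only [hh, indicator, mem_setOf_eq]
    split_ifs with hz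
    · refine (ContinuousLinearMap.le_opNorm _ _).trans ?_
      exact mul_le_mul_of_nonneg_left (norm_rieszKernel_le_of_le hε hz.le) (norm_nonneg _)
    · rw [norm_zero]
      positivity
  have e2 : ∫ z, h (-z) = ∫ z, h z := integral_neg_eq_self h volume
  have e3 : ∫ z, h z = 1 / 2 * ∫ z, (h z + h (-z)) := by
    rw [integral_add hint hint.comp_neg, e2]
    ring
  rw [e1, e3, ← integral_indicator hS]
  congr 1
  refine integral_congr_ae (Eventually.of_forall fun z => ?_)
  simp only [hh, indicator, mem_setOf_eq, norm_neg]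
  split_ifs with hz
  · simp only [rieszKernel, norm_neg, map_smul, map_neg, smul_eq_mul, halfG, ← sub_eq_add_neg]
    ring
  · simp

/-- The dilation identity. -/
theorem half_dilation {n : ℕ} (hn : 1 ≤ n) {f : E n → ℝ} (hf : ContDiff ℝ 3 f)
    (hfc : HasCompactSupport f) (y : E n) :
    ∫ z, halfG f y z * (‖z‖ ^ (n + 1))⁻¹ = - Lop n f y := by
  have hf2 : ContDiff ℝ 2 f := hf.of_le (by norm_num)
  have hdiff : Differentiable ℝ f := hf.differentiable (by norm_num)
  obtain ⟨B, r, hB, hr1, _, hb⟩ := halfG_bound hf hfc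
  set F : ℝ → E n → ℝ := fun t z => (2 * f y - f (y + t • z) - f (y - t • z)) *
    (‖z‖ ^ (n + 1))⁻¹ with hF
  set F' : ℝ → E n → ℝ := fun t z => -(fderiv ℝ f (y + t • z) z - fderiv ℝ f (y - t • z) z) *
    (‖z‖ ^ (n + 1))⁻¹ with hF'
  have hmeasF : ∀ t, AEStronglyMeasurable (F t) volume := by
    intro t
    refine (Measurable.mul ?_ (lop_measurable_ker n)).aestronglyMeasurable
    have hc := hf.continuous
    have h : Continuous (fun z : E n => 2 * f y - f (y + t • z) - f (y - t • z)) := by fun_prop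
    exact h.measurable
  have hcf := hf.continuous_fderiv (by norm_num)
  have hmeasF' : ∀ t, AEStronglyMeasurable (F' t) volume := by
    intro t
    refine (Measurable.mul ?_ (lop_measurable_ker n)).aestronglyMeasurable
    have h : Continuous
        (fun z : E n => -(fderiv ℝ f (y + t • z) z - fderiv ℝ f (y - t • z) z)) := by
      have h1 : Continuous (fun z : E n => y + t • z) := by fun_prop
      have h2 : Continuous (fun z : E n => y - t • z) := by fun_prop
      exact (((hcf.comp h1).clm_apply continuous_id).sub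
        ((hcf.comp h2).clm_apply continuous_id)).neg
    exact h.measurable
  have hF1 : Integrable (F 1) := by
    have := Lop_integrable n hn f hf2 hfc y
    simpa only [hF, one_smul] using this
  have hderiv := hasDerivAt_integral_of_dominated_loc_of_deriv_le (μ := volume) (F := F)
    (F' := F') (x₀ := (1 : ℝ)) (s := ball 1 (1 / 2))
    (bound := fun z => 8 * B * (‖y‖ + r) ^ 2 * lopDom n z)
    (ball_mem_nhds 1 (by norm_num)) (Eventually.of_forall hmeasF) hF1 (hmeasF' 1) ?_
    ((lopDom_integrable n hn).const_mul _) ?_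
  · have h1 := hderiv.2
    have h2 : ∀ t : ℝ, 0 < t → ∫ z, F t z = t * ∫ z, F 1 z := by
      intro t ht
      have e1 : ∀ z : E n, F t z = t ^ (n + 1) * F 1 (t • z) := by
        intro z
        simp only [hF, one_smul, norm_smul, Real.norm_eq_abs, abs_of_pos ht, mul_pow, mul_inv]
        field_simp
      calc ∫ z, F t z = ∫ z, t ^ (n + 1) * F 1 (t • z) := by simp_rw [e1]
        _ = t ^ (n + 1) * ∫ z, F 1 (t • z) := integral_const_mul _ _
        _ = t ^ (n + 1) * ((t ^ n)⁻¹ * ∫ z, F 1 z) := by
            rw [Measure.integral_comp_smul, finrank_euclideanSpace_fin, smul_eq_mul,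
              abs_of_pos (by positivity)]
        _ = t * ∫ z, F 1 z := by
            field_simp
            ring
    have h3 : HasDerivAt (fun t : ℝ => ∫ z, F t z) (∫ z, F 1 z) 1 := by
      have h4 : HasDerivAt (fun t : ℝ => t * ∫ z, F 1 z) (1 * ∫ z, F 1 z) 1 :=
        (hasDerivAt_id (1 : ℝ)).mul_const _
      rw [one_mul] at h4
      refine h4.congr_of_eventuallyEq ?_
      filter_upwards [lt_mem_nhds (show (0 : ℝ) < 1 by norm_num)] with t ht using h2 t ht
    have h5 := h1.unique h3
    have h6 : ∫ z, F 1 z = Lop n f y := by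
      simp only [hF, one_smul, Lop]
    have h7 : ∫ z, F' 1 z = - ∫ z, halfG f y z * (‖z‖ ^ (n + 1))⁻¹ := by
      rw [← integral_neg]
      refine integral_congr_ae (Eventually.of_forall fun z => ?_)
      simp only [hF', one_smul, halfG]
      ring
    linarith
  · refine Eventually.of_forall fun z t ht => ?_
    rw [mem_ball, Real.dist_eq, abs_lt] at ht
    have ht0 : 0 < t := by linarith [ht.1]
    have ht1 : t < 3 / 2 := by linarith [ht.2]
    have e1 : t * (fderiv ℝ f (y + t • z) z - fderiv ℝ f (y - t • z) z) = halfG f y (t • z) := by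
      simp only [halfG, map_smul, smul_eq_mul]
      ring
    have h1 := hb y (t • z)
    rw [← e1, abs_mul, abs_of_pos ht0, norm_smul, Real.norm_eq_abs, abs_of_pos ht0] at h1
    have hmin : min 1 ((t * ‖z‖) ^ 2) ≤ 4 * min 1 (‖z‖ ^ 2) := by
      rw [mul_min_of_nonneg _ _ (by norm_num)]
      refine le_min ((min_le_left _ _).trans (by norm_num)) ((min_le_right _ _).trans ?_)
      rw [mul_pow]
      refine mul_le_mul_of_nonneg_right ?_ (sq_nonneg _)
      nlinarith only [ht0, ht1]
    have hBr : 0 ≤ B * (‖y‖ + r) ^ 2 := by positivity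
    have h2 : |fderiv ℝ f (y + t • z) z - fderiv ℝ f (y - t • z) z| ≤
        8 * (B * (‖y‖ + r) ^ 2) * min 1 (‖z‖ ^ 2) := by
      have h3 := h1.trans (mul_le_mul_of_nonneg_left hmin hBr)
      have habs := abs_nonneg (fderiv ℝ f (y + t • z) z - fderiv ℝ f (y - t • z) z)
      nlinarith only [ht.1, h3, habs]
    simp only [hF', norm_mul, norm_neg, Real.norm_eq_abs]
    rw [abs_of_nonneg (a := (‖z‖ ^ (n + 1))⁻¹) (by positivity)]
    unfold lopDom
    calc _ ≤ 8 * (B * (‖y‖ + r) ^ 2) * min 1 (‖z‖ ^ 2) * (‖z‖ ^ (n + 1))⁻¹ :=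
          mul_le_mul_of_nonneg_right h2 (by positivity)
      _ = _ := by ring
  · refine Eventually.of_forall fun z t _ => ?_
    have h1 : HasDerivAt (fun t : ℝ => y + t • z) z t := by
      have := (hasDerivAt_id t).smul_const z
      simpa using this.const_add y
    have h2 : HasDerivAt (fun t : ℝ => y - t • z) (-z) t := by
      have := (hasDerivAt_id t).smul_const z
      simpa using this.const_sub y
    have h3 := (hdiff (y + t • z)).hasFDerivAt.comp_hasDerivAt t h1
    have h4 := (hdiff (y - t • z)).hasFDerivAt.comp_hasDerivAt t h2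
    have h5 := ((h3.const_sub (2 * f y)).sub h4).mul_const ((‖z‖ ^ (n + 1))⁻¹)
    refine h5.congr_deriv ?_
    simp only [hF', map_neg]
    ring

/-- `UR/HalfLap.lean`: the dilation identity. -/
theorem half_laplacian_identity (n : ℕ) (hn : 1 ≤ n) (f : E n → ℝ) (hf : ContDiff ℝ 3 f)
    (hfc : HasCompactSupport f) (y : E n) :
    Tendsto (fun ε : ℝ => ∫ x in {x | ε < ‖x - y‖}, fderiv ℝ f x (rieszKernel n (x - y)))
      (𝓝[>] 0) (𝓝 (-(1 / 2) * Lop n f y)) := by
  obtain ⟨B, r, _, _, _, hb⟩ := halfG_bound hf hfc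
  have h1 : Tendsto (fun ε : ℝ => ∫ z, {z : E n | ε < ‖z‖}.indicator
      (fun z => halfG f y z * (‖z‖ ^ (n + 1))⁻¹) z) (𝓝[>] 0)
      (𝓝 (∫ z, halfG f y z * (‖z‖ ^ (n + 1))⁻¹)) := by
    refine tendsto_integral_filter_of_dominated_convergence
      (fun z => B * (‖y‖ + r) ^ 2 * lopDom n z) ?_ ?_
      ((lopDom_integrable n hn).const_mul _) ?_
    · refine Eventually.of_forall fun ε => ?_
      exact ((halfG_measurable hf y).indicator
        (measurableSet_lt measurable_const measurable_norm)).aestronglyMeasurable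
    · refine Eventually.of_forall fun ε => Eventually.of_forall fun z => ?_
      exact (norm_indicator_le_norm_self _ _).trans (halfG_dom hb y z)
    · refine Eventually.of_forall fun z => ?_
      rcases eq_or_ne z 0 with rfl | hz
      · have : ∀ ε : ℝ, {z : E n | ε < ‖z‖}.indicator
            (fun z => halfG f y z * (‖z‖ ^ (n + 1))⁻¹) 0 = halfG f y 0 * (‖(0 : E n)‖ ^ (n + 1))⁻¹ := by
          intro ε
          simp only [indicator]
          split_ifs
          · rfl
          · simp [halfG]
        simp_rw [this]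
        exact tendsto_const_nhds
      · have hz0 : 0 < ‖z‖ := norm_pos_iff.2 hz
        refine tendsto_const_nhds.congr' ?_
        filter_upwards [nhdsWithin_le_nhds (gt_mem_nhds hz0)] with ε hε
        rw [indicator_of_mem]
        exact hε
  have h2 : (𝓝 (-(1 / 2) * Lop n f y)) =
      𝓝 (1 / 2 * ∫ z, halfG f y z * (‖z‖ ^ (n + 1))⁻¹) := by
    rw [half_dilation hn hf hfc y]
    congr 1
    ring
  rw [h2]
  refine (h1.const_mul (1 / 2)).congr' ?_
  filter_upwards [self_mem_nhdsWithin] with ε hε
  rw [half_symm hf hfc y hε, integral_indicator (measurableSet_lt measurable_const measurable_norm)]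

/-- The integral of a directional derivative vanishes. -/
theorem half_integral_fderiv {n : ℕ} {f : E n → ℝ} (hf : ContDiff ℝ 3 f)
    (hfc : HasCompactSupport f) (v : E n) : ∫ x, fderiv ℝ f x v = 0 := by
  have hcf := hf.continuous_fderiv (by norm_num)
  have hdiff : Differentiable ℝ f := hf.differentiable (by norm_num)
  have hi : Integrable (fun x => fderiv ℝ f x v) := by
    have h1 : Continuous (fun x => fderiv ℝ f x v) := hcf.clm_apply continuous_const
    refine h1.integrable_of_hasCompactSupport ?_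
    exact (hfc.fderiv ℝ).mono (fun x hx => by
      rw [Function.mem_support] at hx ⊢
      intro h0
      exact hx (by rw [h0]; rfl))
  have hi0 : Integrable f := hf.continuous.integrable_of_hasCompactSupport hfc
  have h := integral_mul_fderiv_eq_neg_fderiv_mul_of_integrable (μ := (volume : Measure (E n)))
    (f := fun _ => (1 : ℝ)) (g := f) (v := v) ?_ ?_ ?_ (fun x _ => differentiableAt_const _)
    (fun x _ => hdiff x)
  · simpa using h
  · simp
  · simpa using hi
  · simpa using hi0

/-- `UR/HalfLap.lean`: domination. -/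
theorem half_laplacian_dom (n : ℕ) (hn : 1 ≤ n) (f : E n → ℝ) (hf : ContDiff ℝ 3 f)
    (hfc : HasCompactSupport f) : ∃ A : ℝ, ∀ y : E n, ∀ ε : ℝ, 0 < ε → ε ≤ 1 →
      |∫ x in {x | ε < ‖x - y‖}, fderiv ℝ f x (rieszKernel n (x - y))| ≤
        A * ((1 + ‖y‖) ^ (n + 1))⁻¹ ∧ |Lop n f y| ≤ A * ((1 + ‖y‖) ^ (n + 1))⁻¹ := by
  obtain ⟨A1, hA1⟩ := Lop_decay n hn f (hf.of_le (by norm_num)) hfc
  obtain ⟨B, r, hB, hr1, hr, hb⟩ := halfG_bound hf hfc
  have hcf := hf.continuous_fderiv (by norm_num)
  have hif : Integrable (fun x => ‖fderiv ℝ f x‖) :=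
    (hcf.integrable_of_hasCompactSupport (μ := volume) (hfc.fderiv ℝ)).norm
  have hSy : ∀ (y : E n) (ε : ℝ), MeasurableSet {x : E n | ε < ‖x - y‖} := fun y ε =>
    measurableSet_lt measurable_const (measurable_id.sub_const y).norm
  -- the truncated integral
  set T : ℝ → E n → ℝ := fun ε y => ∫ x in {x | ε < ‖x - y‖},
    fderiv ℝ f x (rieszKernel n (x - y)) with hT
  -- bound for small y
  have hsmall : ∀ ε : ℝ, 0 < ε → ∀ y : E n, |T ε y| ≤
      B * (‖y‖ + r) ^ 2 * ∫ z, lopDom n z := by
    intro ε hε y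
    simp only [hT]
    rw [half_symm hf hfc y hε, abs_mul, abs_of_pos (show (0 : ℝ) < 1 / 2 by norm_num),
      ← integral_indicator (measurableSet_lt measurable_const measurable_norm)]
    have h1 : ‖∫ z, {z : E n | ε < ‖z‖}.indicator
        (fun z => halfG f y z * (‖z‖ ^ (n + 1))⁻¹) z‖ ≤
        ∫ z, B * (‖y‖ + r) ^ 2 * lopDom n z := by
      refine norm_integral_le_of_norm_le ((lopDom_integrable n hn).const_mul _)
        (Eventually.of_forall fun z => ?_)
      exact (norm_indicator_le_norm_self _ _).trans (halfG_dom hb y z)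
    rw [integral_const_mul, Real.norm_eq_abs] at h1
    have h2 := abs_nonneg (∫ z, {z : E n | ε < ‖z‖}.indicator
        (fun z => halfG f y z * (‖z‖ ^ (n + 1))⁻¹) z)
    linarith
  have hlarge : ∀ ε : ℝ, 0 < ε → ε ≤ 1 → ∀ y : E n, 2 * r + 2 ≤ ‖y‖ → |T ε y| ≤
      (((n : ℝ) + 2) * 4 ^ (n + 1)) * r * (∫ x, ‖fderiv ℝ f x‖) * (‖y‖ ^ (n + 1))⁻¹ := by
    intro ε hε hε1 y hy
    have hy0 : y ≠ 0 := by
      rintro rfl
      rw [norm_zero] at hy
      linarith
    have e1 : T ε y = ∫ x, fderiv ℝ f x (rieszKernel n (x - y)) := by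
      simp only [hT]
      rw [← integral_indicator (hSy y ε)]
      refine integral_congr_ae (Eventually.of_forall fun x => ?_)
      simp only [indicator, mem_setOf_eq]
      split_ifs with hx
      · rfl
      · rw [hr x, ContinuousLinearMap.zero_apply]
        have := norm_sub_le x (x - y)
        rw [sub_sub_cancel] at this
        linarith
    have hKint : ∀ w : E n, Integrable (fun x => fderiv ℝ f x w) := by
      intro w
      have h1 : Continuous (fun x => fderiv ℝ f x w) := hcf.clm_apply continuous_const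
      refine h1.integrable_of_hasCompactSupport ?_
      exact (hfc.fderiv ℝ).mono (fun x hx => by
        rw [Function.mem_support] at hx ⊢
        intro h0
        exact hx (by rw [h0]; rfl))
    have hpt : ∀ x : E n, ‖fderiv ℝ f x (rieszKernel n (x - y)) -
        fderiv ℝ f x (rieszKernel n (-y))‖ ≤
        ‖fderiv ℝ f x‖ * ((((n : ℝ) + 2) * 4 ^ (n + 1)) * r * (‖y‖ ^ (n + 1))⁻¹) := by
      intro x
      rcases lt_or_ge r ‖x‖ with hx | hx
      · rw [hr x hx]
        simp
      · rw [← map_sub]
        refine (ContinuousLinearMap.le_opNorm _ _).trans ?_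
        refine mul_le_mul_of_nonneg_left ?_ (norm_nonneg _)
        have hxy : -y - (x - y) = -x := by abel
        have h3 := rieszKernel_lipschitz (n := n) (-y) (x - y) (neg_ne_zero.2 hy0) (by
          rw [hxy, norm_neg, norm_neg]; linarith)
        rw [norm_sub_rev, hxy, norm_neg, norm_neg] at h3
        refine h3.trans ?_
        refine mul_le_mul_of_nonneg_right ?_ (by positivity)
        exact mul_le_mul_of_nonneg_left hx (by positivity)
    have hmeas : AEStronglyMeasurable (fun x => fderiv ℝ f x (rieszKernel n (x - y)) -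
        fderiv ℝ f x (rieszKernel n (-y))) volume := by
      have h2 : (fun x : E n => fderiv ℝ f x (rieszKernel n (x - y)) -
          fderiv ℝ f x (rieszKernel n (-y))) =
          fun x => (‖x - y‖ ^ (n + 1))⁻¹ * fderiv ℝ f x (x - y) -
            fderiv ℝ f x (rieszKernel n (-y)) := by
        ext x
        simp only [rieszKernel, map_smul, smul_eq_mul]
      rw [h2]
      refine Measurable.aestronglyMeasurable (Measurable.sub (Measurable.mul ?_ ?_) ?_)
      · exact ((measurable_id.sub_const y).norm.pow_const _).inv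
      · exact (hcf.clm_apply (continuous_id.sub continuous_const)).measurable
      · exact (hcf.clm_apply continuous_const).measurable
    have hdint : Integrable (fun x => fderiv ℝ f x (rieszKernel n (x - y)) -
        fderiv ℝ f x (rieszKernel n (-y))) :=
      (hif.mul_const _).mono' hmeas (Eventually.of_forall hpt)
    have e2 : ∫ x, fderiv ℝ f x (rieszKernel n (x - y)) =
        ∫ x, (fderiv ℝ f x (rieszKernel n (x - y)) - fderiv ℝ f x (rieszKernel n (-y))) := by
      have e3 := integral_add hdint (hKint (rieszKernel n (-y)))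
      simp only [sub_add_cancel] at e3
      rw [e3, half_integral_fderiv hf hfc, add_zero]
    rw [e1, e2, ← Real.norm_eq_abs]
    refine (norm_integral_le_of_norm_le (hif.mul_const _) (Eventually.of_forall hpt)).trans ?_
    rw [integral_mul_const]
    refine le_of_eq ?_
    ring
  -- combine
  set M := (((n : ℝ) + 2) * 4 ^ (n + 1)) * r * (∫ x, ‖fderiv ℝ f x‖) with hM
  have hM0 : 0 ≤ M := by
    have : 0 ≤ ∫ x, ‖fderiv ℝ f x‖ := integral_nonneg fun x => norm_nonneg _
    positivity
  set B0 := B * (2 * r + 2 + r) ^ 2 * ∫ z, lopDom n z with hB0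
  have hI0 : 0 ≤ ∫ z, lopDom n z := integral_nonneg (lopDom_nonneg n)
  have hB00 : 0 ≤ B0 := by positivity
  refine ⟨max (B0 * (1 + (2 * r + 2)) ^ (n + 1) + M * 2 ^ (n + 1)) A1, fun y ε hε hε1 => ⟨?_, ?_⟩⟩
  · have hy0 := norm_nonneg y
    have hp : 0 < (1 + ‖y‖) ^ (n + 1) := by positivity
    refine le_trans ?_ (mul_le_mul_of_nonneg_right (le_max_left _ _) (by positivity))
    change |T ε y| ≤ _
    rw [add_mul]
    rcases le_total (2 * r + 2) ‖y‖ with h | h
    · refine (hlarge ε hε hε1 y h).trans ?_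
      have h1 : (‖y‖ ^ (n + 1))⁻¹ ≤ 2 ^ (n + 1) * ((1 + ‖y‖) ^ (n + 1))⁻¹ := by
        have hy1 : 0 < ‖y‖ := by linarith
        rw [← div_eq_mul_inv, inv_eq_one_div, div_le_div_iff₀ (by positivity) hp, one_mul,
          ← mul_pow]
        exact pow_le_pow_left₀ (by positivity) (by linarith) _
      have h2 := mul_le_mul_of_nonneg_left h1 hM0
      have h3 : 0 ≤ B0 * (1 + (2 * r + 2)) ^ (n + 1) * ((1 + ‖y‖) ^ (n + 1))⁻¹ := by positivity
      linarith
    · have h1 : |T ε y| ≤ B0 := by
        refine (hsmall ε hε y).trans ?_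
        rw [hB0]
        refine mul_le_mul_of_nonneg_right (mul_le_mul_of_nonneg_left ?_ hB) hI0
        exact pow_le_pow_left₀ (by linarith) (by linarith) 2
      have h2 : 1 ≤ (1 + (2 * r + 2)) ^ (n + 1) * ((1 + ‖y‖) ^ (n + 1))⁻¹ := by
        rw [← div_eq_mul_inv, one_le_div hp]
        exact pow_le_pow_left₀ (by positivity) (by linarith) _
      have h3 := mul_le_mul_of_nonneg_left h2 hB00
      have h4 : 0 ≤ M * 2 ^ (n + 1) * ((1 + ‖y‖) ^ (n + 1))⁻¹ := by positivity
      linarith
  · exact (hA1 y).trans (mul_le_mul_of_nonneg_right (le_max_right _ _) (by positivity))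

end Vale.Agent.P120
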