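import Vale.Agent.Lib.P120.UR.TruncBdd
import Vale.Agent.Lib.P120.UR.HalfLap
import Vale.Agent.Lib.P120.UR.LopFacts

/-!
P120, module LopZero: the integral of the half Laplacian of a test function with respect to a
reflectionless measure on `ℝ^n` vanishes.
-/

open MeasureTheory Filter Set Metric Module
open scoped Topology ENNReal NNReal RealInnerProductSpace

namespace Vale.Agent.P120



variable {n : ℕ}

/-- The weight `(1+|y|)^{-(n+1)}` is integrable. -/
theorem lz_weight_integrable {C : ℝ} {σ : Measure (E n)} (hU : UB n σ C) :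
    Integrable (fun y : E n => ((1 + ‖y‖) ^ (n + 1))⁻¹) σ := by
  have hcont : Continuous (fun y : E n => ((1 + ‖y‖) ^ (n + 1))⁻¹) := by
    refine Continuous.inv₀ (by fun_prop) (fun y => ?_)
    positivity
  have h1 : IntegrableOn (fun y : E n => ((1 + ‖y‖) ^ (n + 1))⁻¹) (ball 0 1) σ := by
    have : IsFiniteMeasure (σ.restrict (ball (0 : E n) 1)) :=
      ⟨by rw [Measure.restrict_apply_univ]; exact hU.ball_lt_top 0 1⟩
    refine Integrable.mono' (integrable_const (1 : ℝ)) hcont.aestronglyMeasurable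
      (Eventually.of_forall fun y => ?_)
    rw [Real.norm_eq_abs, abs_of_nonneg (by positivity)]
    exact inv_le_one_of_one_le₀ (one_le_pow₀ (by linarith [norm_nonneg y]))
  have h2 : IntegrableOn (fun y : E n => ((1 + ‖y‖) ^ (n + 1))⁻¹) (ball 0 1)ᶜ σ := by
    refine Integrable.mono' (hU.tail 0 one_pos).1 hcont.aestronglyMeasurable ?_
    rw [ae_restrict_iff' measurableSet_ball.compl]
    refine Eventually.of_forall fun y hy => ?_
    rw [mem_compl_iff, mem_ball, dist_zero_right, not_lt] at hy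
    rw [Real.norm_eq_abs, abs_of_nonneg (by positivity)]
    unfold wt
    rw [zero_sub, norm_neg]
    have : 0 < ‖y‖ := by linarith
    gcongr
    linarith
  have := h1.union h2
  rwa [union_compl_self, integrableOn_univ] at this

/-- The regularised kernel. -/
noncomputable def lzH (n : ℕ) (ε : ℝ) (x y : E n) : E n :=
  {y | ε < ‖x - y‖}.indicator (fun y => rieszKernel n (x - y)) y -
    {y | ε < ‖y‖}.indicator (fun y => rieszKernel n (-y)) y

theorem lzH_eq (ε : ℝ) (x y : E n) : lzH n ε x y =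
    (if ε < ‖x - y‖ then rieszKernel n (x - y) else 0) -
      (if ε < ‖y‖ then rieszKernel n (-y) else 0) := by
  unfold lzH
  simp only [indicator, mem_ofPred_eq]

theorem lz_measurable_fst (ε : ℝ) :
    Measurable (fun p : E n × E n => if ε < ‖p.1 - p.2‖ then rieszKernel n (p.1 - p.2) else 0) :=
  Measurable.ite (measurableSet_lt measurable_const (by fun_prop))
    (measurable_rieszKernel.comp (by fun_prop)) measurable_const

theorem lzH_measurable (ε : ℝ) : Measurable (fun p : E n × E n => lzH n ε p.1 p.2) := by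
  simp only [lzH_eq]
  refine (lz_measurable_fst ε).sub ?_
  exact Measurable.ite (measurableSet_lt measurable_const (by fun_prop))
    (measurable_rieszKernel.comp (by fun_prop)) measurable_const

theorem lz_norm_ite_le {ε : ℝ} (hε : 0 < ε) (z : E n) :
    ‖(if ε < ‖z‖ then rieszKernel n z else 0)‖ ≤ (ε ^ n)⁻¹ := by
  split_ifs with h
  · exact norm_rieszKernel_le_of_le hε h.le
  · rw [norm_zero]; positivity

theorem lzH_bound {r ε : ℝ} (hr : 0 < r) (hε : 0 < ε) (hε1 : ε ≤ 1) :
    ∃ B : ℝ, 0 ≤ B ∧ ∀ x y : E n, ‖x‖ ≤ r → ‖lzH n ε x y‖ ≤ B * ((1 + ‖y‖) ^ (n + 1))⁻¹ := by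
  refine ⟨2 * (ε ^ n)⁻¹ * (2 * r + 3) ^ (n + 1) + ((n + 2) * 4 ^ (n + 1)) * r * 2 ^ (n + 1),
    by positivity, fun x y hx => ?_⟩
  have hyn := norm_nonneg y
  have hw : 0 < ((1 + ‖y‖) ^ (n + 1))⁻¹ := by positivity
  rcases le_or_gt ‖y‖ (2 * r + 2) with hy | hy
  · have h1 : ‖lzH n ε x y‖ ≤ 2 * (ε ^ n)⁻¹ := by
      rw [lzH_eq]
      refine (norm_sub_le _ _).trans ?_
      have h2 := lz_norm_ite_le hε (x - y)
      have h3 := lz_norm_ite_le hε (-y)
      rw [norm_neg] at h3
      linarith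
    have h2 : 1 ≤ (2 * r + 3) ^ (n + 1) * ((1 + ‖y‖) ^ (n + 1))⁻¹ := by
      rw [← div_eq_mul_inv, one_le_div (by positivity)]
      exact pow_le_pow_left₀ (by positivity) (by linarith) _
    calc ‖lzH n ε x y‖ ≤ 2 * (ε ^ n)⁻¹ * 1 := by rw [mul_one]; exact h1
      _ ≤ 2 * (ε ^ n)⁻¹ * ((2 * r + 3) ^ (n + 1) * ((1 + ‖y‖) ^ (n + 1))⁻¹) := by gcongr
      _ = 2 * (ε ^ n)⁻¹ * (2 * r + 3) ^ (n + 1) * ((1 + ‖y‖) ^ (n + 1))⁻¹ := by ring
      _ ≤ _ := by
          refine mul_le_mul_of_nonneg_right ?_ hw.le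
          have : (0 : ℝ) ≤ ((n + 2) * 4 ^ (n + 1)) * r * 2 ^ (n + 1) := by positivity
          linarith
  · have hxy : ε < ‖x - y‖ := by
      have h1 : ‖y‖ - ‖x‖ ≤ ‖x - y‖ := by rw [norm_sub_rev]; exact norm_sub_norm_le y x
      linarith
    have hy' : ε < ‖y‖ := by linarith
    have hy0 : y ≠ 0 := by
      intro h
      rw [h, norm_zero] at hy
      linarith
    rw [lzH_eq, if_pos hxy, if_pos hy']
    have h1 := rieszKernel_lipschitz (n := n) (-y) (x - y) (neg_ne_zero.mpr hy0) (by
      have : -y - (x - y) = -x := by abel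
      rw [this, norm_neg, norm_neg]
      linarith)
    have h2 : -y - (x - y) = -x := by abel
    rw [h2, norm_neg, norm_neg, norm_sub_rev] at h1
    have h3 : (‖y‖ ^ (n + 1))⁻¹ ≤ 2 ^ (n + 1) * ((1 + ‖y‖) ^ (n + 1))⁻¹ := by
      have hypos : 0 < ‖y‖ := by linarith
      have h4 : (1 + ‖y‖) ^ (n + 1) ≤ 2 ^ (n + 1) * ‖y‖ ^ (n + 1) := by
        rw [← mul_pow]
        gcongr
        linarith
      rw [← div_eq_mul_inv, inv_eq_one_div, div_le_div_iff₀ (by positivity) (by positivity)]
      linarith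
    calc ‖rieszKernel n (x - y) - rieszKernel n (-y)‖
        ≤ ((n + 2) * 4 ^ (n + 1)) * ‖x‖ * (‖y‖ ^ (n + 1))⁻¹ := h1
      _ ≤ ((n + 2) * 4 ^ (n + 1)) * r * (2 ^ (n + 1) * ((1 + ‖y‖) ^ (n + 1))⁻¹) := by gcongr
      _ = ((n + 2) * 4 ^ (n + 1)) * r * 2 ^ (n + 1) * ((1 + ‖y‖) ^ (n + 1))⁻¹ := by ring
      _ ≤ _ := by
          refine mul_le_mul_of_nonneg_right ?_ hw.le
          have : (0 : ℝ) ≤ 2 * (ε ^ n)⁻¹ * (2 * r + 3) ^ (n + 1) := by positivity
          linarith

theorem lz_sum (L : E n →L[ℝ] ℝ) (v : E n) :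
    L v = ∑ j, v j * L (EuclideanSpace.single j 1) := by
  conv_lhs => rw [← (EuclideanSpace.basisFun (Fin n) ℝ).sum_repr v]
  rw [map_sum]
  refine Finset.sum_congr rfl fun j _ => ?_
  rw [map_smul, smul_eq_mul, EuclideanSpace.basisFun_apply]
  rfl

theorem lz_int_fderiv {f : E n → ℝ} (hf : ContDiff ℝ 3 f) (hfc : HasCompactSupport f) (v : E n) :
    Continuous (fun x => fderiv ℝ f x v) ∧ HasCompactSupport (fun x => fderiv ℝ f x v) ∧
      ∫ x, fderiv ℝ f x v = 0 := by
  have h1 : Continuous (fderiv ℝ f) := hf.continuous_fderiv (by norm_num)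
  have h2 : Continuous (fun x => fderiv ℝ f x v) := h1.clm_apply continuous_const
  have h3 : HasCompactSupport (fun x => fderiv ℝ f x v) :=
    (hfc.fderiv ℝ).comp_left (g := fun L : E n →L[ℝ] ℝ => L v) rfl
  refine ⟨h2, h3, ?_⟩
  have h4 : Differentiable ℝ f := hf.differentiable (by norm_num)
  have h5 := integral_mul_fderiv_eq_neg_fderiv_mul_of_integrable (μ := (volume : Measure (E n)))
    (f := fun _ : E n => (1 : ℝ)) (g := f) (v := v) (by simp)
    (by simpa using h2.integrable_of_hasCompactSupport h3)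
    (by simpa using hf.continuous.integrable_of_hasCompactSupport hfc)
    (fun x _ => differentiableAt_const _) (fun x _ => h4 x)
  simpa using h5

theorem lz_aesm {f : E n → ℝ} (hf : ContDiff ℝ 3 f) {G : E n × E n → E n} (hG : Measurable G)
    (σ : Measure (E n)) :
    AEStronglyMeasurable (fun p : E n × E n => fderiv ℝ f p.1 (G p))
      ((volume : Measure (E n)).prod σ) := by
  have h1 : (fun p : E n × E n => fderiv ℝ f p.1 (G p)) = fun p : E n × E n =>
      ∑ j, (G p) j * fderiv ℝ f p.1 (EuclideanSpace.single j 1) := by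
    funext p
    exact lz_sum _ _
  rw [h1]
  have h2 : Continuous (fderiv ℝ f) := hf.continuous_fderiv (by norm_num)
  refine Measurable.aestronglyMeasurable ?_
  refine Finset.measurable_fun_sum _ fun j _ => ?_
  refine Measurable.mul ?_ ?_
  · exact (measurable_pi_apply j).comp ((WithLp.measurable_ofLp 2 _).comp hG)
  · exact ((h2.clm_apply continuous_const).measurable).comp measurable_fst

/-- Joint integrability. -/
theorem lz_joint {C : ℝ} {σ : Measure (E n)} (hU : UB n σ C) {f : E n → ℝ}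
    (hf : ContDiff ℝ 3 f) (hfc : HasCompactSupport f) {ε : ℝ} (hε : 0 < ε) (hε1 : ε ≤ 1) :
    Integrable (fun p : E n × E n => fderiv ℝ f p.1 (lzH n ε p.1 p.2))
      ((volume : Measure (E n)).prod σ) := by
  have := hU.sigmaFinite
  have hc : Continuous (fderiv ℝ f) := hf.continuous_fderiv (by norm_num)
  obtain ⟨r, hr, hrs⟩ : ∃ r : ℝ, 0 < r ∧ ∀ x, r < ‖x‖ → fderiv ℝ f x = 0 := by
    obtain ⟨r, hr⟩ := (hfc.fderiv ℝ).isCompact.isBounded.subset_closedBall 0
    refine ⟨max r 1, by positivity, fun x hx => ?_⟩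
    by_contra h
    have h1 : x ∈ tsupport (fderiv ℝ f) := subset_tsupport _ h
    have h2 := hr h1
    rw [mem_closedBall, dist_zero_right] at h2
    have := le_max_left r 1
    linarith
  obtain ⟨B, hB, hBb⟩ := lzH_bound (n := n) hr hε hε1
  have h1 : Integrable (fun x => ‖fderiv ℝ f x‖) (volume : Measure (E n)) :=
    (hc.integrable_of_hasCompactSupport (hfc.fderiv ℝ)).norm
  have h2 := (lz_weight_integrable hU).const_mul B
  refine Integrable.mono' (h1.mul_prod h2) (lz_aesm hf (lzH_measurable ε) σ)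
    (Eventually.of_forall ?_)
  rintro ⟨x, y⟩
  rcases le_or_gt ‖x‖ r with hx | hx
  · refine ((fderiv ℝ f x).le_opNorm _).trans ?_
    exact mul_le_mul_of_nonneg_left (hBb x y hx) (norm_nonneg _)
  · simp only [hrs x hx]
    simp

theorem lz_slice {f : E n → ℝ} (hf : ContDiff ℝ 3 f) (hfc : HasCompactSupport f) {ε : ℝ}
    (hε : 0 < ε) (y : E n) :
    ∫ x, fderiv ℝ f x (lzH n ε x y) =
      ∫ x in {x | ε < ‖x - y‖}, fderiv ℝ f x (rieszKernel n (x - y)) := by
  have hc : Continuous (fderiv ℝ f) := hf.continuous_fderiv (by norm_num)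
  have hK : Measurable (fun x : E n => if ε < ‖x - y‖ then rieszKernel n (x - y) else 0) :=
    Measurable.ite (measurableSet_lt measurable_const (by fun_prop))
      (measurable_rieszKernel.comp (by fun_prop)) measurable_const
  have h1 : Integrable (fun x => fderiv ℝ f x (if ε < ‖x - y‖ then rieszKernel n (x - y) else 0))
      (volume : Measure (E n)) := by
    have h2 : Integrable (fun x => ‖fderiv ℝ f x‖ * (ε ^ n)⁻¹) (volume : Measure (E n)) :=
      (hc.integrable_of_hasCompactSupport (hfc.fderiv ℝ)).norm.mul_const _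
    refine Integrable.mono' h2 ?_ (Eventually.of_forall fun x => ?_)
    · have h3 : (fun x : E n => fderiv ℝ f x (if ε < ‖x - y‖ then rieszKernel n (x - y) else 0)) =
          fun x : E n => ∑ j, (if ε < ‖x - y‖ then rieszKernel n (x - y) else 0 : E n) j *
            fderiv ℝ f x (EuclideanSpace.single j 1) := by
        funext x
        exact lz_sum _ _
      rw [h3]
      refine Measurable.aestronglyMeasurable ?_
      refine Finset.measurable_fun_sum _ fun j _ => ?_
      refine Measurable.mul ?_ ?_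
      · exact (measurable_pi_apply j).comp ((WithLp.measurable_ofLp 2 _).comp hK)
      · exact (hc.clm_apply continuous_const).measurable
    · refine ((fderiv ℝ f x).le_opNorm _).trans ?_
      exact mul_le_mul_of_nonneg_left (lz_norm_ite_le hε _) (norm_nonneg _)
  obtain ⟨h4, h5, h6⟩ := lz_int_fderiv hf hfc (if ε < ‖y‖ then rieszKernel n (-y) else 0)
  have h7 : (fun x => fderiv ℝ f x (lzH n ε x y)) = fun x =>
      fderiv ℝ f x (if ε < ‖x - y‖ then rieszKernel n (x - y) else 0) -
        fderiv ℝ f x (if ε < ‖y‖ then rieszKernel n (-y) else 0) := by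
    funext x
    rw [lzH_eq, map_sub]
  rw [h7, integral_sub h1 (h4.integrable_of_hasCompactSupport h5), h6, sub_zero,
    ← integral_indicator (measurableSet_lt measurable_const (by fun_prop))]
  congr 1
  funext x
  by_cases hx : ε < ‖x - y‖
  · rw [if_pos hx, indicator_of_mem (by exact hx)]
  · rw [if_neg hx, indicator_of_notMem (by exact hx), map_zero]

/-- `UR/LopZero.lean`: combination of the previous ones. -/
theorem lop_zero {C c : ℝ} (hn : 1 ≤ n) {σ : Measure (E n)} (hU : UB n σ C) (hc : 0 < c)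
    (hL : ∀ (v : E n) (r : ℝ), 0 < r → ENNReal.ofReal (c * r ^ n) ≤ σ (ball v r))
    (hR : Refl n σ) (f : E n → ℝ) (hf : ContDiff ℝ 3 f) (hfc : HasCompactSupport f) :
    ∫ y, Lop n f y ∂σ = 0 := by
  have := hU.sigmaFinite
  obtain ⟨CF, F, hFm, hFeq, hFint, hFb, hFlim⟩ := trunc_weak hn hU hc hL hR
  obtain ⟨A, hA⟩ := half_laplacian_dom n hn f hf hfc
  have hfd : ∀ v, Continuous (fun x => fderiv ℝ f x v) ∧
      HasCompactSupport (fun x => fderiv ℝ f x v) ∧ ∫ x, fderiv ℝ f x v = 0 :=
    fun v => lz_int_fderiv hf hfc v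
  -- the limit of the weighted integrals
  have hlim1 : Tendsto (fun ε : ℝ => ∑ j : Fin n,
      (∫ x, fderiv ℝ f x (EuclideanSpace.single j 1) • F ε x) j) (𝓝[>] 0) (𝓝 0) := by
    have h1 : ∀ j : Fin n, Tendsto (fun ε : ℝ =>
        (∫ x, fderiv ℝ f x (EuclideanSpace.single j 1) • F ε x) j) (𝓝[>] 0) (𝓝 0) := by
      intro j
      obtain ⟨h2, h3, h4⟩ := hfd (EuclideanSpace.single j 1)
      have h5 := hFlim _ h2 h3 h4
      have h6 := ((EuclideanSpace.proj (𝕜 := ℝ) j : E n →L[ℝ] ℝ).continuous.tendsto 0).comp h5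
      rw [map_zero] at h6
      exact h6
    have h7 := tendsto_finsetSum (Finset.univ : Finset (Fin n)) fun j _ => h1 j
    rw [Finset.sum_const_zero] at h7
    exact h7
  -- identification
  have hid : ∀ ε : ℝ, 0 < ε → ε ≤ 1 → (∑ j : Fin n,
      (∫ x, fderiv ℝ f x (EuclideanSpace.single j 1) • F ε x) j) =
      ∫ y, (∫ x in {x | ε < ‖x - y‖}, fderiv ℝ f x (rieszKernel n (x - y))) ∂σ := by
    intro ε hε hε1
    have hint : ∀ v, Integrable (fun x => fderiv ℝ f x v • F ε x) (volume : Measure (E n)) := by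
      intro v
      obtain ⟨h2, h3, h4⟩ := hfd v
      exact (h2.integrable_of_hasCompactSupport h3).smul_bdd CF (hFm ε hε).aestronglyMeasurable
        (Eventually.of_forall fun x => hFb ε hε x)
    have h1 : ∀ j : Fin n, (∫ x, fderiv ℝ f x (EuclideanSpace.single j 1) • F ε x) j =
        ∫ x, (F ε x) j * fderiv ℝ f x (EuclideanSpace.single j 1) := by
      intro j
      have h2 := (EuclideanSpace.proj (𝕜 := ℝ) j : E n →L[ℝ] ℝ).integral_comp_comm
        (hint (EuclideanSpace.single j 1))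
      have h3 : (∫ x, fderiv ℝ f x (EuclideanSpace.single j 1) • F ε x) j =
          (EuclideanSpace.proj (𝕜 := ℝ) j : E n →L[ℝ] ℝ)
            (∫ x, fderiv ℝ f x (EuclideanSpace.single j 1) • F ε x) := rfl
      rw [h3, ← h2]
      refine integral_congr_ae (Eventually.of_forall fun x => ?_)
      change fderiv ℝ f x (EuclideanSpace.single j 1) * (F ε x) j = _
      ring
    have h2 : ∀ j : Fin n, Integrable (fun x => (F ε x) j *
        fderiv ℝ f x (EuclideanSpace.single j 1)) (volume : Measure (E n)) := by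
      intro j
      have h3 := (EuclideanSpace.proj (𝕜 := ℝ) j : E n →L[ℝ] ℝ).integrable_comp
        (hint (EuclideanSpace.single j 1))
      refine h3.congr (Eventually.of_forall fun x => ?_)
      change fderiv ℝ f x (EuclideanSpace.single j 1) * (F ε x) j = _
      ring
    calc (∑ j : Fin n, (∫ x, fderiv ℝ f x (EuclideanSpace.single j 1) • F ε x) j)
        = ∑ j : Fin n, ∫ x, (F ε x) j * fderiv ℝ f x (EuclideanSpace.single j 1) :=
          Finset.sum_congr rfl fun j _ => h1 j
      _ = ∫ x, ∑ j : Fin n, (F ε x) j * fderiv ℝ f x (EuclideanSpace.single j 1) :=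
          (integral_finsetSum _ fun j _ => h2 j).symm
      _ = ∫ x, fderiv ℝ f x (F ε x) := by
          refine integral_congr_ae (Eventually.of_forall fun x => ?_)
          exact (lz_sum _ _).symm
      _ = ∫ x, ∫ y, fderiv ℝ f x (lzH n ε x y) ∂σ := by
          refine integral_congr_ae (Eventually.of_forall fun x => ?_)
          change fderiv ℝ f x (F ε x) = ∫ y, fderiv ℝ f x (lzH n ε x y) ∂σ
          rw [hFeq ε hε x]
          exact ((fderiv ℝ f x).integral_comp_comm (hFint ε hε x)).symm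
      _ = ∫ y, ∫ x, fderiv ℝ f x (lzH n ε x y) ∂(volume : Measure (E n)) ∂σ :=
          integral_integral_swap (lz_joint hU hf hfc hε hε1)
      _ = _ := by
          refine integral_congr_ae (Eventually.of_forall fun y => ?_)
          exact lz_slice hf hfc hε y
  have hIae : ∀ ε : ℝ, 0 < ε → ε ≤ 1 → AEStronglyMeasurable (fun y =>
      ∫ x in {x | ε < ‖x - y‖}, fderiv ℝ f x (rieszKernel n (x - y))) σ := by
    intro ε hε hε1
    have h1 := (lz_joint hU hf hfc hε hε1).integral_prod_right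
    refine h1.aestronglyMeasurable.congr (Eventually.of_forall fun y => ?_)
    exact lz_slice hf hfc hε y
  have hsmall : ∀ᶠ ε : ℝ in 𝓝[>] 0, 0 < ε ∧ ε ≤ 1 := by
    have h1 : ∀ᶠ ε : ℝ in 𝓝[>] 0, ε ∈ Ioc (0 : ℝ) 1 := Ioc_mem_nhdsGT one_pos
    exact h1
  have hlim2 : Tendsto (fun ε : ℝ => ∫ y,
      (∫ x in {x | ε < ‖x - y‖}, fderiv ℝ f x (rieszKernel n (x - y))) ∂σ) (𝓝[>] 0)
      (𝓝 (∫ y, -(1 / 2) * Lop n f y ∂σ)) := by
    refine tendsto_integral_filter_of_dominated_convergence
      (fun y => A * ((1 + ‖y‖) ^ (n + 1))⁻¹) ?_ ?_ ((lz_weight_integrable hU).const_mul A) ?_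
    · filter_upwards [hsmall] with ε hε
      exact hIae ε hε.1 hε.2
    · filter_upwards [hsmall] with ε hε
      exact Eventually.of_forall fun y => (hA y ε hε.1 hε.2).1
    · exact Eventually.of_forall fun y => half_laplacian_identity n hn f hf hfc y
  have hlim3 : Tendsto (fun ε : ℝ => ∫ y,
      (∫ x in {x | ε < ‖x - y‖}, fderiv ℝ f x (rieszKernel n (x - y))) ∂σ) (𝓝[>] 0) (𝓝 0) := by
    refine hlim1.congr' ?_
    filter_upwards [hsmall] with ε hε
    exact hid ε hε.1 hε.2
  have h := tendsto_nhds_unique hlim2 hlim3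
  rw [integral_const_mul] at h
  linarith

end Vale.Agent.P120
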