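import Vale.Agent.Lib.P120.UR.Base
import Vale.Agent.Lib.P120.UR.LopFacts
import Vale.Agent.Lib.P120.UR.LopZero
import Vale.Agent.Lib.P120.UR.FlatLiouville

/-!
P120, module Density: a reflectionless AD-regular measure on `ℝ^n` of full support is a multiple
of Lebesgue measure.
-/

open MeasureTheory Filter Set Metric Module
open scoped Topology ENNReal NNReal RealInnerProductSpace Convolution

namespace Vale.Agent.P120


variable {n : ℕ}

/-! ### smooth test functions determine a measure -/

theorem dens_integral_sub_le {ν : Measure (E n)} [IsLocallyFiniteMeasure ν] {f g : E n → ℝ}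
    (hf : Continuous f) (hg : Continuous g) {R η : ℝ}
    (hfR : ∀ x, R < ‖x‖ → f x = 0) (hgR : ∀ x, R < ‖x‖ → g x = 0) (hfg : ∀ x, |g x - f x| ≤ η) :
    |∫ x, g x ∂ν - ∫ x, f x ∂ν| ≤ η * ν.real (closedBall 0 R) := by
  have hcs : ∀ {u : E n → ℝ}, (∀ x, R < ‖x‖ → u x = 0) → HasCompactSupport u := by
    intro u hu
    refine HasCompactSupport.intro (isCompact_closedBall (0 : E n) R) fun x hx => hu x ?_
    rw [mem_closedBall, dist_zero_right, not_le] at hx
    exact hx
  have hfi : Integrable f ν := hf.integrable_of_hasCompactSupport (hcs hfR)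
  have hgi : Integrable g ν := hg.integrable_of_hasCompactSupport (hcs hgR)
  rw [← integral_sub hgi hfi]
  have hset : ∫ x, (g x - f x) ∂ν = ∫ x in closedBall (0 : E n) R, (g x - f x) ∂ν := by
    rw [setIntegral_eq_integral_of_forall_compl_eq_zero]
    intro x hx
    rw [mem_closedBall, dist_zero_right, not_le] at hx
    rw [hfR x hx, hgR x hx, sub_zero]
  rw [hset, ← Real.norm_eq_abs]
  have hfin : ν (closedBall (0 : E n) R) < ∞ := (isCompact_closedBall (0 : E n) R).measure_lt_top
  refine norm_setIntegral_le_of_norm_le_const hfin fun x _ => ?_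
  rw [Real.norm_eq_abs]
  exact hfg x

theorem dens_ext {ν₁ ν₂ : Measure (E n)} [IsLocallyFiniteMeasure ν₁] [IsLocallyFiniteMeasure ν₂]
    (h : ∀ g : E n → ℝ, ContDiff ℝ (⊤ : ℕ∞) g → HasCompactSupport g → ∫ x, g x ∂ν₁ = ∫ x, g x ∂ν₂) :
    ν₁ = ν₂ := by
  refine Measure.ext_of_integral_eq_on_compactlySupported fun f => ?_
  have hf : Continuous f := f.continuous
  have hfc : HasCompactSupport f := f.hasCompactSupport
  obtain ⟨R, hR⟩ := hfc.isCompact.isBounded.subset_closedBall (0 : E n)
  have hfR : ∀ x, R < ‖x‖ → f x = 0 := by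
    intro x hx
    refine image_eq_zero_of_notMem_tsupport fun hmem => ?_
    have h1 := hR hmem
    rw [mem_closedBall, dist_zero_right] at h1
    exact absurd h1 (not_le.2 hx)
  have huc : UniformContinuous f := hfc.uniformContinuous_of_continuous hf
  have key : ∀ ε : ℝ, 0 < ε → |∫ x, f x ∂ν₁ - ∫ x, f x ∂ν₂| ≤
      ε * (ν₁.real (closedBall 0 (R + 1)) + ν₂.real (closedBall 0 (R + 1))) := by
    intro ε hε
    obtain ⟨δ, hδ, hfδ⟩ := Metric.uniformContinuous_iff.mp huc ε hε
    obtain ⟨g, hg, hgf⟩ := hf.exists_contDiff_dist_le_of_forall_mem_ball_dist_le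
      (lt_min one_pos hδ)
    have hgR : ∀ x, R + 1 < ‖x‖ → g x = 0 := by
      intro x hx
      have h1 := hgf x 0 fun z hz => by
        rw [mem_ball, lt_min_iff] at hz
        have h2 : R < ‖z‖ := by
          have h3 : ‖x‖ ≤ ‖z‖ + dist z x := by
            rw [dist_eq_norm]
            calc ‖x‖ = ‖z - (z - x)‖ := by rw [sub_sub_cancel]
              _ ≤ ‖z‖ + ‖z - x‖ := norm_sub_le _ _
          linarith [hz.1]
        rw [hfR z h2, hfR x (by linarith), dist_self]
      rw [hfR x (by linarith), dist_zero_right, norm_le_zero_iff] at h1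
      exact h1
    have hgc : HasCompactSupport g := by
      refine HasCompactSupport.intro (isCompact_closedBall (0 : E n) (R + 1)) fun x hx => hgR x ?_
      rw [mem_closedBall, dist_zero_right, not_le] at hx
      exact hx
    have hclose : ∀ x, |g x - f x| ≤ ε := by
      intro x
      have h1 := hgf x ε fun z hz => by
        rw [mem_ball, lt_min_iff] at hz
        exact (hfδ hz.2).le
      rwa [Real.dist_eq] at h1
    have hfR' : ∀ x, R + 1 < ‖x‖ → f x = 0 := fun x hx => hfR x (by linarith)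
    have k1 := dens_integral_sub_le (ν := ν₁) hf hg.continuous hfR' hgR hclose
    have k2 := dens_integral_sub_le (ν := ν₂) hf hg.continuous hfR' hgR hclose
    have k3 := h g hg hgc
    rw [k3] at k1
    have e : ∫ x, f x ∂ν₁ - ∫ x, f x ∂ν₂ =
        -((∫ x, g x ∂ν₂) - ∫ x, f x ∂ν₁) + ((∫ x, g x ∂ν₂) - ∫ x, f x ∂ν₂) := by ring
    rw [e]
    refine (abs_add_le _ _).trans ?_
    rw [abs_neg]
    linarith
  set Z := ν₁.real (closedBall 0 (R + 1)) + ν₂.real (closedBall 0 (R + 1)) with hZ
  have hZ0 : 0 ≤ Z := by positivity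
  have h0 : |∫ x, f x ∂ν₁ - ∫ x, f x ∂ν₂| ≤ 0 := by
    refine le_of_forall_pos_le_add fun ε hε => ?_
    have h1 := key (ε / (Z + 1)) (by positivity)
    have h2 : ε / (Z + 1) * Z ≤ ε := by
      rw [div_mul_eq_mul_div, div_le_iff₀ (by positivity)]
      linarith only [hε]
    linarith
  exact sub_eq_zero.1 (abs_eq_zero.1 (le_antisymm h0 (abs_nonneg _)))

/-! ### the mollified measure -/

theorem dens_contDiff {σ : Measure (E n)} [IsLocallyFiniteMeasure σ] {ρ : E n → ℝ}
    (hρ : ContDiff ℝ (⊤ : ℕ∞) ρ) (hc : HasCompactSupport ρ) :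
    ContDiff ℝ 1 (fun v => ∫ y, ρ (v - y) ∂σ) := by
  have h1 := hc.contDiff_convolution_right (ContinuousLinearMap.mul ℝ ℝ) (μ := σ)
    (f := fun _ : E n => (1 : ℝ)) (locallyIntegrable_const 1) (n := 1)
    (hρ.of_le (by exact_mod_cast le_top))
  have h2 : ((fun _ : E n => (1 : ℝ)) ⋆[ContinuousLinearMap.mul ℝ ℝ, σ] ρ) =
      fun v => ∫ y, ρ (v - y) ∂σ := by
    funext v
    rw [convolution_def]
    simp
  rw [h2] at h1
  exact_mod_cast h1

theorem dens_bound {C : ℝ} {σ : Measure (E n)} (hU : UB n σ C) {ρ : E n → ℝ}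
    (hρ : Continuous ρ) (hc : HasCompactSupport ρ) :
    ∃ B : ℝ, 0 ≤ B ∧ (∀ v, Integrable (fun y => ρ (v - y)) σ) ∧
      ∀ v, ∫ y, |ρ (v - y)| ∂σ ≤ B := by
  have hlf := hU.isLocallyFinite
  obtain ⟨M, hM⟩ := hρ.bounded_above_of_compact_support hc
  obtain ⟨r, hr⟩ := hc.isCompact.isBounded.subset_closedBall (0 : E n)
  have hM0 : 0 ≤ M := (norm_nonneg _).trans (hM 0)
  set r' := max r 1 with hr'
  have hr'0 : 0 < r' := lt_of_lt_of_le one_pos (le_max_right _ _)
  have hz : ∀ v y : E n, y ∉ closedBall v r' → ρ (v - y) = 0 := by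
    intro v y hy
    refine image_eq_zero_of_notMem_tsupport fun hmem => hy ?_
    have h1 := hr hmem
    rw [mem_closedBall, dist_zero_right] at h1
    rw [mem_closedBall, dist_comm, dist_eq_norm]
    exact h1.trans (le_max_left _ _)
  have hcs : ∀ v, HasCompactSupport (fun y => ρ (v - y)) := fun v =>
    HasCompactSupport.intro (isCompact_closedBall v r') fun y hy => hz v y hy
  have hcont : ∀ v, Continuous (fun y => ρ (v - y)) := fun v => by fun_prop
  refine ⟨M * (C * r' ^ n), by have := hU.1; positivity,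
    fun v => (hcont v).integrable_of_hasCompactSupport (hcs v), fun v => ?_⟩
  have hset : ∫ y, |ρ (v - y)| ∂σ = ∫ y in closedBall v r', |ρ (v - y)| ∂σ := by
    rw [setIntegral_eq_integral_of_forall_compl_eq_zero]
    intro y hy
    rw [hz v y hy, abs_zero]
  have hfin : σ (closedBall v r') < ∞ := hU.closedBall_lt_top v r'
  rw [hset]
  have h2 : ‖∫ y in closedBall v r', |ρ (v - y)| ∂σ‖ ≤ M * σ.real (closedBall v r') := by
    refine norm_setIntegral_le_of_norm_le_const hfin fun y _ => ?_
    rw [Real.norm_eq_abs, abs_abs]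
    exact hM _
  refine (le_abs_self _).trans (h2.trans ?_)
  refine mul_le_mul_of_nonneg_left ?_ hM0
  rw [measureReal_def]
  exact ENNReal.toReal_le_of_le_ofReal (by have := hU.1; positivity) (hU.2 v r' hr'0)

theorem dens_Lop_integrable (hn : 1 ≤ n) {φ : E n → ℝ} (hφ : ContDiff ℝ 2 φ)
    (hφc : HasCompactSupport φ) : Integrable (Lop n φ) := by
  obtain ⟨A, hA⟩ := Lop_decay n hn φ hφ hφc
  have h1 : Integrable (fun v : E n => A * (1 + ‖v‖) ^ (-((n + 1 : ℕ) : ℝ))) := by
    refine (integrable_one_add_norm ?_).const_mul A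
    rw [finrank_euclideanSpace, Fintype.card_fin]
    exact_mod_cast Nat.lt_succ_self n
  refine h1.mono' (Lop_continuous n hn φ hφ hφc).aestronglyMeasurable
    (Eventually.of_forall fun v => ?_)
  rw [Real.norm_eq_abs, Real.rpow_neg (by positivity), Real.rpow_natCast]
  exact hA v

/-- the weak equation for the mollified measure -/
theorem dens_weak {C c : ℝ} (hn : 1 ≤ n) {σ : Measure (E n)} (hU : UB n σ C) (hc : 0 < c)
    (hL : ∀ (v : E n) (r : ℝ), 0 < r → ENNReal.ofReal (c * r ^ n) ≤ σ (ball v r))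
    (hR : Refl n σ) {ρ : E n → ℝ} (hρ : Continuous ρ) (hρc : HasCompactSupport ρ)
    {φ : E n → ℝ} (hφ : ContDiff ℝ 3 φ) (hφc : HasCompactSupport φ) :
    ∫ v, (∫ y, ρ (v - y) ∂σ) * Lop n φ v = 0 := by
  have hlf := hU.isLocallyFinite
  have hsf := hU.sigmaFinite
  obtain ⟨B, hB0, hBi, hB⟩ := dens_bound hU hρ hρc
  have hφ2 : ContDiff ℝ 2 φ := hφ.of_le (by norm_num)
  have hLc := Lop_continuous n hn φ hφ2 hφc
  have hLi := dens_Lop_integrable hn hφ2 hφc
  have hcont : Continuous (fun p : E n × E n => ρ (p.1 - p.2) * Lop n φ p.1) := by fun_prop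
  have hprod : Integrable (fun p : E n × E n => ρ (p.1 - p.2) * Lop n φ p.1)
      ((volume : Measure (E n)).prod σ) := by
    rw [integrable_prod_iff hcont.aestronglyMeasurable]
    refine ⟨Eventually.of_forall fun v => (hBi v).mul_const (Lop n φ v), ?_⟩
    refine (hLi.norm.const_mul B).mono' hcont.aestronglyMeasurable.norm.integral_prod_right'
      (Eventually.of_forall fun v => ?_)
    have h1 : ∫ y, ‖ρ (v - y) * Lop n φ v‖ ∂σ = (∫ y, |ρ (v - y)| ∂σ) * ‖Lop n φ v‖ := by
      rw [← integral_mul_const]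
      refine integral_congr_ae (Eventually.of_forall fun y => ?_)
      simp only [norm_mul, Real.norm_eq_abs]
    simp only [h1]
    rw [Real.norm_eq_abs, abs_of_nonneg (by positivity)]
    exact mul_le_mul_of_nonneg_right (hB v) (norm_nonneg _)
  -- the reflected mollifier
  set η : E n → ℝ := fun x => ρ (-x) with hη
  have hηcont : Continuous η := by fun_prop
  have hηc : HasCompactSupport η := hρc.comp_homeomorph (Homeomorph.neg (E n))
  have hstep : ∀ y, ∫ v, ρ (v - y) * Lop n φ v =
      Lop n (fun x => ∫ w, η w * φ (x - w)) y := by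
    intro y
    rw [Lop_conv n hn φ η hφ2 hφc hηcont hηc y]
    rw [← integral_sub_left_eq_self (fun v => ρ (v - y) * Lop n φ v) _ y]
    refine integral_congr_ae (Eventually.of_forall fun w => ?_)
    simp only [hη]
    rw [sub_sub_cancel_left]
  have hf3 : ContDiff ℝ 3 (fun x => ∫ w, η w * φ (x - w)) := by
    have h1 := hφc.contDiff_convolution_right (ContinuousLinearMap.mul ℝ ℝ)
      (μ := (volume : Measure (E n))) (f := η) hηcont.locallyIntegrable (n := 3)
      (by exact_mod_cast hφ)
    have h2 : (η ⋆[ContinuousLinearMap.mul ℝ ℝ, (volume : Measure (E n))] φ) =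
        fun x => ∫ w, η w * φ (x - w) := by
      funext x
      rw [convolution_def]
      simp
    rw [h2] at h1
    exact_mod_cast h1
  have hfc : HasCompactSupport (fun x => ∫ w, η w * φ (x - w)) := by
    have h1 := hηc.convolution (ContinuousLinearMap.mul ℝ ℝ) (μ := (volume : Measure (E n))) hφc
    have h2 : (η ⋆[ContinuousLinearMap.mul ℝ ℝ, (volume : Measure (E n))] φ) =
        fun x => ∫ w, η w * φ (x - w) := by
      funext x
      rw [convolution_def]
      simp
    rw [h2] at h1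
    exact h1
  calc ∫ v, (∫ y, ρ (v - y) ∂σ) * Lop n φ v
      = ∫ v, ∫ y, ρ (v - y) * Lop n φ v ∂σ := by
        refine integral_congr_ae (Eventually.of_forall fun v => ?_)
        simp only [integral_mul_const]
    _ = ∫ y, (∫ v, ρ (v - y) * Lop n φ v) ∂σ :=
        integral_integral_swap (f := fun v y => ρ (v - y) * Lop n φ v) hprod
    _ = ∫ y, Lop n (fun x => ∫ w, η w * φ (x - w)) y ∂σ := by
        refine integral_congr_ae (Eventually.of_forall fun y => ?_)
        exact hstep y
    _ = 0 := lop_zero hn hU hc hL hR _ hf3 hfc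

/-- smooth test functions do not see translations -/
theorem dens_translate {C c : ℝ} (hn : 1 ≤ n) {σ : Measure (E n)} (hU : UB n σ C) (hc : 0 < c)
    (hL : ∀ (v : E n) (r : ℝ), 0 < r → ENNReal.ofReal (c * r ^ n) ≤ σ (ball v r))
    (hR : Refl n σ) {g : E n → ℝ} (hg : ContDiff ℝ (⊤ : ℕ∞) g) (hgc : HasCompactSupport g) (v : E n) :
    ∫ y, g (y - v) ∂σ = ∫ y, g y ∂σ := by
  have hlf := hU.isLocallyFinite
  set ρ : E n → ℝ := fun x => g (-x) with hρdef
  have hρ : ContDiff ℝ (⊤ : ℕ∞) ρ := hg.comp contDiff_neg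
  have hρc : HasCompactSupport ρ := hgc.comp_homeomorph (Homeomorph.neg (E n))
  obtain ⟨B, hB0, hBi, hB⟩ := dens_bound hU hρ.continuous hρc
  set w : E n → ℝ := fun v => ∫ y, ρ (v - y) ∂σ with hw
  have hwb : ∀ v, |w v| ≤ B := fun v => (abs_integral_le_integral_abs).trans (hB v)
  have hw1 : ContDiff ℝ 1 w := dens_contDiff hρ hρc
  have hgrow : ∃ A : ℝ, ∀ R : ℝ, 1 ≤ R → ∫ v in ball (0 : E n) R, w v ^ 2 ≤ A * R ^ (n + 3) := by
    refine ⟨B ^ 2 * (volume : Measure (E n)).real (ball 0 1), fun R hR1 => ?_⟩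
    have hfin : (volume : Measure (E n)) (ball (0 : E n) R) < ∞ := measure_ball_lt_top
    have h1 : ‖∫ v in ball (0 : E n) R, w v ^ 2‖ ≤
        B ^ 2 * (volume : Measure (E n)).real (ball (0 : E n) R) := by
      refine norm_setIntegral_le_of_norm_le_const hfin fun v _ => ?_
      rw [Real.norm_eq_abs, abs_pow]
      exact pow_le_pow_left₀ (abs_nonneg _) (hwb v) 2
    have h2 : (volume : Measure (E n)).real (ball (0 : E n) R) =
        R ^ n * (volume : Measure (E n)).real (ball (0 : E n) 1) := by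
      rw [measureReal_def, measureReal_def, Measure.addHaar_ball_of_pos _ _ (by linarith : 0 < R), ENNReal.toReal_mul,
        finrank_euclideanSpace, Fintype.card_fin, ENNReal.toReal_ofReal (by positivity)]
    refine (le_abs_self _).trans (h1.trans ?_)
    rw [h2]
    have h3 : R ^ n ≤ R ^ (n + 3) := pow_le_pow_right₀ hR1 (by omega)
    calc B ^ 2 * (R ^ n * (volume : Measure (E n)).real (ball (0 : E n) 1))
        = (B ^ 2 * (volume : Measure (E n)).real (ball (0 : E n) 1)) * R ^ n := by ring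
      _ ≤ _ := mul_le_mul_of_nonneg_left h3 (by positivity)
  obtain ⟨a, L, haL⟩ := flat_liouville n hn w hw1 hgrow fun φ hφ hφc _ =>
    dens_weak hn hU hc hL hR hρ.continuous hρc hφ hφc
  have hL0 : ∀ u, L u = 0 := by
    intro u
    by_contra hne
    have hpos : 0 < |L u| := abs_pos.2 hne
    obtain ⟨N, hN⟩ := exists_nat_gt ((B + |a|) / |L u|)
    have h1 := hwb ((N : ℝ) • u)
    rw [haL, map_smul, smul_eq_mul] at h1
    rw [div_lt_iff₀ hpos] at hN
    have h2 : |(N : ℝ) * L u| ≤ |a + (N : ℝ) * L u| + |a| := by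
      calc |(N : ℝ) * L u| = |(a + (N : ℝ) * L u) + -a| := by congr 1; ring
        _ ≤ |a + (N : ℝ) * L u| + |-a| := abs_add_le _ _
        _ = _ := by rw [abs_neg]
    rw [abs_mul, abs_of_nonneg (Nat.cast_nonneg N)] at h2
    linarith
  have hconst : w v = w 0 := by rw [haL v, haL 0, hL0, hL0]
  have e1 : w v = ∫ y, g (y - v) ∂σ := by
    simp only [hw, hρdef, neg_sub]
  have e2 : w 0 = ∫ y, g y ∂σ := by
    simp only [hw, hρdef, zero_sub, neg_neg]
  rw [← e1, ← e2, hconst]

/-- `UR/Density.lean`: on `ℝ^n` itself (uses lop_zero, flat_liouville). -/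
theorem density_const {C c : ℝ} (hn : 1 ≤ n) {σ : Measure (E n)} (hU : UB n σ C) (hc : 0 < c)
    (hL : ∀ (v : E n) (r : ℝ), 0 < r → ENNReal.ofReal (c * r ^ n) ≤ σ (ball v r))
    (hR : Refl n σ) : ∃ c0 : ℝ, 0 < c0 ∧ σ = ENNReal.ofReal c0 • (volume : Measure (E n)) := by
  have hlf := hU.isLocallyFinite
  have hinv : σ.IsAddLeftInvariant := by
    refine ⟨fun v => ?_⟩
    have hmap0 : IsFiniteMeasureOnCompacts (σ.map fun x => v + x) :=
      Measure.IsFiniteMeasureOnCompacts.map σ (Homeomorph.addLeft v)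
    have hmap : IsLocallyFiniteMeasure (σ.map fun x => v + x) := inferInstance
    refine dens_ext fun g hg hgc => ?_
    rw [integral_map (measurable_const_add v).aemeasurable
      hg.continuous.aestronglyMeasurable]
    have h1 := dens_translate hn hU hc hL hR hg hgc (-v)
    rw [← h1]
    refine integral_congr_ae (Eventually.of_forall fun y => ?_)
    simp only [sub_neg_eq_add, add_comm]
  have heq := Measure.isAddLeftInvariant_eq_smul σ (volume : Measure (E n))
  set k := Measure.addHaarScalarFactor σ (volume : Measure (E n)) with hk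
  have hk0 : k ≠ 0 := by
    intro h0
    rw [h0, zero_smul] at heq
    have h1 := hL 0 1 one_pos
    rw [heq, Measure.coe_zero, Pi.zero_apply, one_pow, mul_one, nonpos_iff_eq_zero,
      ENNReal.ofReal_eq_zero] at h1
    linarith
  refine ⟨k, by positivity, ?_⟩
  rw [ENNReal.ofReal_coe_nnreal]
  exact heq

end Vale.Agent.P120
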