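import Vale.Agent.Lib.P120.UR.PlaneFull
import Vale.Agent.Lib.P120.UR.Density

/-!
P120: reflectionless measures supported on an `n`-plane (module PlaneLimit).
The measure is transported to `ℝ^n`; the truncated forms with different cutoffs are compared by
a weighted tail estimate.
-/

open MeasureTheory Filter Set Metric Module
open scoped Topology ENNReal NNReal RealInnerProductSpace

namespace Vale.Agent.P120

variable {d n : ℕ}

/-- Weighted tail estimate, bounded supports. -/
theorem planeLimit_tail {C : ℝ} {ν : Measure (E d)} (hU : UB n ν C)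
    (hb : ∃ R0, ν (closedBall 0 R0)ᶜ = 0) {ψ : E d → ℝ} (hψ : Lip ψ) {r R : ℝ} (hr : 0 < r)
    (hrR : 2 * r ≤ R) (hs : ∀ y, r < ‖y‖ → ψ y = 0) (h0 : ∫ y, ψ y ∂ν = 0) (a : E d → ℝ)
    (ha : Measurable a) (ha0 : ∀ y, 0 ≤ a y) (ha1 : ∀ y, a y ≤ 1) (haR : ∀ y, ‖y‖ ≤ R → a y = 1) :
    ‖(1 / 2 : ℝ) • ∫ p : E d × E d, (a p.1 * a p.2 * (ψ p.1 - ψ p.2)) •
      rieszKernel n (p.1 - p.2) ∂(ν.prod ν) - BF n (ν.restrict (closedBall 0 R)) ψ‖ ≤
      ((n + 2) * 4 ^ (n + 1)) * (2 ^ (n + 1) * C) * (r / R) * ∫ y, |ψ y| ∂ν := by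
  classical
  have hfin : IsFiniteMeasure ν := hU.isFiniteMeasure hb
  have hC := hU.1
  have hR : 0 < R := by linarith
  have hψm : Measurable ψ := hψ.continuous.measurable
  have hKm : Measurable (rieszKernel n : E d → E d) := measurable_rieszKernel
  set B : Set (E d) := closedBall 0 R with hB
  have hBm : MeasurableSet B := measurableSet_closedBall
  have hmemB : ∀ y, y ∈ B ↔ ‖y‖ ≤ R := fun y => by rw [hB, mem_closedBall, dist_zero_right]
  set F : E d × E d → E d := fun p => (ψ p.1 - ψ p.2) • rieszKernel n (p.1 - p.2) with hF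
  have hFi : Integrable F (ν.prod ν) := BF_integrable hU hb hψ
  set b : E d → ℝ := Bᶜ.indicator a with hbdef
  have hbm : Measurable b := ha.indicator hBm.compl
  have hb_in : ∀ y, ‖y‖ ≤ R → b y = 0 := fun y hy => by
    rw [hbdef, indicator_of_notMem]
    rw [mem_compl_iff, not_not, hmemB]; exact hy
  have hb_out : ∀ y, R < ‖y‖ → b y = a y := fun y hy => by
    rw [hbdef, indicator_of_mem]
    rw [mem_compl_iff, hmemB, not_le]; exact hy
  set G : E d × E d → E d := fun p => (ψ p.1 * b p.2) • rieszKernel n (p.1 - p.2) with hG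
  have hFa : Integrable (fun p : E d × E d => (a p.1 * a p.2 * (ψ p.1 - ψ p.2)) •
      rieszKernel n (p.1 - p.2)) (ν.prod ν) := by
    refine hFi.norm.mono' ?_ ?_
    · have h1 : Measurable (fun p : E d × E d => a p.1 * a p.2 * (ψ p.1 - ψ p.2)) := by fun_prop
      have h2 : Measurable (fun p : E d × E d => rieszKernel n (p.1 - p.2)) :=
        hKm.comp (by fun_prop)
      exact (h1.smul h2).aestronglyMeasurable
    · refine Eventually.of_forall fun p => ?_
      simp only [hF]
      rw [mul_smul, norm_smul]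
      have h1 : ‖a p.1 * a p.2‖ ≤ 1 := by
        rw [Real.norm_eq_abs, abs_of_nonneg (mul_nonneg (ha0 _) (ha0 _))]
        exact mul_le_one₀ (ha1 _) (ha0 _) (ha1 _)
      exact mul_le_of_le_one_left (norm_nonneg _) h1
  have hIi : Integrable ((B ×ˢ B).indicator F) (ν.prod ν) := hFi.indicator (hBm.prod hBm)
  set H : E d × E d → E d := fun p => (a p.1 * a p.2 * (ψ p.1 - ψ p.2)) •
      rieszKernel n (p.1 - p.2) - (B ×ˢ B).indicator F p with hH
  have hHi : Integrable H (ν.prod ν) := hFa.sub hIi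
  have hHG : ∀ p, H p = G p + G p.swap := by
    intro p
    obtain ⟨x, y⟩ := p
    simp only [hH, hG, Prod.swap]
    have hK : rieszKernel n (y - x) = - rieszKernel n (x - y) := rieszKernel_sub_comm x y
    rw [hK]
    by_cases hx : ‖x‖ ≤ R <;> by_cases hy : ‖y‖ ≤ R
    · rw [indicator_of_mem (show (x, y) ∈ B ×ˢ B from ⟨(hmemB x).2 hx, (hmemB y).2 hy⟩),
        haR x hx, haR y hy, hb_in x hx, hb_in y hy]
      simp [hF]
    · rw [indicator_of_notMem (show (x, y) ∉ B ×ˢ B from fun h => hy ((hmemB y).1 h.2)),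
        haR x hx, hb_in x hx, hb_out y (not_le.1 hy), hs y (by linarith [not_le.1 hy])]
      simp [mul_comm]
    · rw [indicator_of_notMem (show (x, y) ∉ B ×ˢ B from fun h => hx ((hmemB x).1 h.1)),
        haR y hy, hb_in y hy, hb_out x (not_le.1 hx), hs x (by linarith [not_le.1 hx])]
      simp [mul_comm]
    · rw [indicator_of_notMem (show (x, y) ∉ B ×ˢ B from fun h => hy ((hmemB y).1 h.2)),
        hs x (by linarith [not_le.1 hx]), hs y (by linarith [not_le.1 hy])]
      simp
  have hGind : G = (({x : E d | ‖x‖ ≤ r}) ×ˢ (univ : Set (E d))).indicator H := by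
    funext p
    obtain ⟨x, y⟩ := p
    by_cases hx : ‖x‖ ≤ r
    · rw [indicator_of_mem (show (x, y) ∈ {x : E d | ‖x‖ ≤ r} ×ˢ (univ : Set (E d)) from
        ⟨hx, mem_univ _⟩), hHG]
      simp only [hG, Prod.swap]
      rw [hb_in x (by linarith)]
      simp
    · rw [indicator_of_notMem (show (x, y) ∉ {x : E d | ‖x‖ ≤ r} ×ˢ (univ : Set (E d)) from
        fun h => hx h.1)]
      simp only [hG]
      rw [hs x (not_le.1 hx)]
      simp
  have hmr : MeasurableSet {x : E d | ‖x‖ ≤ r} := measurableSet_le measurable_norm measurable_const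
  have hGi : Integrable G (ν.prod ν) := by
    rw [hGind]; exact hHi.indicator (hmr.prod MeasurableSet.univ)
  have hBF : BF n (ν.restrict B) ψ = (1 / 2 : ℝ) • ∫ p, (B ×ˢ B).indicator F p ∂(ν.prod ν) := by
    unfold BF
    rw [Measure.prod_restrict, integral_indicator (hBm.prod hBm)]
  have hmain : (1 / 2 : ℝ) • ∫ p : E d × E d, (a p.1 * a p.2 * (ψ p.1 - ψ p.2)) •
      rieszKernel n (p.1 - p.2) ∂(ν.prod ν) - BF n (ν.restrict B) ψ = ∫ p, G p ∂(ν.prod ν) := by
    rw [hBF, ← smul_sub, ← integral_sub hFa hIi]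
    have h1 : ∫ p : E d × E d, ((a p.1 * a p.2 * (ψ p.1 - ψ p.2)) •
      rieszKernel n (p.1 - p.2) - (B ×ˢ B).indicator F p) ∂(ν.prod ν) =
        ∫ p : E d × E d, (G p + G p.swap) ∂(ν.prod ν) :=
      integral_congr_ae (Eventually.of_forall fun p => hHG p)
    have hGs : Integrable (fun p : E d × E d => G p.swap) (ν.prod ν) := hGi.swap
    rw [h1, integral_add hGi hGs, integral_prod_swap (fun p : E d × E d => G p),
      ← two_smul ℝ, smul_smul]
    norm_num
  rw [hmain]
  -- integrability of the factors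
  obtain ⟨Kψ, hKψ⟩ := hψ
  have hψi : Integrable ψ ν := by
    refine Integrable.of_bound (C := |ψ 0| + Kψ * r) hψm.aestronglyMeasurable
      (Eventually.of_forall fun y => ?_)
    by_cases hy : r < ‖y‖
    · rw [hs y hy, norm_zero]; positivity
    · have h1 := hKψ.dist_le_mul y 0
      rw [Real.dist_eq, dist_zero_right] at h1
      have h2 : (Kψ : ℝ) * ‖y‖ ≤ Kψ * r := by gcongr; exact not_lt.1 hy
      have h3 : |ψ y| ≤ |ψ 0| + |ψ y - ψ 0| := by
        have := abs_add_le (ψ 0) (ψ y - ψ 0)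
        rwa [add_sub_cancel] at this
      rw [Real.norm_eq_abs]
      linarith
  have hbKi : Integrable (fun y => b y • rieszKernel n (-y)) ν := by
    refine Integrable.of_bound (C := (R ^ n)⁻¹) ?_ (Eventually.of_forall fun y => ?_)
    · exact (hbm.smul (hKm.comp measurable_neg)).aestronglyMeasurable
    · by_cases hy : ‖y‖ ≤ R
      · rw [hb_in y hy, zero_smul, norm_zero]; positivity
      · rw [norm_smul]
        have h1 : ‖b y‖ ≤ 1 := by
          rw [hb_out y (not_le.1 hy), Real.norm_eq_abs, abs_of_nonneg (ha0 _)]; exact ha1 _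
        have h2 : ‖rieszKernel n (-y)‖ ≤ (R ^ n)⁻¹ :=
          norm_rieszKernel_le_of_le hR (by rw [norm_neg]; exact (not_le.1 hy).le)
        calc ‖b y‖ * ‖rieszKernel n (-y)‖ ≤ 1 * (R ^ n)⁻¹ := by gcongr
          _ = _ := one_mul _
  have hzero : ∫ p : E d × E d, ψ p.1 • (b p.2 • rieszKernel n (-p.2)) ∂(ν.prod ν) = 0 := by
    rw [integral_prod_smul ψ (fun y => b y • rieszKernel n (-y)), h0, zero_smul]
  have hprodi : Integrable (fun p : E d × E d => ψ p.1 • (b p.2 • rieszKernel n (-p.2)))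
      (ν.prod ν) := hψi.smul_prod hbKi
  have hG' : ∫ p, G p ∂(ν.prod ν) =
      ∫ p, (G p - ψ p.1 • (b p.2 • rieszKernel n (-p.2))) ∂(ν.prod ν) := by
    rw [integral_sub hGi hprodi, hzero, sub_zero]
  rw [hG']
  have htail := hU.tail 0 hR
  set w : E d → ℝ := (Metric.ball (0 : E d) R)ᶜ.indicator (fun y => wt n 0 y) with hw
  have hwi : Integrable w ν := htail.1.integrable_indicator measurableSet_ball.compl
  have hwle : ∫ y, w y ∂ν ≤ 2 ^ (n + 1) * C / R := by
    rw [hw, integral_indicator measurableSet_ball.compl]; exact htail.2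
  have hbound : ∀ p : E d × E d, ‖G p - ψ p.1 • (b p.2 • rieszKernel n (-p.2))‖ ≤
      ((n + 2) * 4 ^ (n + 1)) * r * (|ψ p.1| * w p.2) := by
    intro p
    obtain ⟨x, y⟩ := p
    simp only [hG]
    have hw0 : 0 ≤ w y := by
      rw [hw]; exact indicator_nonneg (fun z _ => wt_nonneg _ _) y
    rw [smul_smul, ← smul_sub, norm_smul, norm_mul, Real.norm_eq_abs]
    by_cases hx : r < ‖x‖
    · rw [hs x hx]; simp
    · by_cases hy : ‖y‖ ≤ R
      · rw [hb_in y hy]; simp only [norm_zero, mul_zero, zero_mul]; positivity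
      · have hx' := not_lt.1 hx
        have hy' := not_le.1 hy
        have hwy : w y = (‖y‖ ^ (n + 1))⁻¹ := by
          rw [hw, indicator_of_mem (show y ∈ (Metric.ball (0 : E d) R)ᶜ by
            rw [mem_compl_iff, mem_ball, dist_zero_right, not_lt]; exact hy'.le)]
          simp only [wt, zero_sub, norm_neg]
        have hlip := rieszKernel_lipschitz (n := n) (-y) (x - y)
          (by
            intro h
            rw [neg_eq_zero] at h
            rw [h, norm_zero] at hy'
            linarith)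
          (by
            have : -y - (x - y) = -x := by abel
            rw [this, norm_neg, norm_neg]; linarith)
        have e1 : -y - (x - y) = -x := by abel
        rw [e1, norm_neg, norm_neg, ← norm_neg, neg_sub] at hlip
        have hb1 : ‖b y‖ ≤ 1 := by
          rw [hb_out y hy', Real.norm_eq_abs, abs_of_nonneg (ha0 _)]; exact ha1 _
        rw [hwy]
        calc |ψ x| * ‖b y‖ * ‖rieszKernel n (x - y) - rieszKernel n (-y)‖
            ≤ |ψ x| * 1 * (((n + 2) * 4 ^ (n + 1)) * ‖x‖ * (‖y‖ ^ (n + 1))⁻¹) := by gcongr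
          _ ≤ |ψ x| * 1 * (((n + 2) * 4 ^ (n + 1)) * r * (‖y‖ ^ (n + 1))⁻¹) := by gcongr
          _ = _ := by ring
  have hdom : Integrable (fun p : E d × E d => ((n + 2) * 4 ^ (n + 1)) * r *
      (|ψ p.1| * w p.2)) (ν.prod ν) := (hψi.abs.mul_prod hwi).const_mul _
  refine (norm_integral_le_of_norm_le hdom (Eventually.of_forall hbound)).trans ?_
  rw [integral_const_mul, integral_prod_mul (fun x => |ψ x|) w]
  have hI : 0 ≤ ∫ y, |ψ y| ∂ν := integral_nonneg fun _ => abs_nonneg _
  calc ((n + 2) * 4 ^ (n + 1)) * r * ((∫ y, |ψ y| ∂ν) * ∫ y, w y ∂ν)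
      ≤ ((n + 2) * 4 ^ (n + 1)) * r * ((∫ y, |ψ y| ∂ν) * (2 ^ (n + 1) * C / R)) := by gcongr
    _ = _ := by ring

/-- Weighted tail estimate, weights of compact support. -/
theorem planeLimit_tail_loc {C : ℝ} {σ : Measure (E d)} (hU : UB n σ C) {ψ : E d → ℝ}
    (hψ : Lip ψ) {r R T : ℝ} (hr : 0 < r) (hrR : 2 * r ≤ R) (hs : ∀ y, r < ‖y‖ → ψ y = 0)
    (h0 : ∫ y, ψ y ∂σ = 0) (a : E d → ℝ) (ha : Measurable a) (ha0 : ∀ y, 0 ≤ a y)
    (ha1 : ∀ y, a y ≤ 1) (haR : ∀ y, ‖y‖ ≤ R → a y = 1) (hRT : R ≤ T)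
    (haT : ∀ y, T < ‖y‖ → a y = 0) :
    ‖(1 / 2 : ℝ) • ∫ p : E d × E d, (a p.1 * a p.2 * (ψ p.1 - ψ p.2)) •
      rieszKernel n (p.1 - p.2) ∂(σ.prod σ) - BF n (σ.restrict (closedBall 0 R)) ψ‖ ≤
      ((n + 2) * 4 ^ (n + 1)) * (2 ^ (n + 1) * C) * (r / R) * ∫ y, |ψ y| ∂σ := by
  have hsf : SigmaFinite σ := hU.sigmaFinite
  set ν := σ.restrict (closedBall 0 T) with hν
  have hνb : ∃ R0, ν (closedBall 0 R0)ᶜ = 0 := ⟨T, by
    rw [hν, Measure.restrict_apply measurableSet_closedBall.compl, compl_inter_self,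
      measure_empty]⟩
  have hout : ∀ y : E d, y ∉ closedBall (0 : E d) T → T < ‖y‖ := fun y hy => by
    rwa [mem_closedBall, dist_zero_right, not_le] at hy
  have e1 : ∫ y, ψ y ∂ν = ∫ y, ψ y ∂σ := by
    rw [hν]
    refine setIntegral_eq_integral_of_forall_compl_eq_zero fun y hy => ?_
    exact hs y (by linarith [hout y hy])
  have e2 : ∫ y, |ψ y| ∂ν = ∫ y, |ψ y| ∂σ := by
    rw [hν]
    refine setIntegral_eq_integral_of_forall_compl_eq_zero fun y hy => ?_
    rw [hs y (by linarith [hout y hy]), abs_zero]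
  have e3 : ∫ p : E d × E d, (a p.1 * a p.2 * (ψ p.1 - ψ p.2)) •
      rieszKernel n (p.1 - p.2) ∂(ν.prod ν) = ∫ p : E d × E d, (a p.1 * a p.2 *
      (ψ p.1 - ψ p.2)) • rieszKernel n (p.1 - p.2) ∂(σ.prod σ) := by
    rw [hν, Measure.prod_restrict]
    refine setIntegral_eq_integral_of_forall_compl_eq_zero fun p hp => ?_
    by_cases h1 : p.1 ∈ closedBall (0 : E d) T
    · have h2 : p.2 ∉ closedBall (0 : E d) T := fun h => hp ⟨h1, h⟩
      rw [haT _ (hout _ h2)]; simp
    · rw [haT _ (hout _ h1)]; simp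
  have e4 : ν.restrict (closedBall 0 R) = σ.restrict (closedBall 0 R) := by
    rw [hν, Measure.restrict_restrict measurableSet_closedBall,
      inter_eq_left.mpr (closedBall_subset_closedBall hRT)]
  have h := planeLimit_tail (hU.restrict (closedBall 0 T)) hνb hψ hr hrR hs
    (by rw [← hν, e1]; exact h0) a ha ha0 ha1 haR
  rw [← hν, e2, e3, e4] at h
  exact h

theorem planeLimit_cut_nonneg (R : ℝ) (y : E d) : 0 ≤ cut R y := le_max_left _ _

theorem planeLimit_cut_le (R : ℝ) (y : E d) : cut R y ≤ 1 :=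
  max_le zero_le_one (min_le_left _ _)

theorem planeLimit_cut_one {R : ℝ} (hR : 0 < R) {y : E d} (hy : ‖y‖ ≤ R) : cut R y = 1 := by
  unfold cut
  have h1 : ‖y‖ / R ≤ 1 := (div_le_one hR).2 hy
  rw [min_eq_left (by linarith), max_eq_right zero_le_one]

theorem planeLimit_cut_zero {R : ℝ} (hR : 0 < R) {y : E d} (hy : 2 * R ≤ ‖y‖) :
    cut R y = 0 := by
  unfold cut
  have h1 : 2 ≤ ‖y‖ / R := (le_div_iff₀ hR).2 hy
  exact max_eq_left ((min_le_right _ _).trans (by linarith))

theorem planeLimit_cut_lip {R : ℝ} (hR : 0 < R) : Lip (fun y : E d => cut R y) := by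
  have h1 : LipschitzWith (R⁻¹).toNNReal (fun y : E d => 2 - ‖y‖ / R) := by
    refine LipschitzWith.of_dist_le_mul fun x y => ?_
    rw [Real.dist_eq, Real.coe_toNNReal _ (inv_nonneg.2 hR.le)]
    have e : 2 - ‖x‖ / R - (2 - ‖y‖ / R) = R⁻¹ * (‖y‖ - ‖x‖) := by field_simp; ring
    rw [e, abs_mul, abs_of_nonneg (inv_nonneg.2 hR.le), dist_comm, dist_eq_norm]
    exact mul_le_mul_of_nonneg_left (abs_norm_sub_norm_le y x) (inv_nonneg.2 hR.le)
  exact ⟨_, (h1.const_min 1).const_max 0⟩

/-- The property `Refl` on the plane. -/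
theorem planeLimit_refl {C : ℝ} {σ : Measure (E n)} (hU : UB n σ C) (U : E n →ₗᵢ[ℝ] E d)
    (p : E d) (hR : Refl n (σ.map (fun v => p + U v))) : Refl n σ := by
  intro ψ hψ hcs h0
  have hsf : SigmaFinite σ := hU.sigmaFinite
  have hC := hU.1
  set g : E n → E d := fun v => p + U v with hg
  have hgc : Continuous g := continuous_const.add U.continuous
  have hgm : Measurable g := hgc.measurable
  obtain ⟨r0, hr0⟩ := hcs.isCompact.isBounded.subset_closedBall (0 : E n)
  set r := max r0 1 with hr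
  have hr1 : 0 < r := lt_of_lt_of_le one_pos (le_max_right _ _)
  have hs : ∀ v, r < ‖v‖ → ψ v = 0 := by
    intro v hv
    by_contra hne
    have h1 := hr0 (subset_tsupport _ hne)
    rw [mem_closedBall, dist_zero_right] at h1
    linarith [le_max_left r0 1]
  set r2 := r + ‖p‖ with hr2
  have hr20 : 0 < r2 := by have := norm_nonneg p; linarith
  set Ψ : E d → ℝ := fun y => ψ (adjU U (y - p)) * cut r2 y with hΨ
  have hΨg : ∀ v, Ψ (g v) = ψ v := by
    intro v
    simp only [hΨ, hg, add_sub_cancel_left, adjU_U]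
    by_cases hv : r < ‖v‖
    · rw [hs v hv, zero_mul]
    · rw [planeLimit_cut_one hr20, mul_one]
      have h1 := norm_add_le p (U v)
      rw [U.norm_map] at h1
      linarith [not_lt.1 hv]
  have hψb : ∃ M, ∀ v, |ψ v| ≤ M := by
    obtain ⟨K, hK⟩ := hψ
    refine ⟨|ψ 0| + K * r, fun y => ?_⟩
    by_cases hy : r < ‖y‖
    · rw [hs y hy, abs_zero]; positivity
    · have h1 := hK.dist_le_mul y 0
      rw [Real.dist_eq, dist_zero_right] at h1
      have h2 : (K : ℝ) * ‖y‖ ≤ K * r := by gcongr; exact not_lt.1 hy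
      have h3 : |ψ y| ≤ |ψ 0| + |ψ y - ψ 0| := by
        have := abs_add_le (ψ 0) (ψ y - ψ 0)
        rwa [add_sub_cancel] at this
      linarith
  have hΨL : Lip Ψ := by
    refine Lip.mul ?_ (planeLimit_cut_lip hr20) ?_ ?_
    · obtain ⟨K, hK⟩ := hψ
      refine ⟨K, LipschitzWith.of_dist_le_mul fun x y => ?_⟩
      refine (hK.dist_le_mul _ _).trans ?_
      gcongr
      rw [dist_eq_norm, dist_eq_norm, ← map_sub, sub_sub_sub_cancel_right]
      exact norm_adjU_le U _
    · obtain ⟨M, hM⟩ := hψb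
      exact ⟨M, fun y => hM _⟩
    · exact ⟨1, fun y => by
        rw [abs_of_nonneg (planeLimit_cut_nonneg _ _)]; exact planeLimit_cut_le _ _⟩
  have hΨc : HasCompactSupport Ψ := by
    refine HasCompactSupport.intro (isCompact_closedBall (0 : E d) (2 * r2)) fun y hy => ?_
    rw [mem_closedBall, dist_zero_right, not_le] at hy
    simp only [hΨ]
    rw [planeLimit_cut_zero hr20 hy.le, mul_zero]
  have hΨ0 : ∫ y, Ψ y ∂(σ.map g) = 0 := by
    rw [integral_map hgm.aemeasurable hΨL.continuous.aestronglyMeasurable]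
    simp only [hΨg]
    exact h0
  have hlim := hR Ψ hΨL hΨc hΨ0
  -- the forms on the plane
  set Z : ℝ → E n := fun R => (1 / 2 : ℝ) • ∫ q : E n × E n,
    (cut R (g q.1) * cut R (g q.2) * (ψ q.1 - ψ q.2)) • rieszKernel n (q.1 - q.2) ∂(σ.prod σ)
    with hZ
  have hKm : Measurable (rieszKernel n : E d → E d) := measurable_rieszKernel
  have hcutm : ∀ (R : ℝ), Measurable (fun y : E d => cut R y) := fun R => by
    unfold cut; fun_prop
  have hcutm' : ∀ (R : ℝ), Measurable (fun y : E n => cut R y) := fun R => by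
    unfold cut; fun_prop
  have hform : ∀ R, BFc n (σ.map g) R Ψ = U (Z R) := by
    intro R
    unfold BFc
    have hΨm := hΨL.continuous.measurable
    have hc1 := hcutm R
    rw [Measure.map_prod_map σ σ hgm hgm, integral_map (hgm.prodMap hgm).aemeasurable]
    · simp only [Prod.map_fst, Prod.map_snd, hΨg]
      rw [hZ]
      simp only
      rw [U.map_smul, ← LinearIsometry.integral_comp_comm U]
      congr 1
      refine integral_congr_ae (Eventually.of_forall fun q => ?_)
      simp only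
      rw [U.map_smul]
      congr 1
      have e : g q.1 - g q.2 = U (q.1 - q.2) := by
        simp only [hg, map_sub]; abel
      rw [e]
      unfold rieszKernel
      rw [U.norm_map, U.map_smul]
    · have h1 : Measurable (fun p : E d × E d => cut R p.1 * cut R p.2 * (Ψ p.1 - Ψ p.2)) := by
        fun_prop
      have h2 : Measurable (fun p : E d × E d => rieszKernel n (p.1 - p.2)) :=
        hKm.comp (by fun_prop)
      exact (h1.smul h2).aestronglyMeasurable
  set K0 : ℝ := ((n + 2) * 4 ^ (n + 1)) * (2 ^ (n + 1) * C) with hK0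
  set I : ℝ := ∫ v, |ψ v| ∂σ with hI
  have key : ∀ᶠ R in (atTop : Filter ℝ), ‖BFc n σ R ψ‖ ≤
      2 * (K0 * (r / (R - ‖p‖)) * I) + ‖BFc n (σ.map g) R Ψ‖ := by
    filter_upwards [eventually_ge_atTop (2 * r + ‖p‖)] with R hRr
    have hp0 := norm_nonneg p
    have hR0 : 0 < R := by linarith
    have hR' : 2 * r ≤ R - ‖p‖ := by linarith
    have t1 := planeLimit_tail_loc (T := 2 * R + ‖p‖) hU hψ hr1 hR' hs h0 (fun v => cut R v)
      (hcutm' R) (fun _ => planeLimit_cut_nonneg _ _) (fun _ => planeLimit_cut_le _ _)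
      (fun v hv => planeLimit_cut_one hR0 (by linarith)) (by linarith)
      (fun v hv => planeLimit_cut_zero hR0 (by linarith))
    have t2 := planeLimit_tail_loc (T := 2 * R + ‖p‖) hU hψ hr1 hR' hs h0
      (fun v => cut R (g v)) ((hcutm R).comp hgm) (fun _ => planeLimit_cut_nonneg _ _)
      (fun _ => planeLimit_cut_le _ _)
      (fun v hv => planeLimit_cut_one hR0 (by
        have h1 := norm_add_le p (U v)
        rw [U.norm_map] at h1
        simp only [hg]
        linarith)) (by linarith)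
      (fun v hv => planeLimit_cut_zero hR0 (by
        have h1 := norm_sub_le (g v) p
        have h2 : g v - p = U v := by simp [hg]
        rw [h2, U.norm_map] at h1
        linarith))
    have e1 : ‖BFc n (σ.map g) R Ψ‖ = ‖Z R‖ := by rw [hform, U.norm_map]
    rw [e1]
    set Y := BF n (σ.restrict (closedBall 0 (R - ‖p‖))) ψ with hY
    have t1' : ‖BFc n σ R ψ - Y‖ ≤ K0 * (r / (R - ‖p‖)) * I := t1
    have t2' : ‖Z R - Y‖ ≤ K0 * (r / (R - ‖p‖)) * I := t2
    have e2 : BFc n σ R ψ = (BFc n σ R ψ - Y) - (Z R - Y) + Z R := by abel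
    calc ‖BFc n σ R ψ‖ = ‖(BFc n σ R ψ - Y) - (Z R - Y) + Z R‖ := by rw [← e2]
      _ ≤ ‖(BFc n σ R ψ - Y) - (Z R - Y)‖ + ‖Z R‖ := norm_add_le _ _
      _ ≤ (‖BFc n σ R ψ - Y‖ + ‖Z R - Y‖) + ‖Z R‖ := by gcongr; exact norm_sub_le _ _
      _ ≤ _ := by linarith
  have hz : Tendsto (fun R : ℝ => 2 * (K0 * (r / (R - ‖p‖)) * I) + ‖BFc n (σ.map g) R Ψ‖)
      atTop (𝓝 0) := by
    have h1 : Tendsto (fun R : ℝ => r / (R - ‖p‖)) atTop (𝓝 0) :=
      tendsto_const_nhds.div_atTop (tendsto_atTop_add_const_right atTop (-‖p‖) tendsto_id)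
    have h2 := ((h1.const_mul K0).mul_const I).const_mul 2
    have h3 := h2.add hlim.norm
    simpa using h3
  exact squeeze_zero_norm' key hz

theorem flat_of_refl {C c : ℝ} (hn : 1 ≤ n) {σ : Measure (E d)} (hU : UB n σ C)
    (hL : ∀ D > 0, LB n σ c D) (hR : Refl n σ) (U : E n →ₗᵢ[ℝ] E d) (p : E d)
    (hne : σ.support.Nonempty) (hsupp : ∀ y ∈ σ.support, ∃ v, y = p + U v) :
    ∃ c0 : ℝ, 0 < c0 ∧ σ = ENNReal.ofReal c0 • (volume : Measure (E n)).map (fun v => p + U v) := by
  have hsf : SigmaFinite σ := hU.sigmaFinite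
  set g : E n → E d := fun v => p + U v with hg
  set π : E d → E n := fun y => adjU U (y - p) with hπ
  have hgm : Measurable g := (continuous_const.add U.continuous).measurable
  have hπm : Measurable π := ((adjU U).continuous.comp (continuous_id.sub continuous_const)).measurable
  have hπg : ∀ v, π (g v) = v := fun v => by
    simp only [hπ, hg, add_sub_cancel_left, adjU_U]
  have hae : ∀ᵐ y ∂σ, g (π y) = y := by
    have h1 : σ σ.supportᶜ = 0 := Measure.measure_compl_support
    have h2 : {y | ¬ g (π y) = y} ⊆ σ.supportᶜ := by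
      intro y hy hys
      obtain ⟨v, hv⟩ := hsupp y hys
      refine hy ?_
      have h3 : y = g v := hv
      rw [h3, hπg]
    rw [ae_iff]
    exact measure_mono_null h2 h1
  have hback : σ = (σ.map π).map g := by
    rw [Measure.map_map hgm hπm]
    conv_lhs => rw [← Measure.map_id (μ := σ)]
    exact Measure.map_congr (hae.mono fun y hy => hy.symm)
  have hdist : ∀ v w, dist (g w) (g v) = dist w v := by
    intro v w
    rw [dist_eq_norm, dist_eq_norm]
    have e : g w - g v = U (w - v) := by simp only [hg, map_sub]; abel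
    rw [e, U.norm_map]
  have hball : ∀ v r, (σ.map π) (ball v r) = σ (ball (g v) r) := by
    intro v r
    conv_rhs => rw [hback]
    rw [Measure.map_apply (μ := σ.map π) hgm measurableSet_ball]
    congr 1
    ext w
    rw [mem_preimage, mem_ball, mem_ball, hdist]
  have hcball : ∀ v r, (σ.map π) (closedBall v r) = σ (closedBall (g v) r) := by
    intro v r
    conv_rhs => rw [hback]
    rw [Measure.map_apply (μ := σ.map π) hgm measurableSet_closedBall]
    congr 1
    ext w
    rw [mem_preimage, mem_closedBall, mem_closedBall, hdist]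
  have hU' : UB n (σ.map π) C := ⟨hU.1, fun v r hr => by rw [hcball]; exact hU.2 _ r hr⟩
  have hfull := support_eq_plane hn hU hL hR U p hne hsupp
  have hL' : ∀ (v : E n) (r : ℝ), 0 < r →
      ENNReal.ofReal (c * r ^ n) ≤ (σ.map π) (ball v r) := fun v r hr => by
    rw [hball]; exact (hL r hr).2.2 (g v) (hfull v) r hr le_rfl
  have hR' : Refl n (σ.map π) := planeLimit_refl hU' U p (by rw [← hg, ← hback]; exact hR)
  obtain ⟨c0, hc0, h⟩ := density_const hn hU' (hL 1 one_pos).1 hL' hR'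
  refine ⟨c0, hc0, ?_⟩
  rw [hback, h, Measure.map_smul]

end Vale.Agent.P120
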