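import Vale.Agent.Lib.P120.UR.Base

/-!
# Sup bound for the heights (Chebyshev)
-/

open MeasureTheory Filter Set Metric Module
open scoped Topology ENNReal NNReal RealInnerProductSpace

namespace Vale.Agent.P120

lemma supBound_continuous_hgt {n d : ℕ} (U : E n →ₗᵢ[ℝ] E d) (M : E n →L[ℝ] E d) (b : E d) :
    Continuous (hgt U M b) := by
  unfold hgt
  fun_prop

lemma supBound_integrableOn {n d : ℕ} {C : ℝ} {ν : Measure (E d)} (hU : UB n ν C)
    (U : E n →ₗᵢ[ℝ] E d) (M : E n →L[ℝ] E d) (b : E d) (x : E d) (t : ℝ) :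
    IntegrableOn (fun y => ‖hgt U M b y‖ ^ 2) (ball x t) ν := by
  have hlf := UB.isLocallyFinite hU
  have hcont : Continuous (fun y => ‖hgt U M b y‖ ^ 2) :=
    (supBound_continuous_hgt U M b).norm.pow 2
  exact (hcont.continuousOn.integrableOn_compact (isCompact_closedBall x t)).mono_set
    ball_subset_closedBall

theorem sup_bound (n d : ℕ) (C c : ℝ) (hC : 0 < C) (hc : 0 < c) (A ζ : ℝ) (hA : 1 ≤ A)
    (hζ : 0 < ζ) :
    ∃ ε2 : ℝ, 0 < ε2 ∧ ∀ (ν : Measure (E d)), UB n ν C → ∀ (x : E d) (s : ℝ), 0 < s →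
      LBloc n ν c x (A * s) → ∀ (U : E n →ₗᵢ[ℝ] E d) (M : E n →L[ℝ] E d) (b : E d) (ε : ℝ),
      ‖M‖ ≤ 1 → 0 ≤ ε → ε ≤ ε2 → Growth n ν x s U M b ε →
      ∀ y ∈ ν.support, ‖y - x‖ ≤ A * s → ‖hgt U M b y‖ ≤ ζ * s := by
  set κ : ℝ := min (ζ / 4) 1 with hκ
  have hκ0 : 0 < κ := lt_min (by positivity) one_pos
  have hκ1 : κ ≤ 1 := min_le_right _ _
  have hκζ : κ ≤ ζ / 4 := min_le_left _ _
  have hA0 : 0 < A + 1 := by linarith
  set q : ℝ := ζ ^ 2 * c * κ ^ n / (8 * (A + 1) ^ (n + 3)) with hq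
  have hq0 : 0 < q := by positivity
  refine ⟨Real.sqrt q, Real.sqrt_pos.2 hq0, ?_⟩
  intro ν hU x s hs hLB U M b ε hM hε0 hε hG y hy hyx
  by_contra hcon
  push Not at hcon
  have hρ0 : 0 < κ * s := by positivity
  have hρA : κ * s ≤ A * s := by gcongr; linarith
  have h1 := hLB y hy hyx (κ * s) hρ0 hρA
  have h2 := hG ((A + 1) * s) (by linarith only [hρ0, hρA])
  have hsub : ball y (κ * s) ⊆ ball x ((A + 1) * s) := by
    intro z hz
    rw [mem_ball, dist_eq_norm] at hz ⊢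
    have h3 := norm_add_le (z - y) (y - x)
    rw [sub_add_sub_cancel] at h3
    have h4 : κ * s ≤ 1 * s := by gcongr
    linarith
  have hlow : ∀ z ∈ ball y (κ * s), (ζ * s / 2) ^ 2 ≤ ‖hgt U M b z‖ ^ 2 := by
    intro z hz
    rw [mem_ball, dist_eq_norm] at hz
    have h3 := norm_hgt_sub_le U hM b y z
    have h4 : ‖hgt U M b y‖ - ‖hgt U M b z‖ ≤ ‖hgt U M b y - hgt U M b z‖ :=
      norm_sub_norm_le _ _
    rw [norm_sub_rev y z] at h3
    have h5 : κ * s ≤ ζ / 4 * s := by gcongr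
    have h6 : ζ * s / 2 ≤ ‖hgt U M b z‖ := by linarith
    have h7 : 0 ≤ ζ * s / 2 := by positivity
    gcongr
  have hfin : ν (ball y (κ * s)) ≠ ∞ := (hU.ball_lt_top y _).ne
  have hI := supBound_integrableOn hU U M b x ((A + 1) * s)
  have h3 : (ζ * s / 2) ^ 2 * ν.real (ball y (κ * s)) ≤
      ∫ z in ball x ((A + 1) * s), ‖hgt U M b z‖ ^ 2 ∂ν := by
    calc (ζ * s / 2) ^ 2 * ν.real (ball y (κ * s)) =
          ∫ _ in ball y (κ * s), (ζ * s / 2) ^ 2 ∂ν := by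
          rw [setIntegral_const, smul_eq_mul, mul_comm]
      _ ≤ ∫ z in ball y (κ * s), ‖hgt U M b z‖ ^ 2 ∂ν :=
          setIntegral_mono_on (integrableOn_const hfin) (hI.mono_set hsub) measurableSet_ball hlow
      _ ≤ _ := setIntegral_mono_set hI (Eventually.of_forall fun z => by positivity)
          hsub.eventuallyLE
  have h4 : c * (κ * s) ^ n ≤ ν.real (ball y (κ * s)) := by
    rw [Measure.real, ← ENNReal.ofReal_le_iff_le_toReal hfin]
    exact h1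
  have h5 : (ζ * s / 2) ^ 2 * (c * (κ * s) ^ n) ≤ ε ^ 2 * ((A + 1) * s) ^ (n + 3) / s :=
    ((mul_le_mul_of_nonneg_left h4 (by positivity)).trans h3).trans h2
  have h6 : ε ^ 2 ≤ q := by
    calc ε ^ 2 ≤ (Real.sqrt q) ^ 2 := by gcongr
      _ = q := Real.sq_sqrt hq0.le
  have h7 : ε ^ 2 * ((A + 1) * s) ^ (n + 3) / s ≤ q * ((A + 1) * s) ^ (n + 3) / s := by gcongr
  have h8 : q * ((A + 1) * s) ^ (n + 3) / s = (ζ ^ 2 * c * κ ^ n / 8) * s ^ (n + 2) := by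
    rw [hq, mul_pow]
    field_simp
    ring
  have h9 : (ζ * s / 2) ^ 2 * (c * (κ * s) ^ n) = (ζ ^ 2 * c * κ ^ n / 4) * s ^ (n + 2) := by
    rw [mul_pow κ s n]
    ring
  have h10 : 0 < ζ ^ 2 * c * κ ^ n * s ^ (n + 2) := by positivity
  rw [h9] at h5
  rw [h8] at h7
  linarith

end Vale.Agent.P120
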