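import Vale.Agent.Lib.P120.UR.Base

/-!
P120: properties of weak limits of measures along the hyperfilter (module UltraProps).
-/

open MeasureTheory Filter Set Metric Module
open scoped Topology ENNReal NNReal RealInnerProductSpace

namespace Vale.Agent.P120

variable {d n : ℕ}

/-- pointwise limits of uniformly equicontinuous functions supported in a fixed ball are
uniform -/
theorem up_uniform (f : ℕ → E d → ℝ) (g : E d → ℝ)
    (hf : ∀ ε > 0, ∃ δ > 0, ∀ k x y, ‖x - y‖ < δ → |f k x - f k y| ≤ ε)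
    (R : ℝ) (hfR : ∀ k y, R < ‖y‖ → f k y = 0)
    (hlim : ∀ y, Tendsto (fun k => f k y) (hyperfilter ℕ : Filter ℕ) (𝓝 (g y))) :
    (∀ y, R < ‖y‖ → g y = 0) ∧
      (∀ ε > 0, ∀ᶠ k in (hyperfilter ℕ : Filter ℕ), ∀ y, |f k y - g y| ≤ ε) := by
  have hgR : ∀ y, R < ‖y‖ → g y = 0 := by
    intro y hy
    have h1 : Tendsto (fun k => f k y) (hyperfilter ℕ : Filter ℕ) (𝓝 0) := by
      refine Tendsto.congr (fun k => (hfR k y hy).symm) tendsto_const_nhds
    exact tendsto_nhds_unique (hlim y) h1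
  refine ⟨hgR, fun ε hε => ?_⟩
  obtain ⟨δ, hδ, hfδ⟩ := hf (ε / 3) (by positivity)
  have hgδ : ∀ x y, ‖x - y‖ < δ → |g x - g y| ≤ ε / 3 := by
    intro x y hxy
    refine le_of_tendsto ((hlim x).sub (hlim y)).abs (Eventually.of_forall fun k => ?_)
    exact hfδ k x y hxy
  have hK : IsCompact (closedBall (0 : E d) R) := isCompact_closedBall 0 R
  obtain ⟨t, -, htfin, ht⟩ := hK.finite_cover_balls hδ
  have h1 : ∀ᶠ k in (hyperfilter ℕ : Filter ℕ), ∀ x ∈ t, |f k x - g x| ≤ ε / 3 := by
    rw [eventually_all_finite htfin]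
    intro x _
    have h2 : Tendsto (fun k => |f k x - g x|) (hyperfilter ℕ : Filter ℕ) (𝓝 0) := by
      have h3 := ((hlim x).sub_const (g x)).abs
      simpa using h3
    filter_upwards [h2.eventually (gt_mem_nhds (show (0 : ℝ) < ε / 3 by positivity))] with k hk
    exact hk.le
  filter_upwards [h1] with k hk y
  by_cases hy : R < ‖y‖
  · rw [hfR k y hy, hgR y hy, sub_zero, abs_zero]
    exact hε.le
  · have hy' : y ∈ closedBall (0 : E d) R := by
      rw [mem_closedBall_zero_iff]; exact not_lt.1 hy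
    obtain ⟨x, hx, hyx⟩ := mem_iUnion₂.1 (ht hy')
    have hd : ‖y - x‖ < δ := by rw [mem_ball, dist_eq_norm] at hyx; exact hyx
    have e : f k y - g y = (f k y - f k x) + (f k x - g x) + (g x - g y) := by ring
    rw [e]
    have h3 := hfδ k y x hd
    have h4 := hk x hx
    have h5 := hgδ y x hd
    rw [abs_sub_comm] at h5
    calc |(f k y - f k x) + (f k x - g x) + (g x - g y)|
        ≤ |f k y - f k x| + |f k x - g x| + |g x - g y| := abs_add_three _ _ _
      _ ≤ ε / 3 + ε / 3 + ε / 3 := by gcongr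
      _ = ε := by ring

/-- pointwise limits of equi-Lipschitz functions with support in a fixed ball are uniform -/
theorem uniform_of_pointwise (f : ℕ → E d → ℝ) (g : E d → ℝ) (K : ℝ≥0)
    (hf : ∀ k, LipschitzWith K (f k)) (R : ℝ) (hfR : ∀ k y, R < ‖y‖ → f k y = 0)
    (hlim : ∀ y, Tendsto (fun k => f k y) (hyperfilter ℕ : Filter ℕ) (𝓝 (g y))) :
    LipschitzWith K g ∧ (∀ y, R < ‖y‖ → g y = 0) ∧
      ∀ ε > 0, ∀ᶠ k in (hyperfilter ℕ : Filter ℕ), ∀ y, |f k y - g y| ≤ ε := by
  have hg : LipschitzWith K g := by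
    refine LipschitzWith.of_dist_le_mul fun x y => ?_
    refine le_of_tendsto ((hlim x).dist (hlim y)) (Eventually.of_forall fun k => ?_)
    exact (hf k).dist_le_mul x y
  obtain ⟨h1, h2⟩ := up_uniform f g (fun ε hε => by
    refine ⟨ε / (K + 1), by positivity, fun k x y hxy => ?_⟩
    have h3 := (hf k).dist_le_mul x y
    rw [Real.dist_eq, dist_eq_norm] at h3
    refine h3.trans ?_
    have hK : (0 : ℝ) ≤ K := K.2
    calc (K : ℝ) * ‖x - y‖ ≤ (K + 1) * (ε / (K + 1)) := by
          refine mul_le_mul (by linarith) hxy.le (norm_nonneg _) (by linarith)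
      _ = ε := by field_simp) R hfR hlim
  exact ⟨hg, h1, h2⟩

theorem up_hasCompactSupport {f : E d → ℝ} {R : ℝ} (hfR : ∀ y, R < ‖y‖ → f y = 0) :
    HasCompactSupport f := by
  refine HasCompactSupport.of_support_subset_isCompact (isCompact_closedBall (0 : E d) R) ?_
  intro y hy
  rw [mem_closedBall_zero_iff]
  by_contra h
  exact hy (hfR y (not_le.1 h))

theorem IsUL.moving {C : ℝ} {ν : ℕ → Measure (E d)} (hU : ∀ k, UB n (ν k) C) {σ : Measure (E d)}
    (hσ : UB n σ C) (h : IsUL ν σ) (f : ℕ → E d → ℝ) (g : E d → ℝ) (hf : ∀ k, Continuous (f k))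
    (hg : Continuous g) (R : ℝ) (hfR : ∀ k y, R < ‖y‖ → f k y = 0)
    (hlim : ∀ ε > 0, ∀ᶠ k in (hyperfilter ℕ : Filter ℕ), ∀ y, |f k y - g y| ≤ ε) :
    Tendsto (fun k => ∫ y, f k y ∂(ν k)) (hyperfilter ℕ : Filter ℕ) (𝓝 (∫ y, g y ∂σ)) := by
  have hC : 0 < C := hσ.1
  have hgR : ∀ y, R < ‖y‖ → g y = 0 := by
    intro y hy
    have h1 : ∀ ε > 0, |g y| ≤ ε := by
      intro ε hε
      obtain ⟨k, hk⟩ := (hlim ε hε).exists
      have h2 := hk y
      rw [hfR k y hy, zero_sub, abs_neg] at h2
      exact h2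
    have h3 : |g y| ≤ 0 := le_of_forall_pos_le_add fun ε hε => by
      rw [zero_add]; exact h1 ε hε
    exact abs_nonpos_iff.1 h3
  set R' : ℝ := max R 0 + 1 with hR'
  have hR'0 : 0 < R' := by positivity
  have hRR' : R < R' := by
    have := le_max_left R 0
    linarith
  have hgc : HasCompactSupport g := up_hasCompactSupport hgR
  have h1 := h g hg hgc
  rw [← tendsto_sub_nhds_zero_iff] at h1
  rw [← tendsto_sub_nhds_zero_iff, Metric.tendsto_nhds]
  intro ε hε
  set B : ℝ := C * R' ^ n with hB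
  have hB0 : 0 < B := by positivity
  rw [Metric.tendsto_nhds] at h1
  filter_upwards [h1 (ε / 2) (by positivity), hlim (ε / (2 * B) / 2) (by positivity)] with k hk1 hk2
  have hlf := (hU k).isLocallyFinite
  have hi1 : Integrable (f k) (ν k) :=
    (hf k).integrable_of_hasCompactSupport (up_hasCompactSupport (hfR k))
  have hi2 : Integrable g (ν k) := hg.integrable_of_hasCompactSupport hgc
  rw [dist_zero_right, Real.norm_eq_abs] at hk1 ⊢
  have h2 : |∫ y, f k y ∂(ν k) - ∫ y, g y ∂(ν k)| ≤ ε / (2 * B) / 2 * B := by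
    rw [← integral_sub hi1 hi2]
    have h3 : ∫ y, (f k y - g y) ∂(ν k) = ∫ y in closedBall 0 R', (f k y - g y) ∂(ν k) := by
      rw [setIntegral_eq_integral_of_forall_compl_eq_zero]
      intro y hy
      rw [mem_closedBall_zero_iff, not_le] at hy
      rw [hfR k y (hRR'.trans hy), hgR y (hRR'.trans hy), sub_zero]
    rw [h3]
    have h4 : ‖∫ y in closedBall 0 R', (f k y - g y) ∂(ν k)‖ ≤
        ε / (2 * B) / 2 * (ν k).real (closedBall 0 R') := by
      refine norm_setIntegral_le_of_norm_le_const ((hU k).closedBall_lt_top 0 R') ?_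
      intro y _
      exact hk2 y
    rw [← Real.norm_eq_abs]
    refine h4.trans (mul_le_mul_of_nonneg_left ?_ (by positivity))
    have h5 := (hU k).2 0 R' hR'0
    exact ENNReal.toReal_le_of_le_ofReal hB0.le h5
  have h6 : ε / (2 * B) / 2 * B = ε / 4 := by
    field_simp
    norm_num
  rw [h6] at h2
  have e : ∫ y, f k y ∂(ν k) - ∫ y, g y ∂σ = (∫ y, f k y ∂(ν k) - ∫ y, g y ∂(ν k)) +
      (∫ y, g y ∂(ν k) - ∫ y, g y ∂σ) := by ring
  rw [e]
  calc |(∫ y, f k y ∂(ν k) - ∫ y, g y ∂(ν k)) + (∫ y, g y ∂(ν k) - ∫ y, g y ∂σ)|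
      ≤ |∫ y, f k y ∂(ν k) - ∫ y, g y ∂(ν k)| + |∫ y, g y ∂(ν k) - ∫ y, g y ∂σ| :=
        abs_add_le _ _
    _ < ε / 4 + ε / 2 := by linarith
    _ ≤ ε := by linarith

theorem IsUL.prod {C : ℝ} {ν : ℕ → Measure (E d)} (hU : ∀ k, UB n (ν k) C) {σ : Measure (E d)}
    (hσ : UB n σ C) (h : IsUL ν σ) (g : E d × E d → ℝ) (hg : Continuous g)
    (hc : HasCompactSupport g) :
    Tendsto (fun k => ∫ p, g p ∂((ν k).prod (ν k))) (hyperfilter ℕ : Filter ℕ)
      (𝓝 (∫ p, g p ∂(σ.prod σ))) := by
  have hC : 0 < C := (hU 0).1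
  -- a ball containing the support
  obtain ⟨R, hR0, hR⟩ : ∃ R : ℝ, 0 < R ∧ ∀ p : E d × E d, R < ‖p‖ → g p = 0 := by
    obtain ⟨R, hR⟩ := (hc.isCompact.isBounded).subset_closedBall (0 : E d × E d)
    refine ⟨max R 1, by positivity, fun p hp => ?_⟩
    by_contra hne
    have h1 := hR (subset_tsupport g hne)
    rw [mem_closedBall_zero_iff] at h1
    exact absurd (h1.trans (le_max_left R 1)) (not_le.2 hp)
  have hR1 : ∀ x y : E d, R < ‖x‖ → g (x, y) = 0 := fun x y hx =>
    hR _ (lt_of_lt_of_le hx (norm_fst_le (x, y)))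
  have hR2 : ∀ x y : E d, R < ‖y‖ → g (x, y) = 0 := fun x y hy =>
    hR _ (lt_of_lt_of_le hy (norm_snd_le (x, y)))
  have hgy : ∀ x, Continuous fun y => g (x, y) := fun x => hg.comp (by fun_prop)
  have hgyc : ∀ x, HasCompactSupport fun y => g (x, y) := fun x => up_hasCompactSupport (hR2 x)
  have huc : UniformContinuous g := hc.uniformContinuous_of_continuous hg
  set B : ℝ := C * R ^ n with hB
  have hB0 : 0 < B := by positivity
  -- modulus of continuity of the partial integrals
  have hmod : ∀ ε > 0, ∃ δ > 0, ∀ (τ : Measure (E d)), UB n τ C → ∀ x x' : E d, ‖x - x'‖ < δ →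
      |∫ y, g (x, y) ∂τ - ∫ y, g (x', y) ∂τ| ≤ ε := by
    intro ε hε
    obtain ⟨δ, hδ, hgδ⟩ := Metric.uniformContinuous_iff.1 huc (ε / B) (by positivity)
    refine ⟨δ, hδ, fun τ hτ x x' hx => ?_⟩
    have hlf := hτ.isLocallyFinite
    have hi1 : Integrable (fun y => g (x, y)) τ :=
      (hgy x).integrable_of_hasCompactSupport (hgyc x)
    have hi2 : Integrable (fun y => g (x', y)) τ :=
      (hgy x').integrable_of_hasCompactSupport (hgyc x')
    rw [← integral_sub hi1 hi2]
    have h3 : ∫ y, (g (x, y) - g (x', y)) ∂τ = ∫ y in closedBall 0 R, (g (x, y) - g (x', y)) ∂τ := by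
      rw [setIntegral_eq_integral_of_forall_compl_eq_zero]
      intro y hy
      rw [mem_closedBall_zero_iff, not_le] at hy
      rw [hR2 x y hy, hR2 x' y hy, sub_zero]
    rw [h3]
    have h4 : ‖∫ y in closedBall 0 R, (g (x, y) - g (x', y)) ∂τ‖ ≤
        ε / B * τ.real (closedBall 0 R) := by
      refine norm_setIntegral_le_of_norm_le_const (hτ.closedBall_lt_top 0 R) ?_
      intro y _
      have h5 := @hgδ (x, y) (x', y) (by
        rw [Prod.dist_eq, dist_self, max_eq_left dist_nonneg, dist_eq_norm]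
        exact hx)
      rw [Real.dist_eq] at h5
      exact h5.le
    rw [← Real.norm_eq_abs]
    refine h4.trans ?_
    have h6 : τ.real (closedBall 0 R) ≤ B :=
      ENNReal.toReal_le_of_le_ofReal hB0.le (hτ.2 0 R hR0)
    calc ε / B * τ.real (closedBall 0 R) ≤ ε / B * B :=
          mul_le_mul_of_nonneg_left h6 (by positivity)
      _ = ε := by field_simp
  have hcont : ∀ (τ : Measure (E d)), UB n τ C → Continuous fun x => ∫ y, g (x, y) ∂τ := by
    intro τ hτ
    rw [Metric.continuous_iff]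
    intro x ε hε
    obtain ⟨δ, hδ, hm⟩ := hmod (ε / 2) (by positivity)
    refine ⟨δ, hδ, fun x' hx' => ?_⟩
    rw [dist_eq_norm] at hx'
    rw [Real.dist_eq]
    exact (hm τ hτ x' x hx').trans_lt (by linarith)
  have hzero : ∀ (τ : Measure (E d)) (x : E d), R < ‖x‖ → ∫ y, g (x, y) ∂τ = 0 := by
    intro τ x hx
    have h1 : (fun y => g (x, y)) = fun _ => (0 : ℝ) := by
      funext y
      exact hR1 x y hx
    rw [h1, integral_zero]
  have hfub : ∀ (τ : Measure (E d)), UB n τ C →
      ∫ p, g p ∂(τ.prod τ) = ∫ x, ∫ y, g (x, y) ∂τ ∂τ := by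
    intro τ hτ
    have hlf := hτ.isLocallyFinite
    have hsf := hτ.sigmaFinite
    exact integral_prod g (hg.integrable_of_hasCompactSupport hc)
  have hpt : ∀ x, Tendsto (fun k => ∫ y, g (x, y) ∂(ν k)) (hyperfilter ℕ : Filter ℕ)
      (𝓝 (∫ y, g (x, y) ∂σ)) := fun x => h _ (hgy x) (hgyc x)
  have hunif := (up_uniform (fun k x => ∫ y, g (x, y) ∂(ν k)) (fun x => ∫ y, g (x, y) ∂σ)
    (fun ε hε => by
      obtain ⟨δ, hδ, hm⟩ := hmod ε hε
      exact ⟨δ, hδ, fun k x y hxy => hm (ν k) (hU k) x y hxy⟩) R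
    (fun k y hy => hzero (ν k) y hy) hpt).2
  have hfin := IsUL.moving hU hσ h (fun k x => ∫ y, g (x, y) ∂(ν k)) (fun x => ∫ y, g (x, y) ∂σ)
    (fun k => hcont (ν k) (hU k)) (hcont σ hσ) R (fun k y hy => hzero (ν k) y hy) hunif
  rw [hfub σ hσ]
  exact hfin.congr fun k => (hfub (ν k) (hU k)).symm

/-- the cutoff around `y`: `1` on the ball of radius `r/2`, `0` outside the ball of radius
`3r/4` -/
theorem up_lower_aux {C c : ℝ} {ν : ℕ → Measure (E d)}
    (hU : ∀ k, UB n (ν k) C) {σ : Measure (E d)} (hσ : UB n σ C) (h : IsUL ν σ)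
    (hL : ∀ R > 0, ∀ᶠ k in (hyperfilter ℕ : Filter ℕ), LBloc n (ν k) c 0 R) (y : E d) (r : ℝ)
    (hr : 0 < r) (hz : ∀ᶠ k in (hyperfilter ℕ : Filter ℕ), ∃ z ∈ (ν k).support, ‖z - y‖ < r / 4) :
    ENNReal.ofReal (c * (r / 4) ^ n) ≤ σ (ball y r) := by
  set f : E d → ℝ := fun z => max 0 (min 1 (3 - 4 * ‖z - y‖ / r)) with hf
  have hfc : Continuous f := by
    rw [hf]
    refine continuous_const.max (continuous_const.min (continuous_const.sub ?_))
    exact (continuous_const.mul (continuous_id.sub continuous_const).norm).div_const r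
  have hf0 : ∀ z, 0 ≤ f z := fun z => le_max_left _ _
  have hf1 : ∀ z, f z ≤ 1 := fun z => max_le zero_le_one (min_le_left _ _)
  have hfin : ∀ z, ‖z - y‖ ≤ r / 2 → f z = 1 := by
    intro z hz
    have h1 : 1 ≤ 3 - 4 * ‖z - y‖ / r := by
      have : 4 * ‖z - y‖ / r ≤ 2 := by
        rw [div_le_iff₀ hr]
        linarith
      linarith
    simp only [hf]
    rw [min_eq_left h1, max_eq_right zero_le_one]
  have hfout : ∀ z, r ≤ ‖z - y‖ → f z = 0 := by
    intro z hz
    have h1 : 3 - 4 * ‖z - y‖ / r ≤ 0 := by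
      have : 3 ≤ 4 * ‖z - y‖ / r := by
        rw [le_div_iff₀ hr]
        linarith
      linarith
    simp only [hf]
    exact max_eq_left ((min_le_right _ _).trans h1)
  have hcomp : HasCompactSupport f := by
    refine up_hasCompactSupport (R := ‖y‖ + r) fun z hz => hfout z ?_
    have := norm_sub_norm_le z y
    linarith
  have hlfσ := hσ.isLocallyFinite
  -- lower bound for the integrals
  have h1 : ∀ᶠ k in (hyperfilter ℕ : Filter ℕ), c * (r / 4) ^ n ≤ ∫ z, f z ∂(ν k) := by
    have hR0 : 0 < ‖y‖ + r := by positivity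
    filter_upwards [hz, hL (‖y‖ + r) hR0] with k hk1 hk2
    obtain ⟨z, hz1, hz2⟩ := hk1
    have hlf := (hU k).isLocallyFinite
    have h3 := hk2 z hz1 (by
      rw [sub_zero]
      have := norm_sub_norm_le z y
      linarith) (r / 4) (by positivity) (by
      have := norm_nonneg y
      linarith)
    have h4 : ball z (r / 4) ⊆ closedBall y (r / 2) := by
      intro w hw
      rw [mem_ball, dist_eq_norm] at hw
      rw [mem_closedBall, dist_eq_norm]
      have e : w - y = (w - z) + (z - y) := by abel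
      rw [e]
      refine (norm_add_le _ _).trans ?_
      linarith
    have h5 : (ν k).real (closedBall y (r / 2)) ≤ ∫ z, f z ∂(ν k) := by
      have h6 : (ν k).real (closedBall y (r / 2)) =
          ∫ z, (closedBall y (r / 2)).indicator (fun _ => (1 : ℝ)) z ∂(ν k) := by
        rw [integral_indicator measurableSet_closedBall, setIntegral_const, smul_eq_mul, mul_one]
      rw [h6]
      refine integral_mono ?_ (hfc.integrable_of_hasCompactSupport hcomp) ?_
      · rw [integrable_indicator_iff measurableSet_closedBall]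
        exact integrableOn_const ((hU k).closedBall_lt_top y _).ne
      · intro z
        by_cases hz : z ∈ closedBall y (r / 2)
        · rw [indicator_of_mem hz, hfin z (by rw [mem_closedBall, dist_eq_norm] at hz; exact hz)]
        · rw [indicator_of_notMem hz]
          exact hf0 z
    refine le_trans ?_ h5
    have h7 := h3.trans (measure_mono h4)
    rw [Measure.real, ← ENNReal.ofReal_le_iff_le_toReal ((hU k).closedBall_lt_top y _).ne]
    exact h7
  have h2 : c * (r / 4) ^ n ≤ ∫ z, f z ∂σ := ge_of_tendsto (h f hfc hcomp) h1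
  have h3 : ∫ z, f z ∂σ ≤ σ.real (ball y r) := by
    have h6 : σ.real (ball y r) = ∫ z, (ball y r).indicator (fun _ => (1 : ℝ)) z ∂σ := by
      rw [integral_indicator measurableSet_ball, setIntegral_const, smul_eq_mul, mul_one]
    rw [h6]
    refine integral_mono (hfc.integrable_of_hasCompactSupport hcomp) ?_ ?_
    · rw [integrable_indicator_iff measurableSet_ball]
      exact integrableOn_const (hσ.ball_lt_top y _).ne
    · intro z
      by_cases hz : z ∈ ball y r
      · rw [indicator_of_mem hz]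
        exact hf1 z
      · rw [indicator_of_notMem hz]
        rw [mem_ball, dist_eq_norm, not_lt] at hz
        exact (hfout z hz).le
  rw [ENNReal.ofReal_le_iff_le_toReal (hσ.ball_lt_top y _).ne]
  exact h2.trans h3

theorem IsUL.lower {C c : ℝ} (hc : 0 < c) {ν : ℕ → Measure (E d)} (hU : ∀ k, UB n (ν k) C)
    {σ : Measure (E d)} (hσ : UB n σ C) (h : IsUL ν σ)
    (hL : ∀ R > 0, ∀ᶠ k in (hyperfilter ℕ : Filter ℕ), LBloc n (ν k) c 0 R) :
    ∀ D > 0, LB n σ (c / 4 ^ n) D := by
  intro D hD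
  refine ⟨by positivity, hD, fun y hy r hr _ => ?_⟩
  have e : c / 4 ^ n * r ^ n = c * (r / 4) ^ n := by
    rw [div_pow]
    ring
  rw [e]
  refine up_lower_aux hU hσ h hL y r hr ?_
  -- the bump function
  set s : ℝ := r / 4 with hs
  have hs0 : 0 < s := by positivity
  set f : E d → ℝ := bmp y s with hf
  have hfc : Continuous f := by
    rw [hf]
    unfold bmp
    refine continuous_const.max (continuous_const.sub ?_)
    exact (continuous_id.sub continuous_const).norm.div_const s
  have hf0 : ∀ z, 0 ≤ f z := fun z => le_max_left _ _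
  have hfout : ∀ z, s ≤ ‖z - y‖ → f z = 0 := by
    intro z hz
    rw [hf]
    unfold bmp
    refine max_eq_left ?_
    have : 1 ≤ ‖z - y‖ / s := by rwa [le_div_iff₀ hs0, one_mul]
    linarith
  have hcomp : HasCompactSupport f := by
    refine up_hasCompactSupport (R := ‖y‖ + s) fun z hz => hfout z ?_
    have := norm_sub_norm_le z y
    linarith
  have hlfσ := hσ.isLocallyFinite
  have h1 : 0 < ∫ z, f z ∂σ := by
    have h2 : (1 / 2 : ℝ) * σ.real (ball y (s / 2)) ≤ ∫ z, f z ∂σ := by
      have h6 : (1 / 2 : ℝ) * σ.real (ball y (s / 2)) =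
          ∫ z, (ball y (s / 2)).indicator (fun _ => (1 / 2 : ℝ)) z ∂σ := by
        rw [integral_indicator measurableSet_ball, setIntegral_const, smul_eq_mul, mul_comm]
      rw [h6]
      refine integral_mono ?_ (hfc.integrable_of_hasCompactSupport hcomp) ?_
      · rw [integrable_indicator_iff measurableSet_ball]
        exact integrableOn_const (hσ.ball_lt_top y _).ne
      · intro z
        by_cases hz : z ∈ ball y (s / 2)
        · rw [indicator_of_mem hz]
          rw [mem_ball, dist_eq_norm] at hz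
          rw [hf]
          unfold bmp
          refine le_max_of_le_right ?_
          have : ‖z - y‖ / s ≤ 1 / 2 := by
            rw [div_le_iff₀ hs0]
            linarith
          linarith
        · rw [indicator_of_notMem hz]
          exact hf0 z
    have h3 : 0 < σ.real (ball y (s / 2)) := by
      rw [Measure.real]
      exact ENNReal.toReal_pos ((mem_support_iff'.1 hy) _ (by positivity)).ne'
        (hσ.ball_lt_top y _).ne
    linarith
  have h2 := (h f hfc hcomp).eventually (lt_mem_nhds h1)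
  filter_upwards [h2] with k hk
  by_contra hcon
  push Not at hcon
  have h3 : ∫ z, f z ∂(ν k) = 0 := by
    refine integral_eq_zero_of_ae ?_
    have h4 : ∀ᵐ z ∂(ν k), z ∈ (ν k).support := by
      rw [ae_iff]
      exact Measure.measure_compl_support
    filter_upwards [h4] with z hz
    exact hfout z (hcon z hz)
  rw [h3] at hk
  exact lt_irrefl _ hk

theorem IsUL.mem_support {C c : ℝ} (hc : 0 < c) {ν : ℕ → Measure (E d)}
    (hU : ∀ k, UB n (ν k) C) {σ : Measure (E d)} (hσ : UB n σ C) (h : IsUL ν σ)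
    (hL : ∀ R > 0, ∀ᶠ k in (hyperfilter ℕ : Filter ℕ), LBloc n (ν k) c 0 R)
    (x : ℕ → E d) (hx : ∀ k, x k ∈ (ν k).support) (y : E d)
    (hy : Tendsto x (hyperfilter ℕ : Filter ℕ) (𝓝 y)) : y ∈ σ.support := by
  rw [mem_support_iff']
  intro r hr
  have h1 := up_lower_aux hU hσ h hL y r hr (by
    filter_upwards [hy.eventually (ball_mem_nhds y (show 0 < r / 4 by positivity))] with k hk
    refine ⟨x k, hx k, ?_⟩
    rw [← dist_eq_norm]
    exact hk)
  exact (ENNReal.ofReal_pos.2 (by positivity)).trans_le h1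

end Vale.Agent.P120
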