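import Vale.Agent.Lib.P120.UR.Base
import Vale.Agent.Lib.P120.UR.UltraProps

/-!
P120, module UltraForm: convergence of the truncated forms `BFc` along an ultralimit of measures.
-/

open MeasureTheory Filter Set Metric Module
open scoped Topology ENNReal NNReal RealInnerProductSpace

namespace Vale.Agent.P120


variable {d n : ℕ}

/-- The regularised kernel `z / max(|z|,ρ)^(n+1)`. -/
noncomputable def ultraForm_regK (n : ℕ) (ρ : ℝ) (z : E d) : E d := (max ‖z‖ ρ ^ (n + 1))⁻¹ • z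

theorem ultraForm_continuous_regK {ρ : ℝ} (hρ : 0 < ρ) :
    Continuous (ultraForm_regK n ρ : E d → E d) := by
  unfold ultraForm_regK
  have h1 : Continuous (fun z : E d => max ‖z‖ ρ ^ (n + 1)) := by fun_prop
  refine Continuous.smul (Continuous.inv₀ h1 fun z => ?_) continuous_id
  have : 0 < max ‖z‖ ρ := lt_max_of_lt_right hρ
  positivity

theorem ultraForm_norm_regK_le {ρ : ℝ} (hρ : 0 < ρ) (z : E d) :
    ‖ultraForm_regK n ρ z‖ ≤ (ρ ^ n)⁻¹ := by
  unfold ultraForm_regK
  have h0 : 0 < max ‖z‖ ρ := lt_max_of_lt_right hρ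
  rw [norm_smul, norm_inv, norm_pow, Real.norm_eq_abs, abs_of_pos h0, pow_succ, mul_inv]
  have h1 : (max ‖z‖ ρ)⁻¹ * ‖z‖ ≤ 1 := by
    rw [inv_mul_le_iff₀ h0, mul_one]; exact le_max_left _ _
  have h2 : (max ‖z‖ ρ ^ n)⁻¹ ≤ (ρ ^ n)⁻¹ := by
    apply inv_anti₀ (by positivity)
    exact pow_le_pow_left₀ hρ.le (le_max_right _ _) n
  calc (max ‖z‖ ρ ^ n)⁻¹ * (max ‖z‖ ρ)⁻¹ * ‖z‖ = (max ‖z‖ ρ ^ n)⁻¹ * ((max ‖z‖ ρ)⁻¹ * ‖z‖) := by
        ring
    _ ≤ (max ‖z‖ ρ ^ n)⁻¹ * 1 := by gcongr
    _ ≤ (ρ ^ n)⁻¹ := by rw [mul_one]; exact h2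

theorem ultraForm_norm_sub_regK_le {ρ : ℝ} (hρ : 0 < ρ) (z : E d) :
    ‖rieszKernel n z - ultraForm_regK n ρ z‖ ≤ if ‖z‖ ≤ ρ then ‖z‖ * (‖z‖ ^ (n + 1))⁻¹ else 0 := by
  unfold rieszKernel ultraForm_regK
  split_ifs with h
  · rw [max_eq_right h, ← sub_smul, norm_smul, Real.norm_eq_abs, mul_comm]
    rcases eq_or_lt_of_le (norm_nonneg z) with h0 | h0
    · rw [← h0, zero_mul, zero_mul]
    · gcongr
      rw [abs_of_nonneg]
      · have : 0 ≤ (ρ ^ (n + 1))⁻¹ := by positivity
        linarith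
      · have : (ρ ^ (n + 1))⁻¹ ≤ (‖z‖ ^ (n + 1))⁻¹ := by
          apply inv_anti₀ (by positivity)
          exact pow_le_pow_left₀ h0.le h _
        linarith
  · rw [max_eq_left (not_le.mp h).le, sub_self, norm_zero]

theorem ultraForm_cut_nonneg (T : ℝ) (y : E d) : 0 ≤ cut T y := le_max_left _ _

theorem ultraForm_cut_le_one (T : ℝ) (y : E d) : cut T y ≤ 1 :=
  max_le zero_le_one (min_le_left _ _)

theorem ultraForm_cut_zero {T : ℝ} (hT : 0 < T) {y : E d} (hy : 2 * T ≤ ‖y‖) : cut T y = 0 := by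
  unfold cut
  apply max_eq_left
  refine (min_le_right _ _).trans ?_
  rw [sub_nonpos, le_div_iff₀ hT]
  exact hy

theorem ultraForm_continuous_cut (T : ℝ) : Continuous (cut T : E d → ℝ) := by
  unfold cut; fun_prop

/-- the near-diagonal majorant -/
noncomputable def ultraForm_maj (n : ℕ) (T ρ : ℝ) (p : E d × E d) : ℝ :=
  {p : E d × E d | ‖p.1‖ ≤ 2 * T ∧ ‖p.1 - p.2‖ ≤ ρ}.indicator
    (fun p => ‖p.1 - p.2‖ ^ 2 * wt n p.1 p.2) p

theorem ultraForm_near {ν : Measure (E d)} {C : ℝ} (hU : UB n ν C) {T ρ : ℝ} (hT : 0 < T)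
    (hρ : 0 < ρ) :
    Integrable (ultraForm_maj n T ρ) (ν.prod ν) ∧
    ∫ p, ultraForm_maj n T ρ p ∂(ν.prod ν) ≤ 2 ^ (n + 3) * C * ρ * (C * (2 * T) ^ n) := by
  have hC := hU.1
  have := hU.sigmaFinite
  have hmS1 : MeasurableSet {p : E d × E d | ‖p.1‖ ≤ 2 * T} :=
    measurableSet_le (by fun_prop) measurable_const
  have hmS2 : MeasurableSet {p : E d × E d | ‖p.1 - p.2‖ ≤ ρ} :=
    measurableSet_le (by fun_prop) measurable_const
  have hmS : MeasurableSet {p : E d × E d | ‖p.1‖ ≤ 2 * T ∧ ‖p.1 - p.2‖ ≤ ρ} := hmS1.inter hmS2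
  have hm : Measurable (ultraForm_maj n T ρ : E d × E d → ℝ) := by
    unfold ultraForm_maj
    refine Measurable.indicator ?_ hmS
    have := measurable_wt (d := d) (n := n)
    fun_prop
  have h0 : ∀ p : E d × E d, 0 ≤ ultraForm_maj n T ρ p := by
    intro p
    unfold ultraForm_maj
    apply Set.indicator_nonneg
    intro p _
    exact mul_nonneg (by positivity) (wt_nonneg _ _)
  have hl : ∫⁻ p, ENNReal.ofReal (ultraForm_maj n T ρ p) ∂(ν.prod ν) ≤
      ENNReal.ofReal (2 ^ (n + 3) * C * ρ * (C * (2 * T) ^ n)) := by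
    rw [lintegral_prod _ hm.ennreal_ofReal.aemeasurable]
    calc ∫⁻ x, ∫⁻ y, ENNReal.ofReal (ultraForm_maj n T ρ (x, y)) ∂ν ∂ν
        ≤ ∫⁻ x, (closedBall (0 : E d) (2 * T)).indicator
            (fun _ => ENNReal.ofReal (2 ^ (n + 3) * C * ρ)) x ∂ν := by
          refine lintegral_mono fun x => ?_
          by_cases hx : x ∈ closedBall (0 : E d) (2 * T)
          · rw [indicator_of_mem hx]
            refine le_trans ?_ (hU.near_lintegral x hρ)
            rw [← lintegral_indicator measurableSet_closedBall]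
            refine lintegral_mono fun y => ?_
            unfold ultraForm_maj
            by_cases hy : y ∈ closedBall x ρ
            · rw [indicator_of_mem hy]
              apply ENNReal.ofReal_le_ofReal
              apply Set.indicator_le_self'
              intro _ _
              exact mul_nonneg (by positivity) (wt_nonneg _ _)
            · rw [indicator_of_notMem hy, indicator_of_notMem]
              · simp
              · rintro ⟨_, h2⟩
                apply hy
                rw [mem_closedBall, dist_comm, dist_eq_norm]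
                exact h2
          · rw [indicator_of_notMem hx]
            simp only [nonpos_iff_eq_zero]
            rw [lintegral_eq_zero_iff (by fun_prop)]
            refine Eventually.of_forall fun y => ?_
            simp only [Pi.zero_apply]
            unfold ultraForm_maj
            rw [indicator_of_notMem]
            · simp
            · rintro ⟨h1, _⟩
              apply hx
              rw [mem_closedBall, dist_zero_right]
              exact h1
      _ = ENNReal.ofReal (2 ^ (n + 3) * C * ρ) * ν (closedBall 0 (2 * T)) := by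
          rw [lintegral_indicator measurableSet_closedBall, setLIntegral_const]
      _ ≤ ENNReal.ofReal (2 ^ (n + 3) * C * ρ) * ENNReal.ofReal (C * (2 * T) ^ n) := by
          gcongr
          exact hU.2 _ _ (by positivity)
      _ = _ := by rw [← ENNReal.ofReal_mul (by positivity)]
  constructor
  · refine ⟨hm.aestronglyMeasurable, ?_⟩
    rw [hasFiniteIntegral_iff_ofReal (Eventually.of_forall h0)]
    exact hl.trans_lt ENNReal.ofReal_lt_top
  · rw [integral_eq_lintegral_of_nonneg_ae (Eventually.of_forall h0) hm.aestronglyMeasurable]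
    exact ENNReal.toReal_le_of_le_ofReal (by positivity) hl

/-- the integrand of `BFc` -/
noncomputable def ultraForm_G (n : ℕ) (T : ℝ) (ψ : E d → ℝ) (p : E d × E d) : E d :=
  (cut T p.1 * cut T p.2 * (ψ p.1 - ψ p.2)) • rieszKernel n (p.1 - p.2)

/-- the regularised integrand -/
noncomputable def ultraForm_Gr (n : ℕ) (T ρ : ℝ) (ψ : E d → ℝ) (p : E d × E d) : E d :=
  (cut T p.1 * cut T p.2 * (ψ p.1 - ψ p.2)) • ultraForm_regK n ρ (p.1 - p.2)

theorem ultraForm_Gr_continuous {T ρ : ℝ} (hρ : 0 < ρ) {ψ : E d → ℝ}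
    (hψ : Continuous ψ) : Continuous (ultraForm_Gr n T ρ ψ : E d × E d → E d) := by
  unfold ultraForm_Gr
  have h1 := ultraForm_continuous_cut (d := d) T
  have h2 := ultraForm_continuous_regK (d := d) (n := n) hρ
  have h3 : Continuous (fun p : E d × E d => p.1 - p.2) := by fun_prop
  have h4 : Continuous (fun p : E d × E d => cut T p.1 * cut T p.2 * (ψ p.1 - ψ p.2)) := by
    fun_prop
  exact h4.smul (h2.comp h3)

theorem ultraForm_Gr_support {T ρ : ℝ} (hT : 0 < T) {ψ : E d → ℝ} :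
    HasCompactSupport (ultraForm_Gr n T ρ ψ : E d × E d → E d) := by
  refine HasCompactSupport.intro (K := closedBall 0 (2 * T) ×ˢ closedBall 0 (2 * T))
    ((isCompact_closedBall _ _).prod (isCompact_closedBall _ _)) ?_
  intro p hp
  unfold ultraForm_Gr
  have h1 : cut T p.1 * cut T p.2 = 0 := by
    by_contra hne
    apply hp
    rw [mem_prod, mem_closedBall, mem_closedBall, dist_zero_right, dist_zero_right]
    constructor
    · by_contra hh
      exact hne (by rw [ultraForm_cut_zero hT (not_le.mp hh).le, zero_mul])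
    · by_contra hh
      exact hne (by rw [ultraForm_cut_zero hT (not_le.mp hh).le, mul_zero])
  rw [h1, zero_mul, zero_smul]

theorem ultraForm_Gr_integrable {ν : Measure (E d)} {C : ℝ} (hU : UB n ν C) {T ρ : ℝ}
    (hT : 0 < T) (hρ : 0 < ρ) {ψ : E d → ℝ} (hψ : Continuous ψ) :
    Integrable (ultraForm_Gr n T ρ ψ) (ν.prod ν) := by
  have := hU.isLocallyFinite
  exact (ultraForm_Gr_continuous hρ hψ).integrable_of_hasCompactSupport
    (ultraForm_Gr_support hT)

theorem ultraForm_cmp {ν : Measure (E d)} {C : ℝ} (hU : UB n ν C) {T ρ : ℝ} (hT : 0 < T)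
    (hρ : 0 < ρ) {ψ : E d → ℝ} {K : ℝ≥0} (hψ : LipschitzWith K ψ) :
    ‖∫ p, ultraForm_G n T ψ p ∂(ν.prod ν) - ∫ p, ultraForm_Gr n T ρ ψ p ∂(ν.prod ν)‖ ≤
      K * (2 ^ (n + 3) * C * ρ * (C * (2 * T) ^ n)) := by
  have hnear := ultraForm_near hU hT hρ
  have hG : ∀ p : E d × E d, ‖ultraForm_G n T ψ p - ultraForm_Gr n T ρ ψ p‖ ≤
      K * ultraForm_maj n T ρ p := by
    intro p
    unfold ultraForm_G ultraForm_Gr
    rw [← smul_sub, norm_smul]
    have h1 := ultraForm_norm_sub_regK_le (n := n) hρ (p.1 - p.2)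
    have h2 := hψ.dist_le_mul p.1 p.2
    rw [Real.dist_eq, dist_eq_norm] at h2
    have hc1 := ultraForm_cut_nonneg T p.1
    have hc2 := ultraForm_cut_nonneg T p.2
    have hc1' := ultraForm_cut_le_one T p.1
    have hc2' := ultraForm_cut_le_one T p.2
    rw [norm_mul, norm_mul, Real.norm_eq_abs, Real.norm_eq_abs, Real.norm_eq_abs,
      abs_of_nonneg hc1, abs_of_nonneg hc2]
    by_cases hp1 : ‖p.1‖ ≤ 2 * T
    · by_cases hp2 : ‖p.1 - p.2‖ ≤ ρ
      · unfold ultraForm_maj
        rw [indicator_of_mem (show p ∈ {p : E d × E d | ‖p.1‖ ≤ 2 * T ∧ ‖p.1 - p.2‖ ≤ ρ} from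
          ⟨hp1, hp2⟩)]
        rw [if_pos hp2] at h1
        calc cut T p.1 * cut T p.2 * |ψ p.1 - ψ p.2| *
              ‖rieszKernel n (p.1 - p.2) - ultraForm_regK n ρ (p.1 - p.2)‖
            ≤ 1 * 1 * (K * ‖p.1 - p.2‖) * (‖p.1 - p.2‖ * (‖p.1 - p.2‖ ^ (n + 1))⁻¹) := by
              gcongr
          _ = K * (‖p.1 - p.2‖ ^ 2 * wt n p.1 p.2) := by unfold wt; ring
      · rw [if_neg hp2] at h1
        have h3 : ‖rieszKernel n (p.1 - p.2) - ultraForm_regK n ρ (p.1 - p.2)‖ = 0 :=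
          le_antisymm h1 (norm_nonneg _)
        rw [h3, mul_zero]
        unfold ultraForm_maj
        rw [indicator_of_notMem (fun h => hp2 h.2), mul_zero]
    · rw [ultraForm_cut_zero hT (not_le.mp hp1).le, zero_mul, zero_mul, zero_mul]
      unfold ultraForm_maj
      rw [indicator_of_notMem (fun h => hp1 h.1), mul_zero]
  have hmK : Measurable (fun p : E d × E d => rieszKernel n (p.1 - p.2)) :=
    measurable_rieszKernel.comp (by fun_prop)
  have hcut := ultraForm_continuous_cut (d := d) T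
  have hψc := hψ.continuous
  have hGm : Measurable (ultraForm_G n T ψ : E d × E d → E d) := by
    have h4 : Measurable (fun p : E d × E d => cut T p.1 * cut T p.2 * (ψ p.1 - ψ p.2)) := by
      fun_prop
    exact h4.smul hmK
  have hGri := ultraForm_Gr_integrable hU hT hρ (ψ := ψ) hψc
  have hdi : Integrable (fun p => ultraForm_G n T ψ p - ultraForm_Gr n T ρ ψ p) (ν.prod ν) := by
    refine (hnear.1.const_mul (K : ℝ)).mono' ?_ (Eventually.of_forall hG)
    exact hGm.aestronglyMeasurable.sub hGri.aestronglyMeasurable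
  have hGi : Integrable (ultraForm_G n T ψ) (ν.prod ν) := by
    have h1 := hdi.add hGri
    refine h1.congr (Eventually.of_forall fun p => ?_)
    simp
  rw [← integral_sub hGi hGri]
  refine (norm_integral_le_integral_norm _).trans ?_
  calc ∫ p, ‖ultraForm_G n T ψ p - ultraForm_Gr n T ρ ψ p‖ ∂(ν.prod ν)
      ≤ ∫ p, K * ultraForm_maj n T ρ p ∂(ν.prod ν) :=
        integral_mono hdi.norm (hnear.1.const_mul _) hG
    _ = K * ∫ p, ultraForm_maj n T ρ p ∂(ν.prod ν) := by rw [integral_const_mul]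
    _ ≤ _ := by
      gcongr
      exact hnear.2

theorem ultraForm_change {ν : Measure (E d)} {C : ℝ} (hU : UB n ν C) {T ρ : ℝ} (hT : 0 < T)
    (hρ : 0 < ρ) {ψ φ : E d → ℝ} (hψ : Continuous ψ) (hφ : Continuous φ) {ε : ℝ} (hε : 0 ≤ ε)
    (h : ∀ y, |ψ y - φ y| ≤ ε) :
    ‖∫ p, ultraForm_Gr n T ρ ψ p ∂(ν.prod ν) - ∫ p, ultraForm_Gr n T ρ φ p ∂(ν.prod ν)‖ ≤
      2 * ε * (ρ ^ n)⁻¹ * (C * (2 * T) ^ n) ^ 2 := by
  have hC := hU.1
  have hi1 := ultraForm_Gr_integrable (n := n) hU hT hρ hψ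
  have hi2 := ultraForm_Gr_integrable (n := n) hU hT hρ hφ
  have := hU.sigmaFinite
  set S : Set (E d × E d) := closedBall 0 (2 * T) ×ˢ closedBall 0 (2 * T) with hS
  have hSm : MeasurableSet S := measurableSet_closedBall.prod measurableSet_closedBall
  have hνS : (ν.prod ν) S ≤ ENNReal.ofReal ((C * (2 * T) ^ n) ^ 2) := by
    rw [hS, Measure.prod_prod, sq, ENNReal.ofReal_mul (by positivity)]
    gcongr
    · exact hU.2 _ _ (by positivity)
    · exact hU.2 _ _ (by positivity)
  rw [← integral_sub hi1 hi2]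
  have hpt : ∀ p : E d × E d, ‖ultraForm_Gr n T ρ ψ p - ultraForm_Gr n T ρ φ p‖ ≤
      S.indicator (fun _ => 2 * ε * (ρ ^ n)⁻¹) p := by
    intro p
    by_cases hp : p ∈ S
    · rw [indicator_of_mem hp]
      unfold ultraForm_Gr
      rw [← sub_smul, norm_smul]
      have hc1 := ultraForm_cut_nonneg T p.1
      have hc2 := ultraForm_cut_nonneg T p.2
      have hc1' := ultraForm_cut_le_one T p.1
      have hc2' := ultraForm_cut_le_one T p.2
      have e1 : cut T p.1 * cut T p.2 * (ψ p.1 - ψ p.2) - cut T p.1 * cut T p.2 *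
          (φ p.1 - φ p.2) = cut T p.1 * cut T p.2 * ((ψ p.1 - φ p.1) - (ψ p.2 - φ p.2)) := by
        ring
      rw [e1, norm_mul, norm_mul, Real.norm_eq_abs, Real.norm_eq_abs, Real.norm_eq_abs,
        abs_of_nonneg hc1, abs_of_nonneg hc2]
      have h3 : |(ψ p.1 - φ p.1) - (ψ p.2 - φ p.2)| ≤ 2 * ε := by
        have := abs_sub (ψ p.1 - φ p.1) (ψ p.2 - φ p.2)
        have h1 := h p.1
        have h2 := h p.2
        linarith
      have h4 := ultraForm_norm_regK_le (n := n) hρ (p.1 - p.2)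
      calc cut T p.1 * cut T p.2 * |(ψ p.1 - φ p.1) - (ψ p.2 - φ p.2)| *
            ‖ultraForm_regK n ρ (p.1 - p.2)‖
          ≤ 1 * 1 * (2 * ε) * (ρ ^ n)⁻¹ := by gcongr
        _ = 2 * ε * (ρ ^ n)⁻¹ := by ring
    · rw [indicator_of_notMem hp]
      have hz : cut T p.1 * cut T p.2 = 0 := by
        by_contra hne
        apply hp
        rw [hS, mem_prod, mem_closedBall, mem_closedBall, dist_zero_right, dist_zero_right]
        constructor
        · by_contra hh
          exact hne (by rw [ultraForm_cut_zero hT (not_le.mp hh).le, zero_mul])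
        · by_contra hh
          exact hne (by rw [ultraForm_cut_zero hT (not_le.mp hh).le, mul_zero])
      unfold ultraForm_Gr
      rw [hz, zero_mul, zero_mul, zero_smul, sub_zero, norm_zero]
  have hSi : Integrable (S.indicator (fun _ => 2 * ε * (ρ ^ n)⁻¹)) (ν.prod ν) := by
    rw [integrable_indicator_iff hSm]
    exact integrableOn_const (hνS.trans_lt ENNReal.ofReal_lt_top).ne
  refine (norm_integral_le_integral_norm _).trans ?_
  calc ∫ p, ‖ultraForm_Gr n T ρ ψ p - ultraForm_Gr n T ρ φ p‖ ∂(ν.prod ν)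
      ≤ ∫ p, S.indicator (fun _ => 2 * ε * (ρ ^ n)⁻¹) p ∂(ν.prod ν) :=
        integral_mono (hi1.sub hi2).norm hSi hpt
    _ = (ν.prod ν).real S * (2 * ε * (ρ ^ n)⁻¹) := by
        rw [integral_indicator hSm, setIntegral_const, smul_eq_mul]
    _ ≤ (C * (2 * T) ^ n) ^ 2 * (2 * ε * (ρ ^ n)⁻¹) := by
        gcongr
        exact ENNReal.toReal_le_of_le_ofReal (by positivity) hνS
    _ = _ := by ring

/-- convergence of the truncated forms; `χ` is any continuous compactly supported cutoff -/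
theorem IsUL.form {C : ℝ} {ν : ℕ → Measure (E d)} (hU : ∀ k, UB n (ν k) C) {σ : Measure (E d)}
    (hσ : UB n σ C) (h : IsUL ν σ) (ψ : ℕ → E d → ℝ) (g : E d → ℝ) (K : ℝ≥0)
    (hψ : ∀ k, LipschitzWith K (ψ k)) (R : ℝ) (hR : 0 < R) (hψR : ∀ k y, R < ‖y‖ → ψ k y = 0)
    (hlim : ∀ y, Tendsto (fun k => ψ k y) (hyperfilter ℕ : Filter ℕ) (𝓝 (g y))) (T : ℝ)
    (hT : 0 < T) :
    Tendsto (fun k => BFc n (ν k) T (ψ k)) (hyperfilter ℕ : Filter ℕ) (𝓝 (BFc n σ T g)) := by
  have hC := hσ.1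
  obtain ⟨hg, hgR, hunif⟩ := uniform_of_pointwise ψ g K hψ R hψR hlim
  -- the regularised forms of `g`
  have step1 : ∀ ρ : ℝ, 0 < ρ → Tendsto (fun k => ∫ p, ultraForm_Gr n T ρ g p ∂((ν k).prod (ν k)))
      (hyperfilter ℕ : Filter ℕ) (𝓝 (∫ p, ultraForm_Gr n T ρ g p ∂(σ.prod σ))) := by
    intro ρ hρ
    have hc := ultraForm_Gr_continuous (n := n) (T := T) hρ hg.continuous
    have hs := ultraForm_Gr_support (n := n) (ρ := ρ) hT (ψ := g)
    have key : ∀ i : Fin d, Tendsto
        (fun k => (∫ p, ultraForm_Gr n T ρ g p ∂((ν k).prod (ν k))) i)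
        (hyperfilter ℕ : Filter ℕ) (𝓝 ((∫ p, ultraForm_Gr n T ρ g p ∂(σ.prod σ)) i)) := by
      intro i
      have hco : ∀ (m : Measure (E d)), UB n m C →
          (∫ p, ultraForm_Gr n T ρ g p ∂(m.prod m)) i =
            ∫ p, (ultraForm_Gr n T ρ g p) i ∂(m.prod m) := by
        intro m hm
        exact ((EuclideanSpace.proj i : E d →L[ℝ] ℝ).integral_comp_comm
          (ultraForm_Gr_integrable hm hT hρ hg.continuous)).symm
      rw [hco σ hσ]
      simp_rw [fun k => hco (ν k) (hU k)]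
      refine IsUL.prod hU hσ h (fun p => (ultraForm_Gr n T ρ g p) i) ?_ ?_
      · exact (EuclideanSpace.proj i : E d →L[ℝ] ℝ).continuous.comp hc
      · exact hs.comp_left (g := fun v : E d => v i) (by simp)
    have h2 := tendsto_pi_nhds.mpr key
    have h3 := ((EuclideanSpace.equiv (Fin d) ℝ).symm.continuous.tendsto _).comp h2
    simpa [Function.comp_def] using h3
  -- the regularised forms of `ψ k`
  have step2 : ∀ ρ : ℝ, 0 < ρ → Tendsto
      (fun k => ∫ p, ultraForm_Gr n T ρ (ψ k) p ∂((ν k).prod (ν k)))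
      (hyperfilter ℕ : Filter ℕ) (𝓝 (∫ p, ultraForm_Gr n T ρ g p ∂(σ.prod σ))) := by
    intro ρ hρ
    have hd : Tendsto (fun k => ∫ p, ultraForm_Gr n T ρ (ψ k) p ∂((ν k).prod (ν k)) -
        ∫ p, ultraForm_Gr n T ρ g p ∂((ν k).prod (ν k))) (hyperfilter ℕ : Filter ℕ) (𝓝 0) := by
      rw [Metric.tendsto_nhds]
      intro ε hε
      set A : ℝ := 2 * (ρ ^ n)⁻¹ * (C * (2 * T) ^ n) ^ 2 with hA
      have hA0 : 0 < A := by positivity
      filter_upwards [hunif (ε / (2 * A)) (by positivity)] with k hk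
      rw [dist_zero_right]
      have h1 := ultraForm_change (n := n) (hU k) hT hρ (hψ k).continuous hg.continuous
        (ε := ε / (2 * A)) (by positivity) hk
      refine h1.trans_lt ?_
      have e1 : 2 * (ε / (2 * A)) * (ρ ^ n)⁻¹ * (C * (2 * T) ^ n) ^ 2 = ε / 2 := by
        rw [hA]; field_simp
      rw [e1]
      linarith
    have h3 := hd.add (step1 ρ hρ)
    simpa using h3
  have main : Tendsto (fun k => ∫ p, ultraForm_G n T (ψ k) p ∂((ν k).prod (ν k)))
      (hyperfilter ℕ : Filter ℕ) (𝓝 (∫ p, ultraForm_G n T g p ∂(σ.prod σ))) := by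
    rw [Metric.tendsto_nhds]
    intro ε hε
    set A : ℝ := K * (2 ^ (n + 3) * C * (C * (2 * T) ^ n)) + 1 with hA
    have hA0 : 0 < A := by positivity
    set ρ : ℝ := ε / (4 * A) with hρd
    have hρ : 0 < ρ := by positivity
    have hcmp : ∀ (m : Measure (E d)), UB n m C → ∀ φ : E d → ℝ, LipschitzWith K φ →
        ‖∫ p, ultraForm_G n T φ p ∂(m.prod m) - ∫ p, ultraForm_Gr n T ρ φ p ∂(m.prod m)‖ ≤
          ε / 4 := by
      intro m hm φ hφ
      refine (ultraForm_cmp hm hT hρ hφ).trans ?_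
      have h1 : K * (2 ^ (n + 3) * C * ρ * (C * (2 * T) ^ n)) ≤ A * ρ := by
        rw [hA]
        linarith only [hρ]
      refine h1.trans (le_of_eq ?_)
      rw [hρd]; field_simp
    have h2 := (Metric.tendsto_nhds.mp (step2 ρ hρ)) (ε / 4) (by positivity)
    filter_upwards [h2] with k hk
    have h3 := hcmp (ν k) (hU k) (ψ k) (hψ k)
    have h4 := hcmp σ hσ g hg
    rw [← dist_eq_norm] at h3 h4
    rw [dist_comm] at h4
    have h5 := dist_triangle4 (∫ p, ultraForm_G n T (ψ k) p ∂((ν k).prod (ν k)))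
      (∫ p, ultraForm_Gr n T ρ (ψ k) p ∂((ν k).prod (ν k)))
      (∫ p, ultraForm_Gr n T ρ g p ∂(σ.prod σ)) (∫ p, ultraForm_G n T g p ∂(σ.prod σ))
    linarith
  exact main.const_smul (1 / 2 : ℝ)

end Vale.Agent.P120
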