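import Vale.Agent.Lib.P120.UR.Ultra
import Vale.Agent.Lib.P120.UR.UltraProps
import Vale.Agent.Lib.P120.UR.UltraForm
import Vale.Agent.Lib.P120.UR.BFcTail
import Vale.Agent.Lib.P120.UR.PlaneLimit
import Vale.Agent.Lib.P120.UR.SupBound

/-!
# P120: existence of the blow-up limit (module BLimExists)
-/

open MeasureTheory Filter Set Metric Module
open scoped Topology ENNReal NNReal RealInnerProductSpace

namespace Vale.Agent.P120



variable {d n : ℕ}

namespace BLimExists

theorem exists_lim {X : Type*} [SeminormedAddCommGroup X] [ProperSpace X] (x : ℕ → X) (B : ℝ)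
    (h : ∀ k, ‖x k‖ ≤ B) : ∃ y, Tendsto x (hyperfilter ℕ : Filter ℕ) (𝓝 y) := by
  obtain ⟨y, _, hy⟩ := (isCompact_closedBall (0 : X) B).ultrafilter_le_nhds
    ((hyperfilter ℕ).map x) (by
      rw [Ultrafilter.coe_map, le_principal_iff, mem_map]
      exact Eventually.of_forall fun k => by simpa using h k)
  exact ⟨y, hy⟩

theorem eventually_nat (R : ℝ) : ∀ᶠ k : ℕ in (hyperfilter ℕ : Filter ℕ), R ≤ (k : ℝ) := by
  have h1 : ∀ᶠ k : ℕ in atTop, R ≤ (k : ℝ) :=
    (tendsto_natCast_atTop_atTop (R := ℝ)).eventually_ge_atTop R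
  exact Nat.hyperfilter_le_atTop h1

variable {C c : ℝ}

theorem eventually_eps (S : BSeq n d C c) {δ : ℝ} (hδ : 0 < δ) :
    ∀ᶠ k in (hyperfilter ℕ : Filter ℕ), S.ε k ≤ δ := by
  filter_upwards [eventually_nat (1 / δ)] with k hk
  refine (S.hε k).trans ?_
  rw [div_le_iff₀ (by positivity)]
  rw [div_le_iff₀ hδ] at hk
  nlinarith

theorem eps_radius (S : BSeq n d C c) (k : ℕ) {R : ℝ} (hR : R ≤ (k : ℝ)) :
    R ≤ 1 / S.ε k ^ 2 := by
  have h0 := S.hε0 k
  have hk0 : (0 : ℝ) ≤ k := Nat.cast_nonneg k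
  have h1 : ((k : ℝ) + 1) * S.ε k ≤ 1 := by
    have := S.hε k
    rw [le_div_iff₀ (by positivity)] at this
    linarith
  rw [le_div_iff₀ (by positivity)]
  have h2 : ((k : ℝ) + 1) ^ 2 * S.ε k ^ 2 ≤ 1 := by
    rw [← mul_pow]
    exact pow_le_one₀ (by positivity) h1
  have h3 : R ≤ ((k : ℝ) + 1) ^ 2 := by nlinarith
  calc R * S.ε k ^ 2 ≤ ((k : ℝ) + 1) ^ 2 * S.ε k ^ 2 := by gcongr
    _ ≤ 1 := h2

theorem eventually_LBloc (S : BSeq n d C c) (R : ℝ) :
    ∀ᶠ k in (hyperfilter ℕ : Filter ℕ), LBloc n (S.ν k) c 0 R := by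
  filter_upwards [eventually_nat R] with k hk
  exact LBloc.mono (S.hL k) (eps_radius S k hk)

theorem eventually_hgt (hC : 0 < C) (hc : 0 < c) (S : BSeq n d C c) {R ζ : ℝ} (hR : 1 ≤ R)
    (hζ : 0 < ζ) : ∀ᶠ k in (hyperfilter ℕ : Filter ℕ), ∀ y ∈ (S.ν k).support, ‖y‖ ≤ R →
      ‖hgt (S.U k) (S.M k) (S.b k) y‖ ≤ ζ := by
  obtain ⟨ε2, hε2, hs⟩ := sup_bound n d C c hC hc R ζ hR hζ
  filter_upwards [eventually_eps S hε2, eventually_LBloc S R] with k hk hL y hy hyR
  have := hs (S.ν k) (S.hU k) 0 1 one_pos (by rwa [mul_one]) (S.U k) (S.M k) (S.b k) (S.ε k)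
    (S.hM k) (S.hε0 k).le hk (S.hG k) y hy (by rwa [sub_zero, mul_one])
  rwa [mul_one] at this

theorem tendsto_b (hC : 0 < C) (hc : 0 < c) (S : BSeq n d C c) :
    Tendsto S.b (hyperfilter ℕ : Filter ℕ) (𝓝 0) := by
  rw [tendsto_zero_iff_norm_tendsto_zero]
  rw [Metric.tendsto_nhds]
  intro ζ hζ
  filter_upwards [eventually_hgt hC hc S le_rfl (half_pos hζ)] with k hk
  have h1 := hk 0 (S.h0 k) (by simp)
  have h2 : hgt (S.U k) (S.M k) (S.b k) 0 = - S.b k := by
    unfold hgt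
    simp
  rw [h2, norm_neg] at h1
  rw [dist_zero_right, norm_norm]
  linarith

/-- the operator `y ↦ U U* y + M U* y` -/
noncomputable def PP (U : E n →L[ℝ] E d) (M : E n →L[ℝ] E d) : E d →L[ℝ] E d :=
  (U + M).comp (ContinuousLinearMap.adjoint U)

theorem hgt_eq (U : E n →ₗᵢ[ℝ] E d) (M : E n →L[ℝ] E d) (b y : E d) :
    hgt U M b y = y - b - PP U.toContinuousLinearMap M y := by
  unfold hgt PP adjU
  simp only [ContinuousLinearMap.comp_apply, add_apply]
  rw [sub_sub]
  rfl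

theorem tendsto_comp_clm {X Y Z : Type*} [NormedAddCommGroup X] [NormedSpace ℝ X]
    [NormedAddCommGroup Y] [NormedSpace ℝ Y] [NormedAddCommGroup Z] [NormedSpace ℝ Z]
    {A : ℕ → (Y →L[ℝ] Z)} {B : ℕ → (X →L[ℝ] Y)} {A' : Y →L[ℝ] Z} {B' : X →L[ℝ] Y} {l : Filter ℕ}
    (hA : Tendsto A l (𝓝 A')) (hB : Tendsto B l (𝓝 B')) :
    Tendsto (fun k => (A k).comp (B k)) l (𝓝 (A'.comp B')) := by
  have h : Continuous fun p : (Y →L[ℝ] Z) × (X →L[ℝ] Y) => p.1.comp p.2 :=
    continuous_fst.clm_comp continuous_snd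
  exact (h.tendsto (A', B')).comp (hA.prodMk_nhds hB)

theorem tendsto_PP {U M : ℕ → (E n →L[ℝ] E d)} {Ui Mi : E n →L[ℝ] E d} {l : Filter ℕ}
    (hU : Tendsto U l (𝓝 Ui)) (hM : Tendsto M l (𝓝 Mi)) :
    Tendsto (fun k => PP (U k) (M k)) l (𝓝 (PP Ui Mi)) := by
  have h1 : Tendsto (fun k => ContinuousLinearMap.adjoint (U k)) l
      (𝓝 (ContinuousLinearMap.adjoint Ui)) :=
    (ContinuousLinearMap.adjoint.continuous.tendsto _).comp hU
  exact tendsto_comp_clm (hU.add hM) h1

/-- the heights converge uniformly on bounded sets -/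
theorem eventually_hgt_sub (hC : 0 < C) (hc : 0 < c) (S : BSeq n d C c)
    {Ui Mi : E n →L[ℝ] E d}
    (hU : Tendsto (fun k => (S.U k).toContinuousLinearMap) (hyperfilter ℕ : Filter ℕ) (𝓝 Ui))
    (hM : Tendsto S.M (hyperfilter ℕ : Filter ℕ) (𝓝 Mi)) (R : ℝ) {ζ : ℝ} (hζ : 0 < ζ) :
    ∀ᶠ k in (hyperfilter ℕ : Filter ℕ), ∀ y : E d, ‖y‖ ≤ R →
      ‖hgt (S.U k) (S.M k) (S.b k) y - (y - PP Ui Mi y)‖ ≤ ζ := by
  have h1 := tendsto_PP hU hM
  have hR1 : 0 < |R| + 1 := by positivity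
  have h2 := (Metric.tendsto_nhds.1 h1) (ζ / 2 / (|R| + 1)) (by positivity)
  have h3 := (Metric.tendsto_nhds.1 (tendsto_b hC hc S)) (ζ / 2) (by positivity)
  filter_upwards [h2, h3] with k hk2 hk3 y hy
  rw [dist_eq_norm] at hk2 hk3
  rw [sub_zero] at hk3
  have e : hgt (S.U k) (S.M k) (S.b k) y - (y - PP Ui Mi y) =
      - S.b k - (PP (S.U k).toContinuousLinearMap (S.M k) - PP Ui Mi) y := by
    rw [hgt_eq, sub_apply]
    abel
  rw [e]
  have hyR : ‖y‖ ≤ |R| + 1 := hy.trans ((le_abs_self R).trans (by linarith))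
  calc ‖- S.b k - (PP (S.U k).toContinuousLinearMap (S.M k) - PP Ui Mi) y‖
      ≤ ‖- S.b k‖ + ‖(PP (S.U k).toContinuousLinearMap (S.M k) - PP Ui Mi) y‖ := norm_sub_le _ _
    _ ≤ ζ / 2 + ζ / 2 / (|R| + 1) * (|R| + 1) := by
        rw [norm_neg]
        apply add_le_add hk3.le
        refine (ContinuousLinearMap.le_opNorm _ _).trans ?_
        exact mul_le_mul hk2.le hyR (norm_nonneg _) (by positivity)
    _ = ζ := by rw [div_mul_cancel₀ _ hR1.ne']; ring

theorem adj_perp {Ui : E n →ₗᵢ[ℝ] E d} {Mi : E n →L[ℝ] E d} {b : E d} (hP : Perp Ui Mi b)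
    (w : E n) : adjU Ui (Mi w) = 0 := by
  have h1 : ∀ v, ⟪v, adjU Ui (Mi w)⟫ = 0 := by
    intro v
    rw [inner_adjU]
    exact hP.1 v w
  have := h1 (adjU Ui (Mi w))
  exact inner_self_eq_zero.1 this

/-- an isometry onto the range of `U + M` -/
theorem exists_V {Ui : E n →ₗᵢ[ℝ] E d} {Mi : E n →L[ℝ] E d} (hP : Perp Ui Mi 0) :
    ∃ V : E n →ₗᵢ[ℝ] E d, (∀ v, V v = Ui (adjU Ui (V v)) + Mi (adjU Ui (V v))) ∧
      ∀ w, ∃ v, V v = Ui w + Mi w := by
  let F : E n →ₗ[ℝ] E d := Ui.toLinearMap + Mi.toLinearMap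
  have hF : ∀ w, F w = Ui w + Mi w := fun w => rfl
  have hadj : ∀ w, adjU Ui (F w) = w := by
    intro w
    rw [hF, map_add, adjU_U, adj_perp hP, add_zero]
  have hinj : Function.Injective F := by
    intro v w h
    rw [← hadj v, ← hadj w, h]
  have hfr : finrank ℝ (LinearMap.range F) = n := by
    rw [LinearMap.finrank_range_of_inj hinj, finrank_euclideanSpace_fin]
  let e := (stdOrthonormalBasis ℝ (LinearMap.range F)).reindex (finCongr hfr)
  let V : E n →ₗᵢ[ℝ] E d :=
    (LinearMap.range F).subtypeₗᵢ.comp e.repr.symm.toLinearIsometry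
  have hVr : ∀ v, V v ∈ LinearMap.range F := fun v => (e.repr.symm v).2
  refine ⟨V, fun v => ?_, fun w => ?_⟩
  · obtain ⟨w, hw⟩ := hVr v
    rw [← hw, hadj, hF]
  · refine ⟨e.repr ⟨F w, LinearMap.mem_range_self F w⟩, ?_⟩
    change ((e.repr.symm (e.repr ⟨F w, LinearMap.mem_range_self F w⟩) : LinearMap.range F) : E d) =
      F w
    rw [LinearIsometryEquiv.symm_apply_apply]

/-- the orthogonal projection onto the range of `V` is the best approximation -/
theorem blim_sub_proj_le (V : E n →ₗᵢ[ℝ] E d) (y : E d) (w : E n) :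
    ‖y - V (adjU V y)‖ ≤ ‖y - V w‖ := by
  set v := adjU V y with hv
  have h1 : ∀ u, ⟪V u, y - V v⟫ = 0 := by
    intro u
    rw [inner_sub_right, LinearIsometry.inner_map_map, ← inner_adjU, hv, sub_self]
  have e : y - V w = (y - V v) + V (v - w) := by
    rw [map_sub]; abel
  have h2 : ⟪y - V v, V (v - w)⟫ = 0 := by
    rw [real_inner_comm]; exact h1 _
  have h3 : ‖y - V w‖ * ‖y - V w‖ = ‖y - V v‖ * ‖y - V v‖ + ‖V (v - w)‖ * ‖V (v - w)‖ := by
    rw [e]
    exact norm_add_sq_eq_norm_sq_add_norm_sq_real h2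
  have h4 : 0 ≤ ‖V (v - w)‖ * ‖V (v - w)‖ := mul_self_nonneg _
  exact abs_le_of_sq_le_sq' (by nlinarith only [h3]) (norm_nonneg _) |>.2

/-- a point of the support of the limit is a limit of points of the supports -/
theorem eventually_near {σ : Measure (E d)} {ν : ℕ → Measure (E d)} {C : ℝ}
    (hσ : UB n σ C) (h : IsUL ν σ) {y : E d} (hy : y ∈ σ.support)
    {η : ℝ} (hη : 0 < η) :
    ∀ᶠ k in (hyperfilter ℕ : Filter ℕ), ∃ z ∈ (ν k).support, ‖z - y‖ < η := by
  have := UB.isLocallyFinite hσ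
  let f : E d → ℝ := fun z => max 0 (η - ‖z - y‖)
  have hf : Continuous f := by
    simp only [f]
    fun_prop
  have hfz : ∀ z, η ≤ ‖z - y‖ → f z = 0 := by
    intro z hz
    simp only [f]
    exact max_eq_left (by linarith)
  have hfc : HasCompactSupport f := by
    refine HasCompactSupport.intro (isCompact_closedBall y η) fun z hz => hfz z ?_
    rw [mem_closedBall, dist_eq_norm, not_le] at hz
    exact hz.le
  have hf0 : ∀ z, 0 ≤ f z := fun z => le_max_left _ _
  have hpos : 0 < ∫ z, f z ∂σ := by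
    rw [integral_pos_iff_support_of_nonneg hf0 (hf.integrable_of_hasCompactSupport hfc)]
    have hb : ball y η ⊆ Function.support f := by
      intro z hz
      rw [mem_ball, dist_eq_norm] at hz
      rw [Function.mem_support]
      have : 0 < f z := lt_max_of_lt_right (by linarith)
      exact this.ne'
    exact ((Measure.mem_support_iff_forall y).1 hy _ (ball_mem_nhds y hη)).trans_le
      (measure_mono hb)
  filter_upwards [(h f hf hfc).eventually (lt_mem_nhds hpos)] with k hk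
  by_contra hcon
  push Not at hcon
  have hsub : ball y η ⊆ (ν k).supportᶜ := by
    intro z hz hz'
    rw [mem_ball, dist_eq_norm] at hz
    exact absurd hz (not_lt.2 (hcon z hz'))
  have hz : (ν k) (ball y η) = 0 :=
    measure_mono_null hsub Measure.measure_compl_support
  have hI : ∫ z, f z ∂(ν k) = 0 := by
    apply integral_eq_zero_of_ae
    have : ∀ᵐ z ∂(ν k), z ∉ ball y η := measure_eq_zero_iff_ae_notMem.1 hz
    filter_upwards [this] with z hz
    apply hfz
    rw [mem_ball, dist_eq_norm, not_lt] at hz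
    exact hz
  rw [hI] at hk
  exact lt_irrefl _ hk

/-- the support of the limit lies in the limit plane -/
theorem supp_sub (hC : 0 < C) (hc : 0 < c) (S : BSeq n d C c) {σ : Measure (E d)}
    (hσ : UB n σ C) (h : IsUL S.ν σ) {Ui Mi : E n →L[ℝ] E d}
    (hU : Tendsto (fun k => (S.U k).toContinuousLinearMap) (hyperfilter ℕ : Filter ℕ) (𝓝 Ui))
    (hM : Tendsto S.M (hyperfilter ℕ : Filter ℕ) (𝓝 Mi)) {y : E d} (hy : y ∈ σ.support) :
    y = PP Ui Mi y := by
  by_contra hne
  have hδ : 0 < ‖y - PP Ui Mi y‖ := norm_pos_iff.2 (sub_ne_zero.2 hne)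
  set P := PP Ui Mi with hP
  set δ := ‖y - P y‖ with hδd
  have hP0 : 0 < 1 + ‖P‖ := by positivity
  set η := min 1 (δ / (8 * (1 + ‖P‖))) with hη
  have hη0 : 0 < η := lt_min one_pos (by positivity)
  have hη1 : η ≤ 1 := min_le_left _ _
  have hηδ : (1 + ‖P‖) * η ≤ δ / 8 := by
    calc (1 + ‖P‖) * η ≤ (1 + ‖P‖) * (δ / (8 * (1 + ‖P‖))) :=
          mul_le_mul_of_nonneg_left (min_le_right _ _) hP0.le
      _ = δ / 8 := by field_simp
  have hηδ' : η ≤ δ / 8 := by
    have : η ≤ (1 + ‖P‖) * η := by nlinarith only [norm_nonneg P, hη0]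
    linarith
  have e1 := eventually_near hσ h hy hη0
  have e2 := eventually_hgt hC hc S (R := ‖y‖ + 1) (by linarith [norm_nonneg y]) hη0
  have e3 := eventually_hgt_sub hC hc S hU hM (‖y‖ + 1) hη0
  obtain ⟨k, ⟨z, hz, hzy⟩, hk2, hk3⟩ := (e1.and (e2.and e3)).exists
  have hzR : ‖z‖ ≤ ‖y‖ + 1 := by
    have : ‖z‖ ≤ ‖z - y‖ + ‖y‖ := by
      calc ‖z‖ = ‖(z - y) + y‖ := by rw [sub_add_cancel]
        _ ≤ _ := norm_add_le _ _
    linarith
  have g2 := hk2 z hz hzR
  have g3 := hk3 z hzR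
  rw [← hP] at g3
  have g4 : ‖z - P z‖ ≤ 2 * η := by
    have e : z - P z = hgt (S.U k) (S.M k) (S.b k) z -
        (hgt (S.U k) (S.M k) (S.b k) z - (z - P z)) := by abel
    rw [e]
    exact (norm_sub_le _ _).trans (by linarith)
  have g5 : ‖y - P y‖ ≤ ‖z - P z‖ + (1 + ‖P‖) * ‖z - y‖ := by
    have e : y - P y = (z - P z) - ((z - y) - P (z - y)) := by rw [map_sub]; abel
    rw [e]
    refine (norm_sub_le _ _).trans (add_le_add le_rfl ?_)
    refine (norm_sub_le _ _).trans ?_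
    have := P.le_opNorm (z - y)
    linarith
  have g6 : (1 + ‖P‖) * ‖z - y‖ ≤ δ / 8 :=
    (mul_le_mul_of_nonneg_left hzy.le hP0.le).trans hηδ
  rw [← hδd] at g5
  linarith

theorem lip_cut_one : LipschitzWith 1 (cut 1 : E d → ℝ) := by
  have h1 : LipschitzWith 1 (fun y : E d => 2 - ‖y‖ / 1) := by
    apply LipschitzWith.of_dist_le_mul
    intro x y
    rw [NNReal.coe_one, one_mul, Real.dist_eq, dist_eq_norm, div_one, div_one]
    have : 2 - ‖x‖ - (2 - ‖y‖) = -(‖x‖ - ‖y‖) := by ring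
    rw [this, abs_neg]
    exact abs_norm_sub_norm_le x y
  have h2 := (h1.const_min 1).const_max 0
  exact h2

theorem cut_one_nonneg (y : E d) : 0 ≤ cut 1 y := le_max_left _ _

theorem cut_one_le (y : E d) : cut 1 y ≤ 1 := by
  unfold cut
  exact max_le zero_le_one (min_le_left _ _)

theorem cut_one_zero {y : E d} (hy : 2 ≤ ‖y‖) : cut 1 y = 0 := by
  unfold cut
  apply max_eq_left
  refine (min_le_right _ _).trans ?_
  rw [div_one]; linarith

theorem cut_one_compact : HasCompactSupport (cut 1 : E d → ℝ) := by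
  refine HasCompactSupport.intro (isCompact_closedBall (0 : E d) 2) fun z hz => cut_one_zero ?_
  rw [mem_closedBall, dist_zero_right, not_le] at hz
  exact hz.le

/-- the limit is reflectionless -/
theorem refl_of (hC : 0 < C) (S : BSeq n d C c) {σ : Measure (E d)}
    (hσ : UB n σ C) (h : IsUL S.ν σ) (h0 : (0 : E d) ∈ σ.support) : Refl n σ := by
  classical
  have := UB.isLocallyFinite hσ
  intro ψ hψ hψc hψ0
  obtain ⟨K, hK⟩ := hψ
  have hψcont : Continuous ψ := hK.continuous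
  obtain ⟨r0, hr0⟩ := hψc.isCompact.isBounded.subset_closedBall (0 : E d)
  set r : ℝ := max r0 2 with hr
  have hr2 : 2 ≤ r := le_max_right _ _
  have hr0' : 0 < r := by linarith
  have hψr : ∀ y, r < ‖y‖ → ψ y = 0 := by
    intro y hy
    by_contra hne
    have : y ∈ closedBall (0 : E d) r0 := hr0 (subset_tsupport _ (Function.mem_support.2 hne))
    rw [mem_closedBall, dist_zero_right] at this
    have := le_max_left r0 2
    linarith
  have hcr : ∀ y : E d, r < ‖y‖ → cut 1 y = 0 := fun y hy => cut_one_zero (by linarith)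
  obtain ⟨P0, hP0⟩ := hψcont.bounded_above_of_compact_support hψc
  set P : ℝ := |P0| + 1 with hPd
  have hPpos : 0 < P := by positivity
  -- the means
  set I : ℕ → ℝ := fun k => ∫ y, cut 1 y ∂(S.ν k) with hI
  set J : ℕ → ℝ := fun k => ∫ y, ψ y ∂(S.ν k) with hJ
  have hIlim : Tendsto I (hyperfilter ℕ : Filter ℕ) (𝓝 (∫ y, cut 1 y ∂σ)) :=
    h _ lip_cut_one.continuous cut_one_compact
  have hJlim : Tendsto J (hyperfilter ℕ : Filter ℕ) (𝓝 0) := by
    have := h ψ hψcont hψc
    rwa [hψ0] at this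
  have hIpos : 0 < ∫ y, cut 1 y ∂σ := by
    rw [integral_pos_iff_support_of_nonneg cut_one_nonneg
      (lip_cut_one.continuous.integrable_of_hasCompactSupport cut_one_compact)]
    have hb : ball (0 : E d) 1 ⊆ Function.support (cut 1) := by
      intro z hz
      rw [mem_ball, dist_zero_right] at hz
      rw [Function.mem_support]
      have : 0 < cut 1 z := by
        unfold cut
        apply lt_max_of_lt_right
        apply lt_min one_pos
        rw [div_one]; linarith
      exact this.ne'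
    exact ((Measure.mem_support_iff_forall 0).1 h0 _ (ball_mem_nhds 0 one_pos)).trans_le
      (measure_mono hb)
  have hmlim : Tendsto (fun k => J k / I k) (hyperfilter ℕ : Filter ℕ) (𝓝 0) := by
    have := hJlim.div hIlim hIpos.ne'
    rwa [zero_div] at this
  set m : ℕ → ℝ := fun k => if |J k / I k| ≤ 1 ∧ I k ≠ 0 then J k / I k else 0 with hm
  have hm1 : ∀ k, |m k| ≤ 1 := by
    intro k
    simp only [hm]
    split_ifs with h'
    · exact h'.1
    · simp
  have hIev : ∀ᶠ k in (hyperfilter ℕ : Filter ℕ), I k ≠ 0 := by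
    filter_upwards [hIlim.eventually (lt_mem_nhds hIpos)] with k hk
    exact hk.ne'
  have hmev : ∀ᶠ k in (hyperfilter ℕ : Filter ℕ), m k = J k / I k ∧ I k ≠ 0 := by
    have h1 := (Metric.tendsto_nhds.1 hmlim) 1 one_pos
    filter_upwards [h1, hIev] with k hk1 hk2
    rw [Real.dist_eq, sub_zero] at hk1
    refine ⟨?_, hk2⟩
    simp only [hm]
    rw [if_pos ⟨hk1.le, hk2⟩]
  have hm0 : Tendsto m (hyperfilter ℕ : Filter ℕ) (𝓝 0) :=
    hmlim.congr' (hmev.mono fun k hk => hk.1.symm)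
  set ψk : ℕ → E d → ℝ := fun k y => ψ y - m k * cut 1 y with hψk
  have hψklip : ∀ k, LipschitzWith (K + 1) (ψk k) := by
    intro k
    simp only [hψk]
    apply hK.sub
    apply LipschitzWith.of_dist_le_mul
    intro x y
    rw [NNReal.coe_one, one_mul, Real.dist_eq, ← mul_sub, abs_mul]
    have h1 : |cut 1 x - cut 1 y| ≤ dist x y := by
      have := lip_cut_one.dist_le_mul x y
      rwa [NNReal.coe_one, one_mul, Real.dist_eq] at this
    calc |m k| * |cut 1 x - cut 1 y| ≤ 1 * dist x y :=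
          mul_le_mul (hm1 k) h1 (abs_nonneg _) zero_le_one
      _ = dist x y := one_mul _
  have hψkr : ∀ k y, r < ‖y‖ → ψk k y = 0 := by
    intro k y hy
    simp only [hψk]
    rw [hψr y hy, hcr y hy, mul_zero, sub_zero]
  have hψkP : ∀ k y, |ψk k y| ≤ P := by
    intro k y
    simp only [hψk]
    have h1 : |ψ y| ≤ |P0| := (hP0 y).trans (le_abs_self _)
    have h2 : |m k * cut 1 y| ≤ 1 := by
      rw [abs_mul, abs_of_nonneg (cut_one_nonneg y)]
      exact mul_le_one₀ (hm1 k) (cut_one_nonneg y) (cut_one_le y)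
    exact (abs_sub _ _).trans (add_le_add h1 h2)
  have hψklim : ∀ y, Tendsto (fun k => ψk k y) (hyperfilter ℕ : Filter ℕ) (𝓝 (ψ y)) := by
    intro y
    have := (hm0.mul_const (cut 1 y)).const_sub (ψ y)
    rwa [zero_mul, sub_zero] at this
  have hmean : ∀ᶠ k in (hyperfilter ℕ : Filter ℕ), ∫ y, ψk k y ∂(S.ν k) = 0 := by
    filter_upwards [hmev] with k hk
    have := UB.isLocallyFinite (S.hU k)
    simp only [hψk]
    rw [integral_sub (hψcont.integrable_of_hasCompactSupport hψc)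
      ((lip_cut_one.continuous.integrable_of_hasCompactSupport cut_one_compact).const_mul _),
      integral_const_mul]
    change J k - m k * I k = 0
    rw [hk.1, div_mul_cancel₀ _ hk.2, sub_self]
  obtain ⟨Cb, hCb, htail⟩ := bfc_tail n d C hC
  set A : ℝ := 4 ^ (n + 6) * C ^ 2 * ((K + 1 : ℝ≥0) : ℝ) ^ 2 * r ^ (n + 1) with hA
  have hA0 : 0 ≤ A := by positivity
  have key : ∀ R : ℝ, 4 * r ≤ R → ‖BFc n σ R ψ‖ ≤ Cb * r / R * (P * (C * r ^ n)) := by
    intro R hR
    have hR0 : 0 < R := by linarith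
    have hform := IsUL.form S.hU hσ h ψk ψ (K + 1) hψklip r hr0' hψkr hψklim R hR0
    refine le_of_forall_pos_le_add fun δ hδ => ?_
    refine le_of_tendsto hform.norm ?_
    filter_upwards [hmean, eventually_nat r, eventually_nat (Real.sqrt A / δ)] with k hk1 hk2 hk3
    have hk0 : (0 : ℝ) ≤ k := Nat.cast_nonneg k
    -- the total form is small
    have b1 : ‖BF n (S.ν k) (ψk k)‖ ≤ δ := by
      have h1 := S.hE k (ψk k) ⟨K + 1, hψklip k⟩ (fun y hy => hψkr k y (by
        rw [sub_zero, mul_one] at hy; linarith)) hk1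
      have h2 : En n (S.ν k) (ψk k) ≤ A :=
        En_le_of_lipschitz (S.hU k) (S.hb k) (hψklip k) (x := 0) hr0'
          (fun y hy => hψkr k y (by rwa [sub_zero] at hy))
      have hEn0 : 0 ≤ En n (S.ν k) (ψk k) := En_nonneg _
      have h3 : ‖BF n (S.ν k) (ψk k)‖ ^ 2 ≤ (1 / ((k : ℝ) + 1)) ^ 2 * A := by
        refine h1.trans ?_
        rw [one_pow, mul_one]
        apply mul_le_mul _ h2 hEn0 (by positivity)
        apply pow_le_pow_left₀ (by have := S.hε0 k; positivity)
        apply div_le_div_of_nonneg_right _ (by positivity)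
        refine (S.hε k).trans ?_
        rw [div_le_one (by positivity)]
        linarith
      have h4 : ‖BF n (S.ν k) (ψk k)‖ ≤ 1 / ((k : ℝ) + 1) * Real.sqrt A := by
        apply le_of_sq_le_sq _ (by positivity)
        rw [mul_pow, Real.sq_sqrt hA0]
        exact h3
      refine h4.trans ?_
      rw [one_div, inv_mul_le_iff₀ (by positivity)]
      rw [div_le_iff₀ hδ] at hk3
      linarith only [hδ, hk3]
    -- comparison with the cut-off form
    obtain ⟨R0, hR0b⟩ := S.hb k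
    have b2 : ‖BF n (S.ν k) (ψk k) - BFc n (S.ν k) R (ψk k)‖ ≤
        Cb * r / R * ∫ y, |ψk k y| ∂(S.ν k) := by
      have h1 := (htail (S.ν k) (S.hU k) (ψk k) ⟨K + 1, hψklip k⟩ r hr0' (hψkr k) hk1 R
        (max R0 R) hR (le_max_right _ _)).1
      have h2 : (S.ν k).restrict (closedBall 0 (max R0 R)) = S.ν k := by
        rw [Measure.restrict_eq_self_of_ae_mem]
        rw [ae_iff]
        refine measure_mono_null ?_ hR0b
        intro y hy
        simp only [mem_ofPred_eq] at hy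
        intro hy'
        exact hy (closedBall_subset_closedBall (le_max_left _ _) hy')
      rwa [h2] at h1
    have b3 : ∫ y, |ψk k y| ∂(S.ν k) ≤ P * (C * r ^ n) := by
      have h1 : ∫ y, |ψk k y| ∂(S.ν k) = ∫ y in closedBall 0 r, |ψk k y| ∂(S.ν k) := by
        symm
        apply setIntegral_eq_integral_of_forall_compl_eq_zero
        intro y hy
        rw [mem_closedBall, dist_zero_right, not_le] at hy
        rw [hψkr k y hy, abs_zero]
      have hμ := (S.hU k).2 0 r hr0'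
      have h2 : ‖∫ y in closedBall 0 r, |ψk k y| ∂(S.ν k)‖ ≤
          P * (S.ν k).real (closedBall 0 r) := by
        apply norm_setIntegral_le_of_norm_le_const (hμ.trans_lt ENNReal.ofReal_lt_top)
        intro y _
        rw [Real.norm_eq_abs, abs_abs]
        exact hψkP k y
      have h3 : (S.ν k).real (closedBall 0 r) ≤ C * r ^ n :=
        ENNReal.toReal_le_of_le_ofReal (by positivity) hμ
      rw [h1]
      exact (le_abs_self _).trans (h2.trans (mul_le_mul_of_nonneg_left h3 hPpos.le))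
    calc ‖BFc n (S.ν k) R (ψk k)‖
        = ‖BF n (S.ν k) (ψk k) - (BF n (S.ν k) (ψk k) - BFc n (S.ν k) R (ψk k))‖ := by
          congr 1; abel
      _ ≤ ‖BF n (S.ν k) (ψk k)‖ + ‖BF n (S.ν k) (ψk k) - BFc n (S.ν k) R (ψk k)‖ :=
          norm_sub_le _ _
      _ ≤ δ + Cb * r / R * (P * (C * r ^ n)) := by
          apply add_le_add b1
          exact b2.trans (mul_le_mul_of_nonneg_left b3 (by positivity))
      _ = _ := by ring
  rw [tendsto_zero_iff_norm_tendsto_zero]
  have hlim : Tendsto (fun R : ℝ => (Cb * r * (P * (C * r ^ n))) / R) atTop (𝓝 0) :=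
    tendsto_const_nhds.div_atTop tendsto_id
  refine squeeze_zero' (Eventually.of_forall fun R => norm_nonneg _) ?_ hlim
  filter_upwards [eventually_ge_atTop (4 * r)] with R hR
  refine (key R hR).trans (le_of_eq ?_)
  ring

end BLimExists

open BLimExists

/-- `UR/BLimExists.lean` -/
theorem exists_blim (n d : ℕ) (hn : 1 ≤ n) (C c : ℝ) (hC : 0 < C) (hc : 0 < c) :
    ∃ cl cu : ℝ, 0 < cl ∧ cl ≤ cu ∧ ∀ S : BSeq n d C c, Nonempty (BLim S cl cu) := by
  set ω : ℝ := volume.real (ball (0 : E n) 1) with hω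
  have hω0 : 0 < ω := by
    rw [hω, measureReal_def]
    exact ENNReal.toReal_pos (measure_ball_pos volume 0 one_pos).ne' measure_ball_lt_top.ne
  refine ⟨c / 4 ^ n / ω, max (c / 4 ^ n / ω) (C / ω), by positivity, le_max_left _ _, fun S => ?_⟩
  obtain ⟨σ, hσ, hUL⟩ := exists_ultralimit S.ν S.hU
  have hfd : ProperSpace (E n →L[ℝ] E d) := FiniteDimensional.proper_real _
  obtain ⟨Ul, hUl⟩ := exists_lim (fun k => (S.U k).toContinuousLinearMap) 1
    (fun k => (S.U k).norm_toContinuousLinearMap_le)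
  obtain ⟨Mi, hMi⟩ := exists_lim S.M 1 S.hM
  have hUlv : ∀ v, Tendsto (fun k => S.U k v) (hyperfilter ℕ : Filter ℕ) (𝓝 (Ul v)) := by
    intro v
    exact ((ContinuousLinearMap.apply ℝ (E d) v).continuous.tendsto _).comp hUl
  have hMiv : ∀ v, Tendsto (fun k => S.M k v) (hyperfilter ℕ : Filter ℕ) (𝓝 (Mi v)) := by
    intro v
    exact ((ContinuousLinearMap.apply ℝ (E d) v).continuous.tendsto _).comp hMi
  let Ui : E n →ₗᵢ[ℝ] E d := ⟨Ul.toLinearMap, fun v => by
    have h1 := (hUlv v).norm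
    have h2 : (fun k => ‖S.U k v‖) = fun _ => ‖v‖ := by
      funext k
      exact (S.U k).norm_map v
    rw [h2] at h1
    exact (tendsto_nhds_unique h1 tendsto_const_nhds)⟩
  have hUi : Ui.toContinuousLinearMap = Ul := by ext v; rfl
  have hUiv : ∀ v, Ui v = Ul v := fun v => rfl
  have hP : Perp Ui Mi 0 := by
    refine ⟨fun v w => ?_, fun v => by simp⟩
    have h1 := Filter.Tendsto.inner (𝕜 := ℝ) (hUlv v) (hMiv w)
    have h2 : (fun k => ⟪S.U k v, S.M k w⟫) = fun _ => (0 : ℝ) := by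
      funext k
      exact (S.hP k).1 v w
    rw [h2] at h1
    exact (tendsto_nhds_unique h1 tendsto_const_nhds)
  have hMi1 : ‖Mi‖ ≤ 1 := le_of_tendsto hMi.norm (Eventually.of_forall S.hM)
  obtain ⟨V, hV, hVsurj⟩ := exists_V hP
  have h0 : (0 : E d) ∈ σ.support :=
    IsUL.mem_support hc S.hU hσ hUL (fun R _ => eventually_LBloc S R) (fun _ => 0) S.h0 0
      tendsto_const_nhds
  have hL := IsUL.lower hc S.hU hσ hUL (fun R _ => eventually_LBloc S R)
  have hR : Refl n σ := refl_of hC S hσ hUL h0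
  have hPP : ∀ y, ∃ v, V v = PP Ul Mi y := by
    intro y
    obtain ⟨v, hv⟩ := hVsurj (adjU Ui y)
    refine ⟨v, hv.trans ?_⟩
    unfold PP adjU
    rw [hUi]
    rfl
  have hsupp : ∀ y ∈ σ.support, ∃ v, y = 0 + V v := by
    intro y hy
    obtain ⟨v, hv⟩ := hPP y
    refine ⟨v, ?_⟩
    rw [zero_add, hv]
    exact supp_sub hC hc S hσ hUL hUl hMi hy
  obtain ⟨c0, hc0, hσ0⟩ := flat_of_refl hn hσ hL hR V 0 ⟨0, h0⟩ hsupp
  have hmap : (fun v => 0 + V v) = (V : E n → E d) := by
    funext v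
    rw [zero_add]
  rw [hmap] at hσ0
  -- the mass of the unit ball
  have hball : σ (ball 0 1) = ENNReal.ofReal (c0 * ω) := by
    rw [hσ0, Measure.smul_apply, Measure.map_apply V.continuous.measurable measurableSet_ball,
      smul_eq_mul, ENNReal.ofReal_mul hc0.le]
    congr 1
    have : (V : E n → E d) ⁻¹' ball 0 1 = ball 0 1 := by
      ext v
      rw [mem_preimage, mem_ball, mem_ball, dist_zero_right, dist_zero_right, V.norm_map]
    rw [this, hω, ofReal_measureReal measure_ball_lt_top.ne]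
  have hup : c0 * ω ≤ C := by
    have h1 : σ (ball 0 1) ≤ ENNReal.ofReal C := by
      have := hσ.2 0 1 one_pos
      rw [one_pow, mul_one] at this
      exact (measure_mono ball_subset_closedBall).trans this
    rw [hball] at h1
    exact (ENNReal.ofReal_le_ofReal_iff hC.le).1 h1
  have hlow : c / 4 ^ n ≤ c0 * ω := by
    have h1 := (hL 1 one_pos).2.2 0 h0 1 one_pos le_rfl
    rw [one_pow, mul_one, hball] at h1
    exact (ENNReal.ofReal_le_ofReal_iff (by positivity)).1 h1
  exact ⟨{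
    Ui := Ui
    Mi := Mi
    V := V
    c0 := c0
    σ := σ
    hcl := by rw [div_le_iff₀ hω0]; exact hlow
    hcu := by
      refine le_max_of_le_right ?_
      rw [le_div_iff₀ hω0]; exact hup
    hσ := hσ0
    hUL := hUL
    tU := by rw [hUi]; exact hUl
    tM := hMi
    tb := tendsto_b hC hc S
    hMi := hMi1
    hPi := hP
    hV := hV
    hflat := by
      intro R hR0 ζ hζ
      have hR1 : 1 ≤ max R 1 := le_max_right _ _
      filter_upwards [eventually_hgt hC hc S hR1 (half_pos hζ),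
        eventually_hgt_sub hC hc S hUl hMi (max R 1) (half_pos hζ)] with k hk1 hk2 y hy hyR
      have hyR' : ‖y‖ ≤ max R 1 := hyR.trans (le_max_left _ _)
      obtain ⟨v, hv⟩ := hPP y
      refine (blim_sub_proj_le V y v).trans ?_
      rw [hv]
      have g1 := hk1 y hy hyR'
      have g2 := hk2 y hyR'
      have e : y - PP Ul Mi y = hgt (S.U k) (S.M k) (S.b k) y -
          (hgt (S.U k) (S.M k) (S.b k) y - (y - PP Ul Mi y)) := by abel
      rw [e]
      exact (norm_sub_le _ _).trans (by linarith) }⟩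

end Vale.Agent.P120
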