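import Vale.Agent.Lib.P120.UR.Basic

/-!
P120: basic facts on the forms `BF`, `En`, heights, regularity (module Base).
-/

open MeasureTheory Filter Set Metric Module
open scoped Topology ENNReal NNReal RealInnerProductSpace

namespace Vale.Agent.P120

variable {d n : ℕ} {C c D : ℝ} {μ ν : Measure (E d)}

theorem UB.restrict (h : UB n μ C) (S : Set (E d)) : UB n (μ.restrict S) C :=
  ⟨h.1, fun x r hr => (Measure.restrict_apply_le _ _).trans (h.2 x r hr)⟩

theorem UB.of_le (h : UB n μ C) (hν : ν ≤ μ) : UB n ν C :=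
  ⟨h.1, fun x r hr => (hν _).trans (h.2 x r hr)⟩

theorem UB.isFiniteMeasure (h : UB n ν C) (hb : ∃ R0, ν (closedBall 0 R0)ᶜ = 0) :
    IsFiniteMeasure ν := by
  obtain ⟨R0, hR0⟩ := hb
  refine ⟨?_⟩
  have h1 : ν univ ≤ ν (closedBall 0 R0) + ν (closedBall 0 R0)ᶜ := by
    rw [← union_compl_self (closedBall (0 : E d) R0)]; exact measure_union_le _ _
  rw [hR0, add_zero] at h1
  exact h1.trans_lt (h.closedBall_lt_top 0 R0)

theorem UB.isLocallyFinite (h : UB n ν C) : IsLocallyFiniteMeasure ν :=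
  ⟨fun x => ⟨Metric.ball x 1, ball_mem_nhds x one_pos, h.ball_lt_top x 1⟩⟩

theorem UB.sigmaFinite (h : UB n ν C) : SigmaFinite ν := by
  have := h.isLocallyFinite
  infer_instance

theorem measurable_wt : Measurable (fun p : E d × E d => wt n p.1 p.2) := by
  unfold wt; fun_prop

theorem measurable_wt_right (x : E d) : Measurable (fun y : E d => wt n x y) := by
  unfold wt; fun_prop

theorem wt_nonneg (x y : E d) : 0 ≤ wt n x y := by unfold wt; positivity

theorem wt_comm (x y : E d) : wt n x y = wt n y x := by unfold wt; rw [norm_sub_rev]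

theorem UB.near_lintegral (h : UB n ν C) (x : E d) {ρ : ℝ} (hρ : 0 < ρ) :
    ∫⁻ y in closedBall x ρ, ENNReal.ofReal (‖x - y‖ ^ 2 * wt n x y) ∂ν ≤
      ENNReal.ofReal (2 ^ (n + 3) * C * ρ) := by
  have h1 := lintegral_near_le h x (ρ := 2 * ρ) (by positivity)
  have h2 : ∫⁻ y in closedBall x ρ, ENNReal.ofReal (‖x - y‖ ^ 2 * wt n x y) ∂ν ≤
      ∫⁻ w in {w | 0 < ‖x - w‖ ∧ ‖x - w‖ < 2 * ρ},
        ENNReal.ofReal (‖x - w‖ ^ 2 * (‖x - w‖ ^ (n + 1))⁻¹) ∂ν := by
    have hm1 : MeasurableSet {w : E d | 0 < ‖x - w‖} :=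
      measurableSet_lt measurable_const (by fun_prop)
    have hm2 : MeasurableSet {w : E d | ‖x - w‖ < 2 * ρ} :=
      measurableSet_lt (by fun_prop) measurable_const
    have hm : MeasurableSet {w : E d | 0 < ‖x - w‖ ∧ ‖x - w‖ < 2 * ρ} := hm1.inter hm2
    rw [← lintegral_indicator measurableSet_closedBall, ← lintegral_indicator hm]
    refine lintegral_mono fun y => ?_
    by_cases hy : y ∈ closedBall x ρ
    · rw [indicator_of_mem hy]
      rw [mem_closedBall, dist_comm, dist_eq_norm] at hy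
      by_cases h0 : 0 < ‖x - y‖
      · rw [indicator_of_mem (show y ∈ {w : E d | 0 < ‖x - w‖ ∧ ‖x - w‖ < 2 * ρ} from
          ⟨h0, by linarith⟩)]
        exact le_rfl
      · have : ‖x - y‖ = 0 := le_antisymm (not_lt.mp h0) (norm_nonneg _)
        rw [this]; simp
    · rw [indicator_of_notMem hy]; exact zero_le
  refine h2.trans (h1.trans (ENNReal.ofReal_le_ofReal (le_of_eq ?_)))
  ring

theorem UB.near (h : UB n ν C) (x : E d) {ρ : ℝ} (hρ : 0 < ρ) :
    IntegrableOn (fun y => ‖x - y‖ ^ 2 * wt n x y) (closedBall x ρ) ν ∧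
      ∫ y in closedBall x ρ, ‖x - y‖ ^ 2 * wt n x y ∂ν ≤ 2 ^ (n + 3) * C * ρ := by
  have hC := h.1
  have h1 := h.near_lintegral x hρ
  have hm : Measurable (fun y => ‖x - y‖ ^ 2 * wt n x y) := by unfold wt; fun_prop
  have h0 : ∀ y, 0 ≤ ‖x - y‖ ^ 2 * wt n x y := fun y => mul_nonneg (by positivity) (wt_nonneg _ _)
  constructor
  · refine ⟨hm.aestronglyMeasurable, ?_⟩
    rw [hasFiniteIntegral_iff_ofReal (Eventually.of_forall h0)]
    exact h1.trans_lt ENNReal.ofReal_lt_top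
  · rw [integral_eq_lintegral_of_nonneg_ae (Eventually.of_forall h0) hm.aestronglyMeasurable]
    refine ENNReal.toReal_le_of_le_ofReal (by positivity) h1

theorem UB.tail_lintegral (h : UB n ν C) (x : E d) {s : ℝ} (hs : 0 < s) :
    ∫⁻ y in (Metric.ball x s)ᶜ, ENNReal.ofReal (wt n x y) ∂ν ≤ ENNReal.ofReal (2 ^ (n + 1) * C / s) := by
  have h1 := lintegral_tail_le h x hs
  have h2 : (Metric.ball x s)ᶜ = {w | s ≤ ‖x - w‖} := by
    ext w; rw [mem_compl_iff, mem_ball, dist_comm, dist_eq_norm, not_lt]; rfl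
  rw [h2]
  refine h1.trans (ENNReal.ofReal_le_ofReal (le_of_eq ?_))
  ring

theorem UB.tail (h : UB n ν C) (x : E d) {s : ℝ} (hs : 0 < s) :
    IntegrableOn (fun y => wt n x y) (Metric.ball x s)ᶜ ν ∧
      ∫ y in (Metric.ball x s)ᶜ, wt n x y ∂ν ≤ 2 ^ (n + 1) * C / s := by
  have hC := h.1
  have h1 := h.tail_lintegral x hs
  have hm : Measurable (fun y => wt n x y) := measurable_wt_right x
  have h0 : ∀ y, 0 ≤ wt n x y := fun y => wt_nonneg _ _
  constructor
  · refine ⟨hm.aestronglyMeasurable, ?_⟩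
    rw [hasFiniteIntegral_iff_ofReal (Eventually.of_forall h0)]
    exact h1.trans_lt ENNReal.ofReal_lt_top
  · rw [integral_eq_lintegral_of_nonneg_ae (Eventually.of_forall h0) hm.aestronglyMeasurable]
    refine ENNReal.toReal_le_of_le_ofReal (by positivity) h1

theorem LBloc.mono {x : E d} {R R' : ℝ} (h : LBloc n ν c x R) (hR : R' ≤ R) :
    LBloc n ν c x R' :=
  fun y hy hyR r hr hrR => h y hy (hyR.trans hR) r hr (hrR.trans hR)

theorem LBloc.shift {x x' : E d} {R R' : ℝ} (h : LBloc n ν c x R) (hR : ‖x' - x‖ + R' ≤ R) :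
    LBloc n ν c x' R' := by
  intro y hy hyR r hr hrR
  refine h y hy ?_ r hr ?_
  · have := norm_sub_le_norm_sub_add_norm_sub y x' x
    linarith
  · have := norm_nonneg (x' - x)
    linarith

theorem mem_support_iff' {p : E d} : p ∈ μ.support ↔ ∀ r > 0, 0 < μ (ball p r) := by
  rw [Measure.mem_support_iff_forall]
  constructor
  · intro h r hr
    exact h _ (ball_mem_nhds p hr)
  · intro h U hU
    obtain ⟨r, hr, hrU⟩ := Metric.mem_nhds_iff.mp hU
    exact (h r hr).trans_le (measure_mono hrU)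

theorem mem_support_of_restrict {S : Set (E d)} {p : E d} (hp : p ∈ (μ.restrict S).support) :
    p ∈ μ.support := by
  rw [mem_support_iff'] at hp ⊢
  intro r hr
  exact (hp r hr).trans_le (Measure.restrict_apply_le _ _)

theorem mem_support_restrict {x0 p : E d} (hp : p ∈ μ.support) (hpD : ‖p - x0‖ < D) :
    p ∈ (μ.restrict (closedBall x0 D)).support := by
  rw [mem_support_iff'] at hp ⊢
  intro r hr
  set r' := min r (D - ‖p - x0‖) with hr'
  have hr'0 : 0 < r' := lt_min hr (by linarith)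
  have hsub : ball p r' ⊆ closedBall x0 D := by
    intro y hy
    rw [mem_ball, dist_eq_norm] at hy
    rw [mem_closedBall, dist_eq_norm]
    have h1 := norm_sub_le_norm_sub_add_norm_sub y p x0
    have h2 : r' ≤ D - ‖p - x0‖ := min_le_right _ _
    linarith
  have h1 : (μ.restrict (closedBall x0 D)) (ball p r') = μ (ball p r') := by
    rw [Measure.restrict_apply measurableSet_ball, inter_eq_left.mpr hsub]
  calc 0 < μ (ball p r') := hp r' hr'0
    _ = (μ.restrict (closedBall x0 D)) (ball p r') := h1.symm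
    _ ≤ _ := measure_mono (ball_subset_ball (min_le_left _ _))

theorem LBloc.of_LB (hL : LB n μ c D) {x0 p : E d} {R : ℝ} (hR : ‖p - x0‖ + 2 * R ≤ D) :
    LBloc n (μ.restrict (closedBall x0 D)) c p R := by
  intro y hy hyR r hr hrR
  have hpx := norm_nonneg (p - x0)
  have hsub : ball y r ⊆ closedBall x0 D := by
    intro z hz
    rw [mem_ball, dist_eq_norm] at hz
    rw [mem_closedBall, dist_eq_norm]
    have h1 := norm_sub_le_norm_sub_add_norm_sub z y x0
    have h2 := norm_sub_le_norm_sub_add_norm_sub y p x0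
    linarith
  rw [Measure.restrict_apply measurableSet_ball, inter_eq_left.mpr hsub]
  exact hL.2.2 y (mem_support_of_restrict hy) r hr (by linarith)

theorem Lip.continuous {ψ : E d → ℝ} (h : Lip ψ) : Continuous ψ := by
  obtain ⟨K, hK⟩ := h
  exact hK.continuous

theorem Lip.add {ψ φ : E d → ℝ} (h : Lip ψ) (h' : Lip φ) : Lip (fun y => ψ y + φ y) := by
  obtain ⟨K, hK⟩ := h
  obtain ⟨K', hK'⟩ := h'
  exact ⟨K + K', hK.add hK'⟩

theorem Lip.const_mul {ψ : E d → ℝ} (a : ℝ) (h : Lip ψ) : Lip (fun y => a * ψ y) := by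
  obtain ⟨K, hK⟩ := h
  refine ⟨‖a‖₊ * K, ?_⟩
  refine LipschitzWith.of_dist_le_mul fun x y => ?_
  rw [Real.dist_eq, ← mul_sub, abs_mul, NNReal.coe_mul, coe_nnnorm, Real.norm_eq_abs, mul_assoc]
  gcongr
  rw [← Real.dist_eq]
  exact hK.dist_le_mul x y

theorem Lip.mul {ψ φ : E d → ℝ} (h : Lip ψ) (h' : Lip φ) (hb : ∃ B, ∀ y, |ψ y| ≤ B)
    (hb' : ∃ B, ∀ y, |φ y| ≤ B) : Lip (fun y => ψ y * φ y) := by
  obtain ⟨K, hK⟩ := h
  obtain ⟨K', hK'⟩ := h'
  obtain ⟨B, hB⟩ := hb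
  obtain ⟨B', hB'⟩ := hb'
  have hB0 : 0 ≤ B := (abs_nonneg _).trans (hB 0)
  have hB0' : 0 ≤ B' := (abs_nonneg _).trans (hB' 0)
  refine ⟨B.toNNReal * K' + B'.toNNReal * K, ?_⟩
  refine LipschitzWith.of_dist_le_mul fun x y => ?_
  have h1 := hK.dist_le_mul x y
  have h2 := hK'.dist_le_mul x y
  rw [Real.dist_eq] at h1 h2 ⊢
  have e : ψ x * φ x - ψ y * φ y = ψ x * (φ x - φ y) + φ y * (ψ x - ψ y) := by ring
  rw [e]
  refine (abs_add_le _ _).trans ?_
  rw [abs_mul, abs_mul, NNReal.coe_add, NNReal.coe_mul, NNReal.coe_mul, Real.coe_toNNReal _ hB0,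
    Real.coe_toNNReal _ hB0', add_mul]
  have h3 : |ψ x| * |φ x - φ y| ≤ B * (K' * dist x y) :=
    mul_le_mul (hB x) h2 (abs_nonneg _) hB0
  have h4 : |φ y| * |ψ x - ψ y| ≤ B' * (K * dist x y) :=
    mul_le_mul (hB' y) h1 (abs_nonneg _) hB0'
  linarith only [h3, h4]

/-- The function `|x-y|^2 wt` is integrable on `ν × ν` for bounded supports. -/
theorem near_prod_integrable (hU : UB n ν C) (hb : ∃ R0, ν (closedBall 0 R0)ᶜ = 0) :
    Integrable (fun p : E d × E d => ‖p.1 - p.2‖ ^ 2 * wt n p.1 p.2) (ν.prod ν) := by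
  have := hU.isFiniteMeasure hb
  have hC := hU.1
  obtain ⟨R0, hR0⟩ := hb
  set R := max R0 1 with hR
  have hR1 : 0 < R := lt_of_lt_of_le one_pos (le_max_right _ _)
  have hnull : ν (closedBall 0 R)ᶜ = 0 := by
    refine measure_mono_null ?_ hR0
    exact compl_subset_compl.mpr (closedBall_subset_closedBall (le_max_left _ _))
  have hm : Measurable (fun p : E d × E d => ‖p.1 - p.2‖ ^ 2 * wt n p.1 p.2) := by
    unfold wt; fun_prop
  refine ⟨hm.aestronglyMeasurable, ?_⟩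
  rw [hasFiniteIntegral_iff_ofReal (Eventually.of_forall fun p =>
    mul_nonneg (by positivity) (wt_nonneg _ _))]
  rw [lintegral_prod _ hm.ennreal_ofReal.aemeasurable]
  have h1 : ∀ᵐ x ∂ν, ∫⁻ y, ENNReal.ofReal (‖x - y‖ ^ 2 * wt n x y) ∂ν ≤
      ENNReal.ofReal (2 ^ (n + 3) * C * (2 * R)) := by
    have h2 : ∀ᵐ x ∂ν, x ∈ closedBall (0 : E d) R := by
      rw [ae_iff]; exact hnull
    filter_upwards [h2] with x hx
    have h3 : ∫⁻ y, ENNReal.ofReal (‖x - y‖ ^ 2 * wt n x y) ∂ν =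
        ∫⁻ y in closedBall x (2 * R), ENNReal.ofReal (‖x - y‖ ^ 2 * wt n x y) ∂ν := by
      rw [Measure.restrict_eq_self_of_ae_mem]
      filter_upwards [h2] with y hy
      rw [mem_closedBall, dist_eq_norm] at hx hy ⊢
      rw [sub_zero] at hx hy
      have := norm_sub_le y x
      linarith
    rw [h3]
    exact hU.near_lintegral x (by positivity)
  calc ∫⁻ x, ∫⁻ y, ENNReal.ofReal (‖x - y‖ ^ 2 * wt n x y) ∂ν ∂ν
      ≤ ∫⁻ _, ENNReal.ofReal (2 ^ (n + 3) * C * (2 * R)) ∂ν := lintegral_mono_ae h1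
    _ = ENNReal.ofReal (2 ^ (n + 3) * C * (2 * R)) * ν univ := by rw [lintegral_const]
    _ < ⊤ := ENNReal.mul_lt_top ENNReal.ofReal_lt_top (measure_lt_top _ _)

theorem En_integrable (hU : UB n ν C) (hb : ∃ R0, ν (closedBall 0 R0)ᶜ = 0) {ψ φ : E d → ℝ}
    (hψ : Lip ψ) (hφ : Lip φ) :
    Integrable (fun p : E d × E d => (ψ p.1 - ψ p.2) * (φ p.1 - φ p.2) * wt n p.1 p.2)
      (ν.prod ν) := by
  have hc1 := hψ.continuous
  have hc2 := hφ.continuous
  obtain ⟨K, hK⟩ := hψ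
  obtain ⟨K', hK'⟩ := hφ
  refine ((near_prod_integrable hU hb).const_mul ((K : ℝ) * K')).mono' ?_ ?_
  · refine Measurable.aestronglyMeasurable ?_
    have h0 := measurable_wt (d := d) (n := n)
    have h1 : Measurable (fun p : E d × E d => ψ p.1 - ψ p.2) :=
      (hc1.measurable.comp measurable_fst).sub (hc1.measurable.comp measurable_snd)
    have h2 : Measurable (fun p : E d × E d => φ p.1 - φ p.2) :=
      (hc2.measurable.comp measurable_fst).sub (hc2.measurable.comp measurable_snd)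
    exact (h1.mul h2).mul h0
  · refine Eventually.of_forall fun p => ?_
    have h1 := hK.dist_le_mul p.1 p.2
    have h2 := hK'.dist_le_mul p.1 p.2
    rw [Real.dist_eq, dist_eq_norm] at h1 h2
    rw [Real.norm_eq_abs, abs_mul, abs_mul, abs_of_nonneg (wt_nonneg (n := n) p.1 p.2)]
    have hw := wt_nonneg (n := n) p.1 p.2
    calc |ψ p.1 - ψ p.2| * |φ p.1 - φ p.2| * wt n p.1 p.2
        ≤ (K * ‖p.1 - p.2‖) * (K' * ‖p.1 - p.2‖) * wt n p.1 p.2 := by gcongr
      _ = K * K' * (‖p.1 - p.2‖ ^ 2 * wt n p.1 p.2) := by ring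

theorem En_integrable_sq (hU : UB n ν C) (hb : ∃ R0, ν (closedBall 0 R0)ᶜ = 0) {ψ : E d → ℝ}
    (hψ : Lip ψ) :
    Integrable (fun p : E d × E d => (ψ p.1 - ψ p.2) ^ 2 * wt n p.1 p.2) (ν.prod ν) := by
  refine (En_integrable hU hb hψ hψ).congr (Eventually.of_forall fun p => ?_)
  simp only [sq]

theorem BF_integrable (hU : UB n ν C) (hb : ∃ R0, ν (closedBall 0 R0)ᶜ = 0) {ψ : E d → ℝ}
    (hψ : Lip ψ) : Integrable (fun p : E d × E d => (ψ p.1 - ψ p.2) • rieszKernel n (p.1 - p.2))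
      (ν.prod ν) := by
  have hc1 := hψ.continuous
  obtain ⟨K, hK⟩ := hψ
  refine ((near_prod_integrable hU hb).const_mul (K : ℝ)).mono' ?_ ?_
  · have h1 : Measurable (fun p : E d × E d => rieszKernel n (p.1 - p.2)) :=
      measurable_rieszKernel.comp (by fun_prop)
    have h2 : Measurable (fun p : E d × E d => ψ p.1 - ψ p.2) :=
      (hc1.measurable.comp measurable_fst).sub (hc1.measurable.comp measurable_snd)
    exact (h2.smul h1).aestronglyMeasurable
  · refine Eventually.of_forall fun p => ?_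
    have h1 := hK.dist_le_mul p.1 p.2
    rw [Real.dist_eq, dist_eq_norm] at h1
    rw [norm_smul, Real.norm_eq_abs]
    have h2 : ‖rieszKernel n (p.1 - p.2)‖ = ‖p.1 - p.2‖ * wt n p.1 p.2 := by
      unfold rieszKernel wt
      rw [norm_smul, norm_inv, norm_pow, norm_norm, mul_comm]
    rw [h2]
    have hw := wt_nonneg (n := n) p.1 p.2
    calc |ψ p.1 - ψ p.2| * (‖p.1 - p.2‖ * wt n p.1 p.2)
        ≤ (K * ‖p.1 - p.2‖) * (‖p.1 - p.2‖ * wt n p.1 p.2) := by gcongr
      _ = K * (‖p.1 - p.2‖ ^ 2 * wt n p.1 p.2) := by ring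

theorem BF_add (hU : UB n ν C) (hb : ∃ R0, ν (closedBall 0 R0)ᶜ = 0) {ψ φ : E d → ℝ}
    (hψ : Lip ψ) (hφ : Lip φ) : BF n ν (fun y => ψ y + φ y) = BF n ν ψ + BF n ν φ := by
  unfold BF
  rw [← smul_add, ← integral_add (BF_integrable hU hb hψ) (BF_integrable hU hb hφ)]
  congr 1
  refine integral_congr_ae (Eventually.of_forall fun p => ?_)
  simp only
  rw [← add_smul]
  congr 1
  ring

theorem BF_smul (a : ℝ) (ψ : E d → ℝ) : BF n ν (fun y => a * ψ y) = a • BF n ν ψ := by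
  unfold BF
  have h1 : (fun p : E d × E d => (a * ψ p.1 - a * ψ p.2) • rieszKernel n (p.1 - p.2)) =
      fun p => a • ((ψ p.1 - ψ p.2) • rieszKernel n (p.1 - p.2)) := by
    funext p
    rw [smul_smul, mul_sub]
  rw [h1, integral_smul, smul_comm]

theorem BF_zero : BF n ν (fun _ => 0) = 0 := by
  unfold BF; simp

theorem Lip.zero : Lip (fun _ : E d => (0 : ℝ)) := ⟨0, LipschitzWith.const 0⟩

theorem Lip.sum {ι : Type*} (I : Finset ι) (a : ι → ℝ) {ψ : ι → E d → ℝ}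
    (hψ : ∀ i ∈ I, Lip (ψ i)) : Lip (fun y => ∑ i ∈ I, a i * ψ i y) := by
  classical
  induction I using Finset.induction_on with
  | empty => simpa using Lip.zero
  | insert i I hi ih =>
    simp_rw [Finset.sum_insert hi]
    exact ((hψ i (Finset.mem_insert_self i I)).const_mul (a i)).add
      (ih fun j hj => hψ j (Finset.mem_insert_of_mem hj))

theorem BF_sum (hU : UB n ν C) (hb : ∃ R0, ν (closedBall 0 R0)ᶜ = 0) {ι : Type*} (I : Finset ι)
    (a : ι → ℝ) {ψ : ι → E d → ℝ} (hψ : ∀ i ∈ I, Lip (ψ i)) :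
    BF n ν (fun y => ∑ i ∈ I, a i * ψ i y) = ∑ i ∈ I, a i • BF n ν (ψ i) := by
  classical
  induction I using Finset.induction_on with
  | empty => simpa using BF_zero
  | insert i I hi ih =>
    simp_rw [Finset.sum_insert hi]
    have hI : ∀ j ∈ I, Lip (ψ j) := fun j hj => hψ j (Finset.mem_insert_of_mem hj)
    rw [BF_add hU hb ((hψ i (Finset.mem_insert_self i I)).const_mul (a i)) (Lip.sum I a hI),
      ih hI, BF_smul]

theorem En_nonneg (ψ : E d → ℝ) : 0 ≤ En n ν ψ :=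
  integral_nonneg fun _ => mul_nonneg (sq_nonneg _) (wt_nonneg _ _)

theorem En_smul (a : ℝ) (ψ : E d → ℝ) : En n ν (fun y => a * ψ y) = a ^ 2 * En n ν ψ := by
  unfold En
  rw [← integral_const_mul]
  congr 1
  ext1 p
  ring

theorem En_add_le (hU : UB n ν C) (hb : ∃ R0, ν (closedBall 0 R0)ᶜ = 0) {ψ φ : E d → ℝ}
    (hψ : Lip ψ) (hφ : Lip φ) :
    En n ν (fun y => ψ y + φ y) ≤ 2 * En n ν ψ + 2 * En n ν φ := by
  unfold En
  rw [← integral_const_mul, ← integral_const_mul, ← integral_add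
    ((En_integrable_sq hU hb hψ).const_mul 2) ((En_integrable_sq hU hb hφ).const_mul 2)]
  have hi1 := En_integrable_sq hU hb (hψ.add hφ)
  have hi2 := ((En_integrable_sq hU hb hψ).const_mul 2).add
    ((En_integrable_sq hU hb hφ).const_mul 2)
  refine integral_mono hi1 hi2 ?_
  intro p
  simp only
  have hw := wt_nonneg (n := n) p.1 p.2
  have h1 : (ψ p.1 + φ p.1 - (ψ p.2 + φ p.2)) ^ 2 ≤
      2 * (ψ p.1 - ψ p.2) ^ 2 + 2 * (φ p.1 - φ p.2) ^ 2 := by
    nlinarith [sq_nonneg (ψ p.1 - ψ p.2 - (φ p.1 - φ p.2))]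
  calc (ψ p.1 + φ p.1 - (ψ p.2 + φ p.2)) ^ 2 * wt n p.1 p.2
      ≤ (2 * (ψ p.1 - ψ p.2) ^ 2 + 2 * (φ p.1 - φ p.2) ^ 2) * wt n p.1 p.2 := by gcongr
    _ = _ := by ring

/-- Cauchy-Schwarz for the form. -/
theorem form_cauchy (hU : UB n ν C) (hb : ∃ R0, ν (closedBall 0 R0)ᶜ = 0) {ψ φ : E d → ℝ}
    (hψ : Lip ψ) (hφ : Lip φ) :
    |∫ p : E d × E d, (ψ p.1 - ψ p.2) * (φ p.1 - φ p.2) * wt n p.1 p.2 ∂(ν.prod ν)| ≤
      Real.sqrt (En n ν ψ) * Real.sqrt (En n ν φ) := by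
  set B : ℝ := ∫ p : E d × E d, (ψ p.1 - ψ p.2) * (φ p.1 - φ p.2) * wt n p.1 p.2 ∂(ν.prod ν)
    with hB
  have hψ2 := En_integrable_sq hU hb hψ
  have hφ2 := En_integrable_sq hU hb hφ
  have hψφ := En_integrable hU hb hψ hφ
  have key : ∀ t : ℝ, 0 ≤ En n ν φ * (t * t) + (2 * B) * t + En n ν ψ := by
    intro t
    have h1 : En n ν φ * (t * t) + (2 * B) * t + En n ν ψ =
        ∫ p : E d × E d, ((ψ p.1 - ψ p.2) + t * (φ p.1 - φ p.2)) ^ 2 * wt n p.1 p.2
          ∂(ν.prod ν) := by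
      have h2 : (fun p : E d × E d => ((ψ p.1 - ψ p.2) + t * (φ p.1 - φ p.2)) ^ 2 *
          wt n p.1 p.2) = fun p => (t * t) * ((φ p.1 - φ p.2) ^ 2 * wt n p.1 p.2) +
          (2 * t) * ((ψ p.1 - ψ p.2) * (φ p.1 - φ p.2) * wt n p.1 p.2) +
          (ψ p.1 - ψ p.2) ^ 2 * wt n p.1 p.2 := by
        ext1 p; ring
      have hi1 : Integrable (fun p : E d × E d => (t * t) * ((φ p.1 - φ p.2) ^ 2 *
        wt n p.1 p.2)) (ν.prod ν) := hφ2.const_mul _
      have hi2 : Integrable (fun p : E d × E d => (2 * t) * ((ψ p.1 - ψ p.2) *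
        (φ p.1 - φ p.2) * wt n p.1 p.2)) (ν.prod ν) := hψφ.const_mul _
      have hi12 : Integrable (fun p : E d × E d => (t * t) * ((φ p.1 - φ p.2) ^ 2 *
        wt n p.1 p.2) + (2 * t) * ((ψ p.1 - ψ p.2) *
        (φ p.1 - φ p.2) * wt n p.1 p.2)) (ν.prod ν) := hi1.add hi2
      rw [h2, integral_add hi12 hψ2, integral_add hi1 hi2, integral_const_mul,
        integral_const_mul]
      unfold En
      rw [← hB]
      ring
    rw [h1]
    exact integral_nonneg fun _ => mul_nonneg (sq_nonneg _) (wt_nonneg _ _)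
  have hdisc := discrim_le_zero key
  unfold discrim at hdisc
  have h3 : B ^ 2 ≤ En n ν ψ * En n ν φ := by linarith only [hdisc]
  have h4 : |B| = Real.sqrt (B ^ 2) := (Real.sqrt_sq_eq_abs B).symm
  rw [h4, ← Real.sqrt_mul (En_nonneg _)]
  exact Real.sqrt_le_sqrt h3

theorem adjU_U (U : E n →ₗᵢ[ℝ] E d) (v : E n) : adjU U (U v) = v := by
  refine ext_inner_left ℝ fun w => ?_
  unfold adjU
  rw [ContinuousLinearMap.adjoint_inner_right]
  exact U.inner_map_map w v

theorem inner_adjU (U : E n →ₗᵢ[ℝ] E d) (v : E n) (y : E d) : ⟪v, adjU U y⟫ = ⟪U v, y⟫ := by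
  unfold adjU
  rw [ContinuousLinearMap.adjoint_inner_right]
  rfl

theorem norm_adjU_le (U : E n →ₗᵢ[ℝ] E d) (y : E d) : ‖adjU U y‖ ≤ ‖y‖ := by
  have h1 : ‖adjU U y‖ ^ 2 = ⟪U (adjU U y), y⟫ := by
    rw [← inner_adjU, real_inner_self_eq_norm_sq]
  have h2 : ⟪U (adjU U y), y⟫ ≤ ‖U (adjU U y)‖ * ‖y‖ := real_inner_le_norm _ _
  rw [U.norm_map] at h2
  have h3 := norm_nonneg (adjU U y)
  have h4 := norm_nonneg y
  by_contra hcon
  push Not at hcon
  nlinarith only [h1, h2, h4, hcon]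

theorem hgt_sub (U : E n →ₗᵢ[ℝ] E d) (M : E n →L[ℝ] E d) (b x y : E d) :
    hgt U M b x - hgt U M b y = (x - y) - U (adjU U (x - y)) - M (adjU U (x - y)) := by
  unfold hgt
  rw [map_sub, map_sub, map_sub]
  abel

/-- The projection onto the orthogonal complement of the range. -/
theorem norm_sub_proj_le (U : E n →ₗᵢ[ℝ] E d) (y : E d) :
    ‖y - U (adjU U y)‖ ^ 2 + ‖adjU U y‖ ^ 2 = ‖y‖ ^ 2 := by
  have h1 : ⟪U (adjU U y), y - U (adjU U y)⟫ = 0 := by
    rw [inner_sub_right, ← inner_adjU, ← inner_adjU, adjU_U, sub_self]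
  have h2 : ‖y‖ ^ 2 = ‖(y - U (adjU U y)) + U (adjU U y)‖ ^ 2 := by rw [sub_add_cancel]
  rw [h2, @norm_add_sq_real, real_inner_comm, h1, U.norm_map]
  ring

theorem key_norm (U : E n →ₗᵢ[ℝ] E d) {M : E n →L[ℝ] E d} (hM : ‖M‖ ≤ 1) (y : E d) :
    ‖y - U (adjU U y) - M (adjU U y)‖ ≤ 2 * ‖y‖ := by
  have h1 := norm_sub_proj_le U y
  have h2 : ‖y - U (adjU U y)‖ ≤ ‖y‖ := by
    have h3 := norm_nonneg (y - U (adjU U y))
    have h4 := norm_nonneg y
    by_contra hcon
    push Not at hcon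
    nlinarith only [sq_nonneg ‖adjU U y‖, h1, h4, hcon]
  have h5 : ‖M (adjU U y)‖ ≤ ‖y‖ := by
    calc ‖M (adjU U y)‖ ≤ ‖M‖ * ‖adjU U y‖ := M.le_opNorm _
      _ ≤ 1 * ‖y‖ := by
          gcongr
          exact norm_adjU_le U y
      _ = ‖y‖ := one_mul _
  calc ‖y - U (adjU U y) - M (adjU U y)‖ ≤ ‖y - U (adjU U y)‖ + ‖M (adjU U y)‖ := norm_sub_le _ _
    _ ≤ 2 * ‖y‖ := by linarith

theorem norm_hgt_sub_le (U : E n →ₗᵢ[ℝ] E d) {M : E n →L[ℝ] E d} (hM : ‖M‖ ≤ 1) (b x y : E d) :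
    ‖hgt U M b x - hgt U M b y‖ ≤ 2 * ‖x - y‖ := by
  rw [hgt_sub]; exact key_norm U hM _

theorem Perp.inner_hgt {U : E n →ₗᵢ[ℝ] E d} {M : E n →L[ℝ] E d} {b : E d} (h : Perp U M b)
    (v : E n) (y : E d) : ⟪U v, hgt U M b y⟫ = 0 := by
  unfold hgt
  rw [inner_sub_right, inner_sub_right, inner_sub_right, h.1, h.2, ← inner_adjU, ← inner_adjU,
    adjU_U]
  ring

theorem Perp.adj_hgt {U : E n →ₗᵢ[ℝ] E d} {M : E n →L[ℝ] E d} {b : E d} (h : Perp U M b)
    (y : E d) : adjU U (hgt U M b y) = 0 := by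
  refine ext_inner_left ℝ fun w => ?_
  rw [inner_adjU, h.inner_hgt, inner_zero_right]

theorem continuous_hgt (U : E n →ₗᵢ[ℝ] E d) (M : E n →L[ℝ] E d) (b : E d) :
    Continuous (hgt U M b) := by
  unfold hgt
  have h1 : Continuous U := U.continuous
  fun_prop

/-- The key identity: the heights solve the equation with right hand side `BF`. -/
theorem key_identity (hU : UB n ν C) (hb : ∃ R0, ν (closedBall 0 R0)ᶜ = 0) (U : E n →ₗᵢ[ℝ] E d)
    (M : E n →L[ℝ] E d) (b : E d) {ψ : E d → ℝ} (hψ : Lip ψ) :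
    (1 / 2 : ℝ) • ∫ p : E d × E d, ((ψ p.1 - ψ p.2) * wt n p.1 p.2) •
        (hgt U M b p.1 - hgt U M b p.2) ∂(ν.prod ν) =
      BF n ν ψ - U (adjU U (BF n ν ψ)) - M (adjU U (BF n ν ψ)) := by
  set A : E d →L[ℝ] E d := ContinuousLinearMap.id ℝ (E d) -
    U.toContinuousLinearMap.comp (adjU U) - M.comp (adjU U) with hA
  have hA' : ∀ y, A y = y - U (adjU U y) - M (adjU U y) := fun y => rfl
  have h1 : (fun p : E d × E d => ((ψ p.1 - ψ p.2) * wt n p.1 p.2) •
      (hgt U M b p.1 - hgt U M b p.2)) =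
      fun p => A ((ψ p.1 - ψ p.2) • rieszKernel n (p.1 - p.2)) := by
    ext1 p
    rw [hgt_sub, ← hA', map_smul]
    unfold rieszKernel wt
    rw [map_smul, smul_smul]
  rw [h1, ← hA', ContinuousLinearMap.integral_comp_comm A (BF_integrable hU hb hψ)]
  unfold BF
  rw [map_smul]

theorem EnLe.mono {Lam Lam' a a' s s' : ℝ} {x : E d} (h : EnLe n ν Lam x s a)
    (hLam : Lam' * s' ≤ Lam * s) (ha : a * s ^ (n + 1) ≤ a' * s' ^ (n + 1)) :
    EnLe n ν Lam' x s' a' := by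
  intro ψ hψ hs h0
  refine (h ψ hψ (fun y hy => hs y (hLam.trans_lt hy)) h0).trans ?_
  exact mul_le_mul_of_nonneg_right ha (En_nonneg _)

theorem Growth.mono_eps {x : E d} {s : ℝ} {U : E n →ₗᵢ[ℝ] E d} {M : E n →L[ℝ] E d} {b : E d}
    {ε ε' : ℝ} (hs : 0 < s) (hε : 0 ≤ ε) (hεε' : ε ≤ ε') (h : Growth n ν x s U M b ε) :
    Growth n ν x s U M b ε' := by
  intro t ht
  refine (h t ht).trans ?_
  have : 0 < t := hs.trans_le ht
  gcongr

/-- Pointwise bound in `lintegral` form: integral over the second variable. -/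
theorem energy_inner_le (hU : UB n ν C) {ψ : E d → ℝ} {K : ℝ≥0} (hψ : LipschitzWith K ψ)
    {x : E d} {r : ℝ} (hr : 0 < r) (hs : ∀ y, r < ‖y - x‖ → ψ y = 0) (a : E d)
    (ha : ‖a - x‖ ≤ r) :
    ∫⁻ b, ENNReal.ofReal ((ψ a - ψ b) ^ 2 * wt n a b) ∂ν ≤
      ENNReal.ofReal (2 ^ (n + 5) * C * K ^ 2 * r) := by
  have hC := hU.1
  have hcψ := hψ.continuous
  have hm : Measurable (fun b => ENNReal.ofReal ((ψ a - ψ b) ^ 2 * wt n a b)) := by
    have h0 := measurable_wt_right (n := n) a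
    have h1 : Measurable (fun b : E d => (ψ a - ψ b) ^ 2) :=
      (measurable_const.sub hcψ.measurable).pow_const 2
    exact (h1.mul h0).ennreal_ofReal
  rw [← lintegral_add_compl _ (measurableSet_closedBall (x := a) (ε := 2 * r))]
  have h1 : ∫⁻ b in closedBall a (2 * r), ENNReal.ofReal ((ψ a - ψ b) ^ 2 * wt n a b) ∂ν ≤
      ENNReal.ofReal ((K : ℝ) ^ 2 * (2 ^ (n + 3) * C * (2 * r))) := by
    have h2 : ∀ b, ENNReal.ofReal ((ψ a - ψ b) ^ 2 * wt n a b) ≤
        ENNReal.ofReal ((K : ℝ) ^ 2) * ENNReal.ofReal (‖a - b‖ ^ 2 * wt n a b) := by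
      intro b
      rw [← ENNReal.ofReal_mul (by positivity)]
      apply ENNReal.ofReal_le_ofReal
      have h3 := hψ.dist_le_mul a b
      rw [Real.dist_eq, dist_eq_norm] at h3
      have hw := wt_nonneg (n := n) a b
      calc (ψ a - ψ b) ^ 2 * wt n a b = |ψ a - ψ b| ^ 2 * wt n a b := by rw [sq_abs]
        _ ≤ (K * ‖a - b‖) ^ 2 * wt n a b := by gcongr
        _ = _ := by ring
    calc ∫⁻ b in closedBall a (2 * r), ENNReal.ofReal ((ψ a - ψ b) ^ 2 * wt n a b) ∂ν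
        ≤ ∫⁻ b in closedBall a (2 * r),
          ENNReal.ofReal ((K : ℝ) ^ 2) * ENNReal.ofReal (‖a - b‖ ^ 2 * wt n a b) ∂ν :=
          lintegral_mono fun b => h2 b
      _ = ENNReal.ofReal ((K : ℝ) ^ 2) * ∫⁻ b in closedBall a (2 * r),
          ENNReal.ofReal (‖a - b‖ ^ 2 * wt n a b) ∂ν := by
          rw [lintegral_const_mul']
          exact ENNReal.ofReal_ne_top
      _ ≤ ENNReal.ofReal ((K : ℝ) ^ 2) * ENNReal.ofReal (2 ^ (n + 3) * C * (2 * r)) := by
          gcongr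
          exact hU.near_lintegral a (by positivity)
      _ = _ := by rw [← ENNReal.ofReal_mul (by positivity)]
  have h4 : ∫⁻ b in (closedBall a (2 * r))ᶜ, ENNReal.ofReal ((ψ a - ψ b) ^ 2 * wt n a b) ∂ν ≤
      ENNReal.ofReal ((2 * K * r) ^ 2 * (2 ^ (n + 1) * C / (2 * r))) := by
    have h5 : ∀ b ∈ (closedBall a (2 * r))ᶜ, ENNReal.ofReal ((ψ a - ψ b) ^ 2 * wt n a b) ≤
        ENNReal.ofReal ((2 * K * r) ^ 2) * ENNReal.ofReal (wt n a b) := by
      intro b hb
      rw [mem_compl_iff, mem_closedBall, not_le, dist_comm, dist_eq_norm] at hb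
      rw [← ENNReal.ofReal_mul (by positivity)]
      apply ENNReal.ofReal_le_ofReal
      have hw := wt_nonneg (n := n) a b
      have hb0 : ψ b = 0 := by
        apply hs
        have h6 := norm_sub_le_norm_sub_add_norm_sub a x b
        rw [norm_sub_rev x b] at h6
        linarith
      have ha0 : |ψ a| ≤ 2 * K * r := by
        -- for all `t ∈ (2r, |a-b|]`, `|ψ a| ≤ K t`
        have h7 : ∀ t, 2 * r < t → t ≤ ‖a - b‖ → |ψ a| ≤ K * t := by
          intro t ht1 ht2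
          have ht0 : 0 < t := by linarith
          have hab : 0 < ‖a - b‖ := by linarith
          set a' := a + (t / ‖a - b‖) • (b - a) with ha'
          have h8 : ‖a' - a‖ = t := by
            rw [ha', add_sub_cancel_left, norm_smul, Real.norm_eq_abs,
              abs_of_nonneg (by positivity), norm_sub_rev b a]
            field_simp
          have h9 : ψ a' = 0 := by
            apply hs
            have h10 := norm_sub_le_norm_sub_add_norm_sub a' x a
            rw [h8, norm_sub_rev x a] at h10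
            linarith
          have h11 := hψ.dist_le_mul a a'
          rw [Real.dist_eq, h9, sub_zero, dist_comm, dist_eq_norm, h8] at h11
          exact h11
        have h12 : ∀ᶠ t in 𝓝[>] (2 * r), |ψ a| ≤ K * t := by
          have h13 : Ioc (2 * r) ‖a - b‖ ∈ 𝓝[>] (2 * r) := Ioc_mem_nhdsGT hb
          filter_upwards [h13] with t ht
          exact h7 t ht.1 ht.2
        have h14 : Tendsto (fun t : ℝ => (K : ℝ) * t) (𝓝[>] (2 * r)) (𝓝 (K * (2 * r))) :=
          ((continuous_const.mul continuous_id).tendsto _).mono_left nhdsWithin_le_nhds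
        have h15 := ge_of_tendsto h14 h12
        linarith
      calc (ψ a - ψ b) ^ 2 * wt n a b = |ψ a| ^ 2 * wt n a b := by rw [hb0, sub_zero, sq_abs]
        _ ≤ (2 * K * r) ^ 2 * wt n a b := by gcongr
    calc ∫⁻ b in (closedBall a (2 * r))ᶜ, ENNReal.ofReal ((ψ a - ψ b) ^ 2 * wt n a b) ∂ν
        ≤ ∫⁻ b in (closedBall a (2 * r))ᶜ,
          ENNReal.ofReal ((2 * K * r) ^ 2) * ENNReal.ofReal (wt n a b) ∂ν :=
          setLIntegral_mono' measurableSet_closedBall.compl h5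
      _ ≤ ∫⁻ b in (ball a (2 * r))ᶜ,
          ENNReal.ofReal ((2 * K * r) ^ 2) * ENNReal.ofReal (wt n a b) ∂ν :=
          lintegral_mono_set (compl_subset_compl.mpr ball_subset_closedBall)
      _ = ENNReal.ofReal ((2 * K * r) ^ 2) * ∫⁻ b in (ball a (2 * r))ᶜ,
          ENNReal.ofReal (wt n a b) ∂ν := by
          rw [lintegral_const_mul']
          exact ENNReal.ofReal_ne_top
      _ ≤ ENNReal.ofReal ((2 * K * r) ^ 2) * ENNReal.ofReal (2 ^ (n + 1) * C / (2 * r)) := by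
          gcongr
          exact hU.tail_lintegral a (by positivity)
      _ = _ := by rw [← ENNReal.ofReal_mul (by positivity)]
  refine (add_le_add h1 h4).trans ?_
  rw [← ENNReal.ofReal_add (by positivity) (by positivity)]
  apply ENNReal.ofReal_le_ofReal
  have e1 : (2 * (K : ℝ) * r) ^ 2 * (2 ^ (n + 1) * C / (2 * r)) =
      2 ^ (n + 2) * C * K ^ 2 * r := by
    field_simp; ring
  rw [e1]
  have h0 : 0 ≤ C * (K : ℝ) ^ 2 * r := by positivity
  have h2n : (0 : ℝ) < 2 ^ n := by positivity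
  have e2 : (2 : ℝ) ^ (n + 5) * C * K ^ 2 * r - ((K : ℝ) ^ 2 * (2 ^ (n + 3) * C * (2 * r)) +
      2 ^ (n + 2) * C * K ^ 2 * r) = 12 * 2 ^ n * (C * (K : ℝ) ^ 2 * r) := by ring
  have h3 : 0 ≤ 12 * 2 ^ n * (C * (K : ℝ) ^ 2 * r) := by positivity
  linarith

/-- Energy of a Lipschitz function supported in a ball. -/
theorem En_le_of_lipschitz (hU : UB n ν C) (hb : ∃ R0, ν (closedBall 0 R0)ᶜ = 0) {ψ : E d → ℝ}
    {K : ℝ≥0} (hψ : LipschitzWith K ψ) {x : E d} {r : ℝ} (hr : 0 < r)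
    (hs : ∀ y, r < ‖y - x‖ → ψ y = 0) :
    En n ν ψ ≤ 4 ^ (n + 6) * C ^ 2 * K ^ 2 * r ^ (n + 1) := by
  have hfin := hU.isFiniteMeasure hb
  have hC := hU.1
  have hcψ := hψ.continuous
  set G : E d × E d → ℝ≥0∞ := fun p => ENNReal.ofReal ((ψ p.1 - ψ p.2) ^ 2 * wt n p.1 p.2)
    with hG
  have hGm : Measurable G := by
    have := measurable_wt (d := d) (n := n)
    fun_prop
  have hsym : ∀ a b, G (a, b) = G (b, a) := by
    intro a b
    simp only [hG]
    rw [wt_comm a b]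
    congr 2
    ring
  set B := closedBall x r with hB
  have hBm : MeasurableSet B := measurableSet_closedBall
  have hmain : ∫⁻ p in B ×ˢ univ, G p ∂(ν.prod ν) ≤
      ENNReal.ofReal (C * r ^ n * (2 ^ (n + 5) * C * K ^ 2 * r)) := by
    rw [← Measure.prod_restrict, lintegral_prod _ hGm.aemeasurable, Measure.restrict_univ]
    calc ∫⁻ a in B, ∫⁻ b, G (a, b) ∂ν ∂ν
        ≤ ∫⁻ _ in B, ENNReal.ofReal (2 ^ (n + 5) * C * K ^ 2 * r) ∂ν := by
          refine setLIntegral_mono' hBm fun a ha => ?_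
          refine energy_inner_le hU hψ hr hs a ?_
          rwa [hB, mem_closedBall, dist_eq_norm] at ha
      _ = ENNReal.ofReal (2 ^ (n + 5) * C * K ^ 2 * r) * ν B := by
          rw [lintegral_const, Measure.restrict_apply_univ]
      _ ≤ ENNReal.ofReal (2 ^ (n + 5) * C * K ^ 2 * r) * ENNReal.ofReal (C * r ^ n) := by
          gcongr
          exact hU.2 x r hr
      _ = _ := by
          rw [← ENNReal.ofReal_mul (by positivity)]
          congr 1
          ring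
  have hmain2 : ∫⁻ p in univ ×ˢ B, G p ∂(ν.prod ν) ≤
      ENNReal.ofReal (C * r ^ n * (2 ^ (n + 5) * C * K ^ 2 * r)) := by
    refine le_trans (le_of_eq ?_) hmain
    rw [← Measure.prod_restrict, ← Measure.prod_restrict, Measure.restrict_univ,
      lintegral_prod _ hGm.aemeasurable, lintegral_prod_symm _ hGm.aemeasurable]
    refine lintegral_congr fun a => lintegral_congr fun b => ?_
    exact hsym _ _
  have hsplit : ∫⁻ p, G p ∂(ν.prod ν) ≤
      ∫⁻ p in B ×ˢ univ, G p ∂(ν.prod ν) + ∫⁻ p in univ ×ˢ B, G p ∂(ν.prod ν) := by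
    have h1 : ∫⁻ p, G p ∂(ν.prod ν) = ∫⁻ p in (B ×ˢ univ ∪ univ ×ˢ B), G p ∂(ν.prod ν) := by
      rw [← lintegral_indicator ((hBm.prod MeasurableSet.univ).union
        (MeasurableSet.univ.prod hBm))]
      refine lintegral_congr fun p => ?_
      by_cases hp : p ∈ (B ×ˢ univ ∪ univ ×ˢ B : Set (E d × E d))
      · rw [indicator_of_mem hp]
      · rw [indicator_of_notMem hp]
        simp only [mem_union, mem_prod, mem_univ, and_true, true_and, not_or, hB,
          mem_closedBall, dist_eq_norm, not_le] at hp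
        simp only [hG, hs _ hp.1, hs _ hp.2]
        simp
    rw [h1]
    exact lintegral_union_le _ _ _
  have htot : ∫⁻ p, G p ∂(ν.prod ν) ≤
      ENNReal.ofReal (2 * (C * r ^ n * (2 ^ (n + 5) * C * K ^ 2 * r))) := by
    refine hsplit.trans ((add_le_add hmain hmain2).trans ?_)
    rw [← ENNReal.ofReal_add (by positivity) (by positivity)]
    apply ENNReal.ofReal_le_ofReal
    linarith
  have h2 : En n ν ψ ≤ 2 * (C * r ^ n * (2 ^ (n + 5) * C * K ^ 2 * r)) := by
    unfold En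
    rw [integral_eq_lintegral_of_nonneg_ae
      (Eventually.of_forall fun _ => mul_nonneg (sq_nonneg _) (wt_nonneg _ _))
      (En_integrable_sq hU hb ⟨K, hψ⟩).aestronglyMeasurable]
    exact ENNReal.toReal_le_of_le_ofReal (by positivity) htot
  refine h2.trans ?_
  have h3 : (2 : ℝ) ^ (n + 6) ≤ 4 ^ (n + 6) := by gcongr; norm_num
  calc 2 * (C * r ^ n * (2 ^ (n + 5) * C * K ^ 2 * r))
      = 2 ^ (n + 6) * (C ^ 2 * K ^ 2 * r ^ (n + 1)) := by ring
    _ ≤ 4 ^ (n + 6) * (C ^ 2 * K ^ 2 * r ^ (n + 1)) := by gcongr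
    _ = _ := by ring

end Vale.Agent.P120
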