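import Vale.Agent.Lib.P120.Tail

/-!
Definitions for the complete solution of P120 (David-Semmes problem in all codimensions).
See `blueprint/P120.md`.
-/

open MeasureTheory Filter Set Metric Module
open scoped Topology ENNReal NNReal RealInnerProductSpace

namespace Vale.Agent.P120

variable {d n : ℕ}

/-- The symmetric weight `|x - y|^{-(n+1)}`. -/
noncomputable def wt (n : ℕ) (x y : E d) : ℝ := (‖x - y‖ ^ (n + 1))⁻¹

/-- The form `BF n ν ψ = (1/2) ∬ (ψ x - ψ y) K(x - y) dν(x) dν(y)`. -/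
noncomputable def BF (n : ℕ) (ν : Measure (E d)) (ψ : E d → ℝ) : E d :=
  (1 / 2 : ℝ) • ∫ p : E d × E d, (ψ p.1 - ψ p.2) • rieszKernel n (p.1 - p.2) ∂(ν.prod ν)

/-- The energy `En n ν ψ = ∬ (ψ x - ψ y)^2 |x - y|^{-(n+1)} dν(x) dν(y)`. -/
noncomputable def En (n : ℕ) (ν : Measure (E d)) (ψ : E d → ℝ) : ℝ :=
  ∫ p : E d × E d, (ψ p.1 - ψ p.2) ^ 2 * wt n p.1 p.2 ∂(ν.prod ν)

/-- Lipschitz functions (some constant). -/
def Lip (ψ : E d → ℝ) : Prop := ∃ K : ℝ≥0, LipschitzWith K ψ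

/-- Lower regularity at the points of the support in `closedBall x R`, radii at most `R`. -/
def LBloc (n : ℕ) (ν : Measure (E d)) (c : ℝ) (x : E d) (R : ℝ) : Prop :=
  ∀ y ∈ ν.support, ‖y - x‖ ≤ R → ∀ r : ℝ, 0 < r → r ≤ R → ENNReal.ofReal (c * r ^ n) ≤ ν (ball y r)

/-- Testing bound: consequence of `L²` boundedness of the Riesz transform. -/
def TB (n : ℕ) (μ : Measure (E d)) (CT : ℝ) : Prop :=
  0 ≤ CT ∧ ∀ (z : E d) (r : ℝ), 0 < r → ∀ ψ : E d → ℝ, Lip ψ →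
    ‖BF n (μ.restrict (closedBall z r)) ψ‖ ^ 2 ≤
      CT * r ^ n * ∫ y in closedBall z r, ψ y ^ 2 ∂μ

/-- The adjoint of a linear isometric embedding (the coordinates of the orthogonal projection). -/
noncomputable def adjU (U : E n →ₗᵢ[ℝ] E d) : E d →L[ℝ] E n :=
  ContinuousLinearMap.adjoint U.toContinuousLinearMap

/-- Height over the `n`-plane `{b + U v + M v}` (`M`, `b` with values in `(range U)ᗮ`):
`hgt U M b y = y - b - (U + M) (U* y)`. -/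
noncomputable def hgt (U : E n →ₗᵢ[ℝ] E d) (M : E n →L[ℝ] E d) (b : E d) (y : E d) : E d :=
  y - b - U (adjU U y) - M (adjU U y)

/-- `M`, `b` have values in `(range U)ᗮ`. -/
def Perp (U : E n →ₗᵢ[ℝ] E d) (M : E n →L[ℝ] E d) (b : E d) : Prop :=
  (∀ v w, ⟪U v, M w⟫ = 0) ∧ ∀ v, ⟪U v, b⟫ = 0

/-- Growth condition of the heights at all scales `t ≥ s` around `x`. -/
def Growth (n : ℕ) (ν : Measure (E d)) (x : E d) (s : ℝ) (U : E n →ₗᵢ[ℝ] E d)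
    (M : E n →L[ℝ] E d) (b : E d) (ε : ℝ) : Prop :=
  ∀ t : ℝ, s ≤ t → ∫ y in ball x t, ‖hgt U M b y‖ ^ 2 ∂ν ≤ ε ^ 2 * t ^ (n + 3) / s

/-- The energy at `(x,s)` is at most `a` (`a = e(x,s)`): for Lipschitz mean zero `ψ` supported in
`closedBall x (Λ s)`, `|BF ψ|^2 ≤ a s^(n+1) En ψ`. -/
def EnLe (n : ℕ) (ν : Measure (E d)) (Lam : ℝ) (x : E d) (s a : ℝ) : Prop :=
  ∀ ψ : E d → ℝ, Lip ψ → (∀ y, Lam * s < ‖y - x‖ → ψ y = 0) → ∫ y, ψ y ∂ν = 0 →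
    ‖BF n ν ψ‖ ^ 2 ≤ a * s ^ (n + 1) * En n ν ψ

/-- Lipschitz bump. -/
noncomputable def bmp (x : E d) (s : ℝ) (y : E d) : ℝ := max 0 (1 - ‖y - x‖ / s)


/-- `σ` is the weak limit of `ν k` along the hyperfilter. -/
def IsUL (ν : ℕ → Measure (E d)) (σ : Measure (E d)) : Prop :=
  ∀ f : E d → ℝ, Continuous f → HasCompactSupport f →
    Tendsto (fun k => ∫ y, f y ∂(ν k)) (hyperfilter ℕ : Filter ℕ) (𝓝 (∫ y, f y ∂σ))


/-- Smooth radial cutoff: `1` on `closedBall 0 R`, `0` outside `ball 0 (2R)`. -/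
noncomputable def cut (R : ℝ) (y : E d) : ℝ := max 0 (min 1 (2 - ‖y‖ / R))

/-- The truncated form with smooth cutoffs. -/
noncomputable def BFc (n : ℕ) (σ : Measure (E d)) (R : ℝ) (ψ : E d → ℝ) : E d :=
  (1 / 2 : ℝ) • ∫ p : E d × E d, (cut R p.1 * cut R p.2 * (ψ p.1 - ψ p.2)) •
    rieszKernel n (p.1 - p.2) ∂(σ.prod σ)

/-- Reflectionless measures. -/
def Refl (n : ℕ) (σ : Measure (E d)) : Prop :=
  ∀ ψ : E d → ℝ, Lip ψ → HasCompactSupport ψ → ∫ y, ψ y ∂σ = 0 →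
    Tendsto (fun R : ℝ => BFc n σ R ψ) atTop (𝓝 0)


/-- The symmetrised half-Laplacian on `ℝ^n`. -/
noncomputable def Lop (n : ℕ) (φ : E n → ℝ) (v : E n) : ℝ :=
  ∫ z : E n, (2 * φ v - φ (v + z) - φ (v - z)) * (‖z‖ ^ (n + 1))⁻¹


/-- The one-step property (constants `lam Lam K C1 ε1`). -/
def StepProp (n d : ℕ) (C c lam Lam K C1 ε1 : ℝ) : Prop :=
  ∀ (ν : Measure (E d)), UB n ν C → (∃ R0, ν (closedBall 0 R0)ᶜ = 0) →
    ∀ (p q : E d) (s D : ℝ), q ∈ ν.support → 0 < s → s ≤ D → ‖q - p‖ ≤ s → LBloc n ν c q D →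
    ∀ (U : E n →ₗᵢ[ℝ] E d) (M : E n →L[ℝ] E d) (b : E d) (ε a ε' : ℝ), ‖M‖ ≤ 1 → Perp U M b →
    0 < ε → Growth n ν p s U M b ε → 0 ≤ a → EnLe n ν Lam q (lam * s) a →
    ε / 2 ≤ ε' → K * Real.sqrt (a + s / D) ≤ ε' → ε' ≤ ε1 →
    ∃ (M' : E n →L[ℝ] E d) (b' : E d), Perp U M' b' ∧ ‖M' - M‖ ≤ C1 * ε' ∧
      (∀ y, ‖hgt U M' b' y - hgt U M b y‖ ≤ C1 * ε' * (s + ‖y - q‖)) ∧
      Growth n ν q (lam * s) U M' b' ε'


/-- Finite depth tree of nets. `s_k = s0 * lam^k`. -/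
structure Nets (μ : Measure (E d)) (x0 : E d) (s0 lam : ℝ) (N : ℕ) where
  pts : ℕ → Finset (E d)
  par : ℕ → E d → E d
  root_mem : x0 ∈ pts 0
  mem_supp : ∀ k ≤ N, ∀ p ∈ pts k, p ∈ μ.support ∧ ‖p - x0‖ ≤ 8 * s0
  sep : ∀ k ≤ N, ∀ p ∈ pts k, ∀ q ∈ pts k, p ≠ q → s0 * lam ^ k ≤ ‖p - q‖
  dense : ∀ k ≤ N, ∀ y ∈ μ.support, ‖y - x0‖ ≤ 8 * s0 → ∃ p ∈ pts k, ‖y - p‖ < s0 * lam ^ k
  par_mem : ∀ k < N, ∀ p ∈ pts (k + 1), par k p ∈ pts k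
  par_dist : ∀ k < N, ∀ p ∈ pts (k + 1), ‖p - par k p‖ < s0 * lam ^ k
  par_near : ∀ k < N, ∀ p ∈ pts (k + 1), ∀ q ∈ pts k, ‖p - q‖ < s0 * lam ^ k / 2 → par k p = q

/-- `up par j i p`: for `p` at level `j + i`, its ancestor at level `j`. -/
def up (par : ℕ → E d → E d) (j : ℕ) : ℕ → E d → E d
  | 0, p => p
  | (i + 1), p => up par j i (par (j + i) p)


open Classical in
/-- Leaves (finest points) below the node `(k,p)`. -/
noncomputable def leaves {μ : Measure (E d)} {x0 : E d} {s0 lam : ℝ} {N : ℕ}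
    (T : Nets μ x0 s0 lam N) (k : ℕ) (p : E d) : Finset (E d) :=
  (T.pts N).filter fun x => up T.par k (N - k) x = p


/-- Data of a regime started at the node `(k0,p0)` (levels `k ≥ k0`). `D` = top scale,
`e` = energies. -/
structure Regime {μ : Measure (E d)} {x0 : E d} {s0 lam : ℝ} {N : ℕ} (n : ℕ)
    (ν : Measure (E d)) (T : Nets μ x0 s0 lam N) (C1 ε1 κ : ℝ) (k0 : ℕ) (p0 : E d) where
  U : E n →ₗᵢ[ℝ] E d
  M : ℕ → E d → (E n →L[ℝ] E d)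
  b : ℕ → E d → E d
  ε : ℕ → E d → ℝ
  Act : ℕ → E d → Prop
  act_root : Act k0 p0
  act_level : ∀ k p, Act k p → k0 ≤ k ∧ k ≤ N ∧ p ∈ T.pts k
  act_top : ∀ p, Act k0 p → p = p0
  act_par : ∀ k q, k0 ≤ k → Act (k + 1) q → Act k (T.par k q)
  M_root : M k0 p0 = 0
  ε_nonneg : ∀ k p, 0 ≤ ε k p
  perp : ∀ k p, Act k p → Perp U (M k p) (b k p)
  growth : ∀ k p, Act k p → Growth n ν p (s0 * lam ^ k) U (M k p) (b k p) (ε k p)
  small : ∀ k p, Act k p → ε k p ≤ ε1 ∧ ‖M k p‖ ≤ κ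
  /-- transition to all children whose `ε` is small, active or not -/
  step : ∀ k < N, ∀ q ∈ T.pts (k + 1), Act k (T.par k q) → ε (k + 1) q ≤ ε1 →
    ‖M (k + 1) q - M k (T.par k q)‖ ≤ C1 * ε (k + 1) q ∧
    ∀ y, ‖hgt U (M (k + 1) q) (b (k + 1) q) y - hgt U (M k (T.par k q)) (b k (T.par k q)) y‖ ≤
      C1 * ε (k + 1) q * (s0 * lam ^ k + ‖y - q‖)
  /-- a child is active iff its `ε` and its slope are small -/
  act_iff : ∀ k < N, ∀ q ∈ T.pts (k + 1), Act k (T.par k q) →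
    (Act (k + 1) q ↔ ε (k + 1) q ≤ ε1 ∧ ‖M (k + 1) q‖ ≤ κ)


/-- mass of a node = number of leaves below it -/
noncomputable def mass {μ : Measure (E d)} {x0 : E d} {s0 lam : ℝ} {N : ℕ}
    (T : Nets μ x0 s0 lam N) (k : ℕ) (p : E d) : ℝ := ((leaves T k p).card : ℝ)

/-- total energy of the transitions in a regime -/
noncomputable def regEn {μ : Measure (E d)} {x0 : E d} {s0 lam : ℝ} {N : ℕ}
    (T : Nets μ x0 s0 lam N) (D : ℝ) (e : ℕ → E d → ℝ) (k0 : ℕ) (Act : ℕ → E d → Prop) : ℝ := by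
  classical
  exact ∑ k ∈ Finset.range N, ∑ q ∈ (T.pts (k + 1)).filter (fun q => k0 ≤ k ∧ Act k (T.par k q)),
    (e (k + 1) q + 4 * (s0 * lam ^ k) / D) * mass T (k + 1) q

/-- total mass of the stopped nodes of a regime -/
noncomputable def stopMass {μ : Measure (E d)} {x0 : E d} {s0 lam : ℝ} {N : ℕ}
    (T : Nets μ x0 s0 lam N) (k0 : ℕ) (Act : ℕ → E d → Prop) : ℝ := by
  classical
  exact ∑ k ∈ Finset.range N, ∑ q ∈ (T.pts (k + 1)).filter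
    (fun q => k0 ≤ k ∧ Act k (T.par k q) ∧ ¬ Act (k + 1) q), mass T (k + 1) q


/-- `x` is a leaf, `A` the activity of the regime started at `(k0,p0)`; the regime is never
stopped on the path from `(k0,p0)` to `x`. -/
def NoStop {μ : Measure (E d)} {x0 : E d} {s0 lam : ℝ} {N : ℕ} (T : Nets μ x0 s0 lam N)
    (k0 : ℕ) (Act : ℕ → E d → Prop) (x : E d) : Prop :=
  ∀ k, k0 ≤ k → k ≤ N → Act k (up T.par k (N - k) x)

/-- The covering structure with `j` further regimes below the start node `(k0,p0)`.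
`St` = start nodes, `A k0 p0` = activity of the regime started at `(k0,p0)`, `m0` = maximal
waiting time. -/
def RCov {μ : Measure (E d)} {x0 : E d} {s0 lam : ℝ} {N : ℕ} (T : Nets μ x0 s0 lam N)
    (St : ℕ → E d → Prop) (A : ℕ → E d → ℕ → E d → Prop) (m0 : ℕ) :
    ℕ → ℕ → E d → Finset (E d) → Prop
  | 0, k0, p0, G => ∀ x ∈ G, x ∈ leaves T k0 p0 ∧ (NoStop T k0 (A k0 p0) x ∨
      ∃ k q, k0 ≤ k ∧ k < N ∧ q ∈ T.pts (k + 1) ∧ x ∈ leaves T (k + 1) q ∧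
        A k0 p0 k (T.par k q) ∧ ¬ A k0 p0 (k + 1) q ∧ N ≤ k + 1 + m0)
  | (j + 1), k0, p0, G => ∀ x ∈ G, x ∈ leaves T k0 p0 ∧ (NoStop T k0 (A k0 p0) x ∨
      ∃ k q, k0 ≤ k ∧ k < N ∧ q ∈ T.pts (k + 1) ∧ x ∈ leaves T (k + 1) q ∧
        A k0 p0 k (T.par k q) ∧ ¬ A k0 p0 (k + 1) q ∧ (N ≤ k + 1 + m0 ∨
        ∃ i q', i ≤ m0 ∧ q' ∈ T.pts (k + 1 + i) ∧ up T.par (k + 1) i q' = q ∧ St (k + 1 + i) q' ∧
          x ∈ leaves T (k + 1 + i) q' ∧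
          RCov T St A m0 j (k + 1 + i) q' (G.filter fun z => z ∈ leaves T (k + 1 + i) q')))

/-! ### Blow-up sequences for the decay lemma -/

/-- A blow-up sequence: a sequence of counterexample candidates for the decay lemma. -/
structure BSeq (n d : ℕ) (C c : ℝ) where
  ν : ℕ → Measure (E d)
  ε : ℕ → ℝ
  U : ℕ → (E n →ₗᵢ[ℝ] E d)
  M : ℕ → (E n →L[ℝ] E d)
  b : ℕ → E d
  hU : ∀ k, UB n (ν k) C
  hb : ∀ k, ∃ R0, ν k (closedBall 0 R0)ᶜ = 0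
  h0 : ∀ k, (0 : E d) ∈ (ν k).support
  hε0 : ∀ k, 0 < ε k
  hε : ∀ k : ℕ, ε k ≤ 1 / ((k : ℝ) + 1)
  hL : ∀ k, LBloc n (ν k) c 0 (1 / ε k ^ 2)
  hM : ∀ k, ‖M k‖ ≤ 1
  hP : ∀ k, Perp (U k) (M k) (b k)
  hG : ∀ k, Growth n (ν k) 0 1 (U k) (M k) (b k) (ε k)
  hE : ∀ k : ℕ, EnLe n (ν k) ((k : ℝ) + 1) 0 1 ((ε k / ((k : ℝ) + 1)) ^ 2)

/-- The limit of a blow-up sequence along the hyperfilter. `cl ≤ c0 ≤ cu`. -/
structure BLim {n d : ℕ} {C c : ℝ} (S : BSeq n d C c) (cl cu : ℝ) where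
  Ui : E n →ₗᵢ[ℝ] E d
  Mi : E n →L[ℝ] E d
  V : E n →ₗᵢ[ℝ] E d
  c0 : ℝ
  σ : Measure (E d)
  hcl : cl ≤ c0
  hcu : c0 ≤ cu
  hσ : σ = ENNReal.ofReal c0 • (volume : Measure (E n)).map V
  hUL : IsUL S.ν σ
  tU : Tendsto (fun k => (S.U k).toContinuousLinearMap) (hyperfilter ℕ : Filter ℕ)
    (𝓝 Ui.toContinuousLinearMap)
  tM : Tendsto S.M (hyperfilter ℕ : Filter ℕ) (𝓝 Mi)
  tb : Tendsto S.b (hyperfilter ℕ : Filter ℕ) (𝓝 0)
  hMi : ‖Mi‖ ≤ 1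
  hPi : Perp Ui Mi 0
  hV : ∀ v, V v = Ui (adjU Ui (V v)) + Mi (adjU Ui (V v))
  hflat : ∀ R > 0, ∀ ζ > 0, ∀ᶠ k in (hyperfilter ℕ : Filter ℕ), ∀ y ∈ (S.ν k).support,
    ‖y‖ ≤ R → ‖y - V (adjU V y)‖ ≤ ζ

/-- The normalised heights `u_k = hgt_k / ε_k`. -/
noncomputable def BSeq.u {n d : ℕ} {C c : ℝ} (S : BSeq n d C c) (k : ℕ) (y : E d) : E d :=
  (S.ε k)⁻¹ • hgt (S.U k) (S.M k) (S.b k) y

/-- The limit functional `ell Φ = lim_k ∫ Φ u_k dν_k`. -/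
noncomputable def BSeq.ell {n d : ℕ} {C c : ℝ} (S : BSeq n d C c) (Φ : E d → ℝ) : E d :=
  limUnder (hyperfilter ℕ : Filter ℕ) (fun k => ∫ y, Φ y • S.u k y ∂(S.ν k))

end Vale.Agent.P120
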