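import Vale.Agent.Lib.P120.UR.Base
import Vale.Agent.Lib.P120.Tail

/-!
# The Caccioppoli inequality (P120)
-/

open MeasureTheory Filter Set Metric Module
open scoped Topology ENNReal NNReal RealInnerProductSpace

namespace Vale.Agent.P120

variable {d n : ℕ}

/-! ### Measure theoretic preliminaries -/

theorem cacc_integrable {ν : Measure (E d)} [IsFiniteMeasure ν]
    (hb : ∃ R0, ν (closedBall 0 R0)ᶜ = 0) {g : E d → ℝ} (hg : Continuous g) :
    Integrable g ν := by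
  obtain ⟨R0, hR0⟩ := hb
  obtain ⟨B, hB⟩ :=
    (isCompact_closedBall (0 : E d) R0).exists_bound_of_continuousOn hg.continuousOn
  refine Integrable.of_bound hg.aestronglyMeasurable B ?_
  have h1 : ∀ᵐ x ∂ν, x ∈ closedBall (0 : E d) R0 := by
    rw [ae_iff]
    exact hR0
  filter_upwards [h1] with x hx using hB x hx

/-- Schur type bound. -/
theorem cacc_schur {ν : Measure (E d)} [SFinite ν] {h : E d → ℝ} (hh : Integrable h ν)
    (h0 : ∀ x, 0 ≤ h x) {k : E d × E d → ℝ} (hk : Measurable k) (k0 : ∀ p, 0 ≤ k p) {κ : ℝ}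
    (hκ : 0 ≤ κ) (hb : ∀ x, ∫⁻ y, ENNReal.ofReal (k (x, y)) ∂ν ≤ ENNReal.ofReal κ) :
    Integrable (fun p : E d × E d => h p.1 * k p) (ν.prod ν) ∧
      ∫ p, h p.1 * k p ∂(ν.prod ν) ≤ κ * ∫ x, h x ∂ν := by
  have hmeas : AEStronglyMeasurable (fun p : E d × E d => h p.1 * k p) (ν.prod ν) :=
    hh.aestronglyMeasurable.comp_fst.mul hk.aestronglyMeasurable
  have hlin : ∫⁻ p, ENNReal.ofReal (h p.1 * k p) ∂(ν.prod ν) ≤
      ENNReal.ofReal (κ * ∫ x, h x ∂ν) := by
    calc ∫⁻ p, ENNReal.ofReal (h p.1 * k p) ∂(ν.prod ν)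
        ≤ ∫⁻ x, ∫⁻ y, ENNReal.ofReal (h x * k (x, y)) ∂ν ∂ν :=
          lintegral_prod_le (fun p : E d × E d => ENNReal.ofReal (h p.1 * k p))
      _ = ∫⁻ x, ENNReal.ofReal (h x) * ∫⁻ y, ENNReal.ofReal (k (x, y)) ∂ν ∂ν := by
          refine lintegral_congr fun x => ?_
          simp_rw [ENNReal.ofReal_mul (h0 x)]
          rw [lintegral_const_mul]
          exact (hk.comp (measurable_const.prodMk measurable_id)).ennreal_ofReal
      _ ≤ ∫⁻ x, ENNReal.ofReal (h x) * ENNReal.ofReal κ ∂ν := by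
          gcongr with x
          exact hb x
      _ = ENNReal.ofReal (κ * ∫ x, h x ∂ν) := by
          rw [lintegral_mul_const' _ _ ENNReal.ofReal_ne_top,
            ← ofReal_integral_eq_lintegral_ofReal hh (ae_of_all _ h0),
            ← ENNReal.ofReal_mul (integral_nonneg h0), mul_comm]
  have hnn : 0 ≤ᵐ[ν.prod ν] fun p : E d × E d => h p.1 * k p :=
    ae_of_all _ fun p => mul_nonneg (h0 _) (k0 _)
  refine ⟨⟨hmeas, ?_⟩, ?_⟩
  · rw [hasFiniteIntegral_iff_ofReal hnn]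
    exact hlin.trans_lt ENNReal.ofReal_lt_top
  · rw [integral_eq_lintegral_of_nonneg_ae hnn hmeas]
    exact ENNReal.toReal_le_of_le_ofReal (mul_nonneg hκ (integral_nonneg h0)) hlin

/-- Tail bound from growth. -/
theorem cacc_tail {ν : Measure (E d)} {g : E d → ℝ} (hgm : Measurable g)
    (hg : Integrable g ν) (g0 : ∀ y, 0 ≤ g y) {A s : ℝ} (hA : 0 ≤ A) (hs : 1 ≤ s)
    (hgr : ∀ t : ℝ, 1 ≤ t → ∫ y in ball (0 : E d) t, g y ∂ν ≤ A * (t ^ (n + 1) * Real.sqrt t)) :
    ∫ y in (ball (0 : E d) s)ᶜ, g y * (‖y‖ ^ (n + 2))⁻¹ ∂ν ≤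
      4 * A * 4 ^ (n + 1) / Real.sqrt s := by
  have hs0 : 0 < s := by linarith
  have hss : 0 < Real.sqrt s := Real.sqrt_pos.2 hs0
  have hsq : Real.sqrt s * Real.sqrt s = s := Real.mul_self_sqrt hs0.le
  set μ' := ν.withDensity (fun y => ENNReal.ofReal (g y)) with hμ'
  have hgE : Measurable (fun y => ENNReal.ofReal (g y)) := hgm.ennreal_ofReal
  have key : ∫⁻ y in (ball (0 : E d) s)ᶜ, ENNReal.ofReal ((‖y‖ ^ (n + 2))⁻¹) ∂μ' ≤
      ENNReal.ofReal (2 * (2 * A * 4 ^ (n + 1) / Real.sqrt s)) := by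
    refine lintegral_annuli_le _ (fun j => {w | 4 ^ j * s ≤ ‖w‖ ∧ ‖w‖ < 4 ^ (j + 1) * s})
      (fun j => ?_) _ ?_ (fun j => ((4 ^ j * s) ^ (n + 2))⁻¹)
      (fun j => A * ((4 ^ (j + 1) * s) ^ (n + 1) * Real.sqrt (4 ^ (j + 1) * s)))
      _ ?_ ?_ ?_ ?_ ?_
    · have h1 : MeasurableSet {w : E d | 4 ^ j * s ≤ ‖w‖} :=
        measurableSet_le measurable_const (by fun_prop)
      have h2 : MeasurableSet {w : E d | ‖w‖ < 4 ^ (j + 1) * s} :=
        measurableSet_lt (by fun_prop) measurable_const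
      exact h1.inter h2
    · intro w hw
      simp only [mem_compl_iff, mem_ball, dist_zero_right, not_lt] at hw
      have h1 : 1 ≤ ‖w‖ / s := by rwa [one_le_div hs0]
      obtain ⟨j, hj1, hj2⟩ := exists_nat_pow_near h1 (by norm_num : (1 : ℝ) < 4)
      rw [mem_iUnion]
      refine ⟨j, ?_, ?_⟩
      · rwa [le_div_iff₀ hs0] at hj1
      · rwa [div_lt_iff₀ hs0] at hj2
    · intro j; positivity
    · positivity
    · intro j w hw
      apply ENNReal.ofReal_le_ofReal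
      have := hw.1
      gcongr
    · intro j
      have h4 : (1 : ℝ) ≤ 4 ^ (j + 1) * s := by
        have : (1 : ℝ) ≤ 4 ^ (j + 1) := one_le_pow₀ (by norm_num)
        nlinarith only [hs, this]
      have hsub : {w : E d | 4 ^ j * s ≤ ‖w‖ ∧ ‖w‖ < 4 ^ (j + 1) * s} ⊆
          ball 0 (4 ^ (j + 1) * s) := by
        intro w hw
        rw [mem_ball, dist_zero_right]
        exact hw.2
      refine (measure_mono hsub).trans ?_
      rw [hμ', withDensity_apply _ measurableSet_ball,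
        ← ofReal_integral_eq_lintegral_ofReal hg.integrableOn (ae_of_all _ g0)]
      exact ENNReal.ofReal_le_ofReal (hgr _ h4)
    · intro j
      apply le_of_eq
      have h2 : (0 : ℝ) < 4 ^ j := by positivity
      have e1 : Real.sqrt (4 ^ (j + 1) * s) = 2 ^ (j + 1) * Real.sqrt s := by
        rw [Real.sqrt_mul (by positivity)]
        congr 1
        rw [show (4 : ℝ) ^ (j + 1) = (2 ^ (j + 1)) ^ 2 by
          rw [← pow_mul, mul_comm, pow_mul]; norm_num]
        exact Real.sqrt_sq (by positivity)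
      rw [e1]
      have e2 : (4 : ℝ) ^ j = 2 ^ j * 2 ^ j := by
        rw [← mul_pow]; norm_num
      have e3 : ((4 : ℝ) ^ (j + 1) * s) ^ (n + 1) = 4 ^ (n + 1) * (4 ^ j * s) ^ (n + 1) := by
        rw [← mul_pow]
        congr 1
        rw [pow_succ]
        ring
      rw [e3]
      have e4 : ((4 ^ j * s) ^ (n + 2))⁻¹ *
          (A * (4 ^ (n + 1) * (4 ^ j * s) ^ (n + 1) * (2 ^ (j + 1) * Real.sqrt s))) =
          A * 4 ^ (n + 1) * (2 ^ (j + 1) * Real.sqrt s) * (4 ^ j * s)⁻¹ := by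
        rw [pow_succ (4 ^ j * s) (n + 1)]
        have : (0 : ℝ) < (4 ^ j * s) ^ (n + 1) := by positivity
        field_simp
      rw [e4, e2]
      have h3 : (0 : ℝ) < 2 ^ j := by positivity
      rw [pow_succ (2 : ℝ) j, one_div, inv_pow]
      have e5 : Real.sqrt s * s⁻¹ = (Real.sqrt s)⁻¹ := by
        rw [← hsq]
        rw [Real.sqrt_mul_self hss.le]
        field_simp
      calc A * 4 ^ (n + 1) * (2 ^ j * 2 * Real.sqrt s) * (2 ^ j * 2 ^ j * s)⁻¹
          = A * 4 ^ (n + 1) * 2 * ((2 ^ j) * (2 ^ j)⁻¹) * (2 ^ j)⁻¹ * (Real.sqrt s * s⁻¹) := by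
            rw [mul_inv, mul_inv]; ring
        _ = _ := by
            rw [mul_inv_cancel₀ h3.ne', e5]
            rw [div_eq_mul_inv]
            ring
  have hnn : 0 ≤ᵐ[ν.restrict (ball (0 : E d) s)ᶜ] fun y => g y * (‖y‖ ^ (n + 2))⁻¹ :=
    ae_of_all _ fun y => mul_nonneg (g0 y) (by positivity)
  rw [integral_eq_lintegral_of_nonneg_ae hnn (by
    apply Measurable.aestronglyMeasurable
    fun_prop)]
  apply ENNReal.toReal_le_of_le_ofReal (by positivity)
  have e6 : ∫⁻ y in (ball (0 : E d) s)ᶜ, ENNReal.ofReal (g y * (‖y‖ ^ (n + 2))⁻¹) ∂ν =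
      ∫⁻ y in (ball (0 : E d) s)ᶜ, ENNReal.ofReal ((‖y‖ ^ (n + 2))⁻¹) ∂μ' := by
    rw [hμ', setLIntegral_withDensity_eq_setLIntegral_mul ν hgE (by fun_prop)
      measurableSet_ball.compl]
    refine lintegral_congr fun y => ?_
    rw [Pi.mul_apply, ← ENNReal.ofReal_mul (g0 y)]
  rw [e6]
  refine key.trans (ENNReal.ofReal_le_ofReal (le_of_eq ?_))
  ring

/-! ### The kernel -/

/-- Majorant of `(φ x - φ y)^2 wt`. -/
noncomputable def cacck (n : ℕ) (R : ℝ) (p : E d × E d) : ℝ :=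
  min 1 (‖p.1 - p.2‖ ^ 2 / R ^ 2) * (‖p.1 - p.2‖ ^ (n + 1))⁻¹

theorem cacck_nonneg (R : ℝ) (p : E d × E d) : 0 ≤ cacck n R p := by
  unfold cacck
  positivity

theorem measurable_cacck (R : ℝ) : Measurable (cacck (d := d) n R) := by
  unfold cacck
  fun_prop

theorem cacck_swap (R : ℝ) (p : E d × E d) : cacck n R p.swap = cacck n R p := by
  unfold cacck
  simp only [Prod.fst_swap, Prod.snd_swap]
  rw [norm_sub_rev]

theorem lintegral_cacck_le {ν : Measure (E d)} {C R : ℝ} (hU : UB n ν C) (hR : 1 ≤ R) (x : E d) :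
    ∫⁻ y, ENNReal.ofReal (cacck n R (x, y)) ∂ν ≤ ENNReal.ofReal (2 ^ (n + 3) * C) := by
  have hR0 : 0 < R := by linarith
  have hC := hU.1
  set N : Set (E d) := {w | 0 < ‖x - w‖ ∧ ‖x - w‖ < R} with hN
  set F : Set (E d) := {w | R ≤ ‖x - w‖} with hF
  have hNm : MeasurableSet N := by
    have h1 : MeasurableSet {w : E d | 0 < ‖x - w‖} :=
      measurableSet_lt measurable_const (by fun_prop)
    have h2 : MeasurableSet {w : E d | ‖x - w‖ < R} :=
      measurableSet_lt (by fun_prop) measurable_const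
    exact h1.inter h2
  have hFm : MeasurableSet F := measurableSet_le measurable_const (by fun_prop)
  have hpt : ∀ y, ENNReal.ofReal (cacck n R (x, y)) ≤
      N.indicator (fun w => ENNReal.ofReal ((R ^ 2)⁻¹) *
        ENNReal.ofReal (‖x - w‖ ^ 2 * (‖x - w‖ ^ (n + 1))⁻¹)) y +
      F.indicator (fun w => ENNReal.ofReal ((‖x - w‖ ^ (n + 1))⁻¹)) y := by
    intro y
    rcases lt_or_ge ‖x - y‖ R with h | h
    · rcases (norm_nonneg (x - y)).eq_or_lt with h0 | h0
      · have : cacck n R (x, y) = 0 := by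
          unfold cacck
          simp [← h0]
        rw [this]
        simp
      · have hy : y ∈ N := ⟨h0, h⟩
        rw [indicator_of_mem hy]
        refine le_trans ?_ le_self_add
        rw [← ENNReal.ofReal_mul (by positivity)]
        apply ENNReal.ofReal_le_ofReal
        unfold cacck
        calc min 1 (‖(x, y).1 - (x, y).2‖ ^ 2 / R ^ 2) * (‖(x, y).1 - (x, y).2‖ ^ (n + 1))⁻¹
            ≤ (‖x - y‖ ^ 2 / R ^ 2) * (‖x - y‖ ^ (n + 1))⁻¹ := by
              apply mul_le_mul_of_nonneg_right (min_le_right _ _)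
              positivity
          _ = _ := by
              rw [div_eq_inv_mul, mul_assoc]
    · have hy : y ∈ F := h
      rw [indicator_of_mem hy]
      refine le_trans ?_ le_add_self
      apply ENNReal.ofReal_le_ofReal
      unfold cacck
      calc min 1 (‖(x, y).1 - (x, y).2‖ ^ 2 / R ^ 2) * (‖(x, y).1 - (x, y).2‖ ^ (n + 1))⁻¹
          ≤ 1 * (‖x - y‖ ^ (n + 1))⁻¹ := by
            apply mul_le_mul_of_nonneg_right (min_le_left _ _)
            positivity
        _ = _ := one_mul _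
  refine (lintegral_mono hpt).trans ?_
  rw [lintegral_add_left (by
    apply Measurable.indicator _ hNm
    fun_prop), lintegral_indicator hNm, lintegral_indicator hFm,
    lintegral_const_mul _ (by fun_prop)]
  calc _ ≤ ENNReal.ofReal ((R ^ 2)⁻¹) * ENNReal.ofReal (2 * (C * 2 ^ (n + 1) * R)) +
        ENNReal.ofReal (2 * (C * 2 ^ n / R)) :=
        add_le_add (mul_le_mul_right (lintegral_near_le hU x hR0) _) (lintegral_tail_le hU x hR0)
    _ = ENNReal.ofReal ((R ^ 2)⁻¹ * (2 * (C * 2 ^ (n + 1) * R)) + 2 * (C * 2 ^ n / R)) := by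
        rw [← ENNReal.ofReal_mul (by positivity), ← ENNReal.ofReal_add (by positivity)
          (by positivity)]
    _ ≤ _ := by
        apply ENNReal.ofReal_le_ofReal
        have e : (R ^ 2)⁻¹ * (2 * (C * 2 ^ (n + 1) * R)) + 2 * (C * 2 ^ n / R) =
            6 * C * 2 ^ n / R := by
          rw [pow_succ (2 : ℝ) n]
          field_simp
          ring
        rw [e, div_le_iff₀ hR0, pow_add]
        have h2 : 0 < C * 2 ^ n := by positivity
        nlinarith only [hR, h2]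

/-- Difference of the weights. -/
theorem cacc_wt_sub_le (x y : E d) (hy : 0 < ‖y‖) (h : 2 * ‖x‖ ≤ ‖y‖) :
    |wt n x y - (‖y‖ ^ (n + 1))⁻¹| ≤ ((n : ℝ) + 1) * 2 ^ (n + 1) * ‖x‖ * (‖y‖ ^ (n + 2))⁻¹ := by
  set a := ‖x - y‖ with ha
  set b := ‖y‖ with hb
  have h1 : b / 2 ≤ a := by
    have := norm_sub_norm_le y x
    rw [norm_sub_rev] at this
    linarith
  have ha0 : 0 < a := by linarith
  have hab : |a - b| ≤ ‖x‖ := by
    rw [abs_sub_le_iff]
    constructor
    · have := norm_sub_le x y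
      linarith
    · have := norm_sub_norm_le y x
      rw [norm_sub_rev] at this
      linarith
  have h2 := abs_pow_sub_pow_le a⁻¹ b⁻¹ (n + 1)
  have hia : a⁻¹ ≤ 2 * b⁻¹ := by
    have : a⁻¹ ≤ (b / 2)⁻¹ := inv_anti₀ (by positivity) h1
    rwa [inv_div, div_eq_mul_inv] at this
  have hib : 0 < b⁻¹ := by positivity
  have hm : max |a⁻¹| |b⁻¹| ≤ 2 * b⁻¹ := by
    rw [abs_of_pos (by positivity), abs_of_pos hib]
    exact max_le hia (by linarith)
  have h3 : |a⁻¹ - b⁻¹| ≤ ‖x‖ * (2 * b⁻¹) * b⁻¹ := by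
    have e : a⁻¹ - b⁻¹ = (b - a) * a⁻¹ * b⁻¹ := by
      field_simp
    rw [e, abs_mul, abs_mul, abs_of_pos (a := a⁻¹) (by positivity), abs_of_pos hib,
      abs_sub_comm]
    gcongr
  have e1 : wt n x y - (b ^ (n + 1))⁻¹ = a⁻¹ ^ (n + 1) - b⁻¹ ^ (n + 1) := by
    unfold wt
    rw [inv_pow, inv_pow]
  rw [e1]
  calc |a⁻¹ ^ (n + 1) - b⁻¹ ^ (n + 1)|
      ≤ |a⁻¹ - b⁻¹| * ((n + 1 : ℕ) : ℝ) * max |a⁻¹| |b⁻¹| ^ (n + 1 - 1) := h2
    _ ≤ (‖x‖ * (2 * b⁻¹) * b⁻¹) * ((n + 1 : ℕ) : ℝ) * (2 * b⁻¹) ^ (n + 1 - 1) := by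
        gcongr
    _ = _ := by
        rw [Nat.add_sub_cancel, mul_pow, inv_pow, pow_add b n 2, mul_inv]
        push_cast
        rw [pow_succ (2 : ℝ) n, ← inv_pow b 2]
        ring

/-! ### The cutoff -/

theorem cacc_cut_nonneg (R : ℝ) (y : E d) : 0 ≤ cut R y := le_max_left _ _

theorem cacc_cut_le_one (R : ℝ) (y : E d) : cut R y ≤ 1 :=
  max_le zero_le_one (min_le_left _ _)

theorem cacc_cut_eq_one {R : ℝ} (hR : 0 < R) {y : E d} (hy : ‖y‖ ≤ R) : cut R y = 1 := by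
  unfold cut
  have : ‖y‖ / R ≤ 1 := (div_le_one hR).2 hy
  rw [min_eq_left (by linarith)]
  exact max_eq_right zero_le_one

theorem cacc_cut_eq_zero {R : ℝ} (hR : 0 < R) {y : E d} (hy : 2 * R ≤ ‖y‖) : cut R y = 0 := by
  unfold cut
  have : 2 ≤ ‖y‖ / R := (le_div_iff₀ hR).2 hy
  exact max_eq_left ((min_le_right _ _).trans (by linarith))

theorem cacc_abs_cut_sub_le {R : ℝ} (hR : 0 < R) (x y : E d) :
    |cut R x - cut R y| ≤ ‖x - y‖ / R := by
  unfold cut
  have h1 : |(2 - ‖x‖ / R) - (2 - ‖y‖ / R)| ≤ ‖x - y‖ / R := by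
    have e : (2 - ‖x‖ / R) - (2 - ‖y‖ / R) = (‖y‖ - ‖x‖) / R := by ring
    rw [e, abs_div, abs_of_pos hR]
    apply div_le_div_of_nonneg_right _ hR.le
    rw [abs_sub_comm]
    exact abs_norm_sub_norm_le x y
  refine le_trans ?_ h1
  have h2 := abs_max_sub_max_le_max (0 : ℝ) (min 1 (2 - ‖x‖ / R)) 0 (min 1 (2 - ‖y‖ / R))
  have h3 := abs_min_sub_min_le_max (1 : ℝ) (2 - ‖x‖ / R) 1 (2 - ‖y‖ / R)
  exact (h2.trans (max_le (by simp) le_rfl)).trans (h3.trans (max_le (by simp) le_rfl))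

theorem cacc_cut_lip {R : ℝ} (hR : 0 < R) : LipschitzWith (Real.toNNReal R⁻¹) (cut (d := d) R) := by
  apply LipschitzWith.of_dist_le_mul
  intro x y
  rw [Real.dist_eq, Real.coe_toNNReal _ (by positivity), dist_eq_norm, ← div_eq_inv_mul]
  exact cacc_abs_cut_sub_le hR x y

theorem cacc_sq_cut_sub_le {R : ℝ} (hR : 0 < R) (x y : E d) :
    (cut R x - cut R y) ^ 2 * wt n x y ≤ cacck n R (x, y) := by
  unfold cacck wt
  apply mul_le_mul_of_nonneg_right _ (by positivity)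
  apply le_min
  · have h1 := cacc_cut_nonneg R x
    have h2 := cacc_cut_nonneg R y
    have h3 := cacc_cut_le_one R x
    have h4 := cacc_cut_le_one R y
    nlinarith only [h1, h2, h3, h4]
  · rw [← div_pow]
    have h1 := cacc_abs_cut_sub_le hR x y
    exact sq_le_sq' (by linarith [neg_abs_le (cut R x - cut R y)])
      ((le_abs_self _).trans h1)

/-! ### Lipschitz functions -/

theorem cacc_lip_cut_mul {R : ℝ} (hR : 0 < R) {g : E d → ℝ} (hg : Lip g) :
    Lip (fun y => cut R y * g y) := by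
  obtain ⟨B, hB⟩ := (isCompact_closedBall (0 : E d) (2 * R)).exists_bound_of_continuousOn
    (Lip.continuous hg).continuousOn
  obtain ⟨K, hK⟩ := hg
  have hB0 : 0 ≤ B := (norm_nonneg _).trans (hB 0 (by simp [hR.le]))
  have h1 : Lip (fun y => max (-B) (min (g y) B)) := ⟨K, (hK.min_const B).const_max (-B)⟩
  have h2 : (fun y => cut R y * g y) = fun y => cut R y * max (-B) (min (g y) B) := by
    funext y
    rcases le_or_gt ‖y‖ (2 * R) with h | h
    · have := hB y (by simpa using h)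
      rw [Real.norm_eq_abs, abs_le] at this
      rw [min_eq_left this.2, max_eq_right this.1]
    · rw [cacc_cut_eq_zero hR h.le, zero_mul, zero_mul]
  rw [h2]
  refine Lip.mul ⟨_, cacc_cut_lip hR⟩ h1 ⟨1, fun y => ?_⟩ ⟨B, fun y => ?_⟩
  · rw [abs_of_nonneg (cacc_cut_nonneg R y)]
    exact cacc_cut_le_one R y
  · rw [abs_le]
    exact ⟨le_max_left _ _, max_le (by linarith) (min_le_right _ _)⟩

/-! ### The cross term -/

/-- constant of the cross term -/
noncomputable def caccK (n : ℕ) (R : ℝ) : ℝ :=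
  ((n : ℝ) + 1) * 2 ^ (n + 1) * (2 * R) * ((2 * R) ^ (n + 1) * Real.sqrt (2 * R)) *
    (4 * 4 ^ (n + 1))

theorem caccK_nonneg {R : ℝ} (hR : 1 ≤ R) : 0 ≤ caccK n R := by
  have : 0 ≤ R := by linarith
  unfold caccK
  positivity

/-- The part with one point far away. -/
theorem cacc_far {ν : Measure (E d)} [IsFiniteMeasure ν] (hb : ∃ R0, ν (closedBall 0 R0)ᶜ = 0)
    {R : ℝ} (hR : 1 ≤ R) {w : E d → ℝ} (hw : Continuous w) {A : ℝ} (hA : 0 ≤ A)
    (hgr : ∀ t : ℝ, 1 ≤ t → ∫ y in ball (0 : E d) t, |w y| ∂ν ≤ A * (t ^ (n + 1) * Real.sqrt t))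
    (h0 : ∫ y, cut R y ^ 2 * w y ∂ν = 0)
    (hF : Integrable (fun p : E d × E d => cut R p.1 ^ 2 * w p.1 *
      ((ball (0 : E d) (4 * R))ᶜ.indicator w p.2) * wt n p.1 p.2) (ν.prod ν)) :
    |∫ p : E d × E d, cut R p.1 ^ 2 * w p.1 *
      ((ball (0 : E d) (4 * R))ᶜ.indicator w p.2) * wt n p.1 p.2 ∂(ν.prod ν)| ≤
      caccK n R * A ^ 2 := by
  have hR0 : 0 < R := by linarith
  set B := ball (0 : E d) (4 * R) with hB
  have hBm : MeasurableSet B := measurableSet_ball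
  set ψ : E d → ℝ := fun y => cut R y ^ 2 * w y with hψ
  set v : E d → ℝ := Bᶜ.indicator w with hv
  have hcut : Continuous (cut (d := d) R) := (cacc_cut_lip hR0).continuous
  have hψc : Continuous ψ := (hcut.pow 2).mul hw
  have hψi : Integrable ψ ν := cacc_integrable hb hψc
  have hwi : Integrable w ν := cacc_integrable hb hw
  have hvi : Integrable v ν := hwi.indicator hBm.compl
  have hfar : ∀ y, v y ≠ 0 → 4 * R ≤ ‖y‖ := by
    intro y hy
    by_contra hcon
    push Not at hcon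
    apply hy
    rw [hv, indicator_of_notMem]
    rw [mem_compl_iff, not_not, hB, mem_ball, dist_zero_right]
    exact hcon
  -- the product part
  have hv1 : Integrable (fun y => v y * (‖y‖ ^ (n + 1))⁻¹) ν := by
    refine hvi.mono (hvi.aestronglyMeasurable.mul
      (by apply Measurable.aestronglyMeasurable; fun_prop)) (ae_of_all _ fun y => ?_)
    rw [norm_mul]
    by_cases hy : v y = 0
    · rw [hy, norm_zero, zero_mul]
    · have h1 := hfar y hy
      have h2 : (1 : ℝ) ≤ ‖y‖ ^ (n + 1) := one_le_pow₀ (by linarith)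
      have h3 : ‖(‖y‖ ^ (n + 1))⁻¹‖ ≤ 1 := by
        rw [Real.norm_eq_abs, abs_of_pos (by positivity)]
        exact inv_le_one_of_one_le₀ h2
      exact mul_le_of_le_one_right (norm_nonneg _) h3
  have hBi : Integrable (fun p : E d × E d => ψ p.1 * (v p.2 * (‖p.2‖ ^ (n + 1))⁻¹))
      (ν.prod ν) := hψi.mul_prod hv1
  have hB0 : ∫ p : E d × E d, ψ p.1 * (v p.2 * (‖p.2‖ ^ (n + 1))⁻¹) ∂(ν.prod ν) = 0 := by
    rw [integral_prod_mul ψ (fun y => v y * (‖y‖ ^ (n + 1))⁻¹), h0, zero_mul]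
  have hAi := hF.sub hBi
  have hAeq : ∀ p : E d × E d, ψ p.1 * v p.2 * wt n p.1 p.2 -
      ψ p.1 * (v p.2 * (‖p.2‖ ^ (n + 1))⁻¹) =
      ψ p.1 * v p.2 * (wt n p.1 p.2 - (‖p.2‖ ^ (n + 1))⁻¹) := fun p => by ring
  have hint : ∫ p : E d × E d, ψ p.1 * v p.2 * wt n p.1 p.2 ∂(ν.prod ν) =
      ∫ p : E d × E d, ψ p.1 * v p.2 * (wt n p.1 p.2 - (‖p.2‖ ^ (n + 1))⁻¹) ∂(ν.prod ν) := by
    have h1 := integral_sub hF hBi
    rw [hB0, sub_zero] at h1
    rw [← h1]
    exact integral_congr_ae (ae_of_all _ fun p => hAeq p)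
  -- the tail
  have hwa : Continuous fun y => |w y| := hw.abs
  have hwai : Integrable (fun y => |w y|) ν := cacc_integrable hb hwa
  have htail : ∫ y, |v y| * (‖y‖ ^ (n + 2))⁻¹ ∂ν ≤ 4 * A * 4 ^ (n + 1) := by
    have h1 := cacc_tail (n := n) (ν := ν) hwa.measurable hwai (fun y => abs_nonneg _) hA
      (by linarith : 1 ≤ 4 * R) hgr
    have h2 : ∫ y, |v y| * (‖y‖ ^ (n + 2))⁻¹ ∂ν =
        ∫ y in Bᶜ, |w y| * (‖y‖ ^ (n + 2))⁻¹ ∂ν := by
      rw [← integral_indicator hBm.compl]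
      refine integral_congr_ae (ae_of_all _ fun y => ?_)
      simp only [hv, indicator]
      split_ifs
      · rfl
      · simp
    rw [h2]
    refine h1.trans ?_
    apply div_le_self (by positivity)
    exact Real.one_le_sqrt.2 (by linarith)
  have hv2 : Integrable (fun y => |v y| * (‖y‖ ^ (n + 2))⁻¹) ν := by
    refine hvi.mono (hvi.abs.aestronglyMeasurable.mul
      (by apply Measurable.aestronglyMeasurable; fun_prop)) (ae_of_all _ fun y => ?_)
    rw [norm_mul, Real.norm_eq_abs, Real.norm_eq_abs, abs_abs]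
    by_cases hy : v y = 0
    · rw [hy, abs_zero, zero_mul, norm_zero]
    · have h1 := hfar y hy
      have h2 : (1 : ℝ) ≤ ‖y‖ ^ (n + 2) := one_le_pow₀ (by linarith)
      have h3 : |(‖y‖ ^ (n + 2))⁻¹| ≤ 1 := by
        rw [abs_of_pos (by positivity)]
        exact inv_le_one_of_one_le₀ h2
      exact mul_le_of_le_one_right (abs_nonneg _) h3
  have hψa : ∫ y, |ψ y| ∂ν ≤ A * ((2 * R) ^ (n + 1) * Real.sqrt (2 * R)) := by
    refine le_trans ?_ (hgr (2 * R) (by linarith))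
    rw [← integral_indicator measurableSet_ball]
    refine integral_mono hψi.abs (hwai.indicator measurableSet_ball) fun y => ?_
    simp only [hψ, indicator]
    split_ifs with h
    · rw [abs_mul, abs_of_nonneg (by positivity : 0 ≤ cut R y ^ 2)]
      have h1 := cacc_cut_nonneg R y
      have h2 := cacc_cut_le_one R y
      have h3 : cut R y ^ 2 ≤ 1 := pow_le_one₀ h1 h2
      exact mul_le_of_le_one_left (abs_nonneg _) h3
    · rw [mem_ball, dist_zero_right, not_lt] at h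
      rw [cacc_cut_eq_zero hR0 h]
      simp
  have hprod : ∫ p : E d × E d, |ψ p.1| * (|v p.2| * (‖p.2‖ ^ (n + 2))⁻¹) ∂(ν.prod ν) =
      (∫ y, |ψ y| ∂ν) * ∫ y, |v y| * (‖y‖ ^ (n + 2))⁻¹ ∂ν :=
    integral_prod_mul (fun y => |ψ y|) (fun y => |v y| * (‖y‖ ^ (n + 2))⁻¹)
  have hprodi : Integrable (fun p : E d × E d => |ψ p.1| * (|v p.2| * (‖p.2‖ ^ (n + 2))⁻¹))
      (ν.prod ν) := hψi.abs.mul_prod hv2
  set κ : ℝ := ((n : ℝ) + 1) * 2 ^ (n + 1) * (2 * R) with hκ
  have hκ0 : 0 ≤ κ := by positivity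
  have hptw : ∀ p : E d × E d, ‖ψ p.1 * v p.2 * (wt n p.1 p.2 - (‖p.2‖ ^ (n + 1))⁻¹)‖ ≤
      κ * (|ψ p.1| * (|v p.2| * (‖p.2‖ ^ (n + 2))⁻¹)) := by
    intro p
    rw [norm_mul, norm_mul, Real.norm_eq_abs, Real.norm_eq_abs, Real.norm_eq_abs]
    by_cases h1 : ψ p.1 = 0
    · rw [h1]; simp
    by_cases h2 : v p.2 = 0
    · rw [h2]; simp
    have h3 := hfar _ h2
    have h4 : ‖p.1‖ ≤ 2 * R := by
      by_contra hcon
      push Not at hcon
      apply h1
      rw [hψ]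
      simp only
      rw [cacc_cut_eq_zero hR0 hcon.le]
      ring
    have h5 := cacc_wt_sub_le (n := n) p.1 p.2 (by linarith) (by linarith)
    have h6 : |wt n p.1 p.2 - (‖p.2‖ ^ (n + 1))⁻¹| ≤ κ * (‖p.2‖ ^ (n + 2))⁻¹ := by
      refine h5.trans ?_
      rw [hκ]
      gcongr
    calc |ψ p.1| * |v p.2| * |wt n p.1 p.2 - (‖p.2‖ ^ (n + 1))⁻¹|
        ≤ |ψ p.1| * |v p.2| * (κ * (‖p.2‖ ^ (n + 2))⁻¹) := by gcongr
      _ = _ := by ring
  calc |∫ p : E d × E d, ψ p.1 * v p.2 * wt n p.1 p.2 ∂(ν.prod ν)|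
      = ‖∫ p : E d × E d, ψ p.1 * v p.2 * (wt n p.1 p.2 - (‖p.2‖ ^ (n + 1))⁻¹) ∂(ν.prod ν)‖ := by
        rw [hint, Real.norm_eq_abs]
    _ ≤ ∫ p : E d × E d, κ * (|ψ p.1| * (|v p.2| * (‖p.2‖ ^ (n + 2))⁻¹)) ∂(ν.prod ν) :=
        norm_integral_le_of_norm_le (hprodi.const_mul κ) (ae_of_all _ hptw)
    _ = κ * ((∫ y, |ψ y| ∂ν) * ∫ y, |v y| * (‖y‖ ^ (n + 2))⁻¹ ∂ν) := by
        rw [integral_const_mul, hprod]
    _ ≤ κ * ((A * ((2 * R) ^ (n + 1) * Real.sqrt (2 * R))) * (4 * A * 4 ^ (n + 1))) := by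
        have h7 : 0 ≤ ∫ y, |v y| * (‖y‖ ^ (n + 2))⁻¹ ∂ν :=
          integral_nonneg fun y => by positivity
        gcongr
    _ = _ := by
        rw [hκ]
        unfold caccK
        ring

/-- The cross term. -/
theorem cacc_cross {ν : Measure (E d)} [IsFiniteMeasure ν] {C : ℝ} (hU : UB n ν C)
    (hb : ∃ R0, ν (closedBall 0 R0)ᶜ = 0)
    {R : ℝ} (hR : 1 ≤ R) {w : E d → ℝ} (hw : Continuous w) {A : ℝ} (hA : 0 ≤ A)
    (hgr : ∀ t : ℝ, 1 ≤ t → ∫ y in ball (0 : E d) t, |w y| ∂ν ≤ A * (t ^ (n + 1) * Real.sqrt t))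
    (h0 : ∫ y, cut R y ^ 2 * w y ∂ν = 0)
    (hF : Integrable (fun p : E d × E d => w p.1 * w p.2 * (cut R p.1 - cut R p.2) ^ 2 *
      wt n p.1 p.2) (ν.prod ν)) :
    |∫ p : E d × E d, w p.1 * w p.2 * (cut R p.1 - cut R p.2) ^ 2 * wt n p.1 p.2 ∂(ν.prod ν)| ≤
      2 ^ (n + 3) * C * ∫ y in ball (0 : E d) (4 * R), w y ^ 2 ∂ν + 2 * (caccK n R * A ^ 2) := by
  have hR0 : 0 < R := by linarith
  have hC := hU.1
  set B := ball (0 : E d) (4 * R) with hB
  have hBm : MeasurableSet B := measurableSet_ball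
  set F : E d × E d → ℝ := fun p => w p.1 * w p.2 * (cut R p.1 - cut R p.2) ^ 2 *
      wt n p.1 p.2 with hFd
  set G : E d × E d → ℝ := fun p => cut R p.1 ^ 2 * w p.1 * (Bᶜ.indicator w p.2) *
      wt n p.1 p.2 with hG
  have hz : ∀ y, y ∉ B → cut R y = 0 := by
    intro y hy
    rw [hB, mem_ball, dist_zero_right, not_lt] at hy
    exact cacc_cut_eq_zero hR0 (by linarith)
  have hGeq : (B ×ˢ Bᶜ).indicator F = G := by
    funext p
    by_cases h1 : p.1 ∈ B
    · by_cases h2 : p.2 ∈ B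
      · rw [indicator_of_notMem (by
          intro h; exact h.2 h2)]
        simp only [hG]
        rw [indicator_of_notMem (by
          intro h; exact h h2)]
        ring
      · rw [indicator_of_mem (show p ∈ B ×ˢ Bᶜ from ⟨h1, h2⟩)]
        simp only [hG, hFd]
        rw [indicator_of_mem (show p.2 ∈ Bᶜ from h2), hz _ h2]
        ring
    · rw [indicator_of_notMem (by
        intro h; exact h1 h.1)]
      simp only [hG]
      rw [hz _ h1]
      ring
  have hGi : Integrable G (ν.prod ν) := by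
    rw [← hGeq]
    exact hF.indicator (hBm.prod hBm.compl)
  have hdec : ∀ p, F p = (B ×ˢ B).indicator F p + G p + G p.swap := by
    intro p
    by_cases h1 : p.1 ∈ B
    · by_cases h2 : p.2 ∈ B
      · rw [indicator_of_mem (show p ∈ B ×ˢ B from ⟨h1, h2⟩)]
        simp only [hG, Prod.fst_swap, Prod.snd_swap]
        rw [indicator_of_notMem (by intro h; exact h h2),
          indicator_of_notMem (by intro h; exact h h1)]
        ring
      · rw [indicator_of_notMem (by intro h; exact h2 h.2)]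
        simp only [hG, hFd, Prod.fst_swap, Prod.snd_swap]
        rw [indicator_of_mem (show p.2 ∈ Bᶜ from h2),
          indicator_of_notMem (by intro h; exact h h1), hz _ h2]
        ring
    · rw [indicator_of_notMem (by intro h; exact h1 h.1)]
      simp only [hG, hFd, Prod.fst_swap, Prod.snd_swap]
      rw [indicator_of_mem (show p.1 ∈ Bᶜ from h1), hz _ h1, wt_comm p.2 p.1]
      ring
  have hFi1 : Integrable ((B ×ˢ B).indicator F) (ν.prod ν) := hF.indicator (hBm.prod hBm)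
  have hGs : Integrable (fun p : E d × E d => G p.swap) (ν.prod ν) := hGi.swap
  have hsum : ∫ p, F p ∂(ν.prod ν) = ∫ p, (B ×ˢ B).indicator F p ∂(ν.prod ν) +
      2 * ∫ p, G p ∂(ν.prod ν) := by
    calc ∫ p, F p ∂(ν.prod ν)
        = ∫ p, ((B ×ˢ B).indicator F p + G p + G p.swap) ∂(ν.prod ν) :=
          integral_congr_ae (ae_of_all _ hdec)
      _ = ∫ p, (B ×ˢ B).indicator F p ∂(ν.prod ν) + ∫ p, G p ∂(ν.prod ν) +
          ∫ p, G p.swap ∂(ν.prod ν) := by
          have e1 : ∫ p, ((B ×ˢ B).indicator F p + G p) ∂(ν.prod ν) =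
              ∫ p, (B ×ˢ B).indicator F p ∂(ν.prod ν) + ∫ p, G p ∂(ν.prod ν) :=
            integral_add hFi1 hGi
          have e2 : ∫ p, ((B ×ˢ B).indicator F p + G p + G p.swap) ∂(ν.prod ν) =
              ∫ p, ((B ×ˢ B).indicator F p + G p) ∂(ν.prod ν) +
                ∫ p, G p.swap ∂(ν.prod ν) := integral_add (hFi1.add hGi) hGs
          rw [e2, e1]
      _ = _ := by
          rw [integral_prod_swap]
          ring
  have hfar := cacc_far (n := n) hb hR hw hA hgr h0 hGi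
  -- the near part
  set h : E d → ℝ := B.indicator fun y => w y ^ 2 with hh
  have hhi : Integrable h ν := (cacc_integrable hb (hw.pow 2)).indicator hBm
  have hh0 : ∀ x, 0 ≤ h x := fun x => indicator_nonneg (fun y _ => sq_nonneg _) x
  obtain ⟨hki, hkle⟩ := cacc_schur (κ := 2 ^ (n + 3) * C) hhi hh0
    (measurable_cacck (n := n) R) (cacck_nonneg R) (by positivity) (lintegral_cacck_le hU hR)
  have hkis : Integrable (fun p : E d × E d => h p.2 * cacck n R p) (ν.prod ν) := by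
    have := hki.swap
    refine this.congr (ae_of_all _ fun p => ?_)
    simp only [Function.comp_apply, Prod.fst_swap, cacck_swap]
  have hks : ∫ p : E d × E d, h p.2 * cacck n R p ∂(ν.prod ν) =
      ∫ p : E d × E d, h p.1 * cacck n R p ∂(ν.prod ν) := by
    rw [← integral_prod_swap]
    refine integral_congr_ae (ae_of_all _ fun p => ?_)
    simp only [Prod.snd_swap, cacck_swap]
  have hptw : ∀ p : E d × E d, ‖(B ×ˢ B).indicator F p‖ ≤
      1 / 2 * (h p.1 * cacck n R p + h p.2 * cacck n R p) := by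
    intro p
    by_cases hp : p ∈ B ×ˢ B
    · rw [indicator_of_mem hp]
      simp only [hFd, hh]
      rw [indicator_of_mem hp.1, indicator_of_mem hp.2]
      have h1 := cacc_sq_cut_sub_le (n := n) hR0 p.1 p.2
      have h2 : 0 ≤ (cut R p.1 - cut R p.2) ^ 2 * wt n p.1 p.2 :=
        mul_nonneg (sq_nonneg _) (wt_nonneg _ _)
      have h3 : 0 ≤ cacck n R (p.1, p.2) := cacck_nonneg R _
      rw [Real.norm_eq_abs, show w p.1 * w p.2 * (cut R p.1 - cut R p.2) ^ 2 * wt n p.1 p.2 =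
        (w p.1 * w p.2) * ((cut R p.1 - cut R p.2) ^ 2 * wt n p.1 p.2) by ring, abs_mul,
        abs_of_nonneg h2]
      have h4 : |w p.1 * w p.2| ≤ 1 / 2 * (w p.1 ^ 2 + w p.2 ^ 2) := by
        rw [abs_le]
        constructor <;> nlinarith only [sq_nonneg (w p.1 - w p.2), sq_nonneg (w p.1 + w p.2)]
      calc |w p.1 * w p.2| * ((cut R p.1 - cut R p.2) ^ 2 * wt n p.1 p.2)
          ≤ (1 / 2 * (w p.1 ^ 2 + w p.2 ^ 2)) * cacck n R (p.1, p.2) := by gcongr
        _ = _ := by ring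
    · rw [indicator_of_notMem hp, norm_zero]
      have h3 : 0 ≤ cacck n R p := cacck_nonneg R _
      have h4 := hh0 p.1
      have h5 := hh0 p.2
      positivity
  have hnear : |∫ p, (B ×ˢ B).indicator F p ∂(ν.prod ν)| ≤
      2 ^ (n + 3) * C * ∫ y in B, w y ^ 2 ∂ν := by
    rw [← Real.norm_eq_abs]
    refine (norm_integral_le_of_norm_le ((hki.add hkis).const_mul (1 / 2))
      (ae_of_all _ hptw)).trans ?_
    rw [integral_const_mul]
    have e1 : ∫ p : E d × E d, ((fun p => h p.1 * cacck n R p) + fun p => h p.2 * cacck n R p) p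
        ∂(ν.prod ν) = ∫ p : E d × E d, h p.1 * cacck n R p ∂(ν.prod ν) +
        ∫ p : E d × E d, h p.2 * cacck n R p ∂(ν.prod ν) := integral_add hki hkis
    rw [e1, hks]
    have e2 : ∫ x, h x ∂ν = ∫ y in B, w y ^ 2 ∂ν := integral_indicator hBm
    rw [e2] at hkle
    linarith
  rw [hsum]
  refine (abs_add_le _ _).trans ?_
  rw [abs_mul, abs_two]
  linarith

/-! ### The scalar inequality -/

/-- constant for the growth of `w` -/
noncomputable def caccG (n : ℕ) (C c R : ℝ) : ℝ := 2 + 2 * C * ((2 * R) ^ (n + 3) / c)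

/-- The final constant. -/
noncomputable def caccC (n : ℕ) (C c R : ℝ) : ℝ :=
  3 * (2 ^ (n + 3) * C * (caccG n C c R * (4 * R) ^ (n + 3))) + 32 +
    4 * (caccK n R * ((C + caccG n C c R) / 2) ^ 2)

theorem caccC_nonneg {C c R : ℝ} (hC : 0 < C) (hc : 0 < c) (hR : 1 ≤ R) :
    0 ≤ caccC n C c R := by
  have h1 : 0 < R := by linarith
  have h2 := caccK_nonneg (n := n) hR
  unfold caccC caccG
  positivity

theorem caccG_nonneg {C c R : ℝ} (hC : 0 < C) (hc : 0 < c) (hR : 1 ≤ R) :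
    0 ≤ caccG n C c R := by
  have : 0 < R := by linarith
  unfold caccG
  positivity

theorem cacc_sq_le_one (R : ℝ) (y : E d) : cut R y ^ 2 ≤ 1 :=
  pow_le_one₀ (cacc_cut_nonneg R y) (cacc_cut_le_one R y)

/-- The mean of `f`. -/
theorem cacc_mean {c R : ℝ} (hc : 0 < c) (hR : 1 ≤ R) {ν : Measure (E d)} [IsFiniteMeasure ν]
    (hb : ∃ R0, ν (closedBall 0 R0)ᶜ = 0) (hmass : ENNReal.ofReal c ≤ ν (ball 0 1))
    {f : E d → ℝ} (hfc : Continuous f) {ε : ℝ}
    (hgr : ∀ t : ℝ, 1 ≤ t → ∫ y in ball (0 : E d) t, f y ^ 2 ∂ν ≤ ε ^ 2 * t ^ (n + 3)) :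
    ∃ m : ℝ, ∫ y, cut R y ^ 2 * (f y - m) ∂ν = 0 ∧ m ^ 2 * c ≤ ε ^ 2 * (2 * R) ^ (n + 3) := by
  have hR0 : 0 < R := by linarith
  have hcut : Continuous (cut (d := d) R) := (cacc_cut_lip hR0).continuous
  set φ : E d → ℝ := cut R with hφ
  have hφsq : ∀ y, φ y ^ 2 ≤ 1 := cacc_sq_le_one R
  set I0 := ∫ y, φ y ^ 2 ∂ν with hI0
  set m := (∫ y, φ y ^ 2 * f y ∂ν) / I0 with hm
  have hi0 : Integrable (fun y => φ y ^ 2) ν := cacc_integrable hb (hcut.pow 2)
  have hi1 : Integrable (fun y => φ y ^ 2 * f y) ν := cacc_integrable hb ((hcut.pow 2).mul hfc)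
  have hi2 : Integrable (fun y => φ y ^ 2 * f y ^ 2) ν :=
    cacc_integrable hb ((hcut.pow 2).mul (hfc.pow 2))
  have hf2 : Integrable (fun y => f y ^ 2) ν := cacc_integrable hb (hfc.pow 2)
  have hI0c : c ≤ I0 := by
    have h1 : c ≤ ν.real (ball 0 1) := by
      rw [Measure.real]
      have := ENNReal.toReal_mono (measure_ne_top ν _) hmass
      rwa [ENNReal.toReal_ofReal hc.le] at this
    refine h1.trans ?_
    have h2 : ν.real (ball (0 : E d) 1) =
        ∫ y, (ball (0 : E d) 1).indicator (fun _ => (1 : ℝ)) y ∂ν := by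
      rw [integral_indicator measurableSet_ball, setIntegral_const]
      simp
    rw [h2]
    refine integral_mono ((integrable_const 1).indicator measurableSet_ball) hi0 fun y => ?_
    simp only [indicator]
    split_ifs with h
    · rw [mem_ball, dist_zero_right] at h
      rw [hφ, cacc_cut_eq_one hR0 (by linarith)]
      norm_num
    · positivity
  have hI0pos : 0 < I0 := by linarith
  have hmI : m * I0 = ∫ y, φ y ^ 2 * f y ∂ν := by
    rw [hm]
    field_simp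
  refine ⟨m, ?_, ?_⟩
  · have e : ∀ y, φ y ^ 2 * (f y - m) = φ y ^ 2 * f y - m * φ y ^ 2 := by
      intro y
      ring
    simp_rw [e]
    rw [integral_sub hi1 (hi0.const_mul m), integral_const_mul, ← hmI]
    ring
  · have h1 : 0 ≤ ∫ y, φ y ^ 2 * (f y - m) ^ 2 ∂ν := integral_nonneg fun y => by positivity
    have e : ∀ y, φ y ^ 2 * (f y - m) ^ 2 = φ y ^ 2 * f y ^ 2 - (2 * m) * (φ y ^ 2 * f y) +
        m ^ 2 * φ y ^ 2 := by
      intro y
      ring
    simp_rw [e] at h1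
    have e1 : ∫ y, (φ y ^ 2 * f y ^ 2 - (2 * m) * (φ y ^ 2 * f y) + m ^ 2 * φ y ^ 2) ∂ν =
        ∫ y, φ y ^ 2 * f y ^ 2 ∂ν - (2 * m) * ∫ y, φ y ^ 2 * f y ∂ν + m ^ 2 * I0 := by
      have a1 : ∫ y, (φ y ^ 2 * f y ^ 2 - (2 * m) * (φ y ^ 2 * f y)) ∂ν =
          ∫ y, φ y ^ 2 * f y ^ 2 ∂ν - ∫ y, (2 * m) * (φ y ^ 2 * f y) ∂ν :=
        integral_sub hi2 (hi1.const_mul _)
      have a2 : ∫ y, (φ y ^ 2 * f y ^ 2 - (2 * m) * (φ y ^ 2 * f y) + m ^ 2 * φ y ^ 2) ∂ν =
          ∫ y, (φ y ^ 2 * f y ^ 2 - (2 * m) * (φ y ^ 2 * f y)) ∂ν +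
            ∫ y, m ^ 2 * φ y ^ 2 ∂ν :=
        integral_add (hi2.sub (hi1.const_mul _)) (hi0.const_mul _)
      rw [a2, a1, integral_const_mul, integral_const_mul]
    rw [e1, ← hmI] at h1
    have h2 : ∫ y, φ y ^ 2 * f y ^ 2 ∂ν ≤ ε ^ 2 * (2 * R) ^ (n + 3) := by
      refine le_trans ?_ (hgr (2 * R) (by linarith))
      rw [← integral_indicator measurableSet_ball]
      refine integral_mono hi2 (hf2.indicator measurableSet_ball) fun y => ?_
      simp only [indicator]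
      split_ifs with h
      · exact mul_le_of_le_one_left (sq_nonneg _) (hφsq y)
      · rw [mem_ball, dist_zero_right, not_lt] at h
        rw [hφ, cacc_cut_eq_zero hR0 h]
        simp
    have h3 : m ^ 2 * c ≤ m ^ 2 * I0 := mul_le_mul_of_nonneg_left hI0c (sq_nonneg m)
    linarith only [h1, h2, h3]

theorem cacc_real_ball {C : ℝ} {ν : Measure (E d)} (hU : UB n ν C) {t : ℝ} (ht : 0 < t) :
    ν.real (ball (0 : E d) t) ≤ C * t ^ n := by
  have hC := hU.1
  rw [Measure.real]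
  exact ENNReal.toReal_le_of_le_ofReal (by positivity) (hU.ball 0 ht)

/-- Growth of `w = f - m`. -/
theorem cacc_growth_sq {C c R : ℝ} (hc : 0 < c) {ν : Measure (E d)}
    [IsFiniteMeasure ν] (hU : UB n ν C) (hb : ∃ R0, ν (closedBall 0 R0)ᶜ = 0)
    {f : E d → ℝ} (hfc : Continuous f) {ε : ℝ}
    (hgr : ∀ t : ℝ, 1 ≤ t → ∫ y in ball (0 : E d) t, f y ^ 2 ∂ν ≤ ε ^ 2 * t ^ (n + 3)) {m : ℝ}
    (hm2 : m ^ 2 * c ≤ ε ^ 2 * (2 * R) ^ (n + 3)) {t : ℝ} (ht : 1 ≤ t) :
    ∫ y in ball (0 : E d) t, (f y - m) ^ 2 ∂ν ≤ caccG n C c R * ε ^ 2 * t ^ (n + 3) := by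
  have hC := hU.1
  have ht0 : 0 < t := by linarith
  have hf2 : Integrable (fun y => f y ^ 2) ν := cacc_integrable hb (hfc.pow 2)
  have h1 : ∫ y in ball (0 : E d) t, (f y - m) ^ 2 ∂ν ≤
      ∫ y in ball (0 : E d) t, (2 * f y ^ 2 + 2 * m ^ 2) ∂ν := by
    refine integral_mono
      (cacc_integrable hb ((hfc.sub continuous_const).pow 2)).integrableOn
      ((hf2.const_mul 2).add (integrable_const _)).integrableOn fun y => ?_
    simp only
    linarith only [sq_nonneg (f y + m)]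
  have h2 : ∫ y in ball (0 : E d) t, (2 * f y ^ 2 + 2 * m ^ 2) ∂ν =
      2 * ∫ y in ball (0 : E d) t, f y ^ 2 ∂ν + ν.real (ball (0 : E d) t) * (2 * m ^ 2) := by
    rw [integral_add (hf2.const_mul 2).integrableOn (integrable_const _).integrableOn,
      integral_const_mul, setIntegral_const, smul_eq_mul]
  rw [h2] at h1
  have h3 := hgr t ht
  have h4 := cacc_real_ball hU ht0
  have h5 : m ^ 2 ≤ ε ^ 2 * ((2 * R) ^ (n + 3) / c) := by
    rw [← mul_div_assoc, le_div_iff₀ hc]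
    exact hm2
  have h6 : t ^ n ≤ t ^ (n + 3) := pow_le_pow_right₀ ht (by omega)
  calc ∫ y in ball (0 : E d) t, (f y - m) ^ 2 ∂ν
      ≤ 2 * ∫ y in ball (0 : E d) t, f y ^ 2 ∂ν + ν.real (ball (0 : E d) t) * (2 * m ^ 2) := h1
    _ ≤ 2 * (ε ^ 2 * t ^ (n + 3)) +
        (C * t ^ (n + 3)) * (2 * (ε ^ 2 * ((2 * R) ^ (n + 3) / c))) := by
        have : ν.real (ball (0 : E d) t) ≤ C * t ^ (n + 3) :=
          h4.trans (mul_le_mul_of_nonneg_left h6 hC.le)
        gcongr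
    _ = _ := by
        unfold caccG
        ring

theorem cacc_growth_abs {C K : ℝ} {ν : Measure (E d)}
    [IsFiniteMeasure ν] (hU : UB n ν C) (hb : ∃ R0, ν (closedBall 0 R0)ᶜ = 0)
    {w : E d → ℝ} (hwc : Continuous w) {ε : ℝ} (hε : 0 < ε)
    (hw2 : ∀ t : ℝ, 1 ≤ t → ∫ y in ball (0 : E d) t, w y ^ 2 ∂ν ≤ K * ε ^ 2 * t ^ (n + 3))
    {t : ℝ} (ht : 1 ≤ t) :
    ∫ y in ball (0 : E d) t, |w y| ∂ν ≤ (C + K) / 2 * ε * (t ^ (n + 1) * Real.sqrt t) := by
  have hC := hU.1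
  have ht0 : 0 < t := by linarith
  have hst : 0 < Real.sqrt t := Real.sqrt_pos.2 ht0
  have hsq : Real.sqrt t * Real.sqrt t = t := Real.mul_self_sqrt ht0.le
  have hwi : Integrable (fun y => w y ^ 2) ν := cacc_integrable hb (hwc.pow 2)
  set lam := ε * (t * Real.sqrt t) with hlam
  have hlam0 : 0 < lam := by positivity
  have h1 : ∫ y in ball (0 : E d) t, |w y| ∂ν ≤
      ∫ y in ball (0 : E d) t, (lam / 2 + (2 * lam)⁻¹ * w y ^ 2) ∂ν := by
    refine integral_mono (cacc_integrable hb hwc.abs).integrableOn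
      ((integrable_const _).add (hwi.const_mul _)).integrableOn fun y => ?_
    have h2 : lam / 2 + (2 * lam)⁻¹ * w y ^ 2 - |w y| = (|w y| - lam) ^ 2 * (2 * lam)⁻¹ := by
      rw [← sq_abs (w y)]
      field_simp
      ring
    have h3 : 0 ≤ (|w y| - lam) ^ 2 * (2 * lam)⁻¹ := by positivity
    simp only
    linarith
  have h2 : ∫ y in ball (0 : E d) t, (lam / 2 + (2 * lam)⁻¹ * w y ^ 2) ∂ν =
      ν.real (ball (0 : E d) t) * (lam / 2) +
        (2 * lam)⁻¹ * ∫ y in ball (0 : E d) t, w y ^ 2 ∂ν := by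
    rw [integral_add (integrable_const _).integrableOn (hwi.const_mul _).integrableOn,
      integral_const_mul, setIntegral_const, smul_eq_mul]
  rw [h2] at h1
  refine h1.trans ?_
  have e1 : (2 * lam)⁻¹ * (K * ε ^ 2 * t ^ (n + 3)) =
      K / 2 * ε * (t ^ (n + 1) * Real.sqrt t) := by
    rw [hlam]
    have e2 : t ^ (n + 3) = t ^ (n + 1) * t * (Real.sqrt t * Real.sqrt t) := by
      rw [hsq]; ring
    rw [e2]
    field_simp
  calc ν.real (ball (0 : E d) t) * (lam / 2) +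
        (2 * lam)⁻¹ * ∫ y in ball (0 : E d) t, w y ^ 2 ∂ν
      ≤ (C * t ^ n) * (lam / 2) + (2 * lam)⁻¹ * (K * ε ^ 2 * t ^ (n + 3)) := by
        have := cacc_real_ball hU ht0
        have h4 := hw2 t ht
        gcongr
    _ = _ := by
        rw [e1, hlam, pow_succ]
        ring

/-- The energy of `φ g` in terms of the energy of `g = φ w`. -/
theorem cacc_energy {C R : ℝ} (hR : 1 ≤ R) {ν : Measure (E d)} [IsFiniteMeasure ν]
    (hU : UB n ν C) (hb : ∃ R0, ν (closedBall 0 R0)ᶜ = 0) {w : E d → ℝ} (hwl : Lip w) :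
    En n ν (fun y => cut R y * (cut R y * w y)) ≤ 2 * En n ν (fun y => cut R y * w y) +
      2 * (2 ^ (n + 3) * C * ∫ y in ball (0 : E d) (4 * R), w y ^ 2 ∂ν) := by
  have hC := hU.1
  have hR0 : 0 < R := by linarith
  have hwc : Continuous w := Lip.continuous hwl
  have hcut : Continuous (cut (d := d) R) := (cacc_cut_lip hR0).continuous
  set φ : E d → ℝ := cut R with hφ
  have hφsq : ∀ y, φ y ^ 2 ≤ 1 := cacc_sq_le_one R
  set g : E d → ℝ := fun y => φ y * w y with hg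
  have hgl : Lip g := cacc_lip_cut_mul hR0 hwl
  have hψl : Lip (fun y => φ y * g y) := cacc_lip_cut_mul hR0 hgl
  have hgg := En_integrable hU hb hgl hgl
  have hψψ := En_integrable hU hb hψl hψl
  set κ : ℝ := 2 ^ (n + 3) * C with hκ
  have hκ0 : 0 ≤ κ := by positivity
  set W := ∫ y in ball (0 : E d) (4 * R), w y ^ 2 ∂ν with hW
  set h : E d → ℝ := fun y => g y ^ 2 with hh
  have hgc : Continuous g := hcut.mul hwc
  have hhi : Integrable h ν := cacc_integrable hb (hgc.pow 2)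
  obtain ⟨hki, hkle⟩ := cacc_schur (κ := κ) hhi (fun x => sq_nonneg _)
    (measurable_cacck (n := n) R) (cacck_nonneg R) hκ0 (lintegral_cacck_le hU hR)
  have hkis : Integrable (fun p : E d × E d => h p.2 * cacck n R p) (ν.prod ν) := by
    have := hki.swap
    refine this.congr (ae_of_all _ fun p => ?_)
    simp only [Function.comp_apply, Prod.fst_swap, cacck_swap]
  have hks : ∫ p : E d × E d, h p.2 * cacck n R p ∂(ν.prod ν) =
      ∫ p : E d × E d, h p.1 * cacck n R p ∂(ν.prod ν) := by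
    rw [← integral_prod_swap]
    refine integral_congr_ae (ae_of_all _ fun p => ?_)
    simp only [Prod.snd_swap, cacck_swap]
  have hhW : ∫ y, h y ∂ν ≤ W := by
    rw [hW, ← integral_indicator measurableSet_ball]
    refine integral_mono hhi ((cacc_integrable hb (hwc.pow 2)).indicator measurableSet_ball)
      fun y => ?_
    simp only [hh, hg, indicator]
    split_ifs with h
    · rw [mul_pow]
      exact mul_le_of_le_one_left (sq_nonneg _) (hφsq y)
    · rw [mem_ball, dist_zero_right, not_lt] at h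
      rw [hφ, cacc_cut_eq_zero hR0 (by linarith)]
      simp
  have hpt : ∀ p : E d × E d, (φ p.1 * g p.1 - φ p.2 * g p.2) ^ 2 * wt n p.1 p.2 ≤
      2 * ((g p.1 - g p.2) * (g p.1 - g p.2) * wt n p.1 p.2) +
        2 * (h p.2 * cacck n R p) := by
    intro p
    have h1 := cacc_sq_cut_sub_le (n := n) hR0 p.1 p.2
    have h2 : 0 ≤ wt n p.1 p.2 := wt_nonneg _ _
    have h3 : (φ p.1 * g p.1 - φ p.2 * g p.2) ^ 2 ≤ 2 * ((g p.1 - g p.2) * (g p.1 - g p.2)) +
        2 * (g p.2 ^ 2 * (φ p.1 - φ p.2) ^ 2) := by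
      have e : φ p.1 * g p.1 - φ p.2 * g p.2 =
          φ p.1 * (g p.1 - g p.2) + g p.2 * (φ p.1 - φ p.2) := by
        ring
      rw [e]
      have h4 : (φ p.1 * (g p.1 - g p.2)) ^ 2 ≤ (g p.1 - g p.2) * (g p.1 - g p.2) := by
        rw [mul_pow, ← sq]
        exact mul_le_of_le_one_left (sq_nonneg _) (hφsq _)
      have h5 := add_sq_le (a := φ p.1 * (g p.1 - g p.2)) (b := g p.2 * (φ p.1 - φ p.2))
      have h6 : (g p.2 * (φ p.1 - φ p.2)) ^ 2 = g p.2 ^ 2 * (φ p.1 - φ p.2) ^ 2 := by ring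
      linarith
    calc (φ p.1 * g p.1 - φ p.2 * g p.2) ^ 2 * wt n p.1 p.2
        ≤ (2 * ((g p.1 - g p.2) * (g p.1 - g p.2)) +
          2 * (g p.2 ^ 2 * (φ p.1 - φ p.2) ^ 2)) * wt n p.1 p.2 := by gcongr
      _ = 2 * ((g p.1 - g p.2) * (g p.1 - g p.2) * wt n p.1 p.2) +
          2 * (h p.2 * ((φ p.1 - φ p.2) ^ 2 * wt n p.1 p.2)) := by
          simp only [hh]
          ring
      _ ≤ _ := by
          have h5 : 0 ≤ h p.2 := sq_nonneg _
          gcongr
  have hψψ' : Integrable (fun p : E d × E d =>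
      (φ p.1 * g p.1 - φ p.2 * g p.2) ^ 2 * wt n p.1 p.2) (ν.prod ν) := by
    refine hψψ.congr (ae_of_all _ fun p => ?_)
    simp only
    ring
  unfold En
  calc ∫ p : E d × E d, (φ p.1 * g p.1 - φ p.2 * g p.2) ^ 2 * wt n p.1 p.2 ∂(ν.prod ν)
      ≤ ∫ p : E d × E d, (2 * ((g p.1 - g p.2) * (g p.1 - g p.2) * wt n p.1 p.2) +
        2 * (h p.2 * cacck n R p)) ∂(ν.prod ν) :=
        integral_mono hψψ' ((hgg.const_mul 2).add (hkis.const_mul 2)) hpt
    _ = 2 * ∫ p : E d × E d, (g p.1 - g p.2) * (g p.1 - g p.2) * wt n p.1 p.2 ∂(ν.prod ν) +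
        2 * ∫ p : E d × E d, h p.2 * cacck n R p ∂(ν.prod ν) := by
        rw [integral_add (hgg.const_mul 2) (hkis.const_mul 2), integral_const_mul,
          integral_const_mul]
    _ ≤ 2 * ∫ p : E d × E d, (g p.1 - g p.2) ^ 2 * wt n p.1 p.2 ∂(ν.prod ν) +
        2 * (κ * W) := by
        rw [hks]
        have e1 : ∫ p : E d × E d, (g p.1 - g p.2) * (g p.1 - g p.2) * wt n p.1 p.2
            ∂(ν.prod ν) = ∫ p : E d × E d, (g p.1 - g p.2) ^ 2 * wt n p.1 p.2 ∂(ν.prod ν) := by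
          refine integral_congr_ae (ae_of_all _ fun p => ?_)
          simp only
          ring
        rw [e1]
        have e2 := hkle.trans (mul_le_mul_of_nonneg_left hhW hκ0)
        linarith

/-- Absorption. -/
theorem cacc_absorb {X P I J κW T ε : ℝ} (hP : 0 ≤ P) (hX : X = I + J)
    (hI : |I| ≤ 4 * ε * Real.sqrt P) (hJ : |J| ≤ κW + 2 * T) (hPX : P ≤ 2 * X + 2 * κW) :
    X ≤ 3 * κW + 32 * ε ^ 2 + 4 * T := by
  have h1 : 4 * ε * Real.sqrt P ≤ P / 4 + 16 * ε ^ 2 := by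
    have hs := Real.sq_sqrt hP
    linarith only [sq_nonneg (Real.sqrt P / 2 - 4 * ε), hs]
  have h2 := (abs_le.1 hI).2
  have h3 := (abs_le.1 hJ).2
  linarith

theorem cacc_scalar {C c R : ℝ} (hc : 0 < c) (hR : 1 ≤ R) {ν : Measure (E d)}
    (hU : UB n ν C) (hb : ∃ R0, ν (closedBall 0 R0)ᶜ = 0)
    (hmass : ENNReal.ofReal c ≤ ν (ball 0 1)) {f : E d → ℝ} (hf : Lip f) {ε : ℝ} (hε : 0 < ε)
    (hgr : ∀ t : ℝ, 1 ≤ t → ∫ y in ball (0 : E d) t, f y ^ 2 ∂ν ≤ ε ^ 2 * t ^ (n + 3))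
    (hE : ∀ ψ : E d → ℝ, Lip ψ → (∀ y, 4 * R < ‖y‖ → ψ y = 0) → ∫ y, ψ y ∂ν = 0 →
      |∫ p : E d × E d, (ψ p.1 - ψ p.2) * (f p.1 - f p.2) * wt n p.1 p.2 ∂(ν.prod ν)| ≤
        4 * ε * Real.sqrt (En n ν ψ)) :
    IntegrableOn (fun p : E d × E d => (f p.1 - f p.2) ^ 2 * wt n p.1 p.2)
        (ball (0 : E d) R ×ˢ ball (0 : E d) R) (ν.prod ν) ∧
      ∫ p in ball (0 : E d) R ×ˢ ball (0 : E d) R,
        (f p.1 - f p.2) ^ 2 * wt n p.1 p.2 ∂(ν.prod ν) ≤ caccC n C c R * ε ^ 2 := by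
  have hC := hU.1
  have hR0 : 0 < R := by linarith
  have : IsFiniteMeasure ν := UB.isFiniteMeasure hU hb
  have hfc : Continuous f := Lip.continuous hf
  obtain ⟨m, h0, hm2⟩ := cacc_mean hc hR hb hmass hfc hgr
  set w : E d → ℝ := fun y => f y - m with hw
  have hwc : Continuous w := hfc.sub continuous_const
  have hwl : Lip w := by
    obtain ⟨K, hK⟩ := hf
    refine ⟨K, LipschitzWith.of_dist_le_mul fun x y => ?_⟩
    have := hK.dist_le_mul x y
    rw [Real.dist_eq] at this ⊢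
    simp only [hw]
    rwa [show f x - m - (f y - m) = f x - f y by ring]
  set K := caccG n C c R with hK
  have hK0 : 0 ≤ K := caccG_nonneg hC hc hR
  have hw2 : ∀ t : ℝ, 1 ≤ t → ∫ y in ball (0 : E d) t, w y ^ 2 ∂ν ≤ K * ε ^ 2 * t ^ (n + 3) :=
    fun t ht => cacc_growth_sq hc hU hb hfc hgr hm2 ht
  set A := (C + K) / 2 * ε with hA
  have hA0 : 0 ≤ A := by positivity
  have hw1 : ∀ t : ℝ, 1 ≤ t →
      ∫ y in ball (0 : E d) t, |w y| ∂ν ≤ A * (t ^ (n + 1) * Real.sqrt t) :=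
    fun t ht => cacc_growth_abs hU hb hwc hε hw2 ht
  -- the test function
  set g : E d → ℝ := fun y => cut R y * w y with hg
  set ψ : E d → ℝ := fun y => cut R y * g y with hψ
  have hgl : Lip g := cacc_lip_cut_mul hR0 hwl
  have hψl : Lip ψ := cacc_lip_cut_mul hR0 hgl
  have hψ0 : ∫ y, ψ y ∂ν = 0 := by
    rw [← h0]
    refine integral_congr_ae (ae_of_all _ fun y => ?_)
    simp only [hψ, hg]
    ring
  have hψs : ∀ y, 4 * R < ‖y‖ → ψ y = 0 := by
    intro y hy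
    simp only [hψ]
    rw [cacc_cut_eq_zero hR0 (by linarith), zero_mul]
  have hEψ := hE ψ hψl hψs hψ0
  -- integrability
  have hgg := En_integrable hU hb hgl hgl
  have hψf := En_integrable hU hb hψl hf
  set F : E d × E d → ℝ := fun p => w p.1 * w p.2 * (cut R p.1 - cut R p.2) ^ 2 *
    wt n p.1 p.2 with hF
  have hid : ∀ p : E d × E d, (g p.1 - g p.2) * (g p.1 - g p.2) * wt n p.1 p.2 =
      (ψ p.1 - ψ p.2) * (f p.1 - f p.2) * wt n p.1 p.2 + F p := by
    intro p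
    simp only [hF, hψ, hg, hw]
    ring
  have hFi : Integrable F (ν.prod ν) := by
    refine (hgg.sub hψf).congr (ae_of_all _ fun p => ?_)
    simp only [Pi.sub_apply]
    rw [hid]
    ring
  have hEn : En n ν g = ∫ p : E d × E d, (ψ p.1 - ψ p.2) * (f p.1 - f p.2) * wt n p.1 p.2
      ∂(ν.prod ν) + ∫ p, F p ∂(ν.prod ν) := by
    rw [← integral_add hψf hFi]
    unfold En
    refine integral_congr_ae (ae_of_all _ fun p => ?_)
    simp only
    rw [← hid]
    ring
  have hcross := cacc_cross (n := n) hU hb hR hwc hA0 hw1 h0 hFi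
  have hEnψ : En n ν ψ ≤ 2 * En n ν g +
      2 * (2 ^ (n + 3) * C * ∫ y in ball (0 : E d) (4 * R), w y ^ 2 ∂ν) :=
    cacc_energy hR hU hb hwl
  have hWle : ∫ y in ball (0 : E d) (4 * R), w y ^ 2 ∂ν ≤ K * ε ^ 2 * (4 * R) ^ (n + 3) :=
    hw2 (4 * R) (by linarith)
  have hfin : En n ν g ≤ caccC n C c R * ε ^ 2 := by
    refine (cacc_absorb (En_nonneg ψ) hEn hEψ hcross hEnψ).trans ?_
    have h6 : 2 ^ (n + 3) * C * ∫ y in ball (0 : E d) (4 * R), w y ^ 2 ∂ν ≤
        2 ^ (n + 3) * C * (K * ε ^ 2 * (4 * R) ^ (n + 3)) :=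
      mul_le_mul_of_nonneg_left hWle (by positivity)
    have h7 : caccC n C c R * ε ^ 2 =
        3 * (2 ^ (n + 3) * C * (K * ε ^ 2 * (4 * R) ^ (n + 3))) + 32 * ε ^ 2 +
          4 * (caccK n R * A ^ 2) := by
      rw [hA, hK]
      unfold caccC
      ring
    rw [h7]
    linarith
  -- restriction to the ball of radius R
  have hgg' : Integrable (fun p : E d × E d => (g p.1 - g p.2) ^ 2 * wt n p.1 p.2)
      (ν.prod ν) := by
    refine hgg.congr (ae_of_all _ fun p => ?_)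
    simp only
    ring
  have hBm : MeasurableSet (ball (0 : E d) R ×ˢ ball (0 : E d) R) :=
    measurableSet_ball.prod measurableSet_ball
  have hEq : EqOn (fun p : E d × E d => (g p.1 - g p.2) ^ 2 * wt n p.1 p.2)
      (fun p : E d × E d => (f p.1 - f p.2) ^ 2 * wt n p.1 p.2)
      (ball (0 : E d) R ×ˢ ball (0 : E d) R) := by
    intro p hp
    have h1 := hp.1
    have h2 := hp.2
    rw [mem_ball, dist_zero_right] at h1 h2
    simp only [hg, hw]
    rw [cacc_cut_eq_one hR0 h1.le, cacc_cut_eq_one hR0 h2.le]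
    ring
  constructor
  · exact (hgg'.integrableOn).congr_fun hEq hBm
  · rw [← setIntegral_congr_fun hBm hEq]
    refine le_trans ?_ hfin
    exact setIntegral_le_integral hgg' (ae_of_all _ fun p =>
      mul_nonneg (sq_nonneg _) (wt_nonneg _ _))

/-- **The Caccioppoli inequality.** -/
theorem caccioppoli (n d : ℕ) (C c : ℝ) (hC : 0 < C) (hc : 0 < c) (R : ℝ) (hR : 1 ≤ R) :
    ∃ CR : ℝ, 0 < CR ∧ ∀ (ν : Measure (E d)), UB n ν C → (∃ R0, ν (closedBall 0 R0)ᶜ = 0) →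
      ENNReal.ofReal c ≤ ν (ball 0 1) → ∀ (U : E n →ₗᵢ[ℝ] E d) (M : E n →L[ℝ] E d) (b : E d)
      (ε : ℝ), 0 < ε → ‖M‖ ≤ 1 → Perp U M b → Growth n ν 0 1 U M b ε →
      EnLe n ν (4 * R) 0 1 (ε ^ 2) →
      IntegrableOn (fun p : E d × E d => ‖hgt U M b p.1 - hgt U M b p.2‖ ^ 2 * wt n p.1 p.2)
        (ball (0 : E d) R ×ˢ ball (0 : E d) R) (ν.prod ν) ∧
      ∫ p in ball (0 : E d) R ×ˢ ball (0 : E d) R,
        ‖hgt U M b p.1 - hgt U M b p.2‖ ^ 2 * wt n p.1 p.2 ∂(ν.prod ν) ≤ CR * ε ^ 2 := by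
  have hK := caccC_nonneg (n := n) hC hc hR
  refine ⟨d * caccC n C c R + 1, by positivity, ?_⟩
  intro ν hU hb hmass U M b ε hε hM hP hG hEn
  have : IsFiniteMeasure ν := UB.isFiniteMeasure hU hb
  -- the coordinates
  have hlip : ∀ i : Fin d, Lip (fun y => hgt U M b y i) := by
    intro i
    refine ⟨2, LipschitzWith.of_dist_le_mul fun x y => ?_⟩
    rw [Real.dist_eq, dist_eq_norm]
    have h1 := norm_hgt_sub_le U hM b x y
    have h2 := PiLp.norm_apply_le (hgt U M b x - hgt U M b y) i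
    rw [PiLp.sub_apply, Real.norm_eq_abs] at h2
    exact h2.trans h1
  have hnsq : ∀ z : E d, ‖z‖ ^ 2 = ∑ i, (z i) ^ 2 := by
    intro z
    rw [EuclideanSpace.norm_sq_eq]
    refine Finset.sum_congr rfl fun i _ => ?_
    rw [Real.norm_eq_abs, sq_abs]
  have hcont : ∀ i : Fin d, Continuous (fun y => hgt U M b y i) := fun i =>
    Lip.continuous (hlip i)
  have hgr : ∀ i : Fin d, ∀ t : ℝ, 1 ≤ t →
      ∫ y in ball (0 : E d) t, (hgt U M b y i) ^ 2 ∂ν ≤ ε ^ 2 * t ^ (n + 3) := by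
    intro i t ht
    have h1 := hG t ht
    rw [div_one] at h1
    refine le_trans ?_ h1
    have h2 : Continuous (fun y => ‖hgt U M b y‖ ^ 2) := by
      have e : (fun y => ‖hgt U M b y‖ ^ 2) = fun y => ∑ i, (hgt U M b y i) ^ 2 := by
        funext y
        exact hnsq _
      rw [e]
      exact continuous_finsetSum _ fun i _ => (hcont i).pow 2
    refine integral_mono (cacc_integrable hb ((hcont i).pow 2)).integrableOn
      (cacc_integrable hb h2).integrableOn fun y => ?_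
    simp only
    rw [hnsq]
    exact Finset.single_le_sum (f := fun i => (hgt U M b y i) ^ 2) (fun j _ => sq_nonneg _)
      (Finset.mem_univ i)
  -- the equation
  have hE : ∀ i : Fin d, ∀ ψ : E d → ℝ, Lip ψ → (∀ y, 4 * R < ‖y‖ → ψ y = 0) →
      ∫ y, ψ y ∂ν = 0 →
      |∫ p : E d × E d, (ψ p.1 - ψ p.2) * (hgt U M b p.1 i - hgt U M b p.2 i) *
        wt n p.1 p.2 ∂(ν.prod ν)| ≤ 4 * ε * Real.sqrt (En n ν ψ) := by
    intro i ψ hψ hψs hψ0
    have hBF := hEn ψ hψ (fun y hy => hψs y (by simpa using hy)) hψ0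
    rw [one_pow, mul_one] at hBF
    have hBF2 : ‖BF n ν ψ‖ ≤ ε * Real.sqrt (En n ν ψ) := by
      have h1 := Real.sqrt_le_sqrt hBF
      rw [Real.sqrt_sq (norm_nonneg _), Real.sqrt_mul (by positivity), Real.sqrt_sq hε.le] at h1
      exact h1
    have hkey := key_identity hU hb U M b hψ
    have hkn := key_norm U hM (BF n ν ψ)
    rw [← hkey, norm_smul] at hkn
    -- integrability of the vector integrand
    set L : E d →L[ℝ] E d := ContinuousLinearMap.id ℝ (E d) -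
      (U.toContinuousLinearMap.comp (adjU U)) - M.comp (adjU U) with hL
    have hLx : ∀ x y : E d, hgt U M b x - hgt U M b y = L (x - y) := by
      intro x y
      rw [hgt_sub]
      rfl
    have hint : Integrable (fun p : E d × E d => ((ψ p.1 - ψ p.2) * wt n p.1 p.2) •
        (hgt U M b p.1 - hgt U M b p.2)) (ν.prod ν) := by
      refine (L.integrable_comp (BF_integrable hU hb hψ)).congr (ae_of_all _ fun p => ?_)
      simp only
      rw [hLx, rieszKernel, map_smul, map_smul, smul_smul]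
      rfl
    have hcoord : (∫ p : E d × E d, ((ψ p.1 - ψ p.2) * wt n p.1 p.2) •
        (hgt U M b p.1 - hgt U M b p.2) ∂(ν.prod ν)) i =
        ∫ p : E d × E d, (ψ p.1 - ψ p.2) * (hgt U M b p.1 i - hgt U M b p.2 i) *
          wt n p.1 p.2 ∂(ν.prod ν) := by
      have h1 := (EuclideanSpace.proj i : E d →L[ℝ] ℝ).integral_comp_comm hint
      have h2 : ∀ z : E d, (EuclideanSpace.proj i : E d →L[ℝ] ℝ) z = z i := fun z => rfl
      simp only [h2] at h1
      rw [← h1]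
      refine integral_congr_ae (ae_of_all _ fun p => ?_)
      simp only [PiLp.smul_apply, PiLp.sub_apply, smul_eq_mul]
      ring
    rw [← hcoord, ← Real.norm_eq_abs]
    refine (PiLp.norm_apply_le _ i).trans ?_
    have h2 : ‖(1 / 2 : ℝ)‖ = 1 / 2 := by norm_num
    rw [h2] at hkn
    linarith
  have hscal := fun i : Fin d => cacc_scalar hc hR hU hb hmass (hlip i) hε (hgr i) (hE i)
  have hfun : (fun p : E d × E d => ‖hgt U M b p.1 - hgt U M b p.2‖ ^ 2 * wt n p.1 p.2) =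
      fun p => ∑ i, (hgt U M b p.1 i - hgt U M b p.2 i) ^ 2 * wt n p.1 p.2 := by
    funext p
    rw [hnsq, Finset.sum_mul]
    rfl
  rw [hfun]
  constructor
  · exact integrable_finsetSum _ fun i _ => (hscal i).1
  · rw [integral_finsetSum _ fun i _ => (hscal i).1]
    calc ∑ i : Fin d, ∫ p in ball (0 : E d) R ×ˢ ball (0 : E d) R,
          (hgt U M b p.1 i - hgt U M b p.2 i) ^ 2 * wt n p.1 p.2 ∂(ν.prod ν)
        ≤ ∑ _i : Fin d, caccC n C c R * ε ^ 2 := Finset.sum_le_sum fun i _ => (hscal i).2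
      _ = d * caccC n C c R * ε ^ 2 := by
          rw [Finset.sum_const, Finset.card_univ, Fintype.card_fin, nsmul_eq_mul]
          ring
      _ ≤ _ := by linarith only [sq_nonneg ε]

end Vale.Agent.P120
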