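import Vale.Agent.Lib.P120.UR.Cacc
import Vale.Agent.Lib.P120.UR.Ell

/-!
P120, closeness of the normalised heights to the affine limit (blow-up argument).
-/

open MeasureTheory Filter Set Metric Module
open scoped Topology ENNReal NNReal RealInnerProductSpace

namespace Vale.Agent.P120

variable {d n : ℕ}

/-- uniformity on the unit ball from convergence along moving points -/
theorem closeness_uniform (P : ℕ → E n → Prop)
    (h : ∀ (v : ℕ → E n) (v0 : E n), (∀ k, ‖v k‖ ≤ 1) → ‖v0‖ ≤ 1 →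
      Tendsto v (hyperfilter ℕ : Filter ℕ) (𝓝 v0) →
      ∀ᶠ k in (hyperfilter ℕ : Filter ℕ), P k (v k)) :
    ∀ᶠ k in (hyperfilter ℕ : Filter ℕ), ∀ v, ‖v‖ ≤ 1 → P k v := by
  by_contra hcon
  rw [← Ultrafilter.eventually_not] at hcon
  have hch : ∀ k, ∃ v : E n, ‖v‖ ≤ 1 ∧ ((¬ ∀ w, ‖w‖ ≤ 1 → P k w) → ¬ P k v) := by
    intro k
    by_cases hk : ∀ w, ‖w‖ ≤ 1 → P k w
    · exact ⟨0, by simp, fun h => absurd hk h⟩
    · have hk' := hk
      push Not at hk'
      obtain ⟨v, hv, hPv⟩ := hk'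
      exact ⟨v, hv, fun _ => hPv⟩
  choose v hv1 hv2 using hch
  obtain ⟨v0, hv0, hle⟩ := (isCompact_closedBall (0 : E n) 1).ultrafilter_le_nhds
    ((hyperfilter ℕ).map v) (by
      rw [le_principal_iff, Ultrafilter.mem_coe, Ultrafilter.mem_map]
      refine Filter.univ_mem' fun k => ?_
      simp [hv1 k])
  have ht : Tendsto v (hyperfilter ℕ : Filter ℕ) (𝓝 v0) := hle
  have h1 := h v v0 hv1 (by simpa using hv0) ht
  obtain ⟨k, hk1, hk2⟩ := (h1.and hcon).exists
  exact hv2 k hk2 hk1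

theorem closeness_eta (n : ℕ) : ∃ K : ℝ, 0 < K ∧ ∀ ρ : ℝ, 0 < ρ →
    ∃ η : E n → ℝ, ContDiff ℝ 4 η ∧ (∀ v, 0 ≤ η v) ∧ (∀ v, ρ ≤ ‖v‖ → η v = 0) ∧
      ∫ v, η v = 1 ∧ (∀ v, η v ≤ K * (ρ ^ n)⁻¹) ∧ HasCompactSupport η := by
  set V : ℝ := (volume : Measure (E n)).real (ball 0 1) with hV
  have hVpos : 0 < V := by
    rw [hV, Measure.real, ENNReal.toReal_pos_iff]
    exact ⟨measure_ball_pos _ _ one_pos, measure_ball_lt_top⟩
  refine ⟨2 ^ n / V, by positivity, fun ρ hρ => ?_⟩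
  let φ : ContDiffBump (0 : E n) := ⟨ρ / 2, ρ, by positivity, by linarith⟩
  refine ⟨φ.normed volume, φ.contDiff_normed, φ.nonneg_normed, ?_, φ.integral_normed, ?_,
    φ.hasCompactSupport_normed⟩
  · intro v hv
    have h1 : v ∉ Function.support (φ.normed volume) := by
      rw [φ.support_normed_eq]
      simp only [mem_ball, dist_zero_right, not_lt]
      exact hv
    simpa using h1
  · intro v
    refine (φ.normed_le_div_measure_closedBall_rIn volume v).trans ?_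
    have h1 : (volume : Measure (E n)).real (closedBall 0 φ.rIn) = (ρ / 2) ^ n * V := by
      rw [Measure.addHaar_real_closedBall _ _ φ.rIn_pos.le]
      simp [φ, hV]
    rw [h1, div_pow]
    apply le_of_eq
    field_simp

theorem closeness_cut_continuous (R : ℝ) : Continuous (cut R : E d → ℝ) := by
  unfold cut
  fun_prop

theorem closeness_cut_nonneg (R : ℝ) (y : E d) : 0 ≤ cut R y := le_max_left _ _

theorem closeness_cut_le_one (R : ℝ) (y : E d) : cut R y ≤ 1 :=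
  max_le zero_le_one (min_le_left _ _)

theorem closeness_cut_zero {R : ℝ} (hR : 0 < R) {y : E d} (hy : 2 * R ≤ ‖y‖) : cut R y = 0 := by
  unfold cut
  apply max_eq_left
  refine (min_le_right _ _).trans ?_
  have : 2 ≤ ‖y‖ / R := by rwa [le_div_iff₀ hR]
  linarith

theorem closeness_cut_one {R : ℝ} (hR : 0 < R) {y : E d} (hy : ‖y‖ ≤ R) : cut R y = 1 := by
  unfold cut
  have : ‖y‖ / R ≤ 1 := by rwa [div_le_one hR]
  rw [min_eq_left (by linarith), max_eq_right zero_le_one]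

theorem closeness_cut_compact {R : ℝ} (hR : 0 < R) :
    HasCompactSupport (cut R : E d → ℝ) := by
  refine HasCompactSupport.intro (isCompact_closedBall (0 : E d) (2 * R)) fun y hy => ?_
  simp only [mem_closedBall, dist_zero_right, not_le] at hy
  exact closeness_cut_zero hR hy.le

theorem closeness_cauchy {ν : Measure (E d)} {h : E d → ℝ} {w : E d → E d} (h0 : ∀ y, 0 ≤ h y)
    (hN : 0 < ∫ y, h y ∂ν) (hi0 : Integrable h ν) (hi1 : Integrable (fun y => h y * ‖w y‖) ν)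
    (hi2 : Integrable (fun y => h y * ‖w y‖ ^ 2) ν) :
    ‖∫ y, h y • w y ∂ν‖ ^ 2 ≤ (∫ y, h y ∂ν) * ∫ y, h y * ‖w y‖ ^ 2 ∂ν := by
  set N := ∫ y, h y ∂ν with hNdef
  set b := ∫ y, h y * ‖w y‖ ∂ν with hb
  set A := ∫ y, h y * ‖w y‖ ^ 2 ∂ν with hA
  have hb0 : 0 ≤ b := integral_nonneg fun y => mul_nonneg (h0 y) (norm_nonneg _)
  have h1 : ‖∫ y, h y • w y ∂ν‖ ≤ b := by
    refine (norm_integral_le_integral_norm _).trans (le_of_eq ?_)
    refine integral_congr_ae (Eventually.of_forall fun y => ?_)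
    simp only
    rw [norm_smul, Real.norm_of_nonneg (h0 y)]
  have h2 : 0 ≤ ∫ y, h y * (‖w y‖ - b / N) ^ 2 ∂ν :=
    integral_nonneg fun y => mul_nonneg (h0 y) (sq_nonneg _)
  have h3 : ∫ y, h y * (‖w y‖ - b / N) ^ 2 ∂ν = A - 2 * (b / N) * b + (b / N) ^ 2 * N := by
    have e : ∀ y, h y * (‖w y‖ - b / N) ^ 2 =
        h y * ‖w y‖ ^ 2 - 2 * (b / N) * (h y * ‖w y‖) + (b / N) ^ 2 * h y := fun y => by ring
    have i1 : Integrable (fun y => 2 * (b / N) * (h y * ‖w y‖)) ν := hi1.const_mul _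
    have i2 : Integrable (fun y => (b / N) ^ 2 * h y) ν := hi0.const_mul _
    have i3 : Integrable (fun y => h y * ‖w y‖ ^ 2 - 2 * (b / N) * (h y * ‖w y‖)) ν := hi2.sub i1
    simp_rw [e]
    rw [integral_add i3 i2, integral_sub hi2 i1, integral_const_mul, integral_const_mul]
  rw [h3] at h2
  have h4 : b ^ 2 ≤ N * A := by
    have h5 : A - 2 * (b / N) * b + (b / N) ^ 2 * N = A - b ^ 2 / N := by
      field_simp
      ring
    rw [h5] at h2
    have h6 : b ^ 2 / N ≤ A := by linarith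
    rw [div_le_iff₀ hN] at h6
    linarith
  exact (pow_le_pow_left₀ (norm_nonneg _) h1 2).trans h4

theorem closeness_point {ν : Measure (E d)} {C : ℝ} (hU : UB n ν C) (V : E n →ₗᵢ[ℝ] E d)
    {u : E d → E d} (hu : Continuous u) {ρ : ℝ} (hρ : 0 < ρ) (hρ2 : ρ ≤ 1 / 2) {η : E n → ℝ}
    (hη : Continuous η) (h0 : ∀ v, 0 ≤ η v) (hsupp : ∀ v, ρ ≤ ‖v‖ → η v = 0) {K : ℝ} (hK0 : 0 ≤ K)
    (hK : ∀ v, η v ≤ K * (ρ ^ n)⁻¹)
    (hflat : ∀ y ∈ ν.support, ‖y‖ ≤ 8 → ‖y - V (adjU V y)‖ ≤ ρ / 2)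
    {y : E d} (hy : y ∈ ν.support) (hy1 : ‖y‖ < 1)
    (hint : IntegrableOn (fun z => ‖u y - u z‖ ^ 2 * wt n y z) (ball 0 2) ν)
    (hN : 0 < ∫ z, cut 4 z * η (adjU V y - adjU V z) ∂ν) :
    ‖(∫ z, cut 4 z * η (adjU V y - adjU V z) ∂ν) • u y -
        ∫ z, (cut 4 z * η (adjU V y - adjU V z)) • u z ∂ν‖ ^ 2 ≤
      (∫ z, cut 4 z * η (adjU V y - adjU V z) ∂ν) * (K * 2 ^ (n + 1) * ρ *
        ∫ z in ball 0 2, ‖u y - u z‖ ^ 2 * wt n y z ∂ν) := by
  have := UB.isLocallyFinite hU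
  set h : E d → ℝ := fun z => cut 4 z * η (adjU V y - adjU V z) with hh
  have hcont : Continuous h := by
    have h1 := closeness_cut_continuous (d := d) 4
    have h2 : Continuous (fun z => η (adjU V y - adjU V z)) :=
      hη.comp (continuous_const.sub (adjU V).continuous)
    exact h1.mul h2
  have hcs : HasCompactSupport h := (closeness_cut_compact (by norm_num)).mul_right
  have hnn : ∀ z, 0 ≤ h z := fun z => mul_nonneg (closeness_cut_nonneg _ _) (h0 _)
  have i0 : Integrable h ν := hcont.integrable_of_hasCompactSupport hcs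
  have i1 : Integrable (fun z => h z * ‖u y - u z‖) ν := by
    refine Continuous.integrable_of_hasCompactSupport ?_ hcs.mul_right
    exact hcont.mul (continuous_const.sub hu).norm
  have i2 : Integrable (fun z => h z * ‖u y - u z‖ ^ 2) ν := by
    refine Continuous.integrable_of_hasCompactSupport ?_ hcs.mul_right
    exact hcont.mul ((continuous_const.sub hu).norm.pow 2)
  have i3 : Integrable (fun z => h z • u z) ν := by
    refine Continuous.integrable_of_hasCompactSupport (hcont.smul hu) hcs.smul_right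
  have e1 : (∫ z, h z ∂ν) • u y - ∫ z, h z • u z ∂ν = ∫ z, h z • (u y - u z) ∂ν := by
    have i4 : Integrable (fun z => h z • u y) ν := i0.smul_const _
    simp_rw [smul_sub]
    rw [integral_sub i4 i3, integral_smul_const]
  rw [e1]
  refine (closeness_cauchy (w := fun z => u y - u z) hnn hN i0 i1 i2).trans ?_
  apply mul_le_mul_of_nonneg_left _ hN.le
  rw [← integral_const_mul, ← integral_indicator measurableSet_ball]
  refine integral_mono_ae i2 ?_ ?_
  · exact IntegrableOn.integrable_indicator (Integrable.const_mul hint _) measurableSet_ball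
  · have hae : ∀ᵐ z ∂ν, z ∈ ν.support := by
      rw [ae_iff]
      exact Measure.measure_compl_support
    filter_upwards [hae] with z hz
    have hnnR : ∀ z, 0 ≤ K * 2 ^ (n + 1) * ρ * (‖u y - u z‖ ^ 2 * wt n y z) := by
      intro z
      have := wt_nonneg (n := n) y z
      positivity
    by_cases hz0 : h z = 0
    · rw [hz0, zero_mul]
      exact indicator_nonneg (fun z _ => hnnR z) z
    · have hz8 : ‖z‖ < 8 := by
        by_contra hcon
        push Not at hcon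
        apply hz0
        rw [hh]
        simp only
        rw [closeness_cut_zero (by norm_num) (by linarith), zero_mul]
      have hzρ : ‖adjU V y - adjU V z‖ < ρ := by
        by_contra hcon
        push Not at hcon
        apply hz0
        rw [hh]
        simp only
        rw [hsupp _ hcon, mul_zero]
      have hy' := hflat y hy (by linarith)
      have hz' := hflat z hz hz8.le
      have hyz : ‖y - z‖ ≤ 2 * ρ := by
        have e2 : y - z = (y - V (adjU V y)) - (z - V (adjU V z)) + V (adjU V y - adjU V z) := by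
          rw [map_sub]
          abel
        rw [e2]
        refine (norm_add_le _ _).trans ?_
        rw [V.norm_map]
        have := norm_sub_le (y - V (adjU V y)) (z - V (adjU V z))
        linarith
      have hz2 : z ∈ ball (0 : E d) 2 := by
        rw [mem_ball, dist_zero_right]
        have e3 : z = y - (y - z) := by abel
        rw [e3]
        have := norm_sub_le y (y - z)
        linarith
      rw [indicator_of_mem hz2]
      rcases eq_or_ne y z with rfl | hne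
      · simp
      · have hpos : 0 < ‖y - z‖ := norm_pos_iff.2 (sub_ne_zero.2 hne)
        have hwt : ((2 * ρ) ^ (n + 1))⁻¹ ≤ wt n y z := by
          unfold wt
          exact inv_anti₀ (by positivity) (pow_le_pow_left₀ hpos.le hyz _)
        have hh1 : h z ≤ K * (ρ ^ n)⁻¹ := by
          refine (mul_le_of_le_one_left (h0 _) (closeness_cut_le_one _ _)).trans (hK _)
        have e4 : K * (ρ ^ n)⁻¹ = K * 2 ^ (n + 1) * ρ * ((2 * ρ) ^ (n + 1))⁻¹ := by
          rw [mul_pow, pow_succ ρ]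
          field_simp
        have hh2 : h z ≤ K * 2 ^ (n + 1) * ρ * wt n y z := by
          rw [e4] at hh1
          exact hh1.trans (mul_le_mul_of_nonneg_left hwt (by positivity))
        calc h z * ‖u y - u z‖ ^ 2 ≤ K * 2 ^ (n + 1) * ρ * wt n y z * ‖u y - u z‖ ^ 2 :=
              mul_le_mul_of_nonneg_right hh2 (sq_nonneg _)
          _ = K * 2 ^ (n + 1) * ρ * (‖u y - u z‖ ^ 2 * wt n y z) := by ring

theorem closeness_alg {N c0 δ G W : ℝ} {uy F g : E d} (hc0 : 0 < c0) (hδ : 0 < δ)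
    (hδ2 : δ ≤ c0 / 2) (hNv : |N - c0| ≤ δ) (hFv : ‖F - g‖ ≤ δ) (hG : ‖g‖ ≤ G) (hW : 0 ≤ W)
    (hpt : ‖N • uy - F‖ ^ 2 ≤ N * W) :
    ‖uy - c0⁻¹ • g‖ ^ 2 ≤ 2 * (2 / c0) ^ 2 * (2 * c0) * W +
      2 * (2 * δ / c0 + 2 * δ * G / c0 ^ 2) ^ 2 := by
  rw [abs_le] at hNv
  have hNlow : c0 / 2 ≤ N := by linarith [hNv.1]
  have hNup : N ≤ 2 * c0 := by linarith [hNv.2]
  have hNpos : 0 < N := by linarith
  set X := ‖N • uy - F‖ with hX
  have hXI : X ^ 2 ≤ 2 * c0 * W := hpt.trans (mul_le_mul_of_nonneg_right hNup hW)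
  have hinv : N⁻¹ ≤ 2 / c0 := by
    rw [inv_le_comm₀ hNpos (by positivity), inv_div]
    exact hNlow
  have hinv2 : |N⁻¹ - c0⁻¹| ≤ 2 * δ / c0 ^ 2 := by
    have e1 : N⁻¹ - c0⁻¹ = (c0 - N) * N⁻¹ * c0⁻¹ := by field_simp
    rw [e1, abs_mul, abs_mul, abs_of_pos (inv_pos.2 hNpos), abs_of_pos (inv_pos.2 hc0)]
    have h1 : |c0 - N| ≤ δ := by
      rw [abs_le]
      constructor <;> linarith [hNv.1, hNv.2]
    calc |c0 - N| * N⁻¹ * c0⁻¹ ≤ δ * (2 / c0) * c0⁻¹ := by
          apply mul_le_mul_of_nonneg_right _ (inv_pos.2 hc0).le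
          exact mul_le_mul h1 hinv (inv_pos.2 hNpos).le hδ.le
      _ = 2 * δ / c0 ^ 2 := by field_simp
  have hdec : uy - c0⁻¹ • g = N⁻¹ • (N • uy - F) + N⁻¹ • (F - g) +
      (N⁻¹ - c0⁻¹) • g := by
    rw [smul_sub, smul_smul, inv_mul_cancel₀ hNpos.ne', one_smul, smul_sub, sub_smul]
    abel
  have hG0 : 0 ≤ G := (norm_nonneg _).trans hG
  have hnorm : ‖uy - c0⁻¹ • g‖ ≤
      2 / c0 * X + (2 * δ / c0 + 2 * δ * G / c0 ^ 2) := by
    rw [hdec]
    refine (norm_add₃_le).trans ?_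
    rw [norm_smul, norm_smul, norm_smul, Real.norm_of_nonneg (inv_pos.2 hNpos).le,
      Real.norm_eq_abs]
    have t1 : N⁻¹ * ‖N • uy - F‖ ≤ 2 / c0 * X := mul_le_mul_of_nonneg_right hinv (norm_nonneg _)
    have t2 : N⁻¹ * ‖F - g‖ ≤ 2 / c0 * δ :=
      mul_le_mul hinv hFv (norm_nonneg _) (by positivity)
    have t3 : |N⁻¹ - c0⁻¹| * ‖g‖ ≤ 2 * δ / c0 ^ 2 * G :=
      mul_le_mul hinv2 hG (norm_nonneg _) (by positivity)
    have t4 : 2 / c0 * δ = 2 * δ / c0 := by ring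
    have t5 : 2 * δ / c0 ^ 2 * G = 2 * δ * G / c0 ^ 2 := by ring
    linarith
  have hsq := pow_le_pow_left₀ (norm_nonneg _) hnorm 2
  set Y := 2 * δ / c0 + 2 * δ * G / c0 ^ 2 with hY
  have hsq2 : (2 / c0 * X + Y) ^ 2 ≤ 2 * (2 / c0 * X) ^ 2 + 2 * Y ^ 2 := by
    linarith only [sq_nonneg (2 / c0 * X - Y)]
  have hX2 : 2 * (2 / c0 * X) ^ 2 ≤ 2 * (2 / c0) ^ 2 * (2 * c0) * W := by
    rw [mul_pow]
    calc 2 * ((2 / c0) ^ 2 * X ^ 2) ≤ 2 * ((2 / c0) ^ 2 * (2 * c0 * W)) := by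
          apply mul_le_mul_of_nonneg_left _ (by norm_num)
          exact mul_le_mul_of_nonneg_left hXI (by positivity)
      _ = _ := by ring
  linarith

theorem closeness_main {ν : Measure (E d)} {C : ℝ} (hU : UB n ν C) (V : E n →ₗᵢ[ℝ] E d)
    {u : E d → E d} (hu : Continuous u) {ρ : ℝ} (hρ : 0 < ρ) (hρ2 : ρ ≤ 1 / 2) {η : E n → ℝ}
    (hη : Continuous η) (h0 : ∀ v, 0 ≤ η v) (hsupp : ∀ v, ρ ≤ ‖v‖ → η v = 0) {K : ℝ} (hK0 : 0 ≤ K)
    (hK : ∀ v, η v ≤ K * (ρ ^ n)⁻¹)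
    (hflat : ∀ y ∈ ν.support, ‖y‖ ≤ 8 → ‖y - V (adjU V y)‖ ≤ ρ / 2)
    (hint : IntegrableOn (fun p : E d × E d => ‖u p.1 - u p.2‖ ^ 2 * wt n p.1 p.2)
      (ball (0 : E d) 2 ×ˢ ball (0 : E d) 2) (ν.prod ν)) {J : ℝ}
    (hJ : ∫ p in ball (0 : E d) 2 ×ˢ ball (0 : E d) 2,
      ‖u p.1 - u p.2‖ ^ 2 * wt n p.1 p.2 ∂(ν.prod ν) ≤ J)
    {c0 δ : ℝ} (hc0 : 0 < c0) (hδ : 0 < δ) (hδ2 : δ ≤ c0 / 2)
    (a : E d) (B : E n →L[ℝ] E d)
    (hN : ∀ v, ‖v‖ ≤ 1 → |∫ z, cut 4 z * η (v - adjU V z) ∂ν - c0| ≤ δ)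
    (hF : ∀ v, ‖v‖ ≤ 1 → ‖∫ z, (cut 4 z * η (v - adjU V z)) • u z ∂ν - (a + B v)‖ ≤ δ) :
    ∫ y in ball 0 1, ‖u y - c0⁻¹ • (a + B (adjU V y))‖ ^ 2 ∂ν ≤
      2 * (2 / c0) ^ 2 * (2 * c0) * (K * 2 ^ (n + 1) * ρ) * J +
        2 * (2 * δ / c0 + 2 * δ * (‖a‖ + ‖B‖) / c0 ^ 2) ^ 2 * C := by
  have hlf := UB.isLocallyFinite hU
  set I : E d → ℝ := fun y => ∫ z in ball (0 : E d) 2, ‖u y - u z‖ ^ 2 * wt n y z ∂ν with hI
  have hint' : Integrable (fun p : E d × E d => ‖u p.1 - u p.2‖ ^ 2 * wt n p.1 p.2)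
      ((ν.restrict (ball 0 2)).prod (ν.restrict (ball 0 2))) := by
    rw [Measure.prod_restrict]
    exact hint
  have hIint : Integrable I (ν.restrict (ball 0 2)) := hint'.integral_prod_left
  have hI0 : ∀ y, 0 ≤ I y := fun y => integral_nonneg fun z =>
    mul_nonneg (sq_nonneg _) (wt_nonneg _ _)
  have hsub : ball (0 : E d) 1 ⊆ ball 0 2 := ball_subset_ball (by norm_num)
  have hIint1 : Integrable I (ν.restrict (ball 0 1)) :=
    hIint.mono_measure (Measure.restrict_mono hsub le_rfl)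
  have hIJ : ∫ y in ball 0 1, I y ∂ν ≤ J := by
    have h1 : ∫ y in ball 0 1, I y ∂ν ≤ ∫ y in ball 0 2, I y ∂ν :=
      integral_mono_measure (Measure.restrict_mono hsub le_rfl)
        (Eventually.of_forall fun y => hI0 y) hIint
    have h2 : ∫ y in ball 0 2, I y ∂ν = ∫ p in ball (0 : E d) 2 ×ˢ ball (0 : E d) 2,
        ‖u p.1 - u p.2‖ ^ 2 * wt n p.1 p.2 ∂(ν.prod ν) := by
      rw [← Measure.prod_restrict, integral_prod _ hint']
    linarith
  set c2 : ℝ := 2 * (2 * δ / c0 + 2 * δ * (‖a‖ + ‖B‖) / c0 ^ 2) ^ 2 with hc2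
  set c1 : ℝ := 2 * (2 / c0) ^ 2 * (2 * c0) * (K * 2 ^ (n + 1) * ρ) with hc1
  have hmass : ν.real (ball 0 1) ≤ C := by
    have h1 := hU.ball (0 : E d) one_pos
    rw [one_pow, mul_one] at h1
    exact ENNReal.toReal_le_of_le_ofReal hU.1.le h1
  have hfin : IsFiniteMeasure (ν.restrict (ball (0 : E d) 1)) :=
    ⟨by rw [Measure.restrict_apply_univ]; exact hU.ball_lt_top _ _⟩
  have hmain : ∫ y in ball 0 1, ‖u y - c0⁻¹ • (a + B (adjU V y))‖ ^ 2 ∂ν ≤
      ∫ y in ball 0 1, (c1 * I y + c2) ∂ν := by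
    refine integral_mono_of_nonneg (Eventually.of_forall fun y => sq_nonneg _)
      ((hIint1.const_mul _).add (integrable_const _)) ?_
    have hae : ∀ᵐ z ∂(ν.restrict (ball (0 : E d) 1)), z ∈ ν.support := by
      apply ae_restrict_of_ae
      rw [ae_iff]
      exact Measure.measure_compl_support
    have hae2 : ∀ᵐ z ∂(ν.restrict (ball (0 : E d) 1)), z ∈ ball (0 : E d) 1 :=
      ae_restrict_mem measurableSet_ball
    have hae3 : ∀ᵐ y ∂(ν.restrict (ball (0 : E d) 1)),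
        Integrable (fun z => ‖u y - u z‖ ^ 2 * wt n y z) (ν.restrict (ball 0 2)) :=
      ae_restrict_of_ae_restrict_of_subset hsub hint'.prod_right_ae
    filter_upwards [hae, hae2, hae3] with y hy hy1 hy3
    rw [mem_ball, dist_zero_right] at hy1
    have hv1 : ‖adjU V y‖ ≤ 1 := (norm_adjU_le V y).trans hy1.le
    have hNv := hN _ hv1
    have hFv := hF _ hv1
    have hNpos : 0 < ∫ z, cut 4 z * η (adjU V y - adjU V z) ∂ν := by
      have := (abs_le.1 hNv).1
      linarith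
    have hpt := closeness_point hU V hu hρ hρ2 hη h0 hsupp hK0 hK hflat hy hy1 hy3 hNpos
    have hG : ‖a + B (adjU V y)‖ ≤ ‖a‖ + ‖B‖ := by
      refine (norm_add_le _ _).trans (add_le_add le_rfl ?_)
      refine (B.le_opNorm _).trans ?_
      exact mul_le_of_le_one_right (norm_nonneg _) hv1
    have hW : 0 ≤ K * 2 ^ (n + 1) * ρ * ∫ z in ball 0 2, ‖u y - u z‖ ^ 2 * wt n y z ∂ν := by
      have := hI0 y
      positivity
    refine (closeness_alg hc0 hδ hδ2 hNv hFv hG hW hpt).trans (le_of_eq ?_)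
    simp only [hc1, hc2, hI]
    ring
  refine hmain.trans ?_
  rw [integral_add (hIint1.const_mul _) (integrable_const _), integral_const_mul, integral_const]
  have hc1' : 0 ≤ c1 := by positivity
  have hc2' : 0 ≤ c2 := by positivity
  have h1 : c1 * ∫ y in ball 0 1, I y ∂ν ≤ c1 * J := mul_le_mul_of_nonneg_left hIJ hc1'
  have h2 : (ν.restrict (ball (0 : E d) 1)).real univ • c2 ≤ c2 * C := by
    rw [Measure.real, Measure.restrict_apply_univ, smul_eq_mul, mul_comm]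
    exact mul_le_mul_of_nonneg_left hmass hc2'
  linarith

theorem closeness_hgt_continuous (U : E n →ₗᵢ[ℝ] E d) (M : E n →L[ℝ] E d) (b : E d) :
    Continuous (hgt U M b) := by
  unfold hgt
  have h1 : Continuous (adjU U) := (adjU U).continuous
  exact ((continuous_id.sub continuous_const).sub (U.continuous.comp h1)).sub (M.continuous.comp h1)

theorem closeness_energy {C c CR : ℝ} {S : BSeq n d C c} {k : ℕ} (hk : 7 ≤ k)
    (hcac : ∀ (ν : Measure (E d)), UB n ν C → (∃ R0, ν (closedBall 0 R0)ᶜ = 0) →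
      ENNReal.ofReal c ≤ ν (ball 0 1) → ∀ (U : E n →ₗᵢ[ℝ] E d) (M : E n →L[ℝ] E d) (b : E d)
      (ε : ℝ), 0 < ε → ‖M‖ ≤ 1 → Perp U M b → Growth n ν 0 1 U M b ε →
      EnLe n ν (4 * 2) 0 1 (ε ^ 2) →
      IntegrableOn (fun p : E d × E d => ‖hgt U M b p.1 - hgt U M b p.2‖ ^ 2 * wt n p.1 p.2)
        (ball (0 : E d) 2 ×ˢ ball (0 : E d) 2) (ν.prod ν) ∧
      ∫ p in ball (0 : E d) 2 ×ˢ ball (0 : E d) 2,
        ‖hgt U M b p.1 - hgt U M b p.2‖ ^ 2 * wt n p.1 p.2 ∂(ν.prod ν) ≤ CR * ε ^ 2) :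
    IntegrableOn (fun p : E d × E d => ‖S.u k p.1 - S.u k p.2‖ ^ 2 * wt n p.1 p.2)
      (ball (0 : E d) 2 ×ˢ ball (0 : E d) 2) ((S.ν k).prod (S.ν k)) ∧
    ∫ p in ball (0 : E d) 2 ×ˢ ball (0 : E d) 2,
      ‖S.u k p.1 - S.u k p.2‖ ^ 2 * wt n p.1 p.2 ∂((S.ν k).prod (S.ν k)) ≤ CR := by
  have hε0 := S.hε0 k
  have hε := S.hε k
  have hk1 : (8 : ℝ) ≤ (k : ℝ) + 1 := by
    have : (7 : ℝ) ≤ k := by exact_mod_cast hk
    linarith
  have hε1 : S.ε k ≤ 1 := by
    refine hε.trans ?_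
    rw [div_le_one (by linarith)]
    linarith
  have hball : ENNReal.ofReal c ≤ S.ν k (ball 0 1) := by
    have h1 := S.hL k 0 (S.h0 k) (by simp; positivity) 1 one_pos (by
      rw [le_div_iff₀ (by positivity), one_mul]
      exact pow_le_one₀ hε0.le hε1)
    simpa using h1
  have hen : EnLe n (S.ν k) (4 * 2) 0 1 (S.ε k ^ 2) := by
    refine EnLe.mono (S.hE k) (by linarith) ?_
    simp only [one_pow, mul_one]
    apply pow_le_pow_left₀ (by positivity)
    exact div_le_self hε0.le (by linarith)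
  obtain ⟨h1, h2⟩ := hcac (S.ν k) (S.hU k) (S.hb k) hball (S.U k) (S.M k) (S.b k) (S.ε k) hε0
    (S.hM k) (S.hP k) (S.hG k) hen
  have e1 : ∀ p : E d × E d, ‖S.u k p.1 - S.u k p.2‖ ^ 2 * wt n p.1 p.2 = (S.ε k ^ 2)⁻¹ *
      (‖hgt (S.U k) (S.M k) (S.b k) p.1 - hgt (S.U k) (S.M k) (S.b k) p.2‖ ^ 2 *
        wt n p.1 p.2) := by
    intro p
    unfold BSeq.u
    rw [← smul_sub, norm_smul, mul_pow, norm_inv, Real.norm_of_nonneg hε0.le, inv_pow]
    ring
  simp_rw [e1]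
  refine ⟨Integrable.const_mul h1 _, ?_⟩
  rw [integral_const_mul]
  have h3 := mul_le_mul_of_nonneg_left h2 (inv_nonneg.2 (sq_nonneg (S.ε k)))
  refine h3.trans (le_of_eq ?_)
  field_simp

theorem closeness_sigma (V : E n →ₗᵢ[ℝ] E d) {c0 : ℝ} (hc0 : 0 < c0) {η : E n → ℝ}
    (hη : Continuous η) (hsupp : ∀ v, 1 < ‖v‖ → η v = 0) (hint : ∫ v, η v = 1) (v0 : E n)
    (hv0 : ‖v0‖ ≤ 1) :
    ∫ y, cut 4 y * η (v0 - adjU V y)
      ∂(ENNReal.ofReal c0 • (volume : Measure (E n)).map V) = c0 := by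
  have hcont : Continuous (fun y : E d => cut 4 y * η (v0 - adjU V y)) :=
    (closeness_cut_continuous 4).mul (hη.comp (continuous_const.sub (adjU V).continuous))
  rw [integral_smul_measure, integral_map V.continuous.aemeasurable
    hcont.aestronglyMeasurable, ENNReal.toReal_ofReal hc0.le]
  have e1 : ∀ w : E n, cut 4 (V w) * η (v0 - adjU V (V w)) = η (v0 - w) := by
    intro w
    rw [adjU_U]
    by_cases hw : ‖v0 - w‖ ≤ 1
    · rw [closeness_cut_one (by norm_num), one_mul]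
      rw [V.norm_map]
      have e2 : w = v0 - (v0 - w) := by abel
      rw [e2]
      have := norm_sub_le v0 (v0 - w)
      linarith
    · rw [hsupp _ (not_le.1 hw), mul_zero]
  simp_rw [e1]
  rw [integral_sub_left_eq_self (fun w => η w) volume v0, hint]
  simp

/-- `UR/Closeness.lean` -/
theorem closeness {C c cl cu : ℝ} (hn : 1 ≤ n) (hC : 0 < C) (hc : 0 < c) (hcl : 0 < cl)
    (hcu : cl ≤ cu) {S : BSeq n d C c} (L : BLim S cl cu) (τ : ℝ) (hτ : 0 < τ) :
    ∃ η : E n → ℝ, ContDiff ℝ 4 η ∧ (∀ v, 0 ≤ η v) ∧ (∀ v, 1 < ‖v‖ → η v = 0) ∧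
      ∫ v, η v = 1 ∧ ∀ (a : E d) (B : E n →L[ℝ] E d),
      (∀ (v : E n) (R : ℝ), ‖v‖ + 1 ≤ R →
          S.ell (fun y => cut R y * η (v - adjU L.V y)) = a + B v) →
      ∀ᶠ k in (hyperfilter ℕ : Filter ℕ),
        ∫ y in ball 0 1, ‖S.u k y - L.c0⁻¹ • (a + B (adjU L.V y))‖ ^ 2 ∂(S.ν k) ≤ τ := by
  obtain ⟨K, hK0, heta⟩ := closeness_eta n
  obtain ⟨CR, hCR, hcac⟩ := caccioppoli n d C c hC hc 2 (by norm_num)
  have hc0 : 0 < L.c0 := hcl.trans_le L.hcl
  set c0 := L.c0 with hc0def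
  set A : ℝ := 2 * (2 / c0) ^ 2 * (2 * c0) * (K * 2 ^ (n + 1)) * CR with hA
  have hApos : 0 < A := by positivity
  set ρ : ℝ := min (1 / 2) (τ / (2 * A)) with hρdef
  have hρ : 0 < ρ := by positivity
  have hρ2 : ρ ≤ 1 / 2 := min_le_left _ _
  have hρA : A * ρ ≤ τ / 2 := by
    have h1 : ρ ≤ τ / (2 * A) := min_le_right _ _
    rw [le_div_iff₀ (by positivity)] at h1
    linarith
  obtain ⟨η, hη4, hη0, hηs, hηi, hηK, hηc⟩ := heta ρ hρ
  have hηs1 : ∀ v, 1 < ‖v‖ → η v = 0 := fun v hv => hηs v (by linarith)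
  refine ⟨η, hη4, hη0, hηs1, hηi, fun a B hell => ?_⟩
  have hηcont : Continuous η := hη4.continuous
  set q : ℝ := 2 / c0 + 2 * (‖a‖ + ‖B‖) / c0 ^ 2 with hq
  have hqpos : 0 < q := by positivity
  set δ : ℝ := min (c0 / 2) (min 1 (τ / (4 * q ^ 2 * C))) with hδdef
  have hδ : 0 < δ := by positivity
  have hδ2 : δ ≤ c0 / 2 := min_le_left _ _
  have hδ1 : δ ≤ 1 := (min_le_right _ _).trans (min_le_left _ _)
  have hδ3 : 2 * (δ * q) ^ 2 * C ≤ τ / 2 := by
    have h1 : δ ≤ τ / (4 * q ^ 2 * C) := (min_le_right _ _).trans (min_le_right _ _)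
    rw [le_div_iff₀ (by positivity)] at h1
    have h2 : δ ^ 2 ≤ δ := by nlinarith only [hδ, hδ1]
    have h3 : δ ^ 2 * (4 * q ^ 2 * C) ≤ δ * (4 * q ^ 2 * C) :=
      mul_le_mul_of_nonneg_right h2 (by positivity)
    linarith only [h1, h3]
  obtain ⟨Kl, hKl⟩ := hη4.lipschitzWith_of_hasCompactSupport hηc (by norm_num)
  have hunif := closeness_uniform (n := n)
    (fun k v => |∫ z, cut 4 z * η (v - adjU L.V z) ∂(S.ν k) - c0| ≤ δ ∧
      ‖∫ z, (cut 4 z * η (v - adjU L.V z)) • S.u k z ∂(S.ν k) - (a + B v)‖ ≤ δ) (by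
    intro v v0 hv hv0 hlim
    have hfc : ∀ w : E n, Continuous (fun y : E d => cut 4 y * η (w - adjU L.V y)) := fun w =>
      (closeness_cut_continuous 4).mul (hηcont.comp (continuous_const.sub (adjU L.V).continuous))
    have hfs : ∀ w : E n, HasCompactSupport (fun y : E d => cut 4 y * η (w - adjU L.V y)) :=
      fun w => (closeness_cut_compact (by norm_num)).mul_right
    have hfR : ∀ (w : E n) (y : E d), 8 < ‖y‖ → cut 4 y * η (w - adjU L.V y) = 0 := by
      intro w y hy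
      rw [closeness_cut_zero (by norm_num) (by linarith), zero_mul]
    have hdiff : ∀ ε > 0, ∀ᶠ k in (hyperfilter ℕ : Filter ℕ), ∀ y : E d,
        |cut 4 y * η (v k - adjU L.V y) - cut 4 y * η (v0 - adjU L.V y)| ≤ ε := by
      intro ε hε
      have h1 : ∀ᶠ k in (hyperfilter ℕ : Filter ℕ), ‖v k - v0‖ < ε / (Kl + 1) := by
        have := (tendsto_iff_norm_sub_tendsto_zero.1 hlim).eventually
          (gt_mem_nhds (show (0 : ℝ) < ε / (Kl + 1) by positivity))
        exact this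
      filter_upwards [h1] with k hk y
      rw [← mul_sub, abs_mul, abs_of_nonneg (closeness_cut_nonneg _ _)]
      refine (mul_le_of_le_one_left (abs_nonneg _) (closeness_cut_le_one _ _)).trans ?_
      have h2 := hKl.dist_le_mul (v k - adjU L.V y) (v0 - adjU L.V y)
      rw [Real.dist_eq, dist_eq_norm] at h2
      have e1 : v k - adjU L.V y - (v0 - adjU L.V y) = v k - v0 := by abel
      rw [e1] at h2
      refine h2.trans ?_
      have h3 : (Kl : ℝ) * ‖v k - v0‖ ≤ (Kl + 1) * (ε / (Kl + 1)) :=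
        mul_le_mul (by linarith) hk.le (norm_nonneg _) (by positivity)
      rwa [mul_div_cancel₀ _ (by positivity)] at h3
    have hN : ∀ᶠ k in (hyperfilter ℕ : Filter ℕ),
        |∫ z, cut 4 z * η (v k - adjU L.V z) ∂(S.ν k) - c0| ≤ δ := by
      have h1 := L.hUL _ (hfc v0) (hfs v0)
      have h2 : ∫ y, cut 4 y * η (v0 - adjU L.V y) ∂L.σ = c0 := by
        rw [L.hσ]
        exact closeness_sigma L.V hc0 hηcont hηs1 hηi v0 hv0
      rw [h2] at h1
      have h3 : ∀ᶠ k in (hyperfilter ℕ : Filter ℕ),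
          |∫ z, cut 4 z * η (v0 - adjU L.V z) ∂(S.ν k) - c0| < δ / 2 := by
        have := (tendsto_iff_norm_sub_tendsto_zero.1 h1).eventually
          (gt_mem_nhds (show (0 : ℝ) < δ / 2 by positivity))
        exact this
      have h4 := hdiff (δ / (2 * (C * 8 ^ n))) (by positivity)
      filter_upwards [h3, h4] with k hk3 hk4
      have hlf := UB.isLocallyFinite (S.hU k)
      have i1 : Integrable (fun z => cut 4 z * η (v k - adjU L.V z)) (S.ν k) :=
        (hfc (v k)).integrable_of_hasCompactSupport (hfs (v k))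
      have i2 : Integrable (fun z => cut 4 z * η (v0 - adjU L.V z)) (S.ν k) :=
        (hfc v0).integrable_of_hasCompactSupport (hfs v0)
      have h5 : |∫ z, cut 4 z * η (v k - adjU L.V z) ∂(S.ν k) -
          ∫ z, cut 4 z * η (v0 - adjU L.V z) ∂(S.ν k)| ≤ δ / 2 := by
        rw [← integral_sub i1 i2]
        have h6 : ∫ z, (cut 4 z * η (v k - adjU L.V z) - cut 4 z * η (v0 - adjU L.V z))
            ∂(S.ν k) = ∫ z in closedBall 0 8,
              (cut 4 z * η (v k - adjU L.V z) - cut 4 z * η (v0 - adjU L.V z)) ∂(S.ν k) := by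
          symm
          apply setIntegral_eq_integral_of_forall_compl_eq_zero
          intro y hy
          simp only [mem_closedBall, dist_zero_right, not_le] at hy
          rw [hfR _ y hy, hfR _ y hy, sub_zero]
        rw [h6, ← Real.norm_eq_abs]
        have h7 := norm_setIntegral_le_of_norm_le_const ((S.hU k).closedBall_lt_top 0 8)
          (f := fun z => cut 4 z * η (v k - adjU L.V z) - cut 4 z * η (v0 - adjU L.V z))
          (C := δ / (2 * (C * 8 ^ n))) (fun z _ => hk4 z)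
        refine h7.trans ?_
        have h8 : (S.ν k).real (closedBall 0 8) ≤ C * 8 ^ n :=
          ENNReal.toReal_le_of_le_ofReal (by positivity) ((S.hU k).2 0 8 (by norm_num))
        have h9 := mul_le_mul_of_nonneg_left h8
          (show (0 : ℝ) ≤ δ / (2 * (C * 8 ^ n)) by positivity)
        refine h9.trans (le_of_eq ?_)
        field_simp
      have h10 := abs_sub_le (∫ z, cut 4 z * η (v k - adjU L.V z) ∂(S.ν k))
        (∫ z, cut 4 z * η (v0 - adjU L.V z) ∂(S.ν k)) c0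
      linarith
    have hF : ∀ᶠ k in (hyperfilter ℕ : Filter ℕ),
        ‖∫ z, (cut 4 z * η (v k - adjU L.V z)) • S.u k z ∂(S.ν k) - (a + B (v k))‖ ≤ δ := by
      have h1 := ell_moving S (fun k y => cut 4 y * η (v k - adjU L.V y))
        (fun y => cut 4 y * η (v0 - adjU L.V y)) (fun k => hfc (v k)) (hfc v0) 8
        (fun k y hy => hfR _ y hy) hdiff
      rw [hell v0 4 (by linarith)] at h1
      have h2 : Tendsto (fun k => a + B (v k)) (hyperfilter ℕ : Filter ℕ) (𝓝 (a + B v0)) :=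
        tendsto_const_nhds.add ((B.continuous.tendsto v0).comp hlim)
      have h3 := h1.sub h2
      rw [sub_self] at h3
      have h4 := (tendsto_zero_iff_norm_tendsto_zero.1 h3).eventually
        (gt_mem_nhds (show (0 : ℝ) < δ from hδ))
      filter_upwards [h4] with k hk
      exact hk.le
    exact hN.and hF)
  have hlarge : ∀ᶠ k in (hyperfilter ℕ : Filter ℕ), 7 ≤ k :=
    (eventually_ge_atTop 7).filter_mono Nat.hyperfilter_le_atTop
  filter_upwards [hunif, hlarge, L.hflat 8 (by norm_num) (ρ / 2) (by positivity)]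
    with k hk hk7 hkflat
  obtain ⟨hint, hJ⟩ := closeness_energy (S := S) hk7 hcac
  have hucont : Continuous (S.u k) := by
    have h1 := (closeness_hgt_continuous (S.U k) (S.M k) (S.b k)).const_smul (S.ε k)⁻¹
    exact h1
  refine (closeness_main (S.hU k) L.V hucont hρ hρ2 hηcont hη0 hηs hK0.le hηK hkflat hint hJ hc0 hδ
    hδ2 a B (fun v hv => (hk v hv).1) (fun v hv => (hk v hv).2)).trans ?_
  have e1 : 2 * (2 / c0) ^ 2 * (2 * c0) * (K * 2 ^ (n + 1) * ρ) * CR = A * ρ := by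
    rw [hA]
    ring
  have e2 : 2 * δ / c0 + 2 * δ * (‖a‖ + ‖B‖) / c0 ^ 2 = δ * q := by
    rw [hq]
    ring
  rw [e1, e2]
  linarith

end Vale.Agent.P120
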