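import Vale.Agent.Lib.P120.UR.Base
import Vale.Agent.Lib.P120.UR.BLimExists
import Vale.Agent.Lib.P120.UR.Affine
import Vale.Agent.Lib.P120.UR.Closeness

/-!
`decay_unit`: the decay lemma at unit scale, by contradiction and compactness.
-/

open MeasureTheory Filter Set Metric Module
open scoped Topology ENNReal NNReal RealInnerProductSpace

namespace Vale.Agent.P120

variable {d n : ℕ}

/-- Orthogonal projection onto the orthogonal complement of the range of `U`. -/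
noncomputable def decayUnitProj (U : E n →ₗᵢ[ℝ] E d) : E d →L[ℝ] E d :=
  ContinuousLinearMap.id ℝ (E d) - U.toContinuousLinearMap.comp (adjU U)

theorem decayUnitProj_apply (U : E n →ₗᵢ[ℝ] E d) (y : E d) :
    decayUnitProj U y = y - U (adjU U y) := rfl

theorem decayUnit_inner_proj (U : E n →ₗᵢ[ℝ] E d) (v : E n) (y : E d) :
    ⟪U v, decayUnitProj U y⟫ = 0 := by
  rw [decayUnitProj_apply, inner_sub_right, ← inner_adjU, U.inner_map_map, sub_self]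

theorem decayUnit_norm_proj_le (U : E n →ₗᵢ[ℝ] E d) (y : E d) : ‖decayUnitProj U y‖ ≤ ‖y‖ := by
  have h1 : ‖decayUnitProj U y‖ * ‖decayUnitProj U y‖ = ⟪y, decayUnitProj U y⟫ := by
    rw [← real_inner_self_eq_norm_mul_norm]
    nth_rewrite 1 [decayUnitProj_apply]
    rw [inner_sub_left, decayUnit_inner_proj, sub_zero]
  have h2 : ⟪y, decayUnitProj U y⟫ ≤ ‖y‖ * ‖decayUnitProj U y‖ := real_inner_le_norm _ _
  rcases (norm_nonneg (decayUnitProj U y)).eq_or_lt with h0 | h0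
  · rw [← h0]; exact norm_nonneg y
  · exact le_of_mul_le_mul_right (h1.le.trans h2) h0

theorem decayUnit_proj_hgt {U : E n →ₗᵢ[ℝ] E d} {M : E n →L[ℝ] E d} {b : E d} (h : Perp U M b)
    (y : E d) : decayUnitProj U (hgt U M b y) = hgt U M b y := by
  rw [decayUnitProj_apply, Perp.adj_hgt h, map_zero, sub_zero]

/-- Near the origin the support of `ν_k` is close to the limit plane, seen as a graph over the
moving plane `range U_k`. -/
theorem decayUnit_close {C c cl cu : ℝ} {S : BSeq n d C c} (L : BLim S cl cu) {ζ : ℝ}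
    (hζ : 0 < ζ) : ∀ᶠ k in (hyperfilter ℕ : Filter ℕ), ∀ y ∈ (S.ν k).support, ‖y‖ ≤ 1 →
      ‖y - (L.Ui (adjU (S.U k) y) + L.Mi (adjU (S.U k) y))‖ ≤ ζ := by
  have h5 : 0 < ζ / 5 := by positivity
  have e1 := L.hflat 1 one_pos (ζ / 5) h5
  have e2 : ∀ᶠ k in (hyperfilter ℕ : Filter ℕ),
      ‖(S.U k).toContinuousLinearMap - L.Ui.toContinuousLinearMap‖ < ζ / 5 := by
    have := L.tU
    rw [tendsto_iff_norm_sub_tendsto_zero] at this
    exact this.eventually (gt_mem_nhds h5)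
  filter_upwards [e1, e2] with k h1 h2 y hy hy1
  have f1 := h1 y hy hy1
  have f2 : ‖adjU L.Ui y - adjU (S.U k) y‖ ≤ ζ / 5 := by
    have : adjU L.Ui y - adjU (S.U k) y = (ContinuousLinearMap.adjoint
        (L.Ui.toContinuousLinearMap - (S.U k).toContinuousLinearMap)) y := by
      rw [map_sub]; rfl
    rw [this]
    refine (ContinuousLinearMap.le_opNorm _ _).trans ?_
    rw [LinearIsometryEquiv.norm_map, norm_sub_rev]
    calc ‖(S.U k).toContinuousLinearMap - L.Ui.toContinuousLinearMap‖ * ‖y‖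
        ≤ ζ / 5 * 1 := by gcongr
      _ = ζ / 5 := mul_one _
  set w : E n := adjU L.V y with hw
  have hV := L.hV w
  have key : y - (L.Ui (adjU (S.U k) y) + L.Mi (adjU (S.U k) y)) =
      (y - L.V w) - (L.Ui (adjU L.Ui (y - L.V w)) + L.Mi (adjU L.Ui (y - L.V w)))
        + (L.Ui (adjU L.Ui y - adjU (S.U k) y) + L.Mi (adjU L.Ui y - adjU (S.U k) y)) := by
    simp only [map_sub]
    linear_combination (norm := module) (1 : ℝ) • hV
  have hM : ∀ v : E n, ‖L.Mi v‖ ≤ ‖v‖ := by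
    intro v
    refine (L.Mi.le_opNorm v).trans ?_
    calc ‖L.Mi‖ * ‖v‖ ≤ 1 * ‖v‖ := by gcongr; exact L.hMi
      _ = ‖v‖ := one_mul _
  have hA : ‖adjU L.Ui (y - L.V w)‖ ≤ ‖y - L.V w‖ := norm_adjU_le _ _
  have hB : ∀ v : E n, ‖L.Ui v + L.Mi v‖ ≤ 2 * ‖v‖ := by
    intro v
    refine (norm_add_le _ _).trans ?_
    rw [L.Ui.norm_map]
    linarith [hM v]
  rw [key]
  calc ‖(y - L.V w) - (L.Ui (adjU L.Ui (y - L.V w)) + L.Mi (adjU L.Ui (y - L.V w)))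
        + (L.Ui (adjU L.Ui y - adjU (S.U k) y) + L.Mi (adjU L.Ui y - adjU (S.U k) y))‖
      ≤ (‖y - L.V w‖ + 2 * ‖adjU L.Ui (y - L.V w)‖) + 2 * ‖adjU L.Ui y - adjU (S.U k) y‖ := by
        refine (norm_add_le _ _).trans (add_le_add ?_ (hB _))
        refine (norm_sub_le _ _).trans (add_le_add le_rfl (hB _))
    _ ≤ ζ := by linarith

theorem decay_unit (n d : ℕ) (hn : 1 ≤ n) (C c : ℝ) (hC : 0 < C) (hc : 0 < c) :
    ∃ C1 : ℝ, 0 < C1 ∧ ∀ τ > 0, ∃ Lam : ℝ, 1 ≤ Lam ∧ ∃ ε1 > 0, ∃ δ > 0,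
      ∀ (ν : Measure (E d)), UB n ν C → (∃ R0, ν (closedBall 0 R0)ᶜ = 0) → 0 ∈ ν.support →
      ∀ ε : ℝ, 0 < ε → ε ≤ ε1 → LBloc n ν c 0 (1 / ε ^ 2) →
      ∀ (U : E n →ₗᵢ[ℝ] E d) (M : E n →L[ℝ] E d) (b : E d), ‖M‖ ≤ 1 → Perp U M b →
      Growth n ν 0 1 U M b ε → EnLe n ν Lam 0 1 ((δ * ε) ^ 2) →
      ∃ (B : E n →L[ℝ] E d) (β : E d), ‖B‖ ≤ C1 ∧ ‖β‖ ≤ C1 ∧ Perp U B β ∧
        ∫ y in ball 0 1, ‖hgt U M b y - ε • (β + B (adjU U y))‖ ^ 2 ∂ν ≤ τ ^ 2 * ε ^ 2 := by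
  obtain ⟨cl, cu, hcl, hcu, hex⟩ := exists_blim n d hn C c hC hc
  obtain ⟨CW, hCW, haff⟩ := exists_affine n d hn C c cl cu hC hc hcl hcu
  refine ⟨2 * (cl⁻¹ * CW), by positivity, ?_⟩
  intro τ hτ
  by_contra hcon
  push Not at hcon
  -- the sequence of counterexamples
  have hk : ∀ k : ℕ, 0 < 1 / ((k : ℝ) + 1) := fun k => by positivity
  have hseq : ∀ k : ℕ, ∃ (ν : Measure (E d)) (ε : ℝ) (U : E n →ₗᵢ[ℝ] E d) (M : E n →L[ℝ] E d)
      (b : E d), UB n ν C ∧ (∃ R0, ν (closedBall 0 R0)ᶜ = 0) ∧ 0 ∈ ν.support ∧ 0 < ε ∧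
      ε ≤ 1 / ((k : ℝ) + 1) ∧ LBloc n ν c 0 (1 / ε ^ 2) ∧ ‖M‖ ≤ 1 ∧ Perp U M b ∧
      Growth n ν 0 1 U M b ε ∧ EnLe n ν ((k : ℝ) + 1) 0 1 ((ε / ((k : ℝ) + 1)) ^ 2) ∧
      ∀ (B : E n →L[ℝ] E d) (β : E d), ‖B‖ ≤ 2 * (cl⁻¹ * CW) → ‖β‖ ≤ 2 * (cl⁻¹ * CW) →
        Perp U B β → τ ^ 2 * ε ^ 2 <
          ∫ y in ball 0 1, ‖hgt U M b y - ε • (β + B (adjU U y))‖ ^ 2 ∂ν := by
    intro k
    obtain ⟨ν, h1, h2, h3, ε, h4, h5, h6, U, M, b, h7, h8, h9, h10, h11⟩ :=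
      hcon ((k : ℝ) + 1) (by linarith [Nat.cast_nonneg (α := ℝ) k]) (1 / ((k : ℝ) + 1)) (hk k)
        (1 / ((k : ℝ) + 1)) (hk k)
    refine ⟨ν, ε, U, M, b, h1, h2, h3, h4, h5, h6, h7, h8, h9, ?_, h11⟩
    convert h10 using 2
    ring
  choose ν ε U M b q1 q2 q3 q4 q5 q6 q7 q8 q9 q10 q11 using hseq
  let S : BSeq n d C c := ⟨ν, ε, U, M, b, q1, q2, q3, q4, q5, q6, q7, q8, q9, q10⟩
  obtain ⟨L⟩ := hex S
  have c0pos : 0 < L.c0 := lt_of_lt_of_le hcl L.hcl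
  have hinv : L.c0⁻¹ ≤ cl⁻¹ := inv_anti₀ hcl L.hcl
  obtain ⟨η, η1, η2, η3, η4, hclose⟩ := closeness hn hC hc hcl hcu L (τ ^ 2 / 8) (by positivity)
  obtain ⟨a, B, ha, hB, hell⟩ := haff S L η η1 η2 η3 η4
  have ev1 := hclose a B hell
  -- the error of the planes
  set K : ℝ := cl⁻¹ * CW with hK
  have hKpos : 0 < K := by positivity
  set ζ : ℝ := τ / (4 * K * (1 + C)) with hζ
  have hζpos : 0 < ζ := by positivity
  have ev2 := decayUnit_close L hζpos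
  obtain ⟨k, hk1, hk2⟩ := (ev1.and ev2).exists
  -- objects at the index `k`
  set P : E d →L[ℝ] E d := decayUnitProj (U k) with hP
  set T : E n →L[ℝ] E d := L.Ui.toContinuousLinearMap + L.Mi with hT
  set Bk : E n →L[ℝ] E d := L.c0⁻¹ • (P.comp (B.comp ((adjU L.V).comp T))) with hBk
  set βk : E d := L.c0⁻¹ • P a with hβk
  have hPle : ∀ y, ‖P y‖ ≤ ‖y‖ := decayUnit_norm_proj_le (U k)
  have hBle : ∀ v, ‖B v‖ ≤ CW * ‖v‖ := fun v =>
    (B.le_opNorm v).trans (mul_le_mul_of_nonneg_right hB (norm_nonneg v))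
  have hTle : ∀ v, ‖T v‖ ≤ 2 * ‖v‖ := by
    intro v
    have h1 : ‖L.Mi v‖ ≤ ‖v‖ := by
      refine (L.Mi.le_opNorm v).trans ?_
      calc ‖L.Mi‖ * ‖v‖ ≤ 1 * ‖v‖ := by gcongr; exact L.hMi
        _ = ‖v‖ := one_mul _
    have h2 : ‖L.Ui v‖ = ‖v‖ := L.Ui.norm_map v
    calc ‖T v‖ ≤ ‖L.Ui v‖ + ‖L.Mi v‖ := norm_add_le _ _
      _ ≤ 2 * ‖v‖ := by linarith
  have hBkle : ‖Bk‖ ≤ 2 * K := by
    refine ContinuousLinearMap.opNorm_le_bound _ (by positivity) fun v => ?_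
    have h1 : Bk v = L.c0⁻¹ • P (B (adjU L.V (T v))) := rfl
    rw [h1, norm_smul, Real.norm_of_nonneg (inv_nonneg.2 c0pos.le)]
    calc L.c0⁻¹ * ‖P (B (adjU L.V (T v)))‖ ≤ cl⁻¹ * (CW * (2 * ‖v‖)) := by
          gcongr
          refine (hPle _).trans ((hBle _).trans ?_)
          gcongr
          exact (norm_adjU_le _ _).trans (hTle v)
      _ = 2 * K * ‖v‖ := by rw [hK]; ring
  have hβkle : ‖βk‖ ≤ 2 * K := by
    rw [hβk, norm_smul, Real.norm_of_nonneg (inv_nonneg.2 c0pos.le)]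
    calc L.c0⁻¹ * ‖P a‖ ≤ cl⁻¹ * CW := by
          gcongr
          exact (hPle _).trans ha
      _ ≤ 2 * K := by rw [hK] at hKpos ⊢; linarith
  have hperp : Perp (U k) Bk βk := by
    refine ⟨fun v w => ?_, fun v => ?_⟩
    · have h1 : Bk w = L.c0⁻¹ • P (B (adjU L.V (T w))) := rfl
      rw [h1, inner_smul_right, hP, decayUnit_inner_proj, mul_zero]
    · rw [hβk, inner_smul_right, hP, decayUnit_inner_proj, mul_zero]
  have hlt := q11 k Bk βk hBkle hβkle hperp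
  -- pointwise estimate on the support
  have hεk : 0 < ε k := q4 k
  have hpt : ∀ y ∈ (ν k).support, ‖y‖ ≤ 1 →
      ‖hgt (U k) (M k) (b k) y - ε k • (βk + Bk (adjU (U k) y))‖ ^ 2 ≤
        ε k ^ 2 * (2 * ‖S.u k y - L.c0⁻¹ • (a + B (adjU L.V y))‖ ^ 2 + 2 * (K * ζ) ^ 2) := by
    intro y hy hy1
    set t : E d := y - T (adjU (U k) y) with ht
    have ht1 : ‖t‖ ≤ ζ := hk2 y hy hy1
    have hu : hgt (U k) (M k) (b k) y = ε k • S.u k y := by
      change _ = ε k • ((ε k)⁻¹ • hgt (U k) (M k) (b k) y)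
      rw [smul_smul, mul_inv_cancel₀ hεk.ne', one_smul]
    have hPu : P (S.u k y) = S.u k y := by
      change P ((ε k)⁻¹ • hgt (U k) (M k) (b k) y) = (ε k)⁻¹ • hgt (U k) (M k) (b k) y
      rw [map_smul, hP, decayUnit_proj_hgt (q8 k)]
    have hdec : hgt (U k) (M k) (b k) y - ε k • (βk + Bk (adjU (U k) y)) =
        ε k • (P (S.u k y - L.c0⁻¹ • (a + B (adjU L.V y))) +
          L.c0⁻¹ • P (B (adjU L.V t))) := by
      have h1 : Bk (adjU (U k) y) = L.c0⁻¹ • P (B (adjU L.V (T (adjU (U k) y)))) := rfl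
      rw [hu, h1, hβk, ht]
      simp only [map_sub, map_add, map_smul, hPu]
      module
    have hn1 : ‖P (S.u k y - L.c0⁻¹ • (a + B (adjU L.V y))) +
          L.c0⁻¹ • P (B (adjU L.V t))‖ ≤ ‖S.u k y - L.c0⁻¹ • (a + B (adjU L.V y))‖ + K * ζ := by
      refine (norm_add_le _ _).trans (add_le_add (hPle _) ?_)
      rw [norm_smul, Real.norm_of_nonneg (inv_nonneg.2 c0pos.le)]
      calc L.c0⁻¹ * ‖P (B (adjU L.V t))‖ ≤ cl⁻¹ * (CW * ζ) := by
            gcongr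
            refine (hPle _).trans ((hBle _).trans ?_)
            gcongr
            exact (norm_adjU_le _ _).trans ht1
        _ = K * ζ := by rw [hK]; ring
    rw [hdec, norm_smul, mul_pow, Real.norm_of_nonneg hεk.le]
    gcongr
    calc ‖P (S.u k y - L.c0⁻¹ • (a + B (adjU L.V y))) + L.c0⁻¹ • P (B (adjU L.V t))‖ ^ 2
        ≤ (‖S.u k y - L.c0⁻¹ • (a + B (adjU L.V y))‖ + K * ζ) ^ 2 := by gcongr
      _ ≤ 2 * ‖S.u k y - L.c0⁻¹ • (a + B (adjU L.V y))‖ ^ 2 + 2 * (K * ζ) ^ 2 := by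
        linarith only [sq_nonneg (‖S.u k y - L.c0⁻¹ • (a + B (adjU L.V y))‖ - K * ζ)]
  -- integration
  have hfin : IsFiniteMeasure (ν k) := UB.isFiniteMeasure (q1 k) (q2 k)
  have hmass : (ν k).real (ball (0 : E d) 1) ≤ C := by
    have h1 := (q1 k).ball 0 one_pos
    rw [one_pow, mul_one] at h1
    exact ENNReal.toReal_le_of_le_ofReal hC.le h1
  have hcontu : Continuous fun y => S.u k y := by
    change Continuous fun y => (ε k)⁻¹ • hgt (U k) (M k) (b k) y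
    unfold hgt
    have := (U k).continuous
    fun_prop
  have hint : ∀ f : E d → ℝ, Continuous f → Integrable f ((ν k).restrict (ball 0 1)) := by
    intro f hf
    exact (hf.continuousOn.integrableOn_compact (isCompact_closedBall 0 1)).mono_set
      ball_subset_closedBall
  have hi1 : Integrable (fun y => ‖hgt (U k) (M k) (b k) y - ε k • (βk + Bk (adjU (U k) y))‖ ^ 2)
      ((ν k).restrict (ball 0 1)) := by
    refine hint _ ?_
    unfold hgt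
    have := (U k).continuous
    fun_prop
  have hi2 : Integrable (fun y => ‖S.u k y - L.c0⁻¹ • (a + B (adjU L.V y))‖ ^ 2)
      ((ν k).restrict (ball 0 1)) := by
    refine hint _ ?_
    fun_prop
  have hae : ∀ᵐ y ∂((ν k).restrict (ball 0 1)),
      ‖hgt (U k) (M k) (b k) y - ε k • (βk + Bk (adjU (U k) y))‖ ^ 2 ≤
        ε k ^ 2 * (2 * ‖S.u k y - L.c0⁻¹ • (a + B (adjU L.V y))‖ ^ 2 + 2 * (K * ζ) ^ 2) := by
    have h1 : ∀ᵐ y ∂((ν k).restrict (ball 0 1)), y ∈ (ν k).support :=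
      ae_restrict_of_ae Measure.support_mem_ae
    have h2 : ∀ᵐ y ∂((ν k).restrict (ball 0 1)), y ∈ ball (0 : E d) 1 :=
      ae_restrict_mem measurableSet_ball
    filter_upwards [h1, h2] with y hy1 hy2
    exact hpt y hy1 (by simpa using (mem_ball_zero_iff.1 hy2).le)
  have hi3 : Integrable (fun y => ε k ^ 2 *
      (2 * ‖S.u k y - L.c0⁻¹ • (a + B (adjU L.V y))‖ ^ 2 + 2 * (K * ζ) ^ 2))
      ((ν k).restrict (ball 0 1)) :=
    ((hi2.const_mul 2).add (integrable_const (2 * (K * ζ) ^ 2))).const_mul (ε k ^ 2)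
  have hI := integral_mono_ae hi1 hi3 hae
  rw [integral_const_mul, integral_add (hi2.const_mul 2) (integrable_const _),
    integral_const_mul, integral_const, measureReal_restrict_apply_univ, smul_eq_mul] at hI
  have hKζ : K * ζ = τ / (4 * (1 + C)) := by
    rw [hζ]; field_simp
  have hKζ2 : C * (2 * (K * ζ) ^ 2) ≤ τ ^ 2 / 8 := by
    rw [hKζ, div_pow, mul_pow]
    have h1 : C ≤ (1 + C) ^ 2 := by nlinarith only []
    have h2 : 0 < (1 + C) ^ 2 := by positivity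
    have h3 : C / (1 + C) ^ 2 ≤ 1 := (div_le_one h2).2 h1
    calc C * (2 * (τ ^ 2 / (4 ^ 2 * (1 + C) ^ 2))) = τ ^ 2 / 8 * (C / (1 + C) ^ 2) := by
          field_simp; ring
      _ ≤ τ ^ 2 / 8 * 1 := by gcongr
      _ = τ ^ 2 / 8 := mul_one _
  have hfinal : ∫ y in ball 0 1, ‖hgt (U k) (M k) (b k) y - ε k • (βk + Bk (adjU (U k) y))‖ ^ 2 ∂ν k
      ≤ τ ^ 2 * ε k ^ 2 := by
    refine hI.trans ?_
    have h1 : (ν k).real (ball (0 : E d) 1) * (2 * (K * ζ) ^ 2) ≤ C * (2 * (K * ζ) ^ 2) := by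
      gcongr
    have h2 : ∫ y in ball 0 1, ‖S.u k y - L.c0⁻¹ • (a + B (adjU L.V y))‖ ^ 2 ∂ν k ≤ τ ^ 2 / 8 := hk1
    calc ε k ^ 2 * (2 * ∫ y in ball 0 1, ‖S.u k y - L.c0⁻¹ • (a + B (adjU L.V y))‖ ^ 2 ∂ν k +
          (ν k).real (ball (0 : E d) 1) * (2 * (K * ζ) ^ 2))
        ≤ ε k ^ 2 * τ ^ 2 := by
          gcongr
          linarith [sq_nonneg τ]
      _ = τ ^ 2 * ε k ^ 2 := by ring
  exact absurd hfinal (not_le.2 hlt)

end Vale.Agent.P120
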