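import Vale.Agent.Lib.P120.UR.Base
import Vale.Agent.Lib.P120.UR.DecayUnit

/-!
P120: scaling of the decay lemma (module Decay).
-/

open MeasureTheory Filter Set Metric Module
open scoped Topology ENNReal NNReal RealInnerProductSpace

namespace Vale.Agent.P120

variable {d n : ℕ}

/-- The scaling map `y ↦ (y - x)/s`. -/
noncomputable def decayT (x : E d) (s : ℝ) (y : E d) : E d := s⁻¹ • (y - x)

/-- The scaled measure. -/
noncomputable def decayN (n : ℕ) (ν : Measure (E d)) (x : E d) (s : ℝ) : Measure (E d) :=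
  ENNReal.ofReal (s ^ n)⁻¹ • ν.map (decayT x s)

theorem decay_measurableT (x : E d) (s : ℝ) : Measurable (decayT x s) := by
  unfold decayT; fun_prop

theorem decay_embT (x : E d) {s : ℝ} (hs : 0 < s) : MeasurableEmbedding (decayT x s) :=
  ((Homeomorph.subRight x).trans
    (Homeomorph.smulOfNeZero s⁻¹ (inv_ne_zero hs.ne'))).measurableEmbedding

theorem decay_T_sub (x : E d) (s : ℝ) (y z : E d) :
    decayT x s y - decayT x s z = s⁻¹ • (y - z) := by
  unfold decayT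
  rw [← smul_sub]
  congr 1
  abel

theorem decay_norm_T (x : E d) {s : ℝ} (hs : 0 < s) (y : E d) :
    ‖decayT x s y‖ = s⁻¹ * ‖y - x‖ := by
  unfold decayT
  rw [norm_smul, Real.norm_eq_abs, abs_of_pos (inv_pos.mpr hs)]

theorem decay_norm_T_sub (x : E d) {s : ℝ} (hs : 0 < s) (y z : E d) :
    ‖decayT x s y - decayT x s z‖ = s⁻¹ * ‖y - z‖ := by
  rw [decay_T_sub, norm_smul, Real.norm_eq_abs, abs_of_pos (inv_pos.mpr hs)]

theorem decay_T_inv (x : E d) {s : ℝ} (hs : 0 < s) (z : E d) :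
    decayT x s (x + s • z) = z := by
  unfold decayT
  rw [add_sub_cancel_left, smul_smul, inv_mul_cancel₀ hs.ne', one_smul]

theorem decay_preimage_ball (x : E d) {s : ℝ} (hs : 0 < s) (z : E d) (r : ℝ) :
    decayT x s ⁻¹' ball z r = ball (x + s • z) (s * r) := by
  ext y
  rw [mem_preimage, mem_ball, mem_ball, dist_eq_norm, dist_eq_norm]
  nth_rewrite 1 [← decay_T_inv x hs z]
  rw [decay_norm_T_sub x hs, inv_mul_lt_iff₀ hs]

theorem decay_preimage_closedBall (x : E d) {s : ℝ} (hs : 0 < s) (z : E d) (r : ℝ) :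
    decayT x s ⁻¹' closedBall z r = closedBall (x + s • z) (s * r) := by
  ext y
  rw [mem_preimage, mem_closedBall, mem_closedBall, dist_eq_norm, dist_eq_norm]
  nth_rewrite 1 [← decay_T_inv x hs z]
  rw [decay_norm_T_sub x hs, inv_mul_le_iff₀ hs]

theorem decay_apply (ν : Measure (E d)) (x : E d) {s : ℝ} (hs : 0 < s) (A : Set (E d)) :
    decayN n ν x s A = ENNReal.ofReal (s ^ n)⁻¹ * ν (decayT x s ⁻¹' A) := by
  unfold decayN
  rw [Measure.smul_apply, (decay_embT x hs).map_apply, smul_eq_mul]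

theorem decay_integral (ν : Measure (E d)) (x : E d) {s : ℝ} (hs : 0 < s) {F : Type*}
    [NormedAddCommGroup F] [NormedSpace ℝ F] (f : E d → F) :
    ∫ y, f y ∂(decayN n ν x s) = (s ^ n)⁻¹ • ∫ y, f (decayT x s y) ∂ν := by
  unfold decayN
  rw [integral_smul_measure, (decay_embT x hs).integral_map, ENNReal.toReal_ofReal (by positivity)]

theorem decay_setIntegral (ν : Measure (E d)) (x : E d) {s : ℝ} (hs : 0 < s) {F : Type*}
    [NormedAddCommGroup F] [NormedSpace ℝ F] (f : E d → F) (t : ℝ) :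
    ∫ y in ball 0 t, f y ∂(decayN n ν x s) =
      (s ^ n)⁻¹ • ∫ y in ball x (s * t), f (decayT x s y) ∂ν := by
  unfold decayN
  rw [Measure.restrict_smul, integral_smul_measure, (decay_embT x hs).setIntegral_map,
    ENNReal.toReal_ofReal (by positivity), decay_preimage_ball x hs, smul_zero, add_zero]

theorem decay_prod_integral (ν : Measure (E d)) [SFinite ν] (x : E d) {s : ℝ} (hs : 0 < s)
    {F : Type*} [NormedAddCommGroup F] [NormedSpace ℝ F] (f : E d × E d → F) :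
    ∫ p, f p ∂((decayN n ν x s).prod (decayN n ν x s)) =
      ((s ^ n)⁻¹ * (s ^ n)⁻¹) • ∫ p, f (decayT x s p.1, decayT x s p.2) ∂(ν.prod ν) := by
  unfold decayN
  rw [Measure.prod_smul_left, Measure.prod_smul_right,
    Measure.map_prod_map ν ν (decay_measurableT x s) (decay_measurableT x s),
    integral_smul_measure, integral_smul_measure,
    ((decay_embT x hs).prodMap (decay_embT x hs)).integral_map,
    ENNReal.toReal_ofReal (by positivity), smul_smul]
  rfl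

theorem decay_rieszKernel {s : ℝ} (hs : 0 < s) (z : E d) :
    rieszKernel n (s⁻¹ • z) = s ^ n • rieszKernel n z := by
  unfold rieszKernel
  rw [norm_smul, Real.norm_eq_abs, abs_of_pos (inv_pos.mpr hs), smul_smul, smul_smul]
  congr 1
  rw [mul_pow, mul_inv, inv_pow, inv_inv, pow_succ]
  field_simp

theorem decay_wt (x : E d) {s : ℝ} (hs : 0 < s) (y z : E d) :
    wt n (decayT x s y) (decayT x s z) = s ^ (n + 1) * wt n y z := by
  unfold wt
  rw [decay_norm_T_sub x hs, mul_pow, mul_inv, inv_pow, inv_inv]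

theorem decay_BF (ν : Measure (E d)) [SFinite ν] (x : E d) {s : ℝ} (hs : 0 < s) (φ : E d → ℝ) :
    BF n (decayN n ν x s) φ = (s ^ n)⁻¹ • BF n ν (fun y => φ (decayT x s y)) := by
  unfold BF
  rw [decay_prod_integral ν x hs]
  have h1 : (fun p : E d × E d => (φ (decayT x s p.1) - φ (decayT x s p.2)) •
      rieszKernel n (decayT x s p.1 - decayT x s p.2)) =
      fun p => s ^ n • ((φ (decayT x s p.1) - φ (decayT x s p.2)) •
        rieszKernel n (p.1 - p.2)) := by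
    funext p
    rw [decay_T_sub, decay_rieszKernel hs, smul_comm]
  simp only
  rw [h1, integral_smul, smul_smul, smul_smul, smul_smul]
  congr 1
  have : s ^ n ≠ 0 := (pow_pos hs n).ne'
  field_simp

theorem decay_En (ν : Measure (E d)) [SFinite ν] (x : E d) {s : ℝ} (hs : 0 < s) (φ : E d → ℝ) :
    En n (decayN n ν x s) φ =
      (s ^ n)⁻¹ * (s ^ n)⁻¹ * s ^ (n + 1) * En n ν (fun y => φ (decayT x s y)) := by
  unfold En
  rw [decay_prod_integral ν x hs, smul_eq_mul]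
  have h1 : (fun p : E d × E d => (φ (decayT x s p.1) - φ (decayT x s p.2)) ^ 2 *
      wt n (decayT x s p.1) (decayT x s p.2)) =
      fun p => s ^ (n + 1) * ((φ (decayT x s p.1) - φ (decayT x s p.2)) ^ 2 *
        wt n p.1 p.2) := by
    funext p
    rw [decay_wt x hs]
    ring
  simp only
  rw [h1, integral_const_mul]
  ring

theorem decay_hgt (U : E n →ₗᵢ[ℝ] E d) (M : E n →L[ℝ] E d) (b x : E d) (s : ℝ) (y : E d) :
    hgt U M (-(s⁻¹ • hgt U M b x)) (decayT x s y) = s⁻¹ • hgt U M b y := by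
  have h1 := hgt_sub U M b y x
  have h2 : hgt U M b y = hgt U M b x + ((y - x) - U (adjU U (y - x)) - M (adjU U (y - x))) := by
    rw [← h1]; abel
  rw [h2, smul_add]
  unfold decayT
  generalize y - x = w
  have h3 : hgt U M (-(s⁻¹ • hgt U M b x)) (s⁻¹ • w) =
      s⁻¹ • hgt U M b x + (s⁻¹ • w - U (adjU U (s⁻¹ • w)) - M (adjU U (s⁻¹ • w))) := by
    rw [hgt]; abel
  rw [h3]
  congr 1
  rw [map_smul, map_smul, map_smul, smul_sub, smul_sub]

theorem decay_UB {C : ℝ} {ν : Measure (E d)} (hU : UB n ν C) (x : E d) {s : ℝ} (hs : 0 < s) :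
    UB n (decayN n ν x s) C := by
  have hC := hU.1
  refine ⟨hU.1, fun z r hr => ?_⟩
  rw [decay_apply ν x hs, decay_preimage_closedBall x hs]
  calc ENNReal.ofReal (s ^ n)⁻¹ * ν (closedBall (x + s • z) (s * r))
      ≤ ENNReal.ofReal (s ^ n)⁻¹ * ENNReal.ofReal (C * (s * r) ^ n) := by
        gcongr
        exact hU.2 _ _ (by positivity)
    _ = ENNReal.ofReal (C * r ^ n) := by
        rw [← ENNReal.ofReal_mul (by positivity)]
        congr 1
        rw [mul_pow]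
        have : s ^ n ≠ 0 := (pow_pos hs n).ne'
        field_simp

theorem decay_bdd {ν : Measure (E d)} (hb : ∃ R0, ν (closedBall 0 R0)ᶜ = 0) (x : E d) {s : ℝ}
    (hs : 0 < s) : ∃ R0, decayN n ν x s (closedBall 0 R0)ᶜ = 0 := by
  obtain ⟨R0, hR0⟩ := hb
  refine ⟨s⁻¹ * (R0 + ‖x‖), ?_⟩
  rw [decay_apply ν x hs, preimage_compl, decay_preimage_closedBall x hs]
  have h1 : ν (closedBall (x + s • (0 : E d)) (s * (s⁻¹ * (R0 + ‖x‖))))ᶜ = 0 := by
    refine measure_mono_null (compl_subset_compl.mpr ?_) hR0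
    intro y hy
    rw [mem_closedBall, dist_eq_norm] at hy ⊢
    rw [smul_zero, add_zero, ← mul_assoc, mul_inv_cancel₀ hs.ne', one_mul]
    rw [sub_zero] at hy
    have := norm_sub_le y x
    linarith
  rw [h1, mul_zero]

theorem decay_support {ν : Measure (E d)} (x : E d) {s : ℝ} (hs : 0 < s) (z : E d) :
    z ∈ (decayN n ν x s).support ↔ x + s • z ∈ ν.support := by
  have hpos : 0 < ENNReal.ofReal (s ^ n)⁻¹ := ENNReal.ofReal_pos.mpr (by positivity)
  rw [mem_support_iff', mem_support_iff']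
  constructor
  · intro h r hr
    have h1 := h (s⁻¹ * r) (by positivity)
    rw [decay_apply ν x hs, decay_preimage_ball x hs, ← mul_assoc, mul_inv_cancel₀ hs.ne',
      one_mul] at h1
    exact pos_iff_ne_zero.mpr fun h0 => by rw [h0, mul_zero] at h1; exact lt_irrefl _ h1
  · intro h r hr
    rw [decay_apply ν x hs, decay_preimage_ball x hs]
    exact ENNReal.mul_pos hpos.ne' (h (s * r) (by positivity)).ne'

theorem decay_LBloc {c : ℝ} {ν : Measure (E d)} (x : E d) {s : ℝ} (hs : 0 < s) {R : ℝ}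
    (h : LBloc n ν c x (s * R)) : LBloc n (decayN n ν x s) c 0 R := by
  intro y hy hyR r hr hrR
  rw [decay_support x hs] at hy
  rw [sub_zero] at hyR
  have h1 := h (x + s • y) hy (by
    rw [add_sub_cancel_left, norm_smul, Real.norm_eq_abs, abs_of_pos hs]
    gcongr) (s * r) (by positivity) (by gcongr)
  rw [decay_apply ν x hs, decay_preimage_ball x hs]
  calc ENNReal.ofReal (c * r ^ n) = ENNReal.ofReal (s ^ n)⁻¹ * ENNReal.ofReal (c * (s * r) ^ n) := by
        rw [← ENNReal.ofReal_mul (by positivity)]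
        congr 1
        rw [mul_pow]
        have : s ^ n ≠ 0 := (pow_pos hs n).ne'
        field_simp
    _ ≤ _ := by gcongr

theorem decay_perp {U : E n →ₗᵢ[ℝ] E d} {M : E n →L[ℝ] E d} {b : E d} (h : Perp U M b) (x : E d)
    (s : ℝ) : Perp U M (-(s⁻¹ • hgt U M b x)) := by
  refine ⟨h.1, fun v => ?_⟩
  rw [inner_neg_right, inner_smul_right, h.inner_hgt, mul_zero, neg_zero]

theorem decay_growth {ν : Measure (E d)} {x : E d} {s : ℝ} (hs : 0 < s) {U : E n →ₗᵢ[ℝ] E d}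
    {M : E n →L[ℝ] E d} {b : E d} {ε : ℝ} (h : Growth n ν x s U M b ε) :
    Growth n (decayN n ν x s) 0 1 U M (-(s⁻¹ • hgt U M b x)) ε := by
  intro t ht
  have ht0 : 0 < t := by linarith
  rw [decay_setIntegral ν x hs]
  have h1 := h (s * t) (by nlinarith)
  have h2 : (fun y => ‖hgt U M (-(s⁻¹ • hgt U M b x)) (decayT x s y)‖ ^ 2) =
      fun y => (s ^ 2)⁻¹ * ‖hgt U M b y‖ ^ 2 := by
    funext y
    rw [decay_hgt, norm_smul, Real.norm_eq_abs, abs_of_pos (inv_pos.mpr hs), mul_pow, inv_pow]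
  rw [h2, integral_const_mul, smul_eq_mul]
  calc (s ^ n)⁻¹ * ((s ^ 2)⁻¹ * ∫ y in ball x (s * t), ‖hgt U M b y‖ ^ 2 ∂ν)
      ≤ (s ^ n)⁻¹ * ((s ^ 2)⁻¹ * (ε ^ 2 * (s * t) ^ (n + 3) / s)) := by gcongr
    _ = ε ^ 2 * t ^ (n + 3) / 1 := by
        rw [mul_pow, div_one]
        have e : s ^ (n + 3) = s ^ n * s ^ 2 * s := by ring
        rw [e]
        have : s ^ n ≠ 0 := (pow_pos hs n).ne'
        field_simp

theorem decay_EnLe {ν : Measure (E d)} [SFinite ν] {Lam a : ℝ} {x : E d} {s : ℝ} (hs : 0 < s)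
    (h : EnLe n ν Lam x s a) : EnLe n (decayN n ν x s) Lam 0 1 a := by
  intro φ hφ hsupp h0
  have hsn : 0 < s ^ n := pow_pos hs n
  have h1 : Lip (fun y => φ (decayT x s y)) := by
    obtain ⟨K, hK⟩ := hφ
    refine ⟨K * (s⁻¹).toNNReal, LipschitzWith.of_dist_le_mul fun y z => ?_⟩
    refine (hK.dist_le_mul _ _).trans ?_
    rw [dist_eq_norm, decay_norm_T_sub x hs, dist_eq_norm, NNReal.coe_mul,
      Real.coe_toNNReal _ (by positivity), mul_assoc]
  have h2 : ∀ y, Lam * s < ‖y - x‖ → φ (decayT x s y) = 0 := by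
    intro y hy
    apply hsupp
    rw [mul_one, sub_zero, decay_norm_T x hs, lt_inv_mul_iff₀ hs]
    linarith
  have h3 : ∫ y, φ (decayT x s y) ∂ν = 0 := by
    rw [decay_integral ν x hs, smul_eq_mul] at h0
    rcases mul_eq_zero.mp h0 with h4 | h4
    · exact absurd h4 (inv_pos.mpr hsn).ne'
    · exact h4
  have h5 := h _ h1 h2 h3
  rw [decay_BF ν x hs, decay_En ν x hs, norm_smul, Real.norm_eq_abs,
    abs_of_pos (inv_pos.mpr hsn), mul_pow, one_pow, mul_one]
  calc (s ^ n)⁻¹ ^ 2 * ‖BF n ν (fun y => φ (decayT x s y))‖ ^ 2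
      ≤ (s ^ n)⁻¹ ^ 2 * (a * s ^ (n + 1) * En n ν (fun y => φ (decayT x s y))) := by gcongr
    _ = _ := by ring

/-- Decay lemma, scaled. -/
theorem decay (n d : ℕ) (hn : 1 ≤ n) (C c : ℝ) (hC : 0 < C) (hc : 0 < c) :
    ∃ C1 : ℝ, 0 < C1 ∧ ∀ τ > 0, ∃ Lam : ℝ, 1 ≤ Lam ∧ ∃ ε1 > 0, ∃ δ > 0,
      ∀ (ν : Measure (E d)), UB n ν C → (∃ R0, ν (closedBall 0 R0)ᶜ = 0) → ∀ x ∈ ν.support,
      ∀ s : ℝ, 0 < s → ∀ ε : ℝ, 0 < ε → ε ≤ ε1 → LBloc n ν c x (s / ε ^ 2) →
      ∀ (U : E n →ₗᵢ[ℝ] E d) (M : E n →L[ℝ] E d) (b : E d), ‖M‖ ≤ 1 → Perp U M b →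
      Growth n ν x s U M b ε → EnLe n ν Lam x s ((δ * ε) ^ 2) →
      ∃ (B : E n →L[ℝ] E d) (β : E d), ‖B‖ ≤ C1 ∧ ‖β‖ ≤ C1 ∧ Perp U B β ∧
        ∫ y in ball x s, ‖hgt U M b y - ε • (s • β + B (adjU U (y - x)))‖ ^ 2 ∂ν ≤
          τ ^ 2 * ε ^ 2 * s ^ (n + 2) := by
  obtain ⟨C1, hC1, H⟩ := decay_unit n d hn C c hC hc
  refine ⟨C1, hC1, fun τ hτ => ?_⟩
  obtain ⟨Lam, hLam, ε1, hε1, δ, hδ, H⟩ := H τ hτ
  refine ⟨Lam, hLam, ε1, hε1, δ, hδ, ?_⟩
  intro ν hU hb x hx s hs ε hε hεε1 hL U M b hM hP hG hE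
  have hfin := hU.isFiniteMeasure hb
  have hsn : 0 < s ^ n := pow_pos hs n
  obtain ⟨B, β, hB, hβ, hPB, hint⟩ := H (decayN n ν x s) (decay_UB hU x hs) (decay_bdd hb x hs)
    ((decay_support x hs 0).mpr (by rwa [smul_zero, add_zero])) ε hε hεε1
    (decay_LBloc x hs (by rwa [mul_one_div])) U M (-(s⁻¹ • hgt U M b x)) hM (decay_perp hP x s)
    (decay_growth hs hG) (decay_EnLe hs hE)
  refine ⟨B, β, hB, hβ, hPB, ?_⟩
  rw [decay_setIntegral ν x hs, mul_one] at hint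
  have h2 : (fun y => ‖hgt U M (-(s⁻¹ • hgt U M b x)) (decayT x s y) -
      ε • (β + B (adjU U (decayT x s y)))‖ ^ 2) =
      fun y => (s ^ 2)⁻¹ * ‖hgt U M b y - ε • (s • β + B (adjU U (y - x)))‖ ^ 2 := by
    funext y
    rw [decay_hgt]
    have h3 : s⁻¹ • hgt U M b y - ε • (β + B (adjU U (decayT x s y))) =
        s⁻¹ • (hgt U M b y - ε • (s • β + B (adjU U (y - x)))) := by
      unfold decayT
      rw [map_smul, map_smul, smul_sub, smul_comm s⁻¹ ε, smul_add s⁻¹, smul_smul s⁻¹ s,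
        inv_mul_cancel₀ hs.ne', one_smul]
    rw [h3, norm_smul, Real.norm_eq_abs, abs_of_pos (inv_pos.mpr hs), mul_pow, inv_pow]
  rw [h2, integral_const_mul, smul_eq_mul] at hint
  have h4 : ∫ y in ball x s, ‖hgt U M b y - ε • (s • β + B (adjU U (y - x)))‖ ^ 2 ∂ν =
      (s ^ n * s ^ 2) * ((s ^ n)⁻¹ * ((s ^ 2)⁻¹ *
        ∫ y in ball x s, ‖hgt U M b y - ε • (s • β + B (adjU U (y - x)))‖ ^ 2 ∂ν)) := by
    field_simp
  rw [h4]
  calc (s ^ n * s ^ 2) * ((s ^ n)⁻¹ * ((s ^ 2)⁻¹ *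
        ∫ y in ball x s, ‖hgt U M b y - ε • (s • β + B (adjU U (y - x)))‖ ^ 2 ∂ν))
      ≤ (s ^ n * s ^ 2) * (τ ^ 2 * ε ^ 2) := by gcongr
    _ = _ := by ring

end Vale.Agent.P120
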