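import Vale.Agent.Lib.P120.UR.NetsExist

/-!
P120: counting leaves (module `Leaves` of `blueprint/P120.md`).
-/

open MeasureTheory Filter Set Metric Module
open scoped Topology ENNReal NNReal RealInnerProductSpace

namespace Vale.Agent.P120

set_option linter.unusedVariables false

variable {d n : ℕ}

theorem mass_children {μ : Measure (E d)} {x0 : E d} {s0 lam : ℝ} {N : ℕ}
    (T : Nets μ x0 s0 lam N) {k i : ℕ} (h : k + i ≤ N) (p : E d) (hp : p ∈ T.pts k) :
    mass T k p = ∑ q ∈ T.pts (k + i), if up T.par k i q = p then mass T (k + i) q else 0 := by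
  classical
  have hN : N - k = i + (N - (k + i)) := by omega
  have hmaps : ((leaves T k p : Finset (E d)) : Set (E d)).MapsTo
      (fun x => up T.par (k + i) (N - (k + i)) x) (T.pts (k + i) : Set (E d)) := by
    intro x hx
    have hx' : x ∈ T.pts N := by
      have := Finset.mem_coe.mp hx
      rw [leaves, Finset.mem_filter] at this
      exact this.1
    refine Nets.up_mem T (j := k + i) (i := N - (k + i)) (by omega) ?_
    have e : k + i + (N - (k + i)) = N := by omega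
    rw [e]
    exact hx'
  have hcard := Finset.card_eq_sum_card_fiberwise hmaps
  unfold mass
  rw [hcard, Nat.cast_sum]
  refine Finset.sum_congr rfl fun q _ => ?_
  split_ifs with hq
  · congr 2
    unfold leaves
    ext x
    simp only [Finset.mem_filter]
    constructor
    · rintro ⟨⟨h1, _⟩, h3⟩
      exact ⟨h1, h3⟩
    · rintro ⟨h1, h3⟩
      refine ⟨⟨h1, ?_⟩, h3⟩
      rw [hN, ← up_up T.par k i, h3, hq]
  · rw [Nat.cast_eq_zero, Finset.card_eq_zero, Finset.filter_eq_empty_iff]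
    intro x hx hxq
    rw [leaves, Finset.mem_filter] at hx
    apply hq
    rw [← hxq, up_up T.par k i, ← hN]
    exact hx.2

/-- packing bound for separated sets -/
theorem pack_bound {C c D : ℝ} {μ : Measure (E d)} (hU : UB n μ C) (hL : LB n μ c D)
    {s R : ℝ} (hs : 0 < s) (hsD : s ≤ 2 * D) (hR : 0 ≤ R) (x : E d) (F : Finset (E d))
    (hF : ∀ p ∈ F, p ∈ μ.support ∧ ‖p - x‖ ≤ R)
    (hsep : ∀ p ∈ F, ∀ q ∈ F, p ≠ q → s ≤ ‖p - q‖) :
    (F.card : ℝ) ≤ C / c * ((2 * R + s) / s) ^ n := by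
  have hC : 0 < C := hU.1
  have hc : 0 < c := hL.1
  have hdisj : (F : Set (E d)).PairwiseDisjoint (fun p => ball p (s / 2)) := by
    intro p hp q hq hpq
    refine ball_disjoint_ball ?_
    have := hsep p hp q hq hpq
    rw [← dist_eq_norm] at this
    linarith
  have hsub : (⋃ p ∈ F, ball p (s / 2)) ⊆ closedBall x (R + s / 2) := by
    intro y hy
    simp only [mem_iUnion] at hy
    obtain ⟨p, hp, hy⟩ := hy
    have h1 := (hF p hp).2
    rw [← dist_eq_norm] at h1
    rw [mem_ball] at hy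
    rw [mem_closedBall]
    linarith [dist_triangle y p x]
  have h1 : ∑ p ∈ F, μ (ball p (s / 2)) ≤ ENNReal.ofReal (C * (R + s / 2) ^ n) := by
    rw [← measure_biUnion_finset hdisj (fun p _ => measurableSet_ball)]
    exact (measure_mono hsub).trans (hU.2 x _ (by positivity))
  have h2 : ∑ _p ∈ F, ENNReal.ofReal (c * (s / 2) ^ n) ≤ ∑ p ∈ F, μ (ball p (s / 2)) :=
    Finset.sum_le_sum fun p hp => hL.2.2 p (hF p hp).1 (s / 2) (by positivity) (by linarith)
  rw [Finset.sum_const, nsmul_eq_mul] at h2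
  have h3 := h2.trans h1
  rw [← ENNReal.ofReal_natCast, ← ENNReal.ofReal_mul (by positivity),
    ENNReal.ofReal_le_ofReal_iff (by positivity)] at h3
  have e1 : (2 * R + s) / s = (R + s / 2) / (s / 2) := by field_simp
  rw [e1, div_pow, div_mul_div_comm, le_div_iff₀ (by positivity)]
  linarith

theorem nets_pack {C c D s0 lam : ℝ} {μ : Measure (E d)} (hU : UB n μ C) (hL : LB n μ c D)
    (hs0 : 0 < s0) (hD : 16 * s0 ≤ D) (hlam : 0 < lam) (hlam1 : lam ≤ 1 / 64) {x0 : E d} {N : ℕ}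
    (T : Nets μ x0 s0 lam N) {k : ℕ} (hk : k ≤ N) (x : E d) {R : ℝ} (hR : 0 ≤ R)
    (F : Finset (E d)) (hF : ∀ p ∈ F, p ∈ T.pts k ∧ ‖p - x‖ ≤ R) :
    (F.card : ℝ) ≤ C / c * ((2 * R + s0 * lam ^ k) / (s0 * lam ^ k)) ^ n := by
  have hle : lam ^ k ≤ 1 := pow_le_one₀ hlam.le (by linarith)
  have hsk : s0 * lam ^ k ≤ s0 := mul_le_of_le_one_right hs0.le hle
  refine pack_bound hU hL (by positivity) (by linarith) hR x F
    (fun p hp => ⟨(T.mem_supp k hk p (hF p hp).1).1, (hF p hp).2⟩)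
    (fun p hp q hq hpq => T.sep k hk p (hF p hp).1 q (hF q hq).1 hpq)

theorem ratio_bound {s0 lam A B : ℝ} (hs0 : 0 < s0) (hA : 0 < A) (hB : 0 < B) (hBA : B ≤ A)
    {R K : ℝ} (hR : 2 * R ≤ K * (s0 * A)) (hK : 0 ≤ K) (hR0 : 0 ≤ R) (n : ℕ) :
    ((2 * R + s0 * B) / (s0 * B)) ^ n ≤ (K + 1) ^ n * (A / B) ^ n := by
  rw [← mul_pow]
  refine pow_le_pow_left₀ (by positivity) ?_ n
  rw [← mul_div_assoc, div_le_div_iff₀ (by positivity) hB]
  have h1 : s0 * B ≤ s0 * A := mul_le_mul_of_nonneg_left hBA hs0.le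
  have h2 : 2 * R + s0 * B ≤ (K + 1) * (s0 * A) := by linarith only [hR, h1]
  calc (2 * R + s0 * B) * B ≤ (K + 1) * (s0 * A) * B := mul_le_mul_of_nonneg_right h2 hB.le
    _ = (K + 1) * A * (s0 * B) := by ring

theorem card_leaves_upper (n d : ℕ) (C c : ℝ) (hC : 0 < C) (hc : 0 < c) :
    ∃ A : ℝ, 0 < A ∧ ∀ (μ : Measure (E d)) (x0 : E d) (D s0 lam : ℝ) (N : ℕ),
      UB n μ C → LB n μ c D → 0 < s0 → 16 * s0 ≤ D → 0 < lam → lam ≤ 1 / 64 →
      ∀ (T : Nets μ x0 s0 lam N), ∀ k ≤ N, ∀ p ∈ T.pts k,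
        mass T k p ≤ A * (lam ^ k / lam ^ N) ^ n := by
  refine ⟨C / c * 4 ^ n, by positivity, ?_⟩
  intro μ x0 D s0 lam N hU hL hs0 hD hlam hlam1 T k hk p hp
  have e : k + (N - k) = N := by omega
  have h1 := nets_pack hU hL hs0 hD hlam hlam1 T le_rfl p (R := 64 / 63 * (s0 * lam ^ k))
    (by positivity) (leaves T k p) (fun x hx => by
      classical
      rw [leaves, Finset.mem_filter] at hx
      refine ⟨hx.1, ?_⟩
      have := Nets.up_dist hs0 hlam hlam1 T (j := k) (i := N - k) (by omega) (p := x)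
        (by rw [e]; exact hx.1)
      rwa [hx.2] at this)
  unfold mass
  refine h1.trans ?_
  rw [mul_assoc]
  refine mul_le_mul_of_nonneg_left ?_ (by positivity)
  have h2 := ratio_bound (K := 3) (R := 64 / 63 * (s0 * lam ^ k)) (lam := lam) hs0
    (pow_pos hlam k) (pow_pos hlam N)
    (pow_le_pow_of_le_one hlam.le (by linarith) hk) (by
      have : 0 < s0 * lam ^ k := by positivity
      linarith) (by norm_num) (by positivity) n
  refine h2.trans (le_of_eq ?_)
  norm_num

/-- number of all leaves -/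
theorem card_pts_upper (n d : ℕ) (C c : ℝ) (hC : 0 < C) (hc : 0 < c) :
    ∃ A : ℝ, 0 < A ∧ ∀ (μ : Measure (E d)) (x0 : E d) (D s0 lam : ℝ) (N : ℕ),
      UB n μ C → LB n μ c D → 0 < s0 → 16 * s0 ≤ D → 0 < lam → lam ≤ 1 / 64 →
      ∀ (T : Nets μ x0 s0 lam N), ∀ k ≤ N, ((T.pts k).card : ℝ) ≤ A * (1 / lam ^ k) ^ n := by
  refine ⟨C / c * 17 ^ n, by positivity, ?_⟩
  intro μ x0 D s0 lam N hU hL hs0 hD hlam hlam1 T k hk
  have h1 := nets_pack hU hL hs0 hD hlam hlam1 T hk x0 (R := 8 * s0)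
    (by positivity) (T.pts k) (fun x hx => ⟨hx, (T.mem_supp k hk x hx).2⟩)
  refine h1.trans ?_
  rw [mul_assoc]
  refine mul_le_mul_of_nonneg_left ?_ (by positivity)
  have h2 := ratio_bound (K := 16) (R := 8 * s0) (lam := lam) (A := 1) hs0
    one_pos (pow_pos hlam k)
    (pow_le_one₀ hlam.le (by linarith)) (by linarith) (by norm_num) (by positivity) n
  refine h2.trans (le_of_eq ?_)
  norm_num

/-- number of nodes of level `k + i` below a node of level `k` -/
theorem card_below (n d : ℕ) (C c lam : ℝ) (hC : 0 < C) (hc : 0 < c) (hlam : 0 < lam)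
    (hlam1 : lam ≤ 1 / 64) (i : ℕ) :
    ∃ K : ℕ, ∀ (μ : Measure (E d)) (x0 : E d) (D s0 : ℝ) (N : ℕ),
      UB n μ C → LB n μ c D → 0 < s0 → 16 * s0 ≤ D →
      ∀ (T : Nets μ x0 s0 lam N), ∀ k, k + i ≤ N → ∀ p, ∀ A : Finset (E d),
        (∀ q ∈ A, q ∈ T.pts (k + i) ∧ up T.par k i q = p) → A.card ≤ K := by
  refine ⟨⌈C / c * (4 ^ n * (1 / lam ^ i) ^ n)⌉₊, ?_⟩
  intro μ x0 D s0 N hU hL hs0 hD T k hk p A hA
  have h1 := nets_pack hU hL hs0 hD hlam hlam1 T hk p (R := 64 / 63 * (s0 * lam ^ k))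
    (by positivity) A (fun x hx => by
      refine ⟨(hA x hx).1, ?_⟩
      have := Nets.up_dist hs0 hlam hlam1 T hk (hA x hx).1
      rwa [(hA x hx).2] at this)
  have h2 := ratio_bound (K := 3) (R := 64 / 63 * (s0 * lam ^ k)) (lam := lam) hs0
    (pow_pos hlam k) (pow_pos hlam (k + i))
    (pow_le_pow_of_le_one hlam.le (by linarith) (by omega)) (by
      have : 0 < s0 * lam ^ k := by positivity
      linarith) (by norm_num) (by positivity) n
  have e : lam ^ k / lam ^ (k + i) = 1 / lam ^ i := by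
    rw [pow_add]
    field_simp
  rw [e] at h2
  have h3 : (A.card : ℝ) ≤ C / c * (4 ^ n * (1 / lam ^ i) ^ n) := by
    refine h1.trans (mul_le_mul_of_nonneg_left ?_ (div_nonneg hU.1.le hL.1.le))
    refine h2.trans (le_of_eq ?_)
    norm_num
  have h4 := h3.trans (Nat.le_ceil _)
  exact_mod_cast h4

theorem card_leaves_lower (n d : ℕ) (C c : ℝ) (hC : 0 < C) (hc : 0 < c) :
    ∃ a : ℝ, 0 < a ∧ ∀ (μ : Measure (E d)) (x0 : E d) (D s0 lam : ℝ) (N : ℕ),
      UB n μ C → LB n μ c D → 0 < s0 → 16 * s0 ≤ D → 0 < lam → lam ≤ 1 / 64 →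
      ∀ (T : Nets μ x0 s0 lam N), ∀ k ≤ N, ∀ p ∈ T.pts k, ‖p - x0‖ ≤ 4 * s0 →
        a * (lam ^ k / lam ^ N) ^ n ≤ mass T k p := by
  refine ⟨min 1 (c / C * (1 / 8) ^ n), by positivity, ?_⟩
  intro μ x0 D s0 lam N hU hL hs0 hD hlam hlam1 T k hk p hp hpx
  classical
  rcases hk.eq_or_lt with hkN | hkN
  · subst hkN
    rw [div_self (pow_pos hlam k).ne', one_pow, mul_one]
    refine (min_le_left _ _).trans ?_
    unfold mass
    have : 1 ≤ (leaves T k p).card := by
      rw [Nat.one_le_iff_ne_zero, Finset.card_ne_zero]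
      refine ⟨p, ?_⟩
      rw [leaves, Finset.mem_filter, Nat.sub_self]
      exact ⟨hp, rfl⟩
    exact_mod_cast this
  · have hle : lam ^ k ≤ 1 := pow_le_one₀ hlam.le (by linarith)
    have hsk : s0 * lam ^ k ≤ s0 := mul_le_of_le_one_right hs0.le hle
    have hsk0 : 0 < s0 * lam ^ k := by positivity
    have hsN : s0 * lam ^ N ≤ s0 * lam ^ k * (1 / 64) := by
      rw [mul_assoc]
      refine mul_le_mul_of_nonneg_left ?_ hs0.le
      calc lam ^ N ≤ lam ^ (k + 1) := pow_le_pow_of_le_one hlam.le (by linarith) (by omega)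
        _ = lam ^ k * lam := pow_succ _ _
        _ ≤ lam ^ k * (1 / 64) := mul_le_mul_of_nonneg_left hlam1 (by positivity)
    have hsN0 : 0 < s0 * lam ^ N := by positivity
    have hcov : ball p (s0 * lam ^ k / 8) ∩ μ.support ⊆
        ⋃ x ∈ leaves T k p, closedBall x (s0 * lam ^ N) := by
      rintro y ⟨hy, hys⟩
      rw [mem_ball, dist_eq_norm] at hy
      have hyx : ‖y - x0‖ ≤ 8 * s0 := by
        have : y - x0 = (y - p) + (p - x0) := by abel
        rw [this]
        refine (norm_add_le _ _).trans ?_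
        linarith
      obtain ⟨x, hx, hxy⟩ := T.dense N le_rfl y hys hyx
      simp only [mem_iUnion]
      refine ⟨x, ?_, ?_⟩
      · rw [leaves, Finset.mem_filter]
        refine ⟨hx, ?_⟩
        have e : k + (N - k) = N := by omega
        refine Nets.up_near hs0 hlam hlam1 T (j := k) (i := N - k) (by omega)
          (by rw [e]; exact hx) hp ?_
        have : x - p = (y - p) - (y - x) := by abel
        rw [this]
        refine (norm_sub_le _ _).trans_lt ?_
        linarith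
      · rw [mem_closedBall, dist_eq_norm]
        exact hxy.le
    have h1 : ENNReal.ofReal (c * (s0 * lam ^ k / 8) ^ n) ≤ μ (ball p (s0 * lam ^ k / 8)) :=
      hL.2.2 p (T.mem_supp k hk p hp).1 _ (by positivity) (by linarith)
    have h2 : μ (ball p (s0 * lam ^ k / 8)) ≤ μ (ball p (s0 * lam ^ k / 8) ∩ μ.support) := by
      have hz : μ μ.supportᶜ = 0 := Measure.measure_compl_support
      calc μ (ball p (s0 * lam ^ k / 8)) ≤
          μ ((ball p (s0 * lam ^ k / 8) ∩ μ.support) ∪ μ.supportᶜ) := by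
            refine measure_mono fun y hy => ?_
            by_cases hys : y ∈ μ.support
            · exact Or.inl ⟨hy, hys⟩
            · exact Or.inr hys
        _ ≤ μ (ball p (s0 * lam ^ k / 8) ∩ μ.support) + μ μ.supportᶜ := measure_union_le _ _
        _ = _ := by rw [hz, add_zero]
    have h3 : μ (ball p (s0 * lam ^ k / 8) ∩ μ.support) ≤
        ∑ x ∈ leaves T k p, μ (closedBall x (s0 * lam ^ N)) :=
      (measure_mono hcov).trans (measure_biUnion_finset_le _ _)
    have h4 : ∑ x ∈ leaves T k p, μ (closedBall x (s0 * lam ^ N)) ≤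
        ∑ _x ∈ leaves T k p, ENNReal.ofReal (C * (s0 * lam ^ N) ^ n) :=
      Finset.sum_le_sum fun x _ => hU.2 x _ hsN0
    rw [Finset.sum_const, nsmul_eq_mul] at h4
    have h5 := h1.trans (h2.trans (h3.trans h4))
    rw [← ENNReal.ofReal_natCast, ← ENNReal.ofReal_mul (by positivity),
      ENNReal.ofReal_le_ofReal_iff (by positivity)] at h5
    unfold mass
    refine le_trans (mul_le_mul_of_nonneg_right (min_le_right _ _) (by positivity)) ?_
    have e1 : c / C * (1 / 8) ^ n * (lam ^ k / lam ^ N) ^ n =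
        c * (s0 * lam ^ k / 8) ^ n / (C * (s0 * lam ^ N) ^ n) := by
      rw [mul_assoc, ← mul_pow, mul_div_mul_comm, ← div_pow]
      congr 2
      field_simp
    rw [e1, div_le_iff₀ (by positivity)]
    exact h5

end Vale.Agent.P120
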