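import Vale.Agent.Lib.P120.UR.Net

/-!
P120: existence of the trees of nets, ancestors.
-/

open MeasureTheory Filter Set Metric Module
open scoped Topology ENNReal NNReal RealInnerProductSpace

namespace Vale.Agent.P120

variable {d n : ℕ}

theorem exists_nets {C : ℝ} {μ : Measure (E d)} (hU : UB n μ C) {x0 : E d} (hx0 : x0 ∈ μ.support)
    {s0 lam : ℝ} (hs0 : 0 < s0) (hlam : 0 < lam) (hlam1 : lam ≤ 1 / 64) (N : ℕ) :
    Nonempty (Nets μ x0 s0 lam N) := by
  classical
  set K : Set (E d) := μ.support ∩ closedBall x0 (8 * s0) with hK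
  have hKc : IsCompact K := (isCompact_closedBall x0 (8 * s0)).inter_left μ.isClosed_support
  have hx0K : x0 ∈ K := ⟨hx0, mem_closedBall_self (by positivity)⟩
  have hsk : ∀ k : ℕ, 0 < s0 * lam ^ k := fun k => by positivity
  have h1 : ∀ k : ℕ, ∃ A : Finset (E d), x0 ∈ A ∧ (A : Set (E d)) ⊆ K ∧
      (∀ p ∈ A, ∀ q ∈ A, p ≠ q → s0 * lam ^ k ≤ ‖p - q‖) ∧
      ∀ y ∈ K, ∃ p ∈ A, ‖y - p‖ < s0 * lam ^ k := by
    intro k
    obtain ⟨A, hA0, hAK, hAs, hAd⟩ := exists_sep_net hKc (hsk k) {x0}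
      (by rw [Finset.coe_singleton, singleton_subset_iff]; exact hx0K)
      (by
        intro p hp q hq hpq
        rw [Finset.mem_singleton] at hp hq
        exact absurd (hp.trans hq.symm) hpq)
    exact ⟨A, hA0 (Finset.mem_singleton_self _), hAK, hAs, hAd⟩
  choose pts hroot hsub hsep hdense using h1
  have hpar : ∀ (k : ℕ) (p : E d), ∃ q : E d, p ∈ K → (q ∈ pts k ∧ ‖p - q‖ < s0 * lam ^ k ∧
      ∀ q' ∈ pts k, ‖p - q'‖ < s0 * lam ^ k / 2 → q = q') := by
    intro k p
    by_cases hp : p ∈ K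
    · by_cases hex : ∃ q ∈ pts k, ‖p - q‖ < s0 * lam ^ k / 2
      · obtain ⟨q, hq, hpq⟩ := hex
        refine ⟨q, fun _ => ⟨hq, by have := hsk k; linarith, ?_⟩⟩
        intro q' hq' hpq'
        by_contra hne
        have h2 := hsep k q hq q' hq' hne
        have h3 : ‖q - q'‖ ≤ ‖p - q‖ + ‖p - q'‖ := by
          have h4 : q - q' = (p - q') - (p - q) := by abel
          rw [h4]
          have := norm_sub_le (p - q') (p - q)
          linarith
        linarith
      · obtain ⟨q, hq, hpq⟩ := hdense k p hp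
        refine ⟨q, fun _ => ⟨hq, hpq, ?_⟩⟩
        intro q' hq' hpq'
        exact absurd ⟨q', hq', hpq'⟩ hex
    · exact ⟨p, fun h => absurd h hp⟩
  choose par hpar using hpar
  have hmem : ∀ k, ∀ p ∈ pts k, p ∈ K := fun k p hp => hsub k hp
  exact ⟨{
    pts := pts
    par := par
    root_mem := hroot 0
    mem_supp := fun k _ p hp => ⟨(hmem k p hp).1, by
      have := (hmem k p hp).2
      rwa [mem_closedBall, dist_eq_norm] at this⟩
    sep := fun k _ => hsep k
    dense := fun k _ y hy hyx => hdense k y ⟨hy, by rwa [mem_closedBall, dist_eq_norm]⟩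
    par_mem := fun k _ p hp => (hpar k p (hmem _ p hp)).1
    par_dist := fun k _ p hp => (hpar k p (hmem _ p hp)).2.1
    par_near := fun k _ p hp q hq hpq => (hpar k p (hmem _ p hp)).2.2 q hq hpq }⟩

theorem Nets.up_mem {μ : Measure (E d)} {x0 : E d} {s0 lam : ℝ} {N : ℕ}
    (T : Nets μ x0 s0 lam N) {j i : ℕ} (h : j + i ≤ N) {p : E d} (hp : p ∈ T.pts (j + i)) :
    up T.par j i p ∈ T.pts j := by
  induction i generalizing p with
  | zero => exact hp
  | succ i ih =>
    have h1 : T.par (j + i) p ∈ T.pts (j + i) := T.par_mem (j + i) (by omega) p hp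
    exact ih (by omega) h1

/-- transitivity of `up` -/
theorem up_up (par : ℕ → E d → E d) (j i i' : ℕ) (p : E d) :
    up par j i (up par (j + i) i' p) = up par j (i + i') p := by
  induction i' generalizing p with
  | zero => rfl
  | succ i' ih =>
    have h1 : up par (j + i) (i' + 1) p = up par (j + i) i' (par (j + i + i') p) := rfl
    have h2 : up par j (i + (i' + 1)) p = up par j (i + i') (par (j + (i + i')) p) := rfl
    rw [h1, h2, ih, add_assoc]

theorem Nets.up_dist {μ : Measure (E d)} {x0 : E d} {s0 lam : ℝ} (hs0 : 0 < s0) (hlam : 0 < lam)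
    (hlam1 : lam ≤ 1 / 64) {N : ℕ} (T : Nets μ x0 s0 lam N) {j i : ℕ} (h : j + i ≤ N) {p : E d}
    (hp : p ∈ T.pts (j + i)) : ‖p - up T.par j i p‖ ≤ 64 / 63 * (s0 * lam ^ j) := by
  have key : ∀ (i : ℕ) (p : E d), j + i ≤ N → p ∈ T.pts (j + i) →
      ‖p - up T.par j i p‖ ≤ 64 / 63 * (1 - lam ^ i) * (s0 * lam ^ j) := by
    intro i
    induction i with
    | zero =>
      intro p _ _
      show ‖p - p‖ ≤ _
      rw [sub_self, norm_zero, pow_zero, sub_self, mul_zero, zero_mul]
    | succ i ih =>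
      intro p h hp
      have h1 : T.par (j + i) p ∈ T.pts (j + i) := T.par_mem (j + i) (by omega) p hp
      have h2 := ih (T.par (j + i) p) (by omega) h1
      have h3 := T.par_dist (j + i) (by omega) p hp
      have h4 : up T.par j (i + 1) p = up T.par j i (T.par (j + i) p) := rfl
      rw [h4]
      have h5 : ‖p - up T.par j i (T.par (j + i) p)‖ ≤ ‖p - T.par (j + i) p‖ +
          ‖T.par (j + i) p - up T.par j i (T.par (j + i) p)‖ := norm_sub_le_norm_sub_add_norm_sub _ _ _
      have h6 : s0 * lam ^ (j + i) ≤ 64 / 63 * (lam ^ i - lam ^ (i + 1)) * (s0 * lam ^ j) := by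
        have h7 : 64 / 63 * (lam ^ i - lam ^ (i + 1)) * (s0 * lam ^ j) =
            (64 / 63 * (1 - lam)) * (s0 * lam ^ (j + i)) := by ring
        rw [h7]
        have h8 : 0 < s0 * lam ^ (j + i) := by positivity
        nlinarith only [hlam1, h8]
      nlinarith
  have h1 := key i p h hp
  have h2 : 0 < s0 * lam ^ j := by positivity
  have h3 : 0 ≤ lam ^ i := by positivity
  linarith only [mul_nonneg h3 h2.le, h1]

theorem Nets.up_near {μ : Measure (E d)} {x0 : E d} {s0 lam : ℝ} (hs0 : 0 < s0) (hlam : 0 < lam)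
    (hlam1 : lam ≤ 1 / 64) {N : ℕ} (T : Nets μ x0 s0 lam N) {j i : ℕ} (h : j + i ≤ N) {p q : E d}
    (hp : p ∈ T.pts (j + i)) (hq : q ∈ T.pts j) (hpq : ‖p - q‖ < 3 / 8 * (s0 * lam ^ j)) :
    up T.par j i p = q := by
  have hs : 0 < s0 * lam ^ j := by positivity
  rcases Nat.eq_zero_or_pos i with rfl | hi
  · show p = q
    by_contra hne
    have := T.sep j (by omega) p hp q hq hne
    linarith
  · obtain ⟨i, rfl⟩ : ∃ i', i = 1 + i' := ⟨i - 1, by omega⟩
    rw [← up_up]
    have hp' : p ∈ T.pts (j + 1 + i) := by rw [add_assoc]; exact hp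
    have h1 := T.up_dist hs0 hlam hlam1 (by omega : j + 1 + i ≤ N) hp'
    have h2 := T.up_mem (by omega : j + 1 + i ≤ N) hp'
    show T.par (j + 0) (up T.par (j + 1) i p) = q
    apply T.par_near j (by omega) _ h2 q hq
    have h3 : ‖up T.par (j + 1) i p - q‖ ≤ ‖p - up T.par (j + 1) i p‖ + ‖p - q‖ := by
      have h4 : up T.par (j + 1) i p - q = (p - q) - (p - up T.par (j + 1) i p) := by abel
      rw [h4]
      have := norm_sub_le (p - q) (p - up T.par (j + 1) i p)
      linarith
    have h5 : s0 * lam ^ (j + 1) ≤ 1 / 64 * (s0 * lam ^ j) := by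
      rw [pow_succ]
      nlinarith only [hlam1, hs]
    linarith

end Vale.Agent.P120
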