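import Vale.Agent.Lib.P120.UR.SupBound
import Vale.Agent.Lib.P120.UR.NetsExist

/-!
P120: the graph property of the support at and above the active scales of a regime.
-/

open MeasureTheory Filter Set Metric Module
open scoped Topology ENNReal NNReal RealInnerProductSpace

namespace Vale.Agent.P120



variable {d n : ℕ}

/-- ancestors of active nodes are active -/
theorem regimeGraph_act_up {μ : Measure (E d)} {x0 : E d} {s0 lam : ℝ} {N : ℕ} {ν : Measure (E d)}
    {T : Nets μ x0 s0 lam N} {C1 ε1 κ : ℝ} {k0 : ℕ} {p0 : E d}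
    (G : Regime n ν T C1 ε1 κ k0 p0) {j : ℕ} (hj : k0 ≤ j) :
    ∀ (i : ℕ) (p : E d), G.Act (j + i) p → G.Act j (up T.par j i p)
  | 0, p, hp => hp
  | (i + 1), p, hp => by
    have h1 : G.Act (j + i) (T.par (j + i) p) := G.act_par (j + i) p (by omega) hp
    exact regimeGraph_act_up G hj i _ h1

/-- `UR/RegimeGraph.lean`: the graph property of the support at and above the active scales. -/
theorem regime_graph (n d : ℕ) (C c lam κ a : ℝ) (hC : 0 < C) (hc : 0 < c) (hlam : 0 < lam)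
    (hlam1 : lam ≤ 1 / 64) (hκ : 0 < κ) (hκ1 : κ ≤ 1 / 10) (ha : 0 < a) :
    ∃ ε1m : ℝ, 0 < ε1m ∧ ∀ ε1 : ℝ, 0 < ε1 → ε1 ≤ ε1m → ∀ (C1 : ℝ) (μ : Measure (E d)) (x0 : E d)
      (D s0 : ℝ) (N : ℕ), UB n μ C → LB n μ c D → 0 < s0 → 100 * s0 ≤ D →
      ∀ (T : Nets μ x0 s0 lam N) (k0 : ℕ) (p0 : E d)
      (G : Regime n (μ.restrict (closedBall x0 D)) T C1 ε1 κ k0 p0) (k : ℕ) (p : E d), G.Act k p →
      ∀ x ∈ μ.support, ∀ y ∈ μ.support, ‖x - p‖ ≤ 4 * (s0 * lam ^ k) →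
      a * (s0 * lam ^ k) ≤ ‖x - y‖ → ‖x - y‖ ≤ 8 * (s0 * lam ^ k0) →
      ‖x - y‖ ≤ 2 * ‖adjU G.U (x - y)‖ := by
  obtain ⟨ζ, hζ⟩ : ∃ ζ : ℝ, ζ = min a (8 * lam) / 20 := ⟨_, rfl⟩
  have hmin : 0 < min a (8 * lam) := lt_min ha (by linarith)
  have hζ0 : 0 < ζ := by rw [hζ]; linarith
  obtain ⟨ε2, hε2, hsup⟩ := sup_bound n d C c hC hc 14 ζ (by norm_num) hζ0
  refine ⟨ε2, hε2, ?_⟩
  intro ε1 hε1 hε12 C1 μ x0 D s0 N hU hL hs0 hs0D T k0 p0 G k p hAct x hx y hy hxp hlow hup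
  obtain ⟨hk0k, hkN, hpk⟩ := G.act_level k p hAct
  have hlam1' : lam ≤ 1 := by linarith
  classical
  -- the level
  obtain ⟨j, hjk, hk0j, hPj, hjmax⟩ : ∃ j, j ≤ k ∧ k0 ≤ j ∧ ‖x - y‖ ≤ 8 * (s0 * lam ^ j) ∧
      (j = k ∨ 8 * (s0 * lam ^ (j + 1)) < ‖x - y‖) := by
    refine ⟨Nat.findGreatest (fun j => ‖x - y‖ ≤ 8 * (s0 * lam ^ j)) k, Nat.findGreatest_le k,
      Nat.le_findGreatest hk0k hup, ?_, ?_⟩
    · exact Nat.findGreatest_spec (P := fun j => ‖x - y‖ ≤ 8 * (s0 * lam ^ j)) hk0k hup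
    · rcases Nat.lt_or_ge (Nat.findGreatest (fun j => ‖x - y‖ ≤ 8 * (s0 * lam ^ j)) k) k with h | h
      · right
        have h2 := Nat.findGreatest_is_greatest
          (P := fun j => ‖x - y‖ ≤ 8 * (s0 * lam ^ j)) (n := k) (Nat.lt_succ_self _) h
        exact not_le.1 h2
      · left
        exact le_antisymm (Nat.findGreatest_le k) h
  obtain ⟨i, hi⟩ := Nat.exists_eq_add_of_le hjk
  subst hi
  set q : E d := up T.par j i p with hq
  have hActq : G.Act j q := regimeGraph_act_up G hk0j i p hAct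
  obtain ⟨_, hjN, hqj⟩ := G.act_level j q hActq
  obtain ⟨S, hS⟩ : ∃ S : ℝ, S = s0 * lam ^ j := ⟨_, rfl⟩
  have hS0 : 0 < S := by rw [hS]; positivity
  have hSs0 : S ≤ s0 := by
    rw [hS]
    exact mul_le_of_le_one_right hs0.le (pow_le_one₀ hlam.le hlam1')
  have hSk : s0 * lam ^ (j + i) ≤ S := by
    rw [hS]
    apply mul_le_mul_of_nonneg_left _ hs0.le
    exact pow_le_pow_of_le_one hlam.le hlam1' (by omega)
  rw [← hS] at hPj
  have hpq : ‖p - q‖ ≤ 64 / 63 * S := by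
    rw [hS]
    exact Nets.up_dist hs0 hlam hlam1 T hkN hpk
  have hqx0 : ‖q - x0‖ ≤ 8 * s0 := (T.mem_supp j hjN q hqj).2
  have hxq : ‖x - q‖ ≤ 14 * S := by
    have h1 := norm_sub_le_norm_sub_add_norm_sub x p q
    linarith
  have hyq : ‖y - q‖ ≤ 14 * S := by
    have h1 := norm_sub_le_norm_sub_add_norm_sub y x q
    have h2 := norm_sub_le_norm_sub_add_norm_sub x p q
    rw [norm_sub_rev y x] at h1
    linarith
  have hxν : x ∈ (μ.restrict (closedBall x0 D)).support := by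
    apply mem_support_restrict hx
    have h1 := norm_sub_le_norm_sub_add_norm_sub x q x0
    linarith
  have hyν : y ∈ (μ.restrict (closedBall x0 D)).support := by
    apply mem_support_restrict hy
    have h1 := norm_sub_le_norm_sub_add_norm_sub y q x0
    linarith
  have hsm := G.small j q hActq
  have hgr := G.growth j q hActq
  rw [← hS] at hgr
  have hLB : LBloc n (μ.restrict (closedBall x0 D)) c q (14 * S) :=
    LBloc.of_LB hL (by linarith)
  have hmain := hsup (μ.restrict (closedBall x0 D)) (hU.restrict _) q S hS0 hLB G.U (G.M j q)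
    (G.b j q) (G.ε j q) (by linarith [hsm.2]) (G.ε_nonneg j q) (hsm.1.trans hε12) hgr
  have hx1 := hmain x hxν hxq
  have hy1 := hmain y hyν hyq
  -- lower bound for the distance
  have hlow2 : 20 * ζ * S ≤ ‖x - y‖ := by
    have h20 : 20 * ζ = min a (8 * lam) := by rw [hζ]; ring
    rw [h20]
    rcases hjmax with h | h
    · have hi0 : i = 0 := by omega
      subst hi0
      calc min a (8 * lam) * S ≤ a * S := mul_le_mul_of_nonneg_right (min_le_left _ _) hS0.le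
        _ = a * (s0 * lam ^ (j + 0)) := by rw [hS]; rfl
        _ ≤ ‖x - y‖ := hlow
    · calc min a (8 * lam) * S ≤ (8 * lam) * S :=
          mul_le_mul_of_nonneg_right (min_le_right _ _) hS0.le
        _ = 8 * (s0 * lam ^ (j + 1)) := by rw [hS, pow_succ]; ring
        _ ≤ ‖x - y‖ := h.le
  -- the identity
  have hid : x - y = (hgt G.U (G.M j q) (G.b j q) x - hgt G.U (G.M j q) (G.b j q) y) +
      (G.U (adjU G.U (x - y)) + G.M j q (adjU G.U (x - y))) := by
    rw [hgt_sub]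
    abel
  have hn1 : ‖x - y‖ ≤ (‖hgt G.U (G.M j q) (G.b j q) x‖ + ‖hgt G.U (G.M j q) (G.b j q) y‖) +
      (‖adjU G.U (x - y)‖ + κ * ‖adjU G.U (x - y)‖) := by
    calc ‖x - y‖ = ‖(hgt G.U (G.M j q) (G.b j q) x - hgt G.U (G.M j q) (G.b j q) y) +
        (G.U (adjU G.U (x - y)) + G.M j q (adjU G.U (x - y)))‖ := by rw [← hid]
      _ ≤ ‖hgt G.U (G.M j q) (G.b j q) x - hgt G.U (G.M j q) (G.b j q) y‖ +
          ‖G.U (adjU G.U (x - y)) + G.M j q (adjU G.U (x - y))‖ := norm_add_le _ _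
      _ ≤ _ := by
        apply add_le_add (norm_sub_le _ _)
        refine (norm_add_le _ _).trans ?_
        rw [G.U.norm_map]
        apply add_le_add le_rfl
        exact ((G.M j q).le_opNorm _).trans
          (mul_le_mul_of_nonneg_right hsm.2 (norm_nonneg _))
  have hA := norm_nonneg (adjU G.U (x - y))
  linarith only [mul_le_mul_of_nonneg_right hκ1 hA, hx1, hy1, hlow2, hn1, hA]

end Vale.Agent.P120
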