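import Vale.Agent.Lib.P120.UR.GlueAbstract
import Vale.Agent.Lib.P120.UR.RegimeGraph
import Vale.Agent.Lib.P120.UR.Leaves
import Vale.Agent.Lib.P120.UR.NetsExist

/-!
P120, gluing of the Lipschitz images along the covering structure `RCov`
(`cover_of_rcov`). See `blueprint/P120.md`, section 11.
-/

open MeasureTheory Filter Set Metric Module
open scoped Topology ENNReal NNReal RealInnerProductSpace

namespace Vale.Agent.P120



variable {d n : ℕ}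

/-! ### Families indexed by `Fin K` -/

theorem exists_fin_family {ι α : Type*} (W : Finset ι) (K : ℕ) (hW : W.card ≤ K) (f : ι → α)
    (a0 : α) :
    ∃ g : Fin K → α, (∀ m, g m = a0 ∨ ∃ w ∈ W, g m = f w) ∧ ∀ w ∈ W, ∃ m, g m = f w := by
  classical
  refine ⟨fun m => if h : m.val < W.card then f (W.equivFin.symm ⟨m.val, h⟩ : W) else a0,
    ?_, ?_⟩
  · intro m
    by_cases h : m.val < W.card
    · right
      refine ⟨(W.equivFin.symm ⟨m.val, h⟩ : W), (W.equivFin.symm ⟨m.val, h⟩).2, ?_⟩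
      simp [h]
    · left
      simp [h]
  · intro w hw
    refine ⟨⟨(W.equivFin ⟨w, hw⟩).val, lt_of_lt_of_le (W.equivFin ⟨w, hw⟩).2 hW⟩, ?_⟩
    have h : (W.equivFin ⟨w, hw⟩).val < W.card := (W.equivFin ⟨w, hw⟩).2
    simp only [h, dif_pos]
    simp

/-! ### Scales -/

theorem scale_anti {s0 lam : ℝ} (hs0 : 0 < s0) (hlam : 0 < lam) (hlam1 : lam ≤ 1 / 64)
    {k l : ℕ} (h : k ≤ l) : s0 * lam ^ l ≤ s0 * lam ^ k := by
  have h1 : lam ≤ 1 := by linarith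
  exact mul_le_mul_of_nonneg_left (pow_le_pow_of_le_one hlam.le h1 h) hs0.le

theorem scale_pos {s0 lam : ℝ} (hs0 : 0 < s0) (hlam : 0 < lam) (k : ℕ) : 0 < s0 * lam ^ k :=
  mul_pos hs0 (pow_pos hlam k)

/-! ### Leaves -/

section leaves

variable {μ : Measure (E d)} {x0 : E d} {s0 lam : ℝ} {N : ℕ} (T : Nets μ x0 s0 lam N)

theorem mem_leaves {k : ℕ} {p x : E d} :
    x ∈ leaves T k p ↔ x ∈ T.pts N ∧ up T.par k (N - k) x = p := by
  classical
  simp [leaves]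

theorem mem_leaves_top {p x : E d} (h : x ∈ leaves T N p) : x = p := by
  have := (mem_leaves T).1 h
  simpa [up] using this.2

theorem self_mem_leaves {p : E d} (h : p ∈ T.pts N) : p ∈ leaves T N p := by
  refine (mem_leaves T).2 ⟨h, ?_⟩
  simp [up]

theorem leaves_dist (hs0 : 0 < s0) (hlam : 0 < lam) (hlam1 : lam ≤ 1 / 64) {k : ℕ} (hk : k ≤ N)
    {p x : E d} (h : x ∈ leaves T k p) : ‖x - p‖ ≤ 64 / 63 * (s0 * lam ^ k) := by
  obtain ⟨h1, h2⟩ := (mem_leaves T).1 h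
  have e : k + (N - k) = N := by omega
  have h3 := Nets.up_dist hs0 hlam hlam1 T (j := k) (i := N - k) e.le (p := x)
    (by rw [e]; exact h1)
  rwa [h2] at h3

end leaves

/-! ### Sites -/

/-- Sites of a regime: the leaves at which it is never stopped, and the stopped nodes. -/
def Site {μ : Measure (E d)} {x0 : E d} {s0 lam : ℝ} {N : ℕ} (T : Nets μ x0 s0 lam N) (k0 : ℕ)
    (Act : ℕ → E d → Prop) (l : ℕ) (q : E d) : Prop :=
  l ≤ N ∧ q ∈ T.pts l ∧ ((l = N ∧ NoStop T k0 Act q) ∨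
    ∃ k, l = k + 1 ∧ k0 ≤ k ∧ Act k (T.par k q) ∧ ¬ Act (k + 1) q)

section sites

variable {μ : Measure (E d)} {x0 : E d} {s0 lam : ℝ} {N : ℕ} {T : Nets μ x0 s0 lam N}
  {ν : Measure (E d)} {C1 ε1 κ : ℝ} {k0 : ℕ} {p0 : E d}

theorem Regime.act_up (G : Regime n ν T C1 ε1 κ k0 p0) {j : ℕ} (hj : k0 ≤ j) :
    ∀ (i : ℕ) (p : E d), G.Act (j + i) p → G.Act j (up T.par j i p)
  | 0, _, h => h
  | (i + 1), _, h => Regime.act_up G hj i _ (G.act_par (j + i) _ (by omega) h)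

theorem Site.level_le {Act : ℕ → E d → Prop} {l : ℕ} {q : E d} (hk0 : k0 ≤ N)
    (h : Site T k0 Act l q) : k0 ≤ l := by
  obtain ⟨-, -, h | ⟨k, h, h', -⟩⟩ := h
  · omega
  · omega

/-- below the level of a site, its ancestors are active -/
theorem Site.act (G : Regime n ν T C1 ε1 κ k0 p0) {j i : ℕ} {q : E d} (hj : k0 ≤ j)
    (h : Site T k0 G.Act (j + i + 1) q) : G.Act j (up T.par j (i + 1) q) := by
  obtain ⟨h1, -, ⟨h2, h3⟩ | ⟨k, h2, h3, h4, -⟩⟩ := h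
  · have := h3 j hj (by omega)
    rwa [show N - j = i + 1 by omega] at this
  · have hk : k = j + i := by omega
    subst hk
    exact G.act_up hj i _ h4

/-- the node at which a site is seen -/
theorem Site.exists_act (hs0 : 0 < s0) (hlam : 0 < lam) (G : Regime n ν T C1 ε1 κ k0 p0)
    (hk0 : k0 ≤ N) {l : ℕ} {q : E d} (h : Site T k0 G.Act l q) :
    ∃ k p, G.Act k p ∧ ‖q - p‖ ≤ 4 * (s0 * lam ^ k) ∧
      (k = l ∨ l = k + 1) := by
  obtain ⟨h1, hq, ⟨h2, h3⟩ | ⟨k, h2, h3, h4, -⟩⟩ := h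
  · refine ⟨N, q, ?_, ?_, Or.inl h2.symm⟩
    · have := h3 N hk0 le_rfl
      simpa [up] using this
    · rw [sub_self, norm_zero]
      have := scale_pos hs0 hlam N
      linarith
  · subst h2
    refine ⟨k, T.par k q, h4, ?_, Or.inr rfl⟩
    have := T.par_dist k (by omega) q hq
    have := scale_pos hs0 hlam k
    linarith

theorem Site.up_eq (G : Regime n ν T C1 ε1 κ k0 p0) (hk0 : k0 ≤ N) {l : ℕ} {q : E d}
    (h : Site T k0 G.Act l q) : up T.par k0 (l - k0) q = p0 := by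
  have hl := h.level_le hk0
  rcases Nat.eq_or_lt_of_le hl with hl' | hl'
  · obtain ⟨h1, hq, ⟨h2, h3⟩ | ⟨k, h2, h3, h4, -⟩⟩ := h
    · apply G.act_top
      have := h3 k0 le_rfl hk0
      rwa [show N - k0 = l - k0 by omega] at this
    · omega
  · obtain ⟨i, rfl⟩ : ∃ i, l = k0 + i + 1 := ⟨l - k0 - 1, by omega⟩
    apply G.act_top
    have := h.act G le_rfl
    rwa [show k0 + i + 1 - k0 = i + 1 by omega]

theorem Site.dist_root (hs0 : 0 < s0) (hlam : 0 < lam) (hlam1 : lam ≤ 1 / 64)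
    (G : Regime n ν T C1 ε1 κ k0 p0) (hk0 : k0 ≤ N) {l : ℕ} {q : E d}
    (h : Site T k0 G.Act l q) : ‖q - p0‖ ≤ 64 / 63 * (s0 * lam ^ k0) := by
  have hl := h.level_le hk0
  have e : k0 + (l - k0) = l := by omega
  have h1 := Nets.up_dist hs0 hlam hlam1 T (j := k0) (i := l - k0) (by rw [e]; exact h.1) (p := q)
    (by rw [e]; exact h.2.1)
  rwa [h.up_eq G hk0] at h1

/-- sites are separated -/
theorem Site.sep (hs0 : 0 < s0) (hlam : 0 < lam) (hlam1 : lam ≤ 1 / 64)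
    (G : Regime n ν T C1 ε1 κ k0 p0) (hk0 : k0 ≤ N) {l l' : ℕ} {q q' : E d}
    (h : Site T k0 G.Act l q) (h' : Site T k0 G.Act l' q') (hll : l ≤ l')
    (hne : (l, q) ≠ (l', q')) : 3 / 8 * (s0 * lam ^ l) ≤ ‖q - q'‖ := by
  by_contra hcon
  rw [norm_sub_rev] at hcon
  push Not at hcon
  obtain ⟨i, rfl⟩ : ∃ i, l' = l + i := ⟨l' - l, by omega⟩
  have hup := Nets.up_near hs0 hlam hlam1 T h'.1 h'.2.1 h.2.1 hcon
  rcases i with _ | i
  · apply hne
    have : q' = q := hup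
    rw [this]
    rfl
  · have hact : G.Act l q := by
      have := h'.act (j := l) (i := i) G (h.level_le hk0)
      rwa [hup] at this
    obtain ⟨h1, hq, ⟨h2, h3⟩ | ⟨k, h2, h3, h4, h5⟩⟩ := h
    · have := h'.1
      omega
    · subst h2
      exact h5 hact

end sites

/-! ### The family of maps at a site -/

theorem site_family {μ : Measure (E d)} {x0 : E d} {s0 lam : ℝ} (hs0 : 0 < s0) (hlam : 0 < lam)
    (hlam1 : lam ≤ 1 / 64) {N : ℕ} (T : Nets μ x0 s0 lam N) (m0 Kb : ℕ)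
    (hK : ∀ i ≤ m0, ∀ l, l + i ≤ N → ∀ q, ∀ W : Finset (E d),
      (∀ q' ∈ W, q' ∈ T.pts (l + i) ∧ up T.par l i q' = q) → W.card ≤ Kb)
    (L : ℝ≥0) (R : ℝ) (hR : 0 ≤ R) (F : Finset (E d)) (l : ℕ) (q : E d) :
    ∃ g : Fin ((m0 + 1) * Kb) → E n → E d,
      (∀ m, LipschitzWith L (g m) ∧ ‖g m 0 - q‖ ≤ (R + 2) * (s0 * lam ^ l)) ∧
      ∀ i q', i ≤ m0 → l + i ≤ N → q' ∈ T.pts (l + i) → up T.par l i q' = q →
        (∃ g' : E n → E d, LipschitzWith L g' ∧ ‖g' 0 - q'‖ ≤ R * (s0 * lam ^ (l + i)) ∧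
          ∀ z ∈ F, z ∈ leaves T (l + i) q' → z ∈ g' '' closedBall 0 (R * (s0 * lam ^ (l + i)))) →
        ∀ z ∈ F, z ∈ leaves T (l + i) q' → ∃ m, z ∈ g m '' closedBall 0 (R * (s0 * lam ^ l)) := by
  classical
  have hsl := scale_pos hs0 hlam l
  -- the chosen maps
  have hch : ∀ w : (_ : ℕ) × E d, ∃ g' : E n → E d,
      (LipschitzWith L g' ∧ ‖g' 0 - w.2‖ ≤ R * (s0 * lam ^ (l + w.1))) ∧
      ((∃ g' : E n → E d, LipschitzWith L g' ∧ ‖g' 0 - w.2‖ ≤ R * (s0 * lam ^ (l + w.1)) ∧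
          ∀ z ∈ F, z ∈ leaves T (l + w.1) w.2 →
            z ∈ g' '' closedBall 0 (R * (s0 * lam ^ (l + w.1)))) →
        ∀ z ∈ F, z ∈ leaves T (l + w.1) w.2 →
          z ∈ g' '' closedBall 0 (R * (s0 * lam ^ (l + w.1)))) := by
    intro w
    by_cases h : ∃ g' : E n → E d, LipschitzWith L g' ∧
        ‖g' 0 - w.2‖ ≤ R * (s0 * lam ^ (l + w.1)) ∧
          ∀ z ∈ F, z ∈ leaves T (l + w.1) w.2 →
            z ∈ g' '' closedBall 0 (R * (s0 * lam ^ (l + w.1)))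
    · obtain ⟨g', h1, h2, h3⟩ := h
      exact ⟨g', ⟨h1, h2⟩, fun _ => h3⟩
    · refine ⟨fun _ => w.2, ⟨(LipschitzWith.const _).weaken zero_le, ?_⟩, fun h' => absurd h' h⟩
      rw [sub_self, norm_zero]
      have := scale_pos hs0 hlam (l + w.1)
      positivity
  choose f hf1 hf2 using hch
  let Wi : ℕ → Finset (E d) := fun i =>
    if l + i ≤ N then (T.pts (l + i)).filter (fun q' => up T.par l i q' = q) else ∅
  let W : Finset ((_ : ℕ) × E d) := (Finset.range (m0 + 1)).sigma Wi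
  have hWi : ∀ i ∈ Finset.range (m0 + 1), (Wi i).card ≤ Kb := by
    intro i hi
    rw [Finset.mem_range] at hi
    by_cases h : l + i ≤ N
    · apply hK i (by omega) l h q
      intro q' hq'
      simpa [Wi, h] using hq'
    · simp [Wi, h]
  have hWcard : W.card ≤ (m0 + 1) * Kb := by
    simp only [W, Finset.card_sigma]
    refine (Finset.sum_le_sum hWi).trans ?_
    simp
  obtain ⟨g, hg1, hg2⟩ := exists_fin_family W _ hWcard f (fun _ => q)
  refine ⟨g, ?_, ?_⟩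
  · intro m
    rcases hg1 m with h | ⟨w, hw, h⟩
    · rw [h]
      refine ⟨(LipschitzWith.const _).weaken zero_le, ?_⟩
      rw [sub_self, norm_zero]
      positivity
    · rw [h]
      refine ⟨(hf1 w).1, ?_⟩
      simp only [W, Finset.mem_sigma, Finset.mem_range] at hw
      have hle : l + w.1 ≤ N := by
        by_contra hcon
        simp [Wi, hcon] at hw
      have hw2 : w.2 ∈ T.pts (l + w.1) ∧ up T.par l w.1 w.2 = q := by
        simpa [Wi, hle] using hw.2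
      have h1 := (hf1 w).2
      have h2 := Nets.up_dist hs0 hlam hlam1 T hle hw2.1
      rw [hw2.2] at h2
      have h3 := scale_anti hs0 hlam hlam1 (Nat.le_add_right l w.1)
      have h4 := mul_le_mul_of_nonneg_left h3 hR
      calc ‖f w 0 - q‖ = ‖(f w 0 - w.2) + (w.2 - q)‖ := by rw [sub_add_sub_cancel]
        _ ≤ ‖f w 0 - w.2‖ + ‖w.2 - q‖ := norm_add_le _ _
        _ ≤ R * (s0 * lam ^ l) + 64 / 63 * (s0 * lam ^ l) := by linarith
        _ ≤ (R + 2) * (s0 * lam ^ l) := by linarith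
  · intro i q' hi hle hq' hup hex z hz hzl
    have hw : (⟨i, q'⟩ : (_ : ℕ) × E d) ∈ W := by
      simp only [W, Finset.mem_sigma, Finset.mem_range]
      refine ⟨by omega, ?_⟩
      simp [Wi, hle, hq', hup]
    obtain ⟨m, hm⟩ := hg2 _ hw
    refine ⟨m, ?_⟩
    rw [hm]
    have h1 := hf2 ⟨i, q'⟩ hex z hz hzl
    have h3 := scale_anti hs0 hlam hlam1 (Nat.le_add_right l i)
    have h4 := mul_le_mul_of_nonneg_left h3 hR
    exact image_mono (closedBall_subset_closedBall h4) h1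

/-! ### One gluing step -/

/-- the hypothesis of the gluing step for one leaf -/
def GlueHyp {μ : Measure (E d)} {x0 : E d} {s0 lam : ℝ} {N : ℕ} (n : ℕ) (T : Nets μ x0 s0 lam N)
    (k0 : ℕ) (Act : ℕ → E d → Prop) (m0 : ℕ) (L : ℝ≥0) (R : ℝ) (F : Finset (E d)) (x : E d) :
    Prop :=
  ∃ l q, Site T k0 Act l q ∧ ∃ i q', i ≤ m0 ∧ l + i ≤ N ∧ q' ∈ T.pts (l + i) ∧
    up T.par l i q' = q ∧ x ∈ leaves T (l + i) q' ∧
    ∃ g' : E n → E d, LipschitzWith L g' ∧ ‖g' 0 - q'‖ ≤ R * (s0 * lam ^ (l + i)) ∧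
      ∀ z ∈ F, z ∈ leaves T (l + i) q' → z ∈ g' '' closedBall 0 (R * (s0 * lam ^ (l + i)))

theorem glueHyp_leaf {μ : Measure (E d)} {x0 : E d} {s0 lam : ℝ} (hs0 : 0 < s0) (hlam : 0 < lam)
    {N : ℕ} (T : Nets μ x0 s0 lam N) {k0 : ℕ} {p0 : E d} {Act : ℕ → E d → Prop} (m0 : ℕ)
    (L : ℝ≥0) {R : ℝ} (hR : 0 ≤ R) (F : Finset (E d)) {x : E d} (hx : x ∈ leaves T k0 p0)
    (h : NoStop T k0 Act x) : GlueHyp n T k0 Act m0 L R F x := by
  have hxN : x ∈ T.pts N := ((mem_leaves T).1 hx).1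
  refine ⟨N, x, ⟨le_rfl, hxN, Or.inl ⟨rfl, h⟩⟩, 0, x, zero_le, le_rfl, hxN, rfl,
    self_mem_leaves T hxN, fun _ => x, (LipschitzWith.const _).weaken zero_le, ?_, ?_⟩
  · rw [sub_self, norm_zero]
    have := scale_pos hs0 hlam (N + 0)
    positivity
  · intro z _ hz
    have hzx : z = x := mem_leaves_top T hz
    refine ⟨0, mem_closedBall_self ?_, hzx.symm⟩
    have := scale_pos hs0 hlam (N + 0)
    positivity

theorem glueHyp_late {μ : Measure (E d)} {x0 : E d} {s0 lam : ℝ} (hs0 : 0 < s0) (hlam : 0 < lam)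
    {N : ℕ} (T : Nets μ x0 s0 lam N) {k0 : ℕ} {Act : ℕ → E d → Prop} (m0 : ℕ)
    (L : ℝ≥0) {R : ℝ} (hR : 0 ≤ R) (F : Finset (E d)) {x : E d} {k : ℕ} {q : E d} (hk : k0 ≤ k)
    (hkN : k < N) (hq : q ∈ T.pts (k + 1)) (hx : x ∈ leaves T (k + 1) q)
    (ha : Act k (T.par k q)) (hna : ¬ Act (k + 1) q) (hN : N ≤ k + 1 + m0) :
    GlueHyp n T k0 Act m0 L R F x := by
  obtain ⟨hxN, hxup⟩ := (mem_leaves T).1 hx
  have e : k + 1 + (N - (k + 1)) = N := by omega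
  refine ⟨k + 1, q, ⟨by omega, hq, Or.inr ⟨k, rfl, hk, ha, hna⟩⟩, N - (k + 1), x, by omega,
    e.le, ?_, hxup, ?_, fun _ => x, (LipschitzWith.const _).weaken zero_le, ?_, ?_⟩
  · rwa [e]
  · rw [e]
    exact self_mem_leaves T hxN
  · rw [sub_self, norm_zero]
    have := scale_pos hs0 hlam (k + 1 + (N - (k + 1)))
    positivity
  · intro z _ hz
    have hzx : z = x := by
      rw [e] at hz
      exact mem_leaves_top T hz
    refine ⟨0, mem_closedBall_self ?_, hzx.symm⟩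
    have := scale_pos hs0 hlam (k + 1 + (N - (k + 1)))
    positivity

/-- the graph property at a pair of sites -/
theorem Site.graph {μ : Measure (E d)} {x0 : E d} {s0 lam : ℝ} {N : ℕ} {T : Nets μ x0 s0 lam N}
    {ν : Measure (E d)} {C1 ε1 κ : ℝ} {k0 : ℕ} {p0 : E d} (hs0 : 0 < s0) (hlam : 0 < lam)
    (hlam1 : lam ≤ 1 / 64) (G : Regime n ν T C1 ε1 κ k0 p0) (hk0 : k0 ≤ N)
    (hgr : ∀ k p, G.Act k p → ∀ x ∈ μ.support, ∀ y ∈ μ.support, ‖x - p‖ ≤ 4 * (s0 * lam ^ k) →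
      3 / 8 * lam * (s0 * lam ^ k) ≤ ‖x - y‖ → ‖x - y‖ ≤ 8 * (s0 * lam ^ k0) →
      ‖x - y‖ ≤ 2 * ‖adjU G.U (x - y)‖)
    {l l' : ℕ} {q q' : E d} (h : Site T k0 G.Act l q) (h' : Site T k0 G.Act l' q')
    (hll : l ≤ l') (hne : (l, q) ≠ (l', q')) :
    3 / 16 * (s0 * lam ^ l) ≤ ‖adjU G.U q - adjU G.U q'‖ ∧
      ‖q - q'‖ ≤ 2 * ‖adjU G.U q - adjU G.U q'‖ := by
  have hsep := Site.sep hs0 hlam hlam1 G hk0 h h' hll hne
  obtain ⟨k, p, hact, hd, hk⟩ := h.exists_act hs0 hlam G hk0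
  have hd1 := h.dist_root hs0 hlam hlam1 G hk0
  have hd2 := h'.dist_root hs0 hlam hlam1 G hk0
  have hS := scale_pos hs0 hlam k0
  have hsl := scale_pos hs0 hlam l
  have h1 : 3 / 8 * lam * (s0 * lam ^ k) ≤ ‖q - q'‖ := by
    rcases hk with hk | hk
    · rw [hk]
      have : lam * (s0 * lam ^ l) ≤ 1 * (s0 * lam ^ l) :=
        mul_le_mul_of_nonneg_right (by linarith) hsl.le
      linarith
    · rw [hk, pow_succ] at hsep
      calc 3 / 8 * lam * (s0 * lam ^ k) = 3 / 8 * (s0 * (lam ^ k * lam)) := by ring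
        _ ≤ _ := hsep
  have h2 : ‖q - q'‖ ≤ 8 * (s0 * lam ^ k0) := by
    calc ‖q - q'‖ = ‖(q - p0) - (q' - p0)‖ := by rw [sub_sub_sub_cancel_right]
      _ ≤ ‖q - p0‖ + ‖q' - p0‖ := norm_sub_le _ _
      _ ≤ _ := by linarith
  have h3 := hgr k p hact q (T.mem_supp l h.1 q h.2.1).1 q' (T.mem_supp l' h'.1 q' h'.2.1).1 hd
    h1 h2
  rw [map_sub] at h3
  exact ⟨by linarith, h3⟩

theorem glue_step (n d : ℕ) (hn : 1 ≤ n) (C c lam C1 κ : ℝ)
    (hlam : 0 < lam) (hlam1 : lam ≤ 1 / 64) (ε1 : ℝ)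
    (hgr : ∀ (μ : Measure (E d)) (x0 : E d)
      (D s0 : ℝ) (N : ℕ), UB n μ C → LB n μ c D → 0 < s0 → 100 * s0 ≤ D →
      ∀ (T : Nets μ x0 s0 lam N) (k0 : ℕ) (p0 : E d)
      (G : Regime n (μ.restrict (closedBall x0 D)) T C1 ε1 κ k0 p0) (k : ℕ) (p : E d), G.Act k p →
      ∀ x ∈ μ.support, ∀ y ∈ μ.support, ‖x - p‖ ≤ 4 * (s0 * lam ^ k) →
      3 / 8 * lam * (s0 * lam ^ k) ≤ ‖x - y‖ → ‖x - y‖ ≤ 8 * (s0 * lam ^ k0) →
      ‖x - y‖ ≤ 2 * ‖adjU G.U (x - y)‖) (m0 Kb : ℕ)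
    (hKb : ∀ i ≤ m0, ∀ (μ : Measure (E d)) (x0 : E d) (D s0 : ℝ) (N : ℕ),
      UB n μ C → LB n μ c D → 0 < s0 → 16 * s0 ≤ D →
      ∀ (T : Nets μ x0 s0 lam N), ∀ k, k + i ≤ N → ∀ p, ∀ A : Finset (E d),
        (∀ q ∈ A, q ∈ T.pts (k + i) ∧ up T.par k i q = p) → A.card ≤ Kb)
    (L : ℝ≥0) (R : ℝ) (hR : 0 < R) :
    ∃ (L' : ℝ≥0) (R' : ℝ), 0 < R' ∧ ∀ (μ : Measure (E d)) (x0 : E d) (D s0 : ℝ) (N : ℕ),
      UB n μ C → LB n μ c D → 0 < s0 → 100 * s0 ≤ D → ∀ (T : Nets μ x0 s0 lam N)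
      (k0 : ℕ) (p0 : E d) (G : Regime n (μ.restrict (closedBall x0 D)) T C1 ε1 κ k0 p0),
      k0 ≤ N → ∀ F : Finset (E d),
      (∀ x ∈ F, x ∈ leaves T k0 p0 ∧ GlueHyp n T k0 G.Act m0 L R F x) →
      ∃ g : E n → E d, LipschitzWith L' g ∧ ‖g 0 - p0‖ ≤ R' * (s0 * lam ^ k0) ∧
        (F : Set (E d)) ⊆ g '' closedBall 0 (R' * (s0 * lam ^ k0)) := by
  classical
  obtain ⟨L', R', hR', hglue⟩ := glue_abstract n d hn (3 / 16) (R + 2) L R ((m0 + 1) * Kb)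
    (by norm_num) (by linarith) L.2 hR
  refine ⟨L', max R' (L' * R' + 2), lt_max_of_lt_left hR', ?_⟩
  intro μ x0 D s0 N hU hL hs0 hs0D T k0 p0 G hk0 F hF
  have hS := scale_pos hs0 hlam k0
  have hL'R' : 0 ≤ (L' : ℝ) * R' := mul_nonneg L'.2 hR'.le
  have hmax1 : R' * (s0 * lam ^ k0) ≤ max R' (L' * R' + 2) * (s0 * lam ^ k0) :=
    mul_le_mul_of_nonneg_right (le_max_left _ _) hS.le
  have hmax2 : (L' * R' + 2) * (s0 * lam ^ k0) ≤ max R' (L' * R' + 2) * (s0 * lam ^ k0) :=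
    mul_le_mul_of_nonneg_right (le_max_right _ _) hS.le
  rcases F.eq_empty_or_nonempty with hFe | ⟨x1, hx1⟩
  · refine ⟨fun _ => p0, (LipschitzWith.const _).weaken zero_le, ?_, ?_⟩
    · rw [sub_self, norm_zero]
      have : 0 < max R' (L' * R' + 2) := lt_max_of_lt_left hR'
      positivity
    · rw [hFe]
      simp
  have hsf := fun w : ℕ × E d => site_family (n := n) hs0 hlam hlam1 T m0 Kb
    (fun i hi l hl q W hW => hKb i hi μ x0 D s0 N hU hL hs0 (by linarith) T l hl q W hW)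
    L R hR.le F w.1 w.2
  choose g hg1 hg2 using hsf
  let I : Finset (ℕ × E d) := ((Finset.range (N + 1)) ×ˢ ((Finset.range (N + 1)).biUnion T.pts)).filter
    (fun w => Site T k0 G.Act w.1 w.2)
  have hI : ∀ w : ℕ × E d, w ∈ I ↔ Site T k0 G.Act w.1 w.2 := by
    intro w
    simp only [I, Finset.mem_filter, Finset.mem_product, Finset.mem_range, Finset.mem_biUnion]
    constructor
    · exact fun h => h.2
    · intro h
      have h1 := h.1
      exact ⟨⟨by omega, w.1, by omega, h.2.1⟩, h⟩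
  have hgrG := hgr μ x0 D s0 N hU hL hs0 hs0D T k0 p0 G
  have hpair : ∀ i ∈ I, ∀ j ∈ I, i ≠ j →
      3 / 16 * max (s0 * lam ^ i.1) (s0 * lam ^ j.1) ≤ ‖adjU G.U i.2 - adjU G.U j.2‖ ∧
        ‖i.2 - j.2‖ ≤ 2 * ‖adjU G.U i.2 - adjU G.U j.2‖ := by
    intro i hi j hj hij
    rw [hI] at hi hj
    rcases le_total i.1 j.1 with hle | hle
    · rw [max_eq_left (scale_anti hs0 hlam hlam1 hle)]
      exact Site.graph hs0 hlam hlam1 G hk0 hgrG hi hj hle hij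
    · rw [max_eq_right (scale_anti hs0 hlam hlam1 hle)]
      have := Site.graph hs0 hlam hlam1 G hk0 hgrG hj hi hle hij.symm
      rwa [norm_sub_rev, norm_sub_rev j.2] at this
  obtain ⟨H, hH1, hH2⟩ := hglue (ℕ × E d) I (fun w => w.2) (fun w => adjU G.U w.2)
    (fun w => s0 * lam ^ w.1) (s0 * lam ^ k0) (adjU G.U p0) g hS
    (by
      intro w hw
      rw [hI] at hw
      have h1 := scale_anti hs0 hlam hlam1 (hw.level_le hk0)
      have h2 := hw.dist_root hs0 hlam hlam1 G hk0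
      refine ⟨scale_pos hs0 hlam _, ?_, ?_⟩
      · have : 0 < R * (s0 * lam ^ k0) := mul_pos hR hS
        linarith
      · rw [← map_sub]
        refine (norm_adjU_le G.U _).trans (h2.trans ?_)
        have : 0 < R * (s0 * lam ^ k0) := mul_pos hR hS
        linarith)
    (by
      intro i hi j hj hij
      obtain ⟨h1, h2⟩ := hpair i hi j hj hij
      refine ⟨h1, h2.trans ?_⟩
      have : 0 ≤ R * ‖adjU G.U i.2 - adjU G.U j.2‖ := mul_nonneg hR.le (norm_nonneg _)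
      linarith)
    (by
      intro i _ m
      rw [Real.toNNReal_coe]
      exact hg1 i m)
  have hcov : ∀ x ∈ F, x ∈ H '' closedBall 0 (R' * (s0 * lam ^ k0)) := by
    intro x hx
    obtain ⟨-, l, q, hsite, i, q', hi, hle, hq', hup, hxl, hg'⟩ := hF x hx
    obtain ⟨m, hm⟩ := hg2 (l, q) i q' hi hle hq' hup hg' x hx hxl
    exact hH2 (l, q) ((hI _).2 hsite) m hm
  have h0 : ‖H 0 - p0‖ ≤ (L' * R' + 2) * (s0 * lam ^ k0) := by
    obtain ⟨v, hv, hvx⟩ := hcov x1 hx1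
    have h1 := leaves_dist T hs0 hlam hlam1 hk0 (hF x1 hx1).1
    have h2 : ‖H 0 - H v‖ ≤ L' * (R' * (s0 * lam ^ k0)) := by
      have h3 := hH1.dist_le_mul 0 v
      rw [dist_eq_norm] at h3
      refine h3.trans (mul_le_mul_of_nonneg_left ?_ L'.2)
      rw [dist_comm]
      exact mem_closedBall.1 hv
    rw [hvx] at h2
    calc ‖H 0 - p0‖ = ‖(H 0 - x1) + (x1 - p0)‖ := by rw [sub_add_sub_cancel]
      _ ≤ ‖H 0 - x1‖ + ‖x1 - p0‖ := norm_add_le _ _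
      _ ≤ L' * (R' * (s0 * lam ^ k0)) + 64 / 63 * (s0 * lam ^ k0) := by linarith
      _ ≤ (L' * R' + 2) * (s0 * lam ^ k0) := by linarith
  refine ⟨H, hH1, h0.trans hmax2, ?_⟩
  intro x hx
  exact image_mono (closedBall_subset_closedBall hmax1) (hcov x hx)

/-! ### The covering theorem -/

/-- `UR/Glue.lean`: covering by Lipschitz images, by induction on `j`
(uses glue_abstract, regime_graph, card_below). -/
theorem cover_of_rcov (n d : ℕ) (hn : 1 ≤ n) (C c lam C1 κ : ℝ) (hC : 0 < C) (hc : 0 < c)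
    (hlam : 0 < lam) (hlam1 : lam ≤ 1 / 64) (hκ : 0 < κ) (hκ1 : κ ≤ 1 / 10) :
    ∃ ε1m : ℝ, 0 < ε1m ∧ ∀ ε1 : ℝ, 0 < ε1 → ε1 ≤ ε1m → ∀ (m0 J : ℕ), ∃ (L : ℝ≥0) (R : ℝ), 0 < R ∧
      ∀ (μ : Measure (E d)) (x0 : E d) (D s0 : ℝ) (N : ℕ), UB n μ C → LB n μ c D → 0 < s0 →
      100 * s0 ≤ D → ∀ (T : Nets μ x0 s0 lam N) (St : ℕ → E d → Prop)
      (A : ℕ → E d → ℕ → E d → Prop),
      (∀ k0 p0, St k0 p0 → k0 ≤ N → p0 ∈ T.pts k0 → up T.par 0 k0 p0 = x0 →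
        ∃ G : Regime n (μ.restrict (closedBall x0 D)) T C1 ε1 κ k0 p0, G.Act = A k0 p0) →
      ∀ (k0 : ℕ) (p0 : E d), St k0 p0 → k0 ≤ N → p0 ∈ T.pts k0 → up T.par 0 k0 p0 = x0 →
      ∀ F : Finset (E d), RCov T St A m0 J k0 p0 F →
      ∃ g : E n → E d, LipschitzWith L g ∧ ‖g 0 - p0‖ ≤ R * (s0 * lam ^ k0) ∧
        (F : Set (E d)) ⊆ g '' closedBall 0 (R * (s0 * lam ^ k0)) := by
  classical
  obtain ⟨ε1m, hε1m, hreg⟩ := regime_graph n d C c lam κ (3 / 8 * lam) hC hc hlam hlam1 hκ hκ1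
    (by positivity)
  refine ⟨ε1m, hε1m, fun ε1 hε1 hε1' m0 => ?_⟩
  have hgr := hreg ε1 hε1 hε1' C1
  have hcb := fun i => card_below n d C c lam hC hc hlam hlam1 i
  choose Kf hKf using hcb
  have hKb : ∀ i ≤ m0, ∀ (μ : Measure (E d)) (x0 : E d) (D s0 : ℝ) (N : ℕ),
      UB n μ C → LB n μ c D → 0 < s0 → 16 * s0 ≤ D →
      ∀ (T : Nets μ x0 s0 lam N), ∀ k, k + i ≤ N → ∀ p, ∀ A : Finset (E d),
        (∀ q ∈ A, q ∈ T.pts (k + i) ∧ up T.par k i q = p) →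
          A.card ≤ (Finset.range (m0 + 1)).sup Kf := by
    intro i hi μ x0 D s0 N hU hL hs0 hs0D T k hk p A hA
    refine (hKf i μ x0 D s0 N hU hL hs0 hs0D T k hk p A hA).trans ?_
    exact Finset.le_sup (f := Kf) (by simp; omega)
  intro J
  induction J with
  | zero =>
    obtain ⟨L', R', hR', h⟩ := glue_step n d hn C c lam C1 κ hlam hlam1 ε1 hgr m0 _ hKb 0 1
      one_pos
    refine ⟨L', R', hR', ?_⟩
    intro μ x0 D s0 N hU hL hs0 hs0D T St A hA k0 p0 hSt hk0 hp0 hup F hF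
    obtain ⟨G, hG⟩ := hA k0 p0 hSt hk0 hp0 hup
    apply h μ x0 D s0 N hU hL hs0 hs0D T k0 p0 G hk0 F
    intro x hx
    obtain ⟨h1, h2⟩ := hF x hx
    refine ⟨h1, ?_⟩
    rw [hG]
    rcases h2 with h2 | ⟨k, q, hk1, hk2, hq, hxq, ha, hna, hN⟩
    · exact glueHyp_leaf hs0 hlam T m0 0 zero_le_one F h1 h2
    · exact glueHyp_late hs0 hlam T m0 0 zero_le_one F hk1 hk2 hq hxq ha hna hN
  | succ j ih =>
    obtain ⟨Lj, Rj, hRj, hj⟩ := ih
    obtain ⟨L', R', hR', h⟩ := glue_step n d hn C c lam C1 κ hlam hlam1 ε1 hgr m0 _ hKb Lj Rj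
      hRj
    refine ⟨L', R', hR', ?_⟩
    intro μ x0 D s0 N hU hL hs0 hs0D T St A hA k0 p0 hSt hk0 hp0 hup F hF
    obtain ⟨G, hG⟩ := hA k0 p0 hSt hk0 hp0 hup
    apply h μ x0 D s0 N hU hL hs0 hs0D T k0 p0 G hk0 F
    intro x hx
    obtain ⟨h1, h2⟩ := hF x hx
    refine ⟨h1, ?_⟩
    rcases h2 with h2 | ⟨k, q, hk1, hk2, hq, hxq, ha, hna, hN⟩
    · rw [hG]
      exact glueHyp_leaf hs0 hlam T m0 Lj hRj.le F h1 h2
    by_cases hkN : N ≤ k + 1 + m0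
    · rw [hG]
      exact glueHyp_late hs0 hlam T m0 Lj hRj.le F hk1 hk2 hq hxq ha hna hkN
    rcases hN with hN | ⟨i, q', hi, hq', hqq', hSt', hxq', hRC⟩
    · exact absurd hN hkN
    have hsite : Site T k0 G.Act (k + 1) q := by
      refine ⟨by omega, hq, Or.inr ⟨k, rfl, hk1, ?_, ?_⟩⟩
      · rw [hG]
        exact ha
      · rw [hG]
        exact hna
    have hle : k + 1 + i ≤ N := by omega
    have hroot : up T.par 0 (k + 1 + i) q' = x0 := by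
      have e1 := up_up T.par 0 (k + 1) i q'
      rw [← e1, zero_add, hqq']
      have e2 := up_up T.par 0 k0 (k + 1 - k0) q
      rw [zero_add, hsite.up_eq G hk0, hup] at e2
      rw [show k + 1 = k0 + (k + 1 - k0) by omega]
      exact e2.symm
    refine ⟨k + 1, q, hsite, i, q', hi, hle, hq', hqq', hxq', ?_⟩
    obtain ⟨g', hg1, hg2, hg3⟩ := hj μ x0 D s0 N hU hL hs0 hs0D T St A hA (k + 1 + i) q' hSt' hle
      hq' hroot _ hRC
    refine ⟨g', hg1, hg2, ?_⟩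
    intro z hz hzl
    apply hg3
    rw [Finset.mem_coe, Finset.mem_filter]
    exact ⟨hz, hzl⟩

end Vale.Agent.P120
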