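import Vale.Agent.Lib.P120.UR.Basic

/-!
P120: combinatorial packing of the regimes (`packing`).
-/

open MeasureTheory Filter Set Metric Module
open scoped Topology ENNReal NNReal RealInnerProductSpace

namespace Vale.Agent.P120

section Packing

open Classical

variable {d : ℕ} {μ : Measure (E d)} {x0 : E d} {s0 lam : ℝ} {N : ℕ}

/-! ### ancestors of leaves -/

theorem packing_up_up (par : ℕ → E d → E d) (j i : ℕ) : ∀ (i' : ℕ) (p : E d),
    up par j i (up par (j + i) i' p) = up par j (i + i') p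
  | 0, p => rfl
  | i' + 1, p => by
    change up par j i (up par (j + i) i' (par (j + i + i') p)) =
      up par j (i + i') (par (j + (i + i')) p)
    rw [packing_up_up par j i i' _, Nat.add_assoc]

theorem packing_up_mem (T : Nets μ x0 s0 lam N) (j : ℕ) : ∀ (i : ℕ), j + i ≤ N → ∀ p : E d,
    p ∈ T.pts (j + i) → up T.par j i p ∈ T.pts j
  | 0, _, _, hp => hp
  | i + 1, h, p, hp => by
    change up T.par j i (T.par (j + i) p) ∈ T.pts j
    exact packing_up_mem T j i (by omega) _ (T.par_mem (j + i) (by omega) p hp)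

/-- the ancestor of level `k` of the leaf `x` -/
noncomputable def pkAnc (T : Nets μ x0 s0 lam N) (k : ℕ) (x : E d) : E d := up T.par k (N - k) x

variable {T : Nets μ x0 s0 lam N}

theorem pkAnc_eq_up {k t : ℕ} (hkt : k ≤ t) (ht : t ≤ N) (x : E d) :
    up T.par k (t - k) (pkAnc T t x) = pkAnc T k x := by
  obtain ⟨i, rfl⟩ := Nat.exists_eq_add_of_le hkt
  obtain ⟨i', rfl⟩ := Nat.exists_eq_add_of_le ht
  unfold pkAnc
  rw [Nat.add_sub_cancel_left, Nat.add_sub_cancel_left, packing_up_up]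
  congr 1
  omega

theorem pkAnc_par {k : ℕ} (hk : k < N) (x : E d) :
    T.par k (pkAnc T (k + 1) x) = pkAnc T k x := by
  have := pkAnc_eq_up (T := T) (k := k) (t := k + 1) (by omega) (by omega) x
  rw [Nat.add_sub_cancel_left] at this
  exact this

theorem pkAnc_mem {k : ℕ} (hk : k ≤ N) {x : E d} (hx : x ∈ T.pts N) : pkAnc T k x ∈ T.pts k := by
  obtain ⟨i, rfl⟩ := Nat.exists_eq_add_of_le hk
  unfold pkAnc
  rw [Nat.add_sub_cancel_left]
  exact packing_up_mem T k i le_rfl x hx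

theorem pkAnc_congr {k t : ℕ} (hkt : k ≤ t) (ht : t ≤ N) {x z : E d}
    (h : pkAnc T t z = pkAnc T t x) : pkAnc T k z = pkAnc T k x := by
  rw [← pkAnc_eq_up hkt ht, ← pkAnc_eq_up hkt ht, h]

theorem pk_mem_leaves {k : ℕ} {p x : E d} :
    x ∈ leaves T k p ↔ x ∈ T.pts N ∧ pkAnc T k x = p := by
  unfold leaves pkAnc
  rw [Finset.mem_filter]

/-! ### the cell lemma -/

/-- A relation `Rel x t` (the leaf `x` has the marked level `t`) which is functional and depends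
only on the ancestor at the level `t`: inequalities between sums over the cells add up. -/
theorem pk_cell {Rel : E d → ℕ → Prop} (hU : ∀ x t t', Rel x t → Rel x t' → t = t')
    (hC : ∀ x z t, Rel x t → z ∈ T.pts N → pkAnc T t z = pkAnc T t x → Rel z t)
    (a b : E d → ℝ)
    (hab : ∀ x t, Rel x t → ∑ z ∈ leaves T t (pkAnc T t x), a z ≤
      ∑ z ∈ leaves T t (pkAnc T t x), b z) :
    ∑ x ∈ (T.pts N).filter (fun x => ∃ t, Rel x t), a x ≤
      ∑ x ∈ (T.pts N).filter (fun x => ∃ t, Rel x t), b x := by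
  classical
  set R := (T.pts N).filter (fun x => ∃ t, Rel x t) with hR
  let τ : E d → ℕ := fun x => if h : ∃ t, Rel x t then h.choose else 0
  have hτ : ∀ x t, Rel x t → τ x = t := by
    intro x t h
    have h1 : ∃ t, Rel x t := ⟨t, h⟩
    have h2 : τ x = h1.choose := dif_pos h1
    rw [h2]
    exact hU x _ _ h1.choose_spec h
  let f : E d → ℕ × E d := fun x => (τ x, pkAnc T (τ x) x)
  have key : ∀ g : E d → ℝ, ∑ x ∈ R, g x =
      ∑ c ∈ R.image f, ∑ x ∈ R.filter (fun x => f x = c), g x := by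
    intro g
    exact (Finset.sum_fiberwise_of_maps_to (fun x hx => Finset.mem_image_of_mem f hx) g).symm
  rw [key a, key b]
  apply Finset.sum_le_sum
  intro c hc
  rw [Finset.mem_image] at hc
  obtain ⟨x, hx, rfl⟩ := hc
  rw [hR, Finset.mem_filter] at hx
  obtain ⟨hxN, t, hxt⟩ := hx
  have hfib : R.filter (fun z => f z = f x) = leaves T t (pkAnc T t x) := by
    ext z
    rw [Finset.mem_filter, hR, Finset.mem_filter, pk_mem_leaves]
    constructor
    · rintro ⟨⟨hz, t', hzt'⟩, hf⟩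
      refine ⟨hz, ?_⟩
      have e1 : τ z = t' := hτ z t' hzt'
      have e2 : τ x = t := hτ x t hxt
      have e3 : (τ z, pkAnc T (τ z) z) = (τ x, pkAnc T (τ x) x) := hf
      rw [e1, e2, Prod.mk.injEq] at e3
      obtain ⟨rfl, e4⟩ := e3
      exact e4
    · rintro ⟨hz, hz2⟩
      have h1 : Rel z t := hC x z t hxt hz hz2
      refine ⟨⟨hz, t, h1⟩, ?_⟩
      change (τ z, pkAnc T (τ z) z) = (τ x, pkAnc T (τ x) x)
      rw [hτ z t h1, hτ x t hxt, hz2]
  rw [hfib]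
  exact hab x t hxt

/-! ### capture -/

/-- The leaf `x` is captured at the level `t` within `r` rounds from the level `k` on. -/
def pkCap (T : Nets μ x0 s0 lam N) (m1 : ℕ) (sI : ℕ → E d → ℕ) (sQ : ℕ → E d → E d) :
    ℕ → ℕ → E d → ℕ → Prop
  | 0, _, _, _ => False
  | r + 1, k, x, t =>
    (pkAnc T (k + sI k (pkAnc T k x)) x = sQ k (pkAnc T k x) ∧ t = k + sI k (pkAnc T k x)) ∨
    (pkAnc T (k + sI k (pkAnc T k x)) x ≠ sQ k (pkAnc T k x) ∧ pkCap T m1 sI sQ r (k + m1) x t)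

section Cap

variable {m1 : ℕ} {sI : ℕ → E d → ℕ} {sQ : ℕ → E d → E d}

theorem pkCap_le (hI : ∀ k p, sI k p ≤ m1) : ∀ (r k : ℕ) (x : E d) (t : ℕ),
    pkCap T m1 sI sQ r k x t → k ≤ t ∧ t ≤ k + r * m1
  | 0, _, _, _, h => h.elim
  | r + 1, k, x, t, h => by
    have h0 := hI k (pkAnc T k x)
    have h1 : (r + 1) * m1 = r * m1 + m1 := by ring
    rcases h with ⟨_, h⟩ | ⟨_, h⟩
    · rw [h1]
      omega
    · have := pkCap_le hI r (k + m1) x t h
      rw [h1]
      omega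

theorem pkCap_unique : ∀ (r k : ℕ) (x : E d) (t t' : ℕ),
    pkCap T m1 sI sQ r k x t → pkCap T m1 sI sQ r k x t' → t = t'
  | 0, _, _, _, _, h, _ => h.elim
  | r + 1, k, x, t, t', h, h' => by
    rcases h with ⟨h1, h⟩ | ⟨h1, h⟩ <;> rcases h' with ⟨h1', h'⟩ | ⟨h1', h'⟩
    · rw [h, h']
    · exact (h1' h1).elim
    · exact (h1 h1').elim
    · exact pkCap_unique r (k + m1) x t t' h h'

theorem pkCap_congr (hI : ∀ k p, sI k p ≤ m1) : ∀ (r k : ℕ) (x z : E d) (t : ℕ), t ≤ N →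
    pkCap T m1 sI sQ r k x t → pkAnc T t z = pkAnc T t x → pkCap T m1 sI sQ r k z t
  | 0, _, _, _, _, _, h, _ => h.elim
  | r + 1, k, x, z, t, ht, h, hz => by
    have hkt : k ≤ t := (pkCap_le hI (r + 1) k x t h).1
    have hk : pkAnc T k z = pkAnc T k x := pkAnc_congr hkt ht hz
    have h0 := hI k (pkAnc T k x)
    rcases h with ⟨h1, h⟩ | ⟨h1, h⟩
    · left
      rw [hk, ← h, hz]
      rw [h] at *
      exact ⟨h1, rfl⟩
    · right
      have h2 := (pkCap_le hI r (k + m1) x t h).1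
      have h3 : pkAnc T (k + sI k (pkAnc T k x)) z = pkAnc T (k + sI k (pkAnc T k x)) x :=
        pkAnc_congr (by omega) ht hz
      rw [hk, h3]
      exact ⟨h1, pkCap_congr hI r (k + m1) x z t ht h hz⟩

theorem pkCap_start {St : ℕ → E d → Prop}
    (hI : ∀ k p, sI k p ≤ m1)
    (hS : ∀ k p, p ∈ T.pts k → up T.par 0 k p = x0 → k + m1 ≤ N → St (k + sI k p) (sQ k p)) :
    ∀ (r k : ℕ) (x : E d) (t : ℕ), x ∈ T.pts N → pkAnc T 0 x = x0 → k + r * m1 ≤ N →
      pkCap T m1 sI sQ r k x t → St t (pkAnc T t x)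
  | 0, _, _, _, _, _, _, h => h.elim
  | r + 1, k, x, t, hx, hx0, hk, h => by
    have h1 : (r + 1) * m1 = r * m1 + m1 := by ring
    rw [h1] at hk
    rcases h with ⟨h1, h⟩ | ⟨h1, h⟩
    · subst h
      rw [h1]
      refine hS k _ (pkAnc_mem (by omega) hx) ?_ (by omega)
      have := pkAnc_eq_up (T := T) (k := 0) (t := k) (by omega) (by omega) x
      rw [Nat.sub_zero] at this
      rw [this, hx0]
    · exact pkCap_start hI hS r (k + m1) x t hx hx0 (by omega) h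

/-- the mass which is not captured -/
theorem pkCap_mass {c1 : ℝ} (hc1 : 0 < c1) (hc11 : c1 ≤ 1)
    (hI : ∀ k p, sI k p ≤ m1)
    (hS : ∀ k p, p ∈ T.pts k → up T.par 0 k p = x0 → k + m1 ≤ N →
      up T.par k (sI k p) (sQ k p) = p ∧ c1 * mass T k p ≤ mass T (k + sI k p) (sQ k p)) :
    ∀ (r k : ℕ) (p : E d), p ∈ T.pts k → up T.par 0 k p = x0 → k + r * m1 ≤ N →
      ∑ x ∈ leaves T k p, (if ∃ t, pkCap T m1 sI sQ r k x t then (0 : ℝ) else 1) ≤
        ∑ _x ∈ leaves T k p, (1 - c1) ^ r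
  | 0, k, p, _, _, _ => by
    apply Finset.sum_le_sum
    intro x _
    split_ifs <;> norm_num
  | r + 1, k, p, hp, hp0, hk => by
    have h1 : (r + 1) * m1 = r * m1 + m1 := by ring
    rw [h1] at hk
    have hIk := hI k p
    obtain ⟨hup, hmass⟩ := hS k p hp hp0 (by omega)
    -- the relation: not captured in the first round
    let Rel : E d → ℕ → Prop := fun x t =>
      (x ∈ leaves T k p ∧ pkAnc T (k + sI k p) x ≠ sQ k p) ∧ t = k + m1
    have hcell := pk_cell (T := T) (Rel := Rel)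
      (fun x t t' h h' => h.2.trans h'.2.symm)
      (fun x z t h hz hzx => by
        obtain ⟨⟨h2, h3⟩, rfl⟩ := h
        rw [pk_mem_leaves] at h2
        refine ⟨⟨pk_mem_leaves.2 ⟨hz, ?_⟩, ?_⟩, rfl⟩
        · rw [pkAnc_congr (by omega) (by omega) hzx, h2.2]
        · rw [pkAnc_congr (t := k + m1) (by omega) (by omega) hzx]
          exact h3)
      (fun x => if ∃ t, pkCap T m1 sI sQ r (k + m1) x t then (0 : ℝ) else 1)
      (fun _ => (1 - c1) ^ r)
      (fun x t h => by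
        obtain ⟨⟨h2, h3⟩, rfl⟩ := h
        rw [pk_mem_leaves] at h2
        refine pkCap_mass hc1 hc11 hI hS r (k + m1) _ (pkAnc_mem (by omega) h2.1) ?_ (by omega)
        have e1 := pkAnc_eq_up (T := T) (k := 0) (t := k + m1) (by omega) (by omega) x
        rw [Nat.sub_zero] at e1
        have e2 := pkAnc_eq_up (T := T) (k := 0) (t := k) (by omega) (by omega) x
        rw [Nat.sub_zero, h2.2, hp0] at e2
        rw [e1, ← e2])
    have hset : (T.pts N).filter (fun x => ∃ t, Rel x t) =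
        (leaves T k p).filter (fun x => pkAnc T (k + sI k p) x ≠ sQ k p) := by
      ext x
      rw [Finset.mem_filter, Finset.mem_filter]
      constructor
      · rintro ⟨_, t, h, _⟩
        exact h
      · rintro ⟨h2, h3⟩
        exact ⟨(pk_mem_leaves.1 h2).1, k + m1, ⟨h2, h3⟩, rfl⟩
    rw [hset] at hcell
    have hA : ∑ x ∈ leaves T k p, (if ∃ t, pkCap T m1 sI sQ (r + 1) k x t then (0 : ℝ) else 1) ≤
        ∑ x ∈ (leaves T k p).filter (fun x => pkAnc T (k + sI k p) x ≠ sQ k p),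
          (if ∃ t, pkCap T m1 sI sQ r (k + m1) x t then (0 : ℝ) else 1) := by
      rw [Finset.sum_filter]
      apply Finset.sum_le_sum
      intro x hx
      rw [pk_mem_leaves] at hx
      by_cases h2 : pkAnc T (k + sI k p) x = sQ k p
      · have h3 : ∃ t, pkCap T m1 sI sQ (r + 1) k x t := by
          refine ⟨k + sI k p, Or.inl ?_⟩
          rw [hx.2]
          exact ⟨h2, rfl⟩
        rw [if_pos h3, if_neg (not_not.2 h2)]
      · rw [if_pos h2]
        by_cases h3 : ∃ t, pkCap T m1 sI sQ r (k + m1) x t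
        · obtain ⟨t, ht⟩ := h3
          have h4 : ∃ t, pkCap T m1 sI sQ (r + 1) k x t := by
            refine ⟨t, Or.inr ?_⟩
            rw [hx.2]
            exact ⟨h2, ht⟩
          rw [if_pos h4, if_pos ⟨t, ht⟩]
        · rw [if_neg h3]
          split_ifs <;> norm_num
    refine hA.trans (hcell.trans ?_)
    rw [Finset.sum_const, Finset.sum_const, nsmul_eq_mul, nsmul_eq_mul, pow_succ]
    have hcard : (((leaves T k p).filter (fun x => pkAnc T (k + sI k p) x ≠ sQ k p)).card : ℝ) ≤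
        (1 - c1) * (leaves T k p).card := by
      have e1 := Finset.card_filter_add_card_filter_not (s := leaves T k p)
        (fun x => pkAnc T (k + sI k p) x = sQ k p)
      have e2 : leaves T (k + sI k p) (sQ k p) ⊆
          (leaves T k p).filter (fun x => pkAnc T (k + sI k p) x = sQ k p) := by
        intro x hx
        rw [pk_mem_leaves] at hx
        rw [Finset.mem_filter, pk_mem_leaves]
        refine ⟨⟨hx.1, ?_⟩, hx.2⟩
        have e3 := pkAnc_eq_up (T := T) (k := k) (t := k + sI k p) (by omega) (by omega) x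
        rw [Nat.add_sub_cancel_left, hx.2, hup] at e3
        exact e3.symm
      have e4 : (mass T (k + sI k p) (sQ k p)) ≤
          (((leaves T k p).filter (fun x => pkAnc T (k + sI k p) x = sQ k p)).card : ℝ) := by
        unfold mass
        exact_mod_cast Finset.card_le_card e2
      have e5 : ((((leaves T k p).filter (fun x => pkAnc T (k + sI k p) x = sQ k p)).card : ℝ) +
          (((leaves T k p).filter (fun x => ¬ pkAnc T (k + sI k p) x = sQ k p)).card : ℝ)) =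
          ((leaves T k p).card : ℝ) := by
        exact_mod_cast e1
      unfold mass at hmass
      unfold mass at e4
      have e6 : (leaves T k p).filter (fun x => pkAnc T (k + sI k p) x ≠ sQ k p) =
        (leaves T k p).filter (fun x => ¬ pkAnc T (k + sI k p) x = sQ k p) := rfl
      rw [e6]
      linarith
    have h0 : 0 ≤ (1 - c1) ^ r := pow_nonneg (by linarith) r
    linarith only [mul_le_mul_of_nonneg_right hcard h0]

end Cap

/-! ### generations -/

/-- `l` is the first inactive level of the leaf `x` in the regime started at its ancestor of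
level `t`. -/
def pkStop (T : Nets μ x0 s0 lam N) (A : ℕ → E d → ℕ → E d → Prop) (t : ℕ) (x : E d) (l : ℕ) :
    Prop :=
  t ≤ l ∧ l ≤ N ∧ ¬ A t (pkAnc T t x) l (pkAnc T l x) ∧
    ∀ k, t ≤ k → k < l → A t (pkAnc T t x) k (pkAnc T k x)

/-- `t` is the level of the start node of generation `j` above the leaf `x`. -/
def pkGen (T : Nets μ x0 s0 lam N) (m1 : ℕ) (sI : ℕ → E d → ℕ) (sQ : ℕ → E d → E d)
    (A : ℕ → E d → ℕ → E d → Prop) (r : ℕ) : ℕ → E d → ℕ → Prop
  | 0, x, t => x ∈ leaves T 0 x0 ∧ pkCap T m1 sI sQ r 0 x t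
  | j + 1, x, t => ∃ t' l, pkGen T m1 sI sQ A r j x t' ∧ pkStop T A t' x l ∧ l + r * m1 < N ∧
      pkCap T m1 sI sQ r l x t

/-- the hypotheses -/
structure PkHyp (T : Nets μ x0 s0 lam N) (m1 : ℕ) (sI : ℕ → E d → ℕ) (sQ : ℕ → E d → E d)
    (St : ℕ → E d → Prop) (A : ℕ → E d → ℕ → E d → Prop) (r : ℕ) : Prop where
  hr : r * m1 ≤ N
  hI : ∀ k p, sI k p ≤ m1
  hS : ∀ k p, p ∈ T.pts k → up T.par 0 k p = x0 → k + m1 ≤ N → St (k + sI k p) (sQ k p)
  hA : ∀ t p, St t p → t ≤ N → p ∈ T.pts t → A t p t p ∧ (∀ q, A t p t q → q = p) ∧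
    ∀ k q, t ≤ k → A t p (k + 1) q → A t p k (T.par k q)

section Gen

variable {m1 : ℕ} {sI : ℕ → E d → ℕ} {sQ : ℕ → E d → E d} {St : ℕ → E d → Prop}
  {A : ℕ → E d → ℕ → E d → Prop} {r : ℕ}

theorem pkStop_unique {t : ℕ} {x : E d} {l l' : ℕ} (h : pkStop T A t x l)
    (h' : pkStop T A t x l') : l = l' := by
  rcases lt_trichotomy l l' with h1 | h1 | h1
  · exact (h.2.2.1 (h'.2.2.2 l h.1 h1)).elim
  · exact h1
  · exact (h'.2.2.1 (h.2.2.2 l' h'.1 h1)).elim

theorem pkStop_congr {t : ℕ} {x z : E d} {l : ℕ} (h : pkStop T A t x l)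
    (hz : pkAnc T l z = pkAnc T l x) : pkStop T A t z l := by
  obtain ⟨h1, h2, h3, h4⟩ := h
  refine ⟨h1, h2, ?_, ?_⟩
  · rw [pkAnc_congr h1 h2 hz, hz]
    exact h3
  · intro k hk1 hk2
    rw [pkAnc_congr h1 h2 hz, pkAnc_congr hk2.le h2 hz]
    exact h4 k hk1 hk2

theorem pkGen_mem : ∀ (j : ℕ) {x : E d} {t : ℕ}, pkGen T m1 sI sQ A r j x t →
    x ∈ leaves T 0 x0
  | 0, _, _, h => h.1
  | j + 1, _, _, h => by
    obtain ⟨t', l, h1, _⟩ := h
    exact pkGen_mem j h1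

theorem pkGen_le (H : PkHyp T m1 sI sQ St A r) : ∀ (j : ℕ) {x : E d} {t : ℕ},
    pkGen T m1 sI sQ A r j x t → t ≤ N
  | 0, x, t, h => by
    have := (pkCap_le H.hI r 0 x t h.2).2
    have := H.hr
    omega
  | j + 1, x, t, h => by
    obtain ⟨t', l, h1, h2, h3, h4⟩ := h
    have := (pkCap_le H.hI r l x t h4).2
    omega

theorem pkGen_unique : ∀ (j : ℕ) {x : E d} {t t' : ℕ},
    pkGen T m1 sI sQ A r j x t → pkGen T m1 sI sQ A r j x t' → t = t'
  | 0, x, t, t', h, h' => pkCap_unique r 0 x t t' h.2 h'.2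
  | j + 1, x, t, t', h, h' => by
    obtain ⟨u, l, h1, h2, h3, h4⟩ := h
    obtain ⟨u', l', h1', h2', h3', h4'⟩ := h'
    have e1 := pkGen_unique j h1 h1'
    subst e1
    have e2 := pkStop_unique h2 h2'
    subst e2
    exact pkCap_unique r l x t t' h4 h4'

theorem pkGen_congr (H : PkHyp T m1 sI sQ St A r) : ∀ (j : ℕ) {x z : E d} {t : ℕ},
    pkGen T m1 sI sQ A r j x t → z ∈ T.pts N → pkAnc T t z = pkAnc T t x →
    pkGen T m1 sI sQ A r j z t
  | 0, x, z, t, h, hz, hzx => by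
    have ht := pkGen_le H 0 h
    refine ⟨?_, pkCap_congr H.hI r 0 x z t ht h.2 hzx⟩
    rw [pk_mem_leaves]
    refine ⟨hz, ?_⟩
    rw [pkAnc_congr (Nat.zero_le t) ht hzx]
    exact (pk_mem_leaves.1 h.1).2
  | j + 1, x, z, t, h, hz, hzx => by
    have ht := pkGen_le H (j + 1) h
    obtain ⟨u, l, h1, h2, h3, h4⟩ := h
    have h5 := (pkCap_le H.hI r l x t h4).1
    have e1 : pkAnc T l z = pkAnc T l x := pkAnc_congr h5 ht hzx
    have e2 : pkAnc T u z = pkAnc T u x := pkAnc_congr h2.1 h2.2.1 e1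
    exact ⟨u, l, pkGen_congr H j h1 hz e2, pkStop_congr h2 e1, h3,
      pkCap_congr H.hI r l x z t ht h4 hzx⟩

theorem pkGen_start (H : PkHyp T m1 sI sQ St A r) : ∀ (j : ℕ) {x : E d} {t : ℕ},
    pkGen T m1 sI sQ A r j x t → St t (pkAnc T t x)
  | 0, x, t, h => by
    have h1 := pk_mem_leaves.1 h.1
    have := H.hr
    exact pkCap_start H.hI H.hS r 0 x t h1.1 h1.2 (by omega) h.2
  | j + 1, x, t, h => by
    have h1 := pk_mem_leaves.1 (pkGen_mem (j + 1) h)
    obtain ⟨u, l, _, _, h3, h4⟩ := h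
    exact pkCap_start H.hI H.hS r l x t h1.1 h1.2 h3.le h4

theorem pkGen_chain (H : PkHyp T m1 sI sQ St A r) (j : ℕ) : ∀ (i : ℕ) {x : E d} {t : ℕ},
    pkGen T m1 sI sQ A r (j + 1 + i) x t →
    ∃ t0 l, pkGen T m1 sI sQ A r j x t0 ∧ pkStop T A t0 x l ∧ l ≤ t
  | 0, x, t, h => by
    obtain ⟨u, l, h1, h2, h3, h4⟩ := h
    exact ⟨u, l, h1, h2, (pkCap_le H.hI r l x t h4).1⟩
  | i + 1, x, t, h => by
    obtain ⟨u, l, h1, h2, h3, h4⟩ := h
    obtain ⟨t0, l0, a1, a2, a3⟩ := pkGen_chain H j i h1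
    exact ⟨t0, l0, a1, a2, a3.trans (h2.1.trans (pkCap_le H.hI r l x t h4).1)⟩

/-- activity is hereditary -/
theorem pk_hered (H : PkHyp T m1 sI sQ St A r) {t : ℕ} {p : E d} (hSt : St t p) (ht : t ≤ N)
    (hp : p ∈ T.pts t) {x : E d} {l : ℕ} (htl : t ≤ l) : ∀ (i : ℕ), l + i ≤ N →
    A t p (l + i) (pkAnc T (l + i) x) → A t p l (pkAnc T l x)
  | 0, _, h => h
  | i + 1, hi, h => by
    have h1 : A t p (l + i) (T.par (l + i) (pkAnc T (l + i + 1) x)) :=
      (H.hA t p hSt ht hp).2.2 (l + i) _ (by omega) h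
    rw [pkAnc_par (by omega)] at h1
    exact pk_hered H hSt ht hp htl i (by omega) h1

/-- two generations are not active at the same time -/
theorem pk_act_unique (H : PkHyp T m1 sI sQ St A r) {j j' : ℕ} {x : E d} {k : ℕ} (hk : k < N)
    (h : ∃ t, pkGen T m1 sI sQ A r j x t ∧ t ≤ k ∧ A t (pkAnc T t x) k (pkAnc T k x))
    (h' : ∃ t, pkGen T m1 sI sQ A r j' x t ∧ t ≤ k ∧ A t (pkAnc T t x) k (pkAnc T k x)) :
    j = j' := by
  wlog hjj : j ≤ j' generalizing j j'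
  · exact (this h' h (by omega)).symm
  rcases Nat.lt_or_ge j j' with h1 | h1
  · exfalso
    obtain ⟨i, rfl⟩ : ∃ i, j' = j + 1 + i := ⟨j' - (j + 1), by omega⟩
    obtain ⟨t', g', htk', _⟩ := h'
    obtain ⟨t0, l, a1, a2, a3⟩ := pkGen_chain H j i g'
    obtain ⟨t, g, htk, hA⟩ := h
    have e := pkGen_unique j g a1
    subst e
    have hx := pk_mem_leaves.1 (pkGen_mem j g)
    obtain ⟨i', rfl⟩ : ∃ i', k = l + i' := ⟨k - l, by omega⟩
    exact a2.2.2.1 (pk_hered H (pkGen_start H j g) (pkGen_le H j g)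
      (pkAnc_mem (pkGen_le H j g) hx.1) a2.1 i' hk.le hA)
  · omega

/-- the total energy of all generations -/
theorem pk_energy (H : PkHyp T m1 sI sQ St A r) (ω : ℕ → E d → ℝ) (hω : ∀ k q, 0 ≤ ω k q)
    (M : ℕ) :
    ∑ j ∈ Finset.range M, ∑ x ∈ leaves T 0 x0, ∑ k ∈ Finset.range N,
      (if ∃ t, pkGen T m1 sI sQ A r j x t ∧ t ≤ k ∧ A t (pkAnc T t x) k (pkAnc T k x) then
        ω k (pkAnc T (k + 1) x) else 0) ≤
    ∑ k ∈ Finset.range N, ∑ q ∈ T.pts (k + 1), ω k q * mass T (k + 1) q := by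
  rw [Finset.sum_comm]
  have h1 : ∀ x ∈ leaves T 0 x0, ∑ j ∈ Finset.range M, ∑ k ∈ Finset.range N,
      (if ∃ t, pkGen T m1 sI sQ A r j x t ∧ t ≤ k ∧ A t (pkAnc T t x) k (pkAnc T k x) then
        ω k (pkAnc T (k + 1) x) else 0) ≤ ∑ k ∈ Finset.range N, ω k (pkAnc T (k + 1) x) := by
    intro x _
    rw [Finset.sum_comm]
    apply Finset.sum_le_sum
    intro k hk
    rw [Finset.mem_range] at hk
    by_cases h : ∃ j ∈ Finset.range M,
        ∃ t, pkGen T m1 sI sQ A r j x t ∧ t ≤ k ∧ A t (pkAnc T t x) k (pkAnc T k x)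
    · obtain ⟨j, hj, h⟩ := h
      rw [Finset.sum_eq_single_of_mem j hj]
      · rw [if_pos h]
      · intro j' _ hne
        rw [if_neg]
        intro h'
        exact hne (pk_act_unique H hk h' h)
    · rw [Finset.sum_eq_zero]
      · exact hω _ _
      · intro j hj
        rw [if_neg]
        exact fun h' => h ⟨j, hj, h'⟩
  refine (Finset.sum_le_sum h1).trans ?_
  have h2 : leaves T 0 x0 ⊆ T.pts N := fun x hx => (pk_mem_leaves.1 hx).1
  refine (Finset.sum_le_sum_of_subset_of_nonneg h2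
    (fun x _ _ => Finset.sum_nonneg fun k _ => hω _ _)).trans ?_
  rw [Finset.sum_comm]
  apply Finset.sum_le_sum
  intro k hk
  rw [Finset.mem_range] at hk
  rw [← Finset.sum_fiberwise_of_maps_to (s := T.pts N) (t := T.pts (k + 1))
    (g := fun x => pkAnc T (k + 1) x) (fun x hx => pkAnc_mem (by omega) hx)]
  apply Finset.sum_le_sum
  intro q _
  have h3 : ∑ x ∈ (T.pts N).filter (fun x => pkAnc T (k + 1) x = q), ω k (pkAnc T (k + 1) x) =
      ∑ _x ∈ (T.pts N).filter (fun x => pkAnc T (k + 1) x = q), ω k q := by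
    apply Finset.sum_congr rfl
    intro x hx
    rw [(Finset.mem_filter.1 hx).2]
  rw [h3, Finset.sum_const, nsmul_eq_mul, mul_comm]
  apply le_of_eq
  congr 1

/-- the energy of one regime in terms of leaves -/
theorem pk_regEn (H : PkHyp T m1 sI sQ St A r) {D : ℝ} {e : ℕ → E d → ℝ}
    (hω : ∀ k q, 0 ≤ e (k + 1) q + 4 * (s0 * lam ^ k) / D) {j : ℕ} {x : E d} {t : ℕ}
    (hg : pkGen T m1 sI sQ A r j x t) :
    regEn T D e t (A t (pkAnc T t x)) ≤ ∑ z ∈ leaves T t (pkAnc T t x), ∑ k ∈ Finset.range N,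
      (if ∃ t, pkGen T m1 sI sQ A r j z t ∧ t ≤ k ∧ A t (pkAnc T t z) k (pkAnc T k z) then
        e (k + 1) (pkAnc T (k + 1) z) + 4 * (s0 * lam ^ k) / D else 0) := by
  have htN := pkGen_le H j hg
  have hx := pk_mem_leaves.1 (pkGen_mem j hg)
  have hSt := pkGen_start H j hg
  have hpt : pkAnc T t x ∈ T.pts t := pkAnc_mem htN hx.1
  obtain ⟨hA1, hA2, hA3⟩ := H.hA t _ hSt htN hpt
  unfold regEn
  rw [Finset.sum_comm (s := leaves T t (pkAnc T t x))]
  apply Finset.sum_le_sum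
  intro k hk
  rw [Finset.mem_range] at hk
  set Y := (T.pts N).filter (fun z => t ≤ k ∧ A t (pkAnc T t x) k (pkAnc T k z)) with hY
  set F := (T.pts (k + 1)).filter (fun q => t ≤ k ∧ A t (pkAnc T t x) k (T.par k q)) with hF
  have hmap : ∀ z ∈ Y, pkAnc T (k + 1) z ∈ F := by
    intro z hz
    rw [hY, Finset.mem_filter] at hz
    rw [hF, Finset.mem_filter, pkAnc_par hk]
    exact ⟨pkAnc_mem (by omega) hz.1, hz.2⟩
  have h1 : ∑ q ∈ F, (e (k + 1) q + 4 * (s0 * lam ^ k) / D) * mass T (k + 1) q =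
      ∑ z ∈ Y, (e (k + 1) (pkAnc T (k + 1) z) + 4 * (s0 * lam ^ k) / D) := by
    rw [← Finset.sum_fiberwise_of_maps_to hmap]
    apply Finset.sum_congr rfl
    intro q hq
    rw [hF, Finset.mem_filter] at hq
    have h2 : Y.filter (fun z => pkAnc T (k + 1) z = q) = leaves T (k + 1) q := by
      ext z
      rw [Finset.mem_filter, hY, Finset.mem_filter, pk_mem_leaves]
      constructor
      · rintro ⟨⟨a1, _⟩, a2⟩
        exact ⟨a1, a2⟩
      · rintro ⟨a1, a2⟩
        refine ⟨⟨a1, hq.2.1, ?_⟩, a2⟩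
        rw [← pkAnc_par hk, a2]
        exact hq.2.2
    rw [h2]
    have h3 : ∑ z ∈ leaves T (k + 1) q,
        (e (k + 1) (pkAnc T (k + 1) z) + 4 * (s0 * lam ^ k) / D) =
        ∑ _z ∈ leaves T (k + 1) q, (e (k + 1) q + 4 * (s0 * lam ^ k) / D) := by
      apply Finset.sum_congr rfl
      intro z hz
      rw [(pk_mem_leaves.1 hz).2]
    rw [h3, Finset.sum_const, nsmul_eq_mul, mul_comm]
    rfl
  have hYsub : Y ⊆ leaves T t (pkAnc T t x) := by
    intro z hz
    rw [hY, Finset.mem_filter] at hz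
    rw [pk_mem_leaves]
    refine ⟨hz.1, hA2 _ ?_⟩
    obtain ⟨i, hi⟩ : ∃ i, k = t + i := ⟨k - t, by omega⟩
    have h4 := hz.2.2
    rw [hi] at h4
    exact pk_hered H hSt htN hpt le_rfl i (by omega) h4
  refine (le_of_eq h1).trans ?_
  calc ∑ z ∈ Y, (e (k + 1) (pkAnc T (k + 1) z) + 4 * (s0 * lam ^ k) / D) =
        ∑ z ∈ Y, (if ∃ t, pkGen T m1 sI sQ A r j z t ∧ t ≤ k ∧
            A t (pkAnc T t z) k (pkAnc T k z) then
          e (k + 1) (pkAnc T (k + 1) z) + 4 * (s0 * lam ^ k) / D else 0) := by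
        apply Finset.sum_congr rfl
        intro z hz
        have hz1 := pk_mem_leaves.1 (hYsub hz)
        rw [hY, Finset.mem_filter] at hz
        rw [if_pos]
        refine ⟨t, pkGen_congr H j hg hz.1 hz1.2, hz.2.1, ?_⟩
        rw [hz1.2]
        exact hz.2.2
    _ ≤ _ := by
        apply Finset.sum_le_sum_of_subset_of_nonneg hYsub
        intro z _ _
        split_ifs
        · exact hω _ _
        · exact le_rfl

theorem pk_card_biUnion_le {α β : Type*} [DecidableEq β] (s : Finset α) (f : α → Finset β) :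
    ((s.biUnion f).card : ℝ) ≤ ∑ a ∈ s, ((f a).card : ℝ) := by
  exact_mod_cast Finset.card_biUnion_le (s := s) (t := f)

/-- the stopped mass of one regime in terms of leaves -/
theorem pk_stopMass (H : PkHyp T m1 sI sQ St A r) {j : ℕ} {x : E d} {t : ℕ}
    (hg : pkGen T m1 sI sQ A r j x t) :
    ∑ z ∈ leaves T t (pkAnc T t x),
      (if ∃ l, ∃ t, pkGen T m1 sI sQ A r j z t ∧ pkStop T A t z l then (1 : ℝ) else 0) ≤
    stopMass T t (A t (pkAnc T t x)) := by
  have htN := pkGen_le H j hg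
  have hx := pk_mem_leaves.1 (pkGen_mem j hg)
  have hSt := pkGen_start H j hg
  have hpt : pkAnc T t x ∈ T.pts t := pkAnc_mem htN hx.1
  obtain ⟨hA1, hA2, hA3⟩ := H.hA t _ hSt htN hpt
  rw [Finset.sum_ite, Finset.sum_const_zero, add_zero, Finset.sum_const, nsmul_eq_mul, mul_one]
  obtain ⟨F, hF⟩ : ∃ F : ℕ → Finset (E d), F = fun k => (T.pts (k + 1)).filter
    (fun q => t ≤ k ∧ A t (pkAnc T t x) k (T.par k q) ∧ ¬ A t (pkAnc T t x) (k + 1) q) :=
    ⟨_, rfl⟩
  have hstop : stopMass T t (A t (pkAnc T t x)) =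
      ∑ k ∈ Finset.range N, ∑ q ∈ F k, ((leaves T (k + 1) q).card : ℝ) := by
    rw [hF]
    rfl
  have hsub : (leaves T t (pkAnc T t x)).filter
      (fun z => ∃ l, ∃ t, pkGen T m1 sI sQ A r j z t ∧ pkStop T A t z l) ⊆
      (Finset.range N).biUnion (fun k => (F k).biUnion (fun q => leaves T (k + 1) q)) := by
    intro z hz
    rw [Finset.mem_filter] at hz
    obtain ⟨hz1, l, t', g', hs⟩ := hz
    rw [pk_mem_leaves] at hz1
    have e1 : t' = t := pkGen_unique j g' (pkGen_congr H j hg hz1.1 hz1.2)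
    subst e1
    obtain ⟨a1, a2, a3, a4⟩ := hs
    rw [hz1.2] at a3 a4
    have hlt : t' < l := by
      rcases Nat.lt_or_ge t' l with h1 | h1
      · exact h1
      · have h2 : l = t' := by omega
        subst h2
        rw [hz1.2] at a3
        exact (a3 hA1).elim
    obtain ⟨k, rfl⟩ : ∃ k, l = k + 1 := ⟨l - 1, by omega⟩
    rw [Finset.mem_biUnion]
    refine ⟨k, Finset.mem_range.2 (by omega), ?_⟩
    rw [Finset.mem_biUnion]
    refine ⟨pkAnc T (k + 1) z, ?_, pk_mem_leaves.2 ⟨hz1.1, rfl⟩⟩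
    rw [hF, Finset.mem_filter, pkAnc_par (by omega)]
    exact ⟨pkAnc_mem a2 hz1.1, by omega, a4 k (by omega) (by omega), a3⟩
  rw [hstop]
  refine le_trans (Nat.cast_le.2 (Finset.card_le_card hsub)) ?_
  refine (pk_card_biUnion_le _ _).trans ?_
  apply Finset.sum_le_sum
  intro k _
  exact pk_card_biUnion_le _ _

/-- lost leaves: stopped early enough, but not captured again -/
def pkLost (T : Nets μ x0 s0 lam N) (m1 : ℕ) (sI : ℕ → E d → ℕ) (sQ : ℕ → E d → E d)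
    (A : ℕ → E d → ℕ → E d → Prop) (r : ℕ) (j : ℕ) (x : E d) : Prop :=
  ∃ l, (∃ t, pkGen T m1 sI sQ A r j x t ∧ pkStop T A t x l) ∧ l + r * m1 < N ∧
    ¬ ∃ t', pkCap T m1 sI sQ r l x t'

/-- what can happen below a start node -/
theorem pk_cases (H : PkHyp T m1 sI sQ St A r) {g : ℕ} {z q : E d} {t : ℕ}
    (hg : pkGen T m1 sI sQ A r g z t) (hq : pkAnc T t z = q)
    (hl : ¬ pkLost T m1 sI sQ A r g z) :
    NoStop T t (A t q) z ∨ ∃ k, t ≤ k ∧ k < N ∧ pkAnc T (k + 1) z ∈ T.pts (k + 1) ∧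
      z ∈ leaves T (k + 1) (pkAnc T (k + 1) z) ∧ A t q k (T.par k (pkAnc T (k + 1) z)) ∧
      ¬ A t q (k + 1) (pkAnc T (k + 1) z) ∧
      (N ≤ k + 1 + r * m1 ∨ ∃ t', pkCap T m1 sI sQ r (k + 1) z t' ∧
        pkGen T m1 sI sQ A r (g + 1) z t') := by
  have htN := pkGen_le H g hg
  have hz := pk_mem_leaves.1 (pkGen_mem g hg)
  have hSt := pkGen_start H g hg
  obtain ⟨hA1, hA2, hA3⟩ := H.hA t _ hSt htN (pkAnc_mem htN hz.1)
  rw [hq] at hA1
  by_cases hns : ∃ l, t ≤ l ∧ l ≤ N ∧ ¬ A t q l (pkAnc T l z)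
  · right
    obtain ⟨l, hl1, hlmin⟩ : ∃ l, (t ≤ l ∧ l ≤ N ∧ ¬ A t q l (pkAnc T l z)) ∧
        ∀ k < l, ¬ (t ≤ k ∧ k ≤ N ∧ ¬ A t q k (pkAnc T k z)) :=
      ⟨Nat.find hns, Nat.find_spec hns, fun k hk => Nat.find_min hns hk⟩
    obtain ⟨b1, b2, b3⟩ := hl1
    have hact : ∀ k, t ≤ k → k < l → A t q k (pkAnc T k z) := by
      intro k hk1 hk2
      by_contra hcon
      exact hlmin k hk2 ⟨hk1, by omega, hcon⟩
    have hstop : pkStop T A t z l := by
      refine ⟨b1, b2, ?_, ?_⟩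
      · rw [hq]
        exact b3
      · intro k hk1 hk2
        rw [hq]
        exact hact k hk1 hk2
    have hlt : t < l := by
      rcases Nat.lt_or_ge t l with h1 | h1
      · exact h1
      · have h2 : l = t := by omega
        subst h2
        rw [hq] at b3
        exact (b3 hA1).elim
    obtain ⟨k, rfl⟩ : ∃ k, l = k + 1 := ⟨l - 1, by omega⟩
    refine ⟨k, by omega, by omega, pkAnc_mem b2 hz.1, pk_mem_leaves.2 ⟨hz.1, rfl⟩, ?_, b3, ?_⟩
    · rw [pkAnc_par (by omega)]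
      exact hact k (by omega) (by omega)
    · rcases Nat.lt_or_ge (k + 1 + r * m1) N with h1 | h1
      · right
        by_cases hc : ∃ t', pkCap T m1 sI sQ r (k + 1) z t'
        · obtain ⟨t', ht'⟩ := hc
          exact ⟨t', ht', t, k + 1, hg, hstop, h1, ht'⟩
        · exact (hl ⟨k + 1, ⟨t, hg, hstop⟩, h1, hc⟩).elim
      · exact Or.inl h1
  · left
    intro k hk1 hk2
    by_contra hcon
    exact hns ⟨k, hk1, hk2, hcon⟩

/-- the covering structure of the good leaves -/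
theorem pk_rcov (H : PkHyp T m1 sI sQ St A r) {J : ℕ} : ∀ (j g : ℕ), j + g = J →
    ∀ (x : E d) (t : ℕ) (F : Finset (E d)), pkGen T m1 sI sQ A r g x t →
    (∀ z ∈ F, z ∈ leaves T t (pkAnc T t x)) →
    (∀ z ∈ F, (∀ i ≤ J, ¬ pkLost T m1 sI sQ A r i z) ∧
      ¬ ∃ t, pkGen T m1 sI sQ A r (J + 1) z t) →
    RCov T St A (r * m1) j t (pkAnc T t x) F
  | 0, g, hj, x, t, F, hg, hF1, hF2 => by
    unfold RCov
    intro z hz
    have hz1 := pk_mem_leaves.1 (hF1 z hz)
    have gz := pkGen_congr H g hg hz1.1 hz1.2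
    refine ⟨hF1 z hz, ?_⟩
    rcases pk_cases H gz hz1.2 ((hF2 z hz).1 g (by omega)) with h | h
    · exact Or.inl h
    · right
      obtain ⟨k, h1, h2, h3, h4, h5, h6, h7⟩ := h
      refine ⟨k, _, h1, h2, h3, h4, h5, h6, ?_⟩
      rcases h7 with h7 | ⟨t', _, h7⟩
      · exact h7
      · have : g = J := by omega
        subst this
        exact ((hF2 z hz).2 ⟨t', h7⟩).elim
  | j + 1, g, hj, x, t, F, hg, hF1, hF2 => by
    unfold RCov
    intro z hz
    have hz1 := pk_mem_leaves.1 (hF1 z hz)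
    have gz := pkGen_congr H g hg hz1.1 hz1.2
    refine ⟨hF1 z hz, ?_⟩
    rcases pk_cases H gz hz1.2 ((hF2 z hz).1 g (by omega)) with h | h
    · exact Or.inl h
    · right
      obtain ⟨k, h1, h2, h3, h4, h5, h6, h7⟩ := h
      refine ⟨k, _, h1, h2, h3, h4, h5, h6, ?_⟩
      rcases h7 with h7 | ⟨t', hc, h7⟩
      · exact Or.inl h7
      · right
        have hc1 := pkCap_le H.hI r (k + 1) z t' hc
        have ht'N := pkGen_le H (g + 1) h7
        obtain ⟨i, rfl⟩ : ∃ i, t' = k + 1 + i := ⟨t' - (k + 1), by omega⟩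
        refine ⟨i, pkAnc T (k + 1 + i) z, by omega, pkAnc_mem ht'N hz1.1, ?_,
          pkGen_start H (g + 1) h7, pk_mem_leaves.2 ⟨hz1.1, rfl⟩, ?_⟩
        · have := pkAnc_eq_up (T := T) (k := k + 1) (t := k + 1 + i) (by omega) ht'N z
          rw [Nat.add_sub_cancel_left] at this
          exact this
        · apply pk_rcov H (J := J) j (g + 1) (by omega) z (k + 1 + i) _ h7
          · intro y hy
            exact (Finset.mem_filter.1 hy).2
          · intro y hy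
            exact hF2 y (Finset.mem_filter.1 hy).1

/-- the stopped leaves of a generation -/
theorem pk_stop_count (H : PkHyp T m1 sI sQ St A r) {D Cs : ℝ} (hCs : 0 ≤ Cs)
    {e : ℕ → E d → ℝ}
    (hω : ∀ k q, 0 ≤ e (k + 1) q + 4 * (s0 * lam ^ k) / D)
    (hH1 : ∀ k0 p0, St k0 p0 → k0 ≤ N → up T.par 0 k0 p0 = x0 → p0 ∈ T.pts k0 →
        stopMass T k0 (A k0 p0) ≤ 1 / 4 * mass T k0 p0 + Cs * regEn T D e k0 (A k0 p0))
    (j : ℕ) :
    (((T.pts N).filter (fun x => ∃ l, ∃ t, pkGen T m1 sI sQ A r j x t ∧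
      pkStop T A t x l)).card : ℝ) ≤
    1 / 4 * (((T.pts N).filter (fun x => ∃ t, pkGen T m1 sI sQ A r j x t)).card : ℝ) +
      Cs * ∑ x ∈ leaves T 0 x0, ∑ k ∈ Finset.range N,
        (if ∃ t, pkGen T m1 sI sQ A r j x t ∧ t ≤ k ∧ A t (pkAnc T t x) k (pkAnc T k x) then
          e (k + 1) (pkAnc T (k + 1) x) + 4 * (s0 * lam ^ k) / D else 0) := by
  obtain ⟨W, hW⟩ : ∃ W : E d → ℝ, W = fun x => ∑ k ∈ Finset.range N,
        (if ∃ t, pkGen T m1 sI sQ A r j x t ∧ t ≤ k ∧ A t (pkAnc T t x) k (pkAnc T k x) then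
          e (k + 1) (pkAnc T (k + 1) x) + 4 * (s0 * lam ^ k) / D else 0) := ⟨_, rfl⟩
  have hW0 : ∀ x, 0 ≤ W x := by
    intro x
    rw [hW]
    apply Finset.sum_nonneg
    intro k _
    split_ifs
    · exact hω _ _
    · exact le_rfl
  have hcell := pk_cell (T := T) (Rel := fun x t => pkGen T m1 sI sQ A r j x t)
    (fun x t t' h h' => pkGen_unique j h h')
    (fun x z t h hz hzx => pkGen_congr H j h hz hzx)
    (fun x => if ∃ l, ∃ t, pkGen T m1 sI sQ A r j x t ∧ pkStop T A t x l then (1 : ℝ) else 0)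
    (fun x => 1 / 4 + Cs * W x)
    (fun x t h => by
      refine (pk_stopMass H h).trans ?_
      have htN := pkGen_le H j h
      have hx := pk_mem_leaves.1 (pkGen_mem j h)
      refine (hH1 t _ (pkGen_start H j h) htN ?_ (pkAnc_mem htN hx.1)).trans ?_
      · have := pkAnc_eq_up (T := T) (k := 0) (t := t) (by omega) htN x
        rw [Nat.sub_zero] at this
        rw [this, hx.2]
      · rw [Finset.sum_add_distrib, Finset.sum_const, nsmul_eq_mul, ← Finset.mul_sum]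
        have h1 := pk_regEn H hω h
        have h2 : (∑ z ∈ leaves T t (pkAnc T t x), W z) = ∑ z ∈ leaves T t (pkAnc T t x),
            ∑ k ∈ Finset.range N,
            (if ∃ t, pkGen T m1 sI sQ A r j z t ∧ t ≤ k ∧ A t (pkAnc T t z) k (pkAnc T k z) then
              e (k + 1) (pkAnc T (k + 1) z) + 4 * (s0 * lam ^ k) / D else 0) := by rw [hW]
        rw [h2]
        have h3 := mul_le_mul_of_nonneg_left h1 hCs
        have h4 : mass T t (pkAnc T t x) = ((leaves T t (pkAnc T t x)).card : ℝ) := rfl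
        rw [h4]
        linarith)
  have hΩ : (T.pts N).filter (fun x => ∃ t, pkGen T m1 sI sQ A r j x t) ⊆ leaves T 0 x0 := by
    intro x hx
    obtain ⟨t, ht⟩ := (Finset.mem_filter.1 hx).2
    exact pkGen_mem j ht
  have hL : (((T.pts N).filter (fun x => ∃ l, ∃ t, pkGen T m1 sI sQ A r j x t ∧
      pkStop T A t x l)).card : ℝ) ≤
      ∑ x ∈ (T.pts N).filter (fun x => ∃ t, pkGen T m1 sI sQ A r j x t),
        (if ∃ l, ∃ t, pkGen T m1 sI sQ A r j x t ∧ pkStop T A t x l then (1 : ℝ) else 0) := by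
    rw [Finset.sum_ite, Finset.sum_const_zero, add_zero, Finset.sum_const, nsmul_eq_mul, mul_one]
    refine Nat.cast_le.2 (Finset.card_le_card ?_)
    intro x hx
    rw [Finset.mem_filter] at hx
    rw [Finset.mem_filter, Finset.mem_filter]
    obtain ⟨hx1, l, t, ht, hs⟩ := hx
    exact ⟨⟨hx1, t, ht⟩, l, t, ht, hs⟩
  refine hL.trans (hcell.trans ?_)
  rw [Finset.sum_add_distrib, Finset.sum_const, nsmul_eq_mul, ← Finset.mul_sum]
  have h5 : ∑ x ∈ (T.pts N).filter (fun x => ∃ t, pkGen T m1 sI sQ A r j x t), W x ≤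
      ∑ x ∈ leaves T 0 x0, W x :=
    Finset.sum_le_sum_of_subset_of_nonneg hΩ (fun x _ _ => hW0 x)
  have h6 := mul_le_mul_of_nonneg_left h5 hCs
  have h7 : (∑ x ∈ leaves T 0 x0, W x) = ∑ x ∈ leaves T 0 x0, ∑ k ∈ Finset.range N,
        (if ∃ t, pkGen T m1 sI sQ A r j x t ∧ t ≤ k ∧ A t (pkAnc T t x) k (pkAnc T k x) then
          e (k + 1) (pkAnc T (k + 1) x) + 4 * (s0 * lam ^ k) / D else 0) := by rw [hW]
  rw [← h7]
  linarith

/-- the lost leaves of a generation -/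
theorem pk_lost_count (H : PkHyp T m1 sI sQ St A r) {c1 : ℝ} (hc1 : 0 < c1) (hc11 : c1 ≤ 1)
    (hS2 : ∀ k p, p ∈ T.pts k → up T.par 0 k p = x0 → k + m1 ≤ N →
      up T.par k (sI k p) (sQ k p) = p ∧ c1 * mass T k p ≤ mass T (k + sI k p) (sQ k p))
    (j : ℕ) :
    (((T.pts N).filter (fun x => pkLost T m1 sI sQ A r j x)).card : ℝ) ≤
    (1 - c1) ^ r * (((T.pts N).filter (fun x => ∃ l, ∃ t, pkGen T m1 sI sQ A r j x t ∧
      pkStop T A t x l)).card : ℝ) := by
  have h0 : 0 ≤ (1 - c1) ^ r := pow_nonneg (by linarith) r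
  have hcell := pk_cell (T := T)
    (Rel := fun x l => (∃ t, pkGen T m1 sI sQ A r j x t ∧ pkStop T A t x l) ∧ l + r * m1 < N)
    (fun x l l' h h' => by
      obtain ⟨⟨t, a1, a2⟩, _⟩ := h
      obtain ⟨⟨t', b1, b2⟩, _⟩ := h'
      have e1 := pkGen_unique j a1 b1
      subst e1
      exact pkStop_unique a2 b2)
    (fun x z l h hz hzx => by
      obtain ⟨⟨t, a1, a2⟩, a3⟩ := h
      exact ⟨⟨t, pkGen_congr H j a1 hz (pkAnc_congr a2.1 a2.2.1 hzx), pkStop_congr a2 hzx⟩, a3⟩)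
    (fun x => if pkLost T m1 sI sQ A r j x then (1 : ℝ) else 0)
    (fun _ => (1 - c1) ^ r)
    (fun x l h => by
      obtain ⟨⟨t, a1, a2⟩, a3⟩ := h
      have hx := pk_mem_leaves.1 (pkGen_mem j a1)
      have hlN : l ≤ N := a2.2.1
      refine le_trans ?_ (pkCap_mass hc1 hc11 H.hI hS2 r l (pkAnc T l x) (pkAnc_mem hlN hx.1) ?_
        a3.le)
      · apply Finset.sum_le_sum
        intro z hz
        have hz1 := pk_mem_leaves.1 hz
        by_cases hlost : pkLost T m1 sI sQ A r j z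
        · rw [if_pos hlost, if_neg]
          obtain ⟨l', ⟨t', b1, b2⟩, _, b4⟩ := hlost
          have g1 : pkGen T m1 sI sQ A r j z t :=
            pkGen_congr H j a1 hz1.1 (pkAnc_congr a2.1 hlN hz1.2)
          have e1 := pkGen_unique j g1 b1
          subst e1
          have e2 := pkStop_unique b2 (pkStop_congr a2 hz1.2)
          subst e2
          exact b4
        · rw [if_neg hlost]
          split_ifs <;> norm_num
      · have := pkAnc_eq_up (T := T) (k := 0) (t := l) (by omega) hlN x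
        rw [Nat.sub_zero] at this
        rw [this, hx.2])
  have hL : (((T.pts N).filter (fun x => pkLost T m1 sI sQ A r j x)).card : ℝ) ≤
      ∑ x ∈ (T.pts N).filter (fun x => ∃ l, (∃ t, pkGen T m1 sI sQ A r j x t ∧
        pkStop T A t x l) ∧ l + r * m1 < N),
        (if pkLost T m1 sI sQ A r j x then (1 : ℝ) else 0) := by
    rw [Finset.sum_ite, Finset.sum_const_zero, add_zero, Finset.sum_const, nsmul_eq_mul, mul_one]
    refine Nat.cast_le.2 (Finset.card_le_card ?_)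
    intro x hx
    rw [Finset.mem_filter] at hx
    rw [Finset.mem_filter, Finset.mem_filter]
    obtain ⟨hx1, l, h1, h2, h3⟩ := hx
    exact ⟨⟨hx1, l, h1, h2⟩, l, h1, h2, h3⟩
  refine hL.trans (hcell.trans ?_)
  rw [Finset.sum_const, nsmul_eq_mul, mul_comm]
  apply mul_le_mul_of_nonneg_left _ h0
  refine Nat.cast_le.2 (Finset.card_le_card ?_)
  intro x hx
  rw [Finset.mem_filter] at hx
  rw [Finset.mem_filter]
  obtain ⟨hx1, l, h1, h2⟩ := hx
  exact ⟨hx1, l, h1⟩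

end Gen

theorem pk_numeric {m Γ Cs CE κ : ℝ} {J : ℕ} (hm : 0 ≤ m) (hκ : 0 ≤ κ) (hCs : 0 ≤ Cs)
    (hΓ : Γ = 4 / 3 * (1 + Cs * CE)) (hκΓ : κ * (1 + Γ) ≤ 1 / 4) (hJ : 4 * Γ ≤ J + 2)
    (ρ σ En lo : ℕ → ℝ) (hρ0 : ∀ j, 0 ≤ ρ j)
    (h0 : ρ 0 ≤ m) (ha : ∀ j, σ j ≤ 1 / 4 * ρ j + Cs * En j) (hb1 : ∀ j, ρ (j + 1) ≤ σ j)
    (hb2 : ∀ j, σ j ≤ ρ j) (hc : ∀ j, lo j ≤ κ * σ j)
    (he : ∑ j ∈ Finset.range (J + 1), En j ≤ CE * m) :
    κ * m + ∑ j ∈ Finset.range (J + 1), lo j + ρ (J + 1) ≤ m / 2 := by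
  obtain ⟨S, hS⟩ : ∃ S : ℝ, S = ∑ j ∈ Finset.range (J + 2), ρ j := ⟨_, rfl⟩
  have hS1 : ∑ j ∈ Finset.range (J + 1), ρ j ≤ S := by
    rw [hS, Finset.sum_range_succ _ (J + 1)]
    linarith [hρ0 (J + 1)]
  have hS2 : S ≤ m + 1 / 4 * S + Cs * (CE * m) := by
    have h1 : S = ∑ j ∈ Finset.range (J + 1), ρ (j + 1) + ρ 0 := by
      rw [hS, Finset.sum_range_succ']
    have h2 : ∑ j ∈ Finset.range (J + 1), ρ (j + 1) ≤
        ∑ j ∈ Finset.range (J + 1), (1 / 4 * ρ j + Cs * En j) :=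
      Finset.sum_le_sum fun j _ => (hb1 j).trans (ha j)
    rw [Finset.sum_add_distrib, ← Finset.mul_sum, ← Finset.mul_sum] at h2
    have h3 := mul_le_mul_of_nonneg_left he hCs
    linarith
  have hSΓ : S ≤ Γ * m := by
    rw [hΓ]
    linarith
  have hlo : ∑ j ∈ Finset.range (J + 1), lo j ≤ κ * (Γ * m) := by
    calc ∑ j ∈ Finset.range (J + 1), lo j ≤ ∑ j ∈ Finset.range (J + 1), κ * ρ j :=
          Finset.sum_le_sum fun j _ => (hc j).trans (mul_le_mul_of_nonneg_left (hb2 j) hκ)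
      _ = κ * ∑ j ∈ Finset.range (J + 1), ρ j := by rw [Finset.mul_sum]
      _ ≤ κ * (Γ * m) := mul_le_mul_of_nonneg_left (hS1.trans hSΓ) hκ
  have hanti : Antitone ρ := antitone_nat_of_succ_le fun j => (hb1 j).trans (hb2 j)
  have hJ1 : ((J : ℝ) + 2) * ρ (J + 1) ≤ S := by
    rw [hS]
    have h1 : ∑ _j ∈ Finset.range (J + 2), ρ (J + 1) ≤ ∑ j ∈ Finset.range (J + 2), ρ j :=
      Finset.sum_le_sum fun j hj => hanti (by
        have := Finset.mem_range.1 hj
        omega)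
    rw [Finset.sum_const, Finset.card_range, nsmul_eq_mul] at h1
    push_cast at h1
    exact h1
  have hρJ : ρ (J + 1) ≤ m / 4 := by
    have h1 : ((J : ℝ) + 2) * ρ (J + 1) ≤ ((J : ℝ) + 2) * (m / 4) := by
      refine (hJ1.trans hSΓ).trans ?_
      nlinarith only [hm, hJ]
    exact le_of_mul_le_mul_left h1 (by positivity)
  have h2 : κ * m + κ * (Γ * m) ≤ m / 4 := by
    have := mul_le_mul_of_nonneg_right hκΓ hm
    linarith
  linarith

end Packing

theorem packing (d : ℕ) (m1 : ℕ) (c1 Cs CE : ℝ) (hc1 : 0 < c1) (hc11 : c1 ≤ 1) (hCs : 0 < Cs)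
    (hCE : 0 < CE) :
    ∃ J m0 : ℕ, ∀ (μ : Measure (E d)) (x0 : E d) (s0 lam D : ℝ) (N : ℕ), 0 < s0 → 0 < lam →
      lam ≤ 1 / 64 → 100 * s0 ≤ D → m0 ≤ N →
      ∀ (T : Nets μ x0 s0 lam N) (e : ℕ → E d → ℝ), (∀ k p, 0 ≤ e k p) →
      ∀ (St : ℕ → E d → Prop) (A : ℕ → E d → ℕ → E d → Prop),
      (∀ k0 p0, St k0 p0 → k0 ≤ N → p0 ∈ T.pts k0 → A k0 p0 k0 p0 ∧
        (∀ k p, A k0 p0 k p → k0 ≤ k ∧ k ≤ N ∧ p ∈ T.pts k) ∧ (∀ p, A k0 p0 k0 p → p = p0) ∧
        (∀ k q, k0 ≤ k → A k0 p0 (k + 1) q → A k0 p0 k (T.par k q))) →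
      (∀ k0 p0, St k0 p0 → k0 ≤ N → up T.par 0 k0 p0 = x0 → p0 ∈ T.pts k0 →
        stopMass T k0 (A k0 p0) ≤ 1 / 4 * mass T k0 p0 + Cs * regEn T D e k0 (A k0 p0)) →
      (∀ k p, p ∈ T.pts k → up T.par 0 k p = x0 → k + m1 ≤ N →
        ∃ i q, i ≤ m1 ∧ q ∈ T.pts (k + i) ∧ up T.par k i q = p ∧ St (k + i) q ∧
          c1 * mass T k p ≤ mass T (k + i) q) →
      (∑ k ∈ Finset.range N, ∑ q ∈ T.pts (k + 1),
        (e (k + 1) q + 4 * (s0 * lam ^ k) / D) * mass T (k + 1) q ≤ CE * mass T 0 x0) →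
      ∃ G : Finset (E d), G ⊆ leaves T 0 x0 ∧ 1 / 2 * mass T 0 x0 ≤ (G.card : ℝ) ∧
        ∀ x ∈ G, ∃ i q', i ≤ m0 ∧ q' ∈ T.pts i ∧ up T.par 0 i q' = x0 ∧ St i q' ∧
          x ∈ leaves T i q' ∧ RCov T St A m0 J i q' (G.filter fun z => z ∈ leaves T i q') := by
  classical
  obtain ⟨Γ, hΓ⟩ : ∃ Γ : ℝ, Γ = 4 / 3 * (1 + Cs * CE) := ⟨_, rfl⟩
  have hΓ0 : 0 < Γ := by
    rw [hΓ]
    positivity
  obtain ⟨r, hr⟩ : ∃ r : ℕ, (1 - c1) ^ r * (1 + Γ) ≤ 1 / 4 := by
    obtain ⟨r, hr⟩ := exists_pow_lt_of_lt_one (show 0 < 1 / (4 * (1 + Γ)) by positivity)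
      (show 1 - c1 < 1 by linarith)
    refine ⟨r, ?_⟩
    have h1 := mul_le_mul_of_nonneg_right hr.le (show 0 ≤ 1 + Γ by positivity)
    refine h1.trans (le_of_eq ?_)
    field_simp
  obtain ⟨J, hJ⟩ : ∃ J : ℕ, 4 * Γ ≤ J + 2 := by
    obtain ⟨J, hJ⟩ := exists_nat_ge (4 * Γ)
    exact ⟨J, by linarith⟩
  refine ⟨J, r * m1, ?_⟩
  intro μ x0 s0 lam D N hs0 hlam hlam1 hD hm0 T e he St A hA hH1 hH2 hH3
  have hD0 : 0 < D := by linarith
  have hω : ∀ (k : ℕ) (q : E d), 0 ≤ e (k + 1) q + 4 * (s0 * lam ^ k) / D := by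
    intro k q
    have := he (k + 1) q
    positivity
  have hch : ∀ (k : ℕ) (p : E d), ∃ (i : ℕ) (q : E d), i ≤ m1 ∧
      (p ∈ T.pts k → up T.par 0 k p = x0 → k + m1 ≤ N →
        up T.par k i q = p ∧ St (k + i) q ∧ c1 * mass T k p ≤ mass T (k + i) q) := by
    intro k p
    by_cases h : p ∈ T.pts k ∧ up T.par 0 k p = x0 ∧ k + m1 ≤ N
    · obtain ⟨i, q, a1, _, a3, a4, a5⟩ := hH2 k p h.1 h.2.1 h.2.2
      exact ⟨i, q, a1, fun _ _ _ => ⟨a3, a4, a5⟩⟩
    · exact ⟨0, p, Nat.zero_le _, fun a b c => (h ⟨a, b, c⟩).elim⟩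
  choose sI sQ hI hQ using hch
  have H : PkHyp T m1 sI sQ St A r :=
    ⟨hm0, hI, fun k p h1 h2 h3 => (hQ k p h1 h2 h3).2.1, fun t p h1 h2 h3 => by
      obtain ⟨a1, _, a3, a4⟩ := hA t p h1 h2 h3
      exact ⟨a1, a3, a4⟩⟩
  have hS2 : ∀ k p, p ∈ T.pts k → up T.par 0 k p = x0 → k + m1 ≤ N →
      up T.par k (sI k p) (sQ k p) = p ∧ c1 * mass T k p ≤ mass T (k + sI k p) (sQ k p) :=
    fun k p h1 h2 h3 => ⟨(hQ k p h1 h2 h3).1, (hQ k p h1 h2 h3).2.2⟩
  have hκ : 0 ≤ (1 - c1) ^ r := pow_nonneg (by linarith) r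
  -- the sets
  obtain ⟨Rs, hRs⟩ : ∃ Rs : ℕ → Finset (E d), Rs = fun j =>
    (T.pts N).filter (fun x => ∃ t, pkGen T m1 sI sQ A r j x t) := ⟨_, rfl⟩
  obtain ⟨Ss, hSs⟩ : ∃ Ss : ℕ → Finset (E d), Ss = fun j =>
    (T.pts N).filter (fun x => ∃ l, ∃ t, pkGen T m1 sI sQ A r j x t ∧ pkStop T A t x l) :=
    ⟨_, rfl⟩
  obtain ⟨Ls, hLs⟩ : ∃ Ls : ℕ → Finset (E d), Ls = fun j =>
    (T.pts N).filter (fun x => pkLost T m1 sI sQ A r j x) := ⟨_, rfl⟩
  obtain ⟨En', hEn⟩ : ∃ En' : ℕ → ℝ, En' = fun j => ∑ x ∈ leaves T 0 x0, ∑ k ∈ Finset.range N,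
        (if ∃ t, pkGen T m1 sI sQ A r j x t ∧ t ≤ k ∧ A t (pkAnc T t x) k (pkAnc T k x) then
          e (k + 1) (pkAnc T (k + 1) x) + 4 * (s0 * lam ^ k) / D else 0) := ⟨_, rfl⟩
  have hnum := pk_numeric (m := mass T 0 x0) (Γ := Γ) (Cs := Cs) (CE := CE)
    (κ := (1 - c1) ^ r) (J := J) (by unfold mass; positivity) hκ hCs.le hΓ hr hJ
    (fun j => ((Rs j).card : ℝ)) (fun j => ((Ss j).card : ℝ)) En' (fun j => ((Ls j).card : ℝ))
    (fun j => Nat.cast_nonneg _)
    (by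
      rw [hRs]
      unfold mass
      refine Nat.cast_le.2 (Finset.card_le_card ?_)
      intro x hx
      obtain ⟨t, ht⟩ := (Finset.mem_filter.1 hx).2
      exact pkGen_mem 0 ht)
    (fun j => by
      rw [hRs, hSs, hEn]
      exact pk_stop_count H hCs.le hω hH1 j)
    (fun j => by
      rw [hRs, hSs]
      refine Nat.cast_le.2 (Finset.card_le_card ?_)
      intro x hx
      rw [Finset.mem_filter] at hx ⊢
      obtain ⟨hx1, t, t', l, h1, h2, _, _⟩ := hx
      exact ⟨hx1, l, t', h1, h2⟩)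
    (fun j => by
      rw [hRs, hSs]
      refine Nat.cast_le.2 (Finset.card_le_card ?_)
      intro x hx
      rw [Finset.mem_filter] at hx ⊢
      obtain ⟨hx1, l, t', h1, h2⟩ := hx
      exact ⟨hx1, t', h1⟩)
    (fun j => by
      rw [hLs, hSs]
      exact pk_lost_count H hc1 hc11 hS2 j)
    (by
      rw [hEn]
      exact (pk_energy H (fun k q => e (k + 1) q + 4 * (s0 * lam ^ k) / D) hω (J + 1)).trans hH3)
  -- the first capture
  obtain ⟨U0, hU0⟩ : ∃ U0 : Finset (E d), U0 = (leaves T 0 x0).filter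
    (fun x => ¬ ∃ t, pkCap T m1 sI sQ r 0 x t) := ⟨_, rfl⟩
  have hU0c : (U0.card : ℝ) ≤ (1 - c1) ^ r * mass T 0 x0 := by
    have h1 := pkCap_mass hc1 hc11 hI hS2 r 0 x0 T.root_mem rfl (by omega)
    rw [Finset.sum_const, nsmul_eq_mul, mul_comm] at h1
    refine le_trans (le_of_eq ?_) h1
    rw [Finset.sum_ite, Finset.sum_const_zero, zero_add, Finset.sum_const, nsmul_eq_mul, mul_one,
      hU0]
  -- the good leaves
  obtain ⟨G, hG⟩ : ∃ G : Finset (E d), G = (leaves T 0 x0).filter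
    (fun x => (∃ t, pkGen T m1 sI sQ A r 0 x t) ∧ (∀ i ≤ J, ¬ pkLost T m1 sI sQ A r i x) ∧
      ¬ ∃ t, pkGen T m1 sI sQ A r (J + 1) x t) := ⟨_, rfl⟩
  refine ⟨G, ?_, ?_, ?_⟩
  · rw [hG]
    exact Finset.filter_subset _ _
  · have hcov : leaves T 0 x0 ⊆
        (G ∪ U0) ∪ ((Finset.range (J + 1)).biUnion Ls ∪ Rs (J + 1)) := by
      intro x hx
      have hxN := (pk_mem_leaves.1 hx).1
      by_cases h1 : ∃ t, pkCap T m1 sI sQ r 0 x t
      · by_cases h2 : ∀ i ≤ J, ¬ pkLost T m1 sI sQ A r i x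
        · by_cases h3 : ∃ t, pkGen T m1 sI sQ A r (J + 1) x t
          · apply Finset.mem_union_right
            apply Finset.mem_union_right
            rw [hRs]
            exact Finset.mem_filter.2 ⟨hxN, h3⟩
          · apply Finset.mem_union_left
            apply Finset.mem_union_left
            rw [hG]
            obtain ⟨t, ht⟩ := h1
            exact Finset.mem_filter.2 ⟨hx, ⟨t, hx, ht⟩, h2, h3⟩
        · push Not at h2
          obtain ⟨i, hi, h2⟩ := h2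
          apply Finset.mem_union_right
          apply Finset.mem_union_left
          rw [Finset.mem_biUnion]
          refine ⟨i, Finset.mem_range.2 (by omega), ?_⟩
          rw [hLs]
          exact Finset.mem_filter.2 ⟨hxN, h2⟩
      · apply Finset.mem_union_left
        apply Finset.mem_union_right
        rw [hU0]
        exact Finset.mem_filter.2 ⟨hx, h1⟩
    have h1 : ((leaves T 0 x0).card : ℝ) ≤ ((G.card : ℝ) + (U0.card : ℝ)) +
        ((∑ j ∈ Finset.range (J + 1), ((Ls j).card : ℝ)) + ((Rs (J + 1)).card : ℝ)) := by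
      refine (Nat.cast_le.2 (Finset.card_le_card hcov)).trans ?_
      have a1 : ((((G ∪ U0) ∪ ((Finset.range (J + 1)).biUnion Ls ∪ Rs (J + 1))).card : ℕ) : ℝ) ≤
          ((G ∪ U0).card : ℝ) + (((Finset.range (J + 1)).biUnion Ls ∪ Rs (J + 1)).card : ℝ) := by
        exact_mod_cast Finset.card_union_le _ _
      have a2 : ((G ∪ U0).card : ℝ) ≤ (G.card : ℝ) + (U0.card : ℝ) := by
        exact_mod_cast Finset.card_union_le _ _
      have a3 : (((Finset.range (J + 1)).biUnion Ls ∪ Rs (J + 1)).card : ℝ) ≤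
          (((Finset.range (J + 1)).biUnion Ls).card : ℝ) + ((Rs (J + 1)).card : ℝ) := by
        exact_mod_cast Finset.card_union_le _ _
      have a4 := pk_card_biUnion_le (Finset.range (J + 1)) Ls
      linarith
    have h2 : mass T 0 x0 = ((leaves T 0 x0).card : ℝ) := rfl
    rw [← h2] at h1
    linarith
  · intro x hx
    have hx' := hx
    rw [hG, Finset.mem_filter] at hx
    obtain ⟨hx1, ⟨t, ht⟩, hx2, hx3⟩ := hx
    have hxN := pk_mem_leaves.1 hx1
    have htN := pkGen_le H 0 ht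
    refine ⟨t, pkAnc T t x, ?_, pkAnc_mem htN hxN.1, ?_, pkGen_start H 0 ht,
      pk_mem_leaves.2 ⟨hxN.1, rfl⟩, ?_⟩
    · have := (pkCap_le H.hI r 0 x t ht.2).2
      omega
    · have := pkAnc_eq_up (T := T) (k := 0) (t := t) (by omega) htN x
      rw [Nat.sub_zero] at this
      rw [this, hxN.2]
    · apply pk_rcov H (J := J) J 0 (by omega) x t _ ht
      · intro z hz
        exact (Finset.mem_filter.1 hz).2
      · intro z hz
        have hz1 := (Finset.mem_filter.1 hz).1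
        rw [hG, Finset.mem_filter] at hz1
        exact ⟨hz1.2.2.1, hz1.2.2.2⟩

end Vale.Agent.P120
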