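import Vale.Agent.Lib.P120.UR.Base

/-!
P120: existence of a regime (module RegimeExists).
-/

open MeasureTheory Filter Set Metric Module
open scoped Topology ENNReal NNReal RealInnerProductSpace

namespace Vale.Agent.P120

/-- Data of a node in a regime. -/
structure RD (n d : ℕ) where
  M : E n →L[ℝ] E d
  b : E d
  ε : ℝ
  act : Prop

/-- The pair `X = (M', b')` is a correct continuation of the data `P` at `q`. -/
def ChildOK {n d : ℕ} (ν : Measure (E d)) (U : E n →ₗᵢ[ℝ] E d) (C1 s s' : ℝ) (q : E d)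
    (P : RD n d) (ε' : ℝ) (X : (E n →L[ℝ] E d) × E d) : Prop :=
  Perp U X.1 X.2 ∧ ‖X.1 - P.M‖ ≤ C1 * ε' ∧
    (∀ y, ‖hgt U X.1 X.2 y - hgt U P.M P.b y‖ ≤ C1 * ε' * (s + ‖y - q‖)) ∧
    Growth n ν q s' U X.1 X.2 ε'

open Classical in
/-- A chosen continuation. -/
noncomputable def childX {n d : ℕ} (ν : Measure (E d)) (U : E n →ₗᵢ[ℝ] E d) (C1 s s' : ℝ)
    (q : E d) (P : RD n d) (ε' : ℝ) : (E n →L[ℝ] E d) × E d :=
  if h : ∃ X, ChildOK ν U C1 s s' q P ε' X then h.choose else (0, 0)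

theorem childX_spec {n d : ℕ} {ν : Measure (E d)} {U : E n →ₗᵢ[ℝ] E d} {C1 s s' : ℝ}
    {q : E d} {P : RD n d} {ε' : ℝ} (h : ∃ X, ChildOK ν U C1 s s' q P ε' X) :
    ChildOK ν U C1 s s' q P ε' (childX ν U C1 s s' q P ε') := by
  unfold childX
  rw [dif_pos h]
  exact h.choose_spec

open Classical in
/-- The data of all nodes, by recursion on the level. -/
noncomputable def rdat {n d : ℕ} (ν : Measure (E d)) (U : E n →ₗᵢ[ℝ] E d)
    (C1 K ε1 κ s0 lam D : ℝ) (N : ℕ) (pts : ℕ → Finset (E d)) (par : ℕ → E d → E d)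
    (e : ℕ → E d → ℝ) (k0 : ℕ) (p0 b0 : E d) (ε0 : ℝ) : ℕ → E d → RD n d
  | 0, q => if k0 = 0 then ⟨0, b0, ε0, q = p0⟩ else ⟨0, 0, 0, False⟩
  | (k + 1), q =>
    if k + 1 = k0 then ⟨0, b0, ε0, q = p0⟩ else
      let P := rdat ν U C1 K ε1 κ s0 lam D N pts par e k0 p0 b0 ε0 k (par k q)
      let ε' := max (P.ε / 2) (K * Real.sqrt (e (k + 1) q + 4 * (s0 * lam ^ k) / D))
      let X := childX ν U C1 (s0 * lam ^ k) (s0 * lam ^ (k + 1)) q P ε'
      ⟨X.1, X.2, ε', k0 ≤ k ∧ k < N ∧ q ∈ pts (k + 1) ∧ P.act ∧ ε' ≤ ε1 ∧ ‖X.1‖ ≤ κ⟩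

theorem exists_regime (n d : ℕ) (hn : 1 ≤ n) (C c lam Lam K C1 ε1 κ : ℝ) (hC : 0 < C)
    (hc : 0 < c) (hlam : 0 < lam) (hlam1 : lam ≤ 1 / 64) (hK : 1 ≤ K) (hε1 : 0 < ε1)
    (hκ : 0 < κ) (hκ1 : κ ≤ 1) (hstep : StepProp n d C c lam Lam K C1 ε1)
    (μ : Measure (E d)) (x0 : E d) (D s0 : ℝ) (N : ℕ) (hU : UB n μ C) (hL : LB n μ c D)
    (hs0 : 0 < s0) (hs0D : 100 * s0 ≤ D) (T : Nets μ x0 s0 lam N) (e : ℕ → E d → ℝ)
    (he0 : ∀ k p, 0 ≤ e k p)
    (he : ∀ k ≤ N, ∀ p ∈ T.pts k, EnLe n (μ.restrict (closedBall x0 D)) Lam p (s0 * lam ^ k) (e k p))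
    (k0 : ℕ) (hk0 : k0 ≤ N) (p0 : E d) (hp0 : p0 ∈ T.pts k0) (U : E n →ₗᵢ[ℝ] E d) (b0 : E d)
    (ε0 : ℝ) (hε0 : 0 < ε0) (hε01 : ε0 ≤ ε1) (hperp : Perp U 0 b0)
    (hgr : Growth n (μ.restrict (closedBall x0 D)) p0 (s0 * lam ^ k0) U 0 b0 ε0) :
    ∃ G : Regime n (μ.restrict (closedBall x0 D)) T C1 ε1 κ k0 p0, G.ε k0 p0 = ε0 ∧
      ∀ k, k0 ≤ k → k < N → ∀ q ∈ T.pts (k + 1), G.Act k (T.par k q) →
        G.ε (k + 1) q = max (G.ε k (T.par k q) / 2)
          (K * Real.sqrt (e (k + 1) q + 4 * (s0 * lam ^ k) / D)) := by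
  have hD : 0 < D := by linarith
  set ν := μ.restrict (closedBall x0 D) with hν
  set R : ℕ → E d → RD n d :=
    rdat ν U C1 K ε1 κ s0 lam D N T.pts T.par e k0 p0 b0 ε0 with hR
  have hνU : UB n ν C := hU.restrict _
  have hνb : ∃ R0, ν (closedBall 0 R0)ᶜ = 0 := by
    refine ⟨‖x0‖ + D, ?_⟩
    rw [hν, Measure.restrict_apply measurableSet_closedBall.compl]
    have : (closedBall (0 : E d) (‖x0‖ + D))ᶜ ∩ closedBall x0 D = ∅ := by
      ext y
      simp only [mem_inter_iff, mem_compl_iff, mem_closedBall, dist_eq_norm, sub_zero,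
        mem_empty_iff_false, iff_false, not_and, not_le]
      intro h1
      have h2 : ‖y‖ ≤ ‖y - x0‖ + ‖x0‖ := by
        have := norm_add_le (y - x0) x0
        rwa [sub_add_cancel] at this
      linarith
    rw [this, measure_empty]
  -- unfolding lemmas
  have hroot : ∀ q, R k0 q = ⟨0, b0, ε0, q = p0⟩ := by
    intro q
    rw [hR]
    cases k0 with
    | zero => simp [rdat]
    | succ k => simp [rdat]
  have hsucc : ∀ k, k0 ≤ k → ∀ q, R (k + 1) q =
      (let P := R k (T.par k q)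
      let ε' := max (P.ε / 2) (K * Real.sqrt (e (k + 1) q + 4 * (s0 * lam ^ k) / D))
      let X := childX ν U C1 (s0 * lam ^ k) (s0 * lam ^ (k + 1)) q P ε'
      ⟨X.1, X.2, ε', k0 ≤ k ∧ k < N ∧ q ∈ T.pts (k + 1) ∧ P.act ∧ ε' ≤ ε1 ∧ ‖X.1‖ ≤ κ⟩) := by
    intro k hk q
    have h1 : k + 1 ≠ k0 := by omega
    rw [hR]
    rw [rdat, if_neg h1]
  have hlt : ∀ k, k < k0 → ∀ q, ¬ (R k q).act := by
    intro k
    induction k with
    | zero =>
      intro hk q
      have h1 : k0 ≠ 0 := by omega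
      rw [hR, rdat, if_neg h1]
      exact fun h => h
    | succ k ih =>
      intro hk q
      have h1 : k + 1 ≠ k0 := by omega
      rw [hR, rdat, if_neg h1]
      simp only
      intro h
      omega
  have hspos : ∀ k, 0 < s0 * lam ^ k := fun k => by positivity
  have hsle : ∀ k, s0 * lam ^ k ≤ s0 := by
    intro k
    have : lam ^ k ≤ 1 := pow_le_one₀ hlam.le (by linarith)
    nlinarith only [hs0, this]
  -- one step
  have hone : ∀ k, k < N → ∀ q ∈ T.pts (k + 1), ∀ P : RD n d, ‖P.M‖ ≤ κ → Perp U P.M P.b →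
      0 < P.ε → Growth n ν (T.par k q) (s0 * lam ^ k) U P.M P.b P.ε →
      max (P.ε / 2) (K * Real.sqrt (e (k + 1) q + 4 * (s0 * lam ^ k) / D)) ≤ ε1 →
      ∃ X, ChildOK ν U C1 (s0 * lam ^ k) (s0 * lam ^ (k + 1)) q P
        (max (P.ε / 2) (K * Real.sqrt (e (k + 1) q + 4 * (s0 * lam ^ k) / D))) X := by
    intro k hk q hq P hPM hPp hPε hPg hε'
    obtain ⟨hqs, hqx⟩ := T.mem_supp (k + 1) hk q hq
    have hs := hspos k
    have hs' := hsle k
    have hqν : q ∈ ν.support := mem_support_restrict hqs (by linarith)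
    have hLq : LBloc n ν c q (D / 4) := LBloc.of_LB hL (by linarith)
    have hpar := T.par_dist k hk q hq
    have hEn := he (k + 1) hk q hq
    have hls : lam * (s0 * lam ^ k) = s0 * lam ^ (k + 1) := by ring
    rw [← hls] at hEn
    have hdiv : s0 * lam ^ k / (D / 4) = 4 * (s0 * lam ^ k) / D := by
      field_simp
    obtain ⟨M', b', h1, h2, h3, h4⟩ := hstep ν hνU hνb (T.par k q) q (s0 * lam ^ k) (D / 4) hqν hs
      (by linarith) hpar.le hLq U P.M P.b P.ε (e (k + 1) q)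
      (max (P.ε / 2) (K * Real.sqrt (e (k + 1) q + 4 * (s0 * lam ^ k) / D)))
      (hPM.trans hκ1) hPp hPε hPg (he0 _ _) hEn (le_max_left _ _)
      (by rw [hdiv]; exact le_max_right _ _) hε'
    refine ⟨(M', b'), h1, h2, h3, ?_⟩
    rw [← hls]
    exact h4
  -- invariant
  have hinv : ∀ k, k0 ≤ k → ∀ p, (R k p).act → k ≤ N ∧ p ∈ T.pts k ∧ Perp U (R k p).M (R k p).b ∧
      Growth n ν p (s0 * lam ^ k) U (R k p).M (R k p).b (R k p).ε ∧ 0 < (R k p).ε ∧
      (R k p).ε ≤ ε1 ∧ ‖(R k p).M‖ ≤ κ := by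
    intro k hk
    induction k, hk using Nat.le_induction with
    | base =>
      intro p hp
      rw [hroot] at hp ⊢
      simp only at hp ⊢
      subst hp
      exact ⟨hk0, hp0, hperp, hgr, hε0, hε01, by rw [norm_zero]; exact hκ.le⟩
    | succ k hk ih =>
      intro q hq
      rw [hsucc k hk] at hq ⊢
      simp only at hq ⊢
      obtain ⟨-, hkN, hqT, hPa, hε', hXκ⟩ := hq
      obtain ⟨-, -, hPp, hPg, hPε, -, hPM⟩ := ih _ hPa
      have hex := hone k hkN q hqT _ hPM hPp hPε hPg hε'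
      obtain ⟨h1, h2, h3, h4⟩ := childX_spec hex
      exact ⟨hkN, hqT, h1, h4, lt_of_lt_of_le (by linarith) (le_max_left _ _), hε', hXκ⟩
  have hge : ∀ k p, (R k p).act → k0 ≤ k := by
    intro k p h
    by_contra hcon
    exact hlt k (by omega) p h
  have hnn : ∀ k p, 0 ≤ (R k p).ε := by
    intro k p
    rw [hR]
    cases k with
    | zero =>
      rw [rdat]
      split_ifs
      · exact hε0.le
      · exact le_rfl
    | succ k =>
      rw [rdat]
      split_ifs
      · exact hε0.le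
      · exact le_trans (by positivity) (le_max_right _ _)
  refine ⟨{ U := U
            M := fun k p => (R k p).M
            b := fun k p => (R k p).b
            ε := fun k p => (R k p).ε
            Act := fun k p => (R k p).act
            act_root := by rw [hroot]
            act_level := fun k p h => ⟨hge k p h, (hinv k (hge k p h) p h).1,
              (hinv k (hge k p h) p h).2.1⟩
            act_top := fun p h => by rw [hroot] at h; exact h
            act_par := fun k q hk h => by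
              rw [hsucc k hk] at h
              exact h.2.2.2.1
            M_root := by rw [hroot]
            ε_nonneg := hnn
            perp := fun k p h => (hinv k (hge k p h) p h).2.2.1
            growth := fun k p h => (hinv k (hge k p h) p h).2.2.2.1
            small := fun k p h => (hinv k (hge k p h) p h).2.2.2.2.2
            step := ?_
            act_iff := ?_ }, ?_, ?_⟩
  · intro k hkN q hq hP hε'
    have hk := hge _ _ hP
    rw [hsucc k hk] at hε' ⊢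
    simp only at hε' ⊢
    obtain ⟨-, -, hPp, hPg, hPε, -, hPM⟩ := hinv k hk _ hP
    have hex := hone k hkN q hq _ hPM hPp hPε hPg hε'
    obtain ⟨h1, h2, h3, h4⟩ := childX_spec hex
    exact ⟨h2, h3⟩
  · intro k hkN q hq hP
    have hk := hge _ _ hP
    rw [hsucc k hk]
    simp only
    constructor
    · rintro ⟨-, -, -, -, h1, h2⟩
      exact ⟨h1, h2⟩
    · rintro ⟨h1, h2⟩
      exact ⟨hk, hkN, hq, hP, h1, h2⟩
  · simp only
    rw [hroot]
  · intro k hk hkN q hq hP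
    simp only
    rw [hsucc k hk]

end Vale.Agent.P120
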