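import Vale.Agent.Lib.P120.LowDim
import Vale.Agent.Lib.P120.UR.Base

/-!
P120: a flat ball gives the starting plane of a regime (module StartFlat).
-/

open MeasureTheory Filter Set Metric Module
open scoped Topology ENNReal NNReal RealInnerProductSpace

namespace Vale.Agent.P120

variable {d n : ℕ}

/-- An isometry onto a given subspace. -/
theorem startFlat_exists_isometry (V : Submodule ℝ (E d)) (hV : finrank ℝ V = n) :
    ∃ U : E n →ₗᵢ[ℝ] E d, ∀ v ∈ V, ∃ w, U w = v := by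
  let b := (stdOrthonormalBasis ℝ V).reindex (finCongr hV)
  refine ⟨V.subtypeₗᵢ.comp b.repr.symm.toLinearIsometry, fun v hv => ⟨b.repr ⟨v, hv⟩, ?_⟩⟩
  simp

/-- The orthogonal projection is the closest point. -/
theorem startFlat_norm_proj_le (U : E n →ₗᵢ[ℝ] E d) (z : E d) (w : E n) :
    ‖z - U (adjU U z)‖ ≤ ‖z - U w‖ := by
  have h1 := norm_sub_proj_le U (z - U w)
  have h2 : z - U w - U (adjU U (z - U w)) = z - U (adjU U z) := by
    rw [map_sub, adjU_U, map_sub]
    abel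
  rw [h2] at h1
  have h3 := norm_nonneg (z - U (adjU U z))
  have h4 := norm_nonneg (z - U w)
  by_contra hcon
  push Not at hcon
  nlinarith only [sq_nonneg ‖adjU U (z - U w)‖, h1, h4, hcon]

theorem start_of_flat (n d : ℕ) (C : ℝ) (hC : 0 < C) (lam ε0 : ℝ) (hlam : 0 < lam)
    (hlam1 : lam < 1) (hε0 : 0 < ε0) :
    ∃ θ : ℝ, 0 < θ ∧ ∃ σ : ℝ, 0 < σ ∧ σ ≤ 1 / 4 ∧ ∀ (μ ν : Measure (E d)), UB n μ C → ν ≤ μ →
      ∀ (V : Submodule ℝ (E d)) (y : E d) (r : ℝ), 0 < r → finrank ℝ V = n → Flat μ V θ y r →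
      ∀ (p : E d) (s : ℝ), ‖p - y‖ ≤ r / 4 → lam * σ * r ≤ s → s ≤ σ * r →
      ∃ (U : E n →ₗᵢ[ℝ] E d) (b : E d), Perp U 0 b ∧ Growth n ν p s U 0 b ε0 := by
  set σ : ℝ := min (1 / 4) (ε0 ^ 2 / (5 * C)) with hσ
  have hσ0 : 0 < σ := lt_min (by norm_num) (by positivity)
  have hσ1 : σ ≤ 1 / 4 := min_le_left _ _
  have hσ2 : σ ≤ ε0 ^ 2 / (5 * C) := min_le_right _ _
  set θ : ℝ := ε0 * lam * σ / (1 + C) with hθ
  have hθ0 : 0 < θ := by positivity
  have hθC : θ ^ 2 * C ≤ ε0 ^ 2 * (lam * σ) ^ 2 := by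
    have h1 : θ ^ 2 * C = ε0 ^ 2 * (lam * σ) ^ 2 * (C / (1 + C) ^ 2) := by
      rw [hθ]
      field_simp
    have h2 : C / (1 + C) ^ 2 ≤ 1 := by
      rw [div_le_one (by positivity)]
      nlinarith only []
    rw [h1]
    exact mul_le_of_le_one_right (by positivity) h2
  refine ⟨θ, hθ0, σ, hσ0, hσ1, ?_⟩
  intro μ ν hU hν V y r hr hV hF p s hp hs1 hs2
  have hUν := hU.of_le hν
  have hs0 : 0 < s := lt_of_lt_of_le (by positivity) hs1
  obtain ⟨U, hUV⟩ := startFlat_exists_isometry V hV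
  have hh : ∀ z, hgt U 0 (y - U (adjU U y)) z = (z - y) - U (adjU U (z - y)) := by
    intro z
    unfold hgt
    rw [map_sub, map_sub, zero_apply]
    abel
  have hall : ∀ z, ‖hgt U 0 (y - U (adjU U y)) z‖ ≤ ‖z - y‖ := by
    intro z
    rw [hh]
    have := startFlat_norm_proj_le U (z - y) 0
    rwa [map_zero, sub_zero] at this
  have hflat : ∀ z ∈ μ.support, z ∈ ball y r →
      ‖hgt U 0 (y - U (adjU U y)) z‖ ≤ θ * r := by
    intro z hz hzr
    obtain ⟨v, hv, hzv⟩ := hF z hz hzr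
    obtain ⟨w, rfl⟩ := hUV v hv
    rw [hh]
    exact (startFlat_norm_proj_le U (z - y) w).trans hzv
  refine ⟨U, y - U (adjU U y), ⟨fun v w => by simp, fun v => ?_⟩, ?_⟩
  · rw [inner_sub_right, ← inner_adjU, ← inner_adjU, adjU_U, sub_self]
  · intro t ht
    have ht0 : 0 < t := hs0.trans_le ht
    have hfin : ν (ball p t) < ∞ := hUν.ball_lt_top p t
    have hmass : ν.real (ball p t) ≤ C * t ^ n :=
      ENNReal.toReal_le_of_le_ofReal (by positivity) (hUν.ball p ht0)
    -- general bound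
    have hgen : ∀ B : ℝ, 0 ≤ B → (∀ᵐ z ∂ν, z ∈ ball p t →
        ‖hgt U 0 (y - U (adjU U y)) z‖ ≤ B) →
        ∫ z in ball p t, ‖hgt U 0 (y - U (adjU U y)) z‖ ^ 2 ∂ν ≤ B ^ 2 * (C * t ^ n) := by
      intro B hB hae
      have h1 : ‖∫ z in ball p t, ‖hgt U 0 (y - U (adjU U y)) z‖ ^ 2 ∂ν‖ ≤
          B ^ 2 * ν.real (ball p t) := by
        refine norm_setIntegral_le_of_norm_le_const_ae' hfin ?_
        filter_upwards [hae] with z hz hzb
        rw [Real.norm_eq_abs, abs_of_nonneg (sq_nonneg _)]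
        exact pow_le_pow_left₀ (norm_nonneg _) (hz hzb) 2
      exact (le_abs_self _).trans (h1.trans (mul_le_mul_of_nonneg_left hmass (sq_nonneg B)))
    have hsplit : t ^ (n + 3) / s = t ^ n * (t ^ 3 / s) := by ring
    rcases le_total t (r / 2) with htr | htr
    · have h1 := hgen (θ * r) (by positivity) ?_
      · refine h1.trans ?_
        rw [mul_div_assoc, hsplit]
        have h2 : s ^ 2 ≤ t ^ 3 / s := by
          rw [le_div_iff₀ hs0]
          have : s ^ 2 * s = s ^ 3 := by ring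
          rw [this]
          exact pow_le_pow_left₀ hs0.le ht 3
        have h3 : (lam * σ * r) ^ 2 ≤ s ^ 2 := pow_le_pow_left₀ (by positivity) hs1 2
        have h4 : (θ * r) ^ 2 * C ≤ ε0 ^ 2 * (t ^ 3 / s) := by
          calc (θ * r) ^ 2 * C = (θ ^ 2 * C) * r ^ 2 := by ring
            _ ≤ (ε0 ^ 2 * (lam * σ) ^ 2) * r ^ 2 := mul_le_mul_of_nonneg_right hθC (sq_nonneg r)
            _ = ε0 ^ 2 * (lam * σ * r) ^ 2 := by ring
            _ ≤ ε0 ^ 2 * (t ^ 3 / s) := mul_le_mul_of_nonneg_left (h3.trans h2) (sq_nonneg ε0)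
        calc (θ * r) ^ 2 * (C * t ^ n) = ((θ * r) ^ 2 * C) * t ^ n := by ring
          _ ≤ (ε0 ^ 2 * (t ^ 3 / s)) * t ^ n := mul_le_mul_of_nonneg_right h4 (by positivity)
          _ = ε0 ^ 2 * (t ^ n * (t ^ 3 / s)) := by ring
      · have hnull : ν μ.supportᶜ = 0 :=
          le_antisymm ((hν _).trans (le_of_eq Measure.measure_compl_support)) bot_le
        have hae : ∀ᵐ z ∂ν, z ∈ μ.support := by
          rw [ae_iff]
          exact hnull
        filter_upwards [hae] with z hz hzb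
        refine hflat z hz ?_
        rw [mem_ball, dist_eq_norm] at hzb ⊢
        calc ‖z - y‖ = ‖(z - p) + (p - y)‖ := by rw [sub_add_sub_cancel]
          _ ≤ ‖z - p‖ + ‖p - y‖ := norm_add_le _ _
          _ < r := by linarith
    · have h1 := hgen (3 / 2 * t) (by positivity) (Filter.Eventually.of_forall fun z hzb => ?_)
      · refine h1.trans ?_
        rw [mul_div_assoc, hsplit]
        have h2 : 9 / 4 * C * s ≤ ε0 ^ 2 * t := by
          have h3 : s ≤ 2 * σ * t := by nlinarith only [hr, hs2, hs0, htr]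
          have h4 : 5 * C * σ ≤ ε0 ^ 2 := by
            have := mul_le_mul_of_nonneg_left hσ2 (show 0 ≤ 5 * C by positivity)
            rwa [mul_div_cancel₀ _ (by positivity)] at this
          calc 9 / 4 * C * s ≤ 9 / 4 * C * (2 * σ * t) :=
                mul_le_mul_of_nonneg_left h3 (by positivity)
            _ = 9 / 10 * (5 * C * σ) * t := by ring
            _ ≤ ε0 ^ 2 * t := by
                apply mul_le_mul_of_nonneg_right _ ht0.le
                linarith only [sq_nonneg ε0, h4]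
        have h5 : (3 / 2 * t) ^ 2 * C ≤ ε0 ^ 2 * (t ^ 3 / s) := by
          rw [mul_div_assoc', le_div_iff₀ hs0]
          have := mul_le_mul_of_nonneg_left h2 (sq_nonneg t)
          linarith only [this]
        calc (3 / 2 * t) ^ 2 * (C * t ^ n) = ((3 / 2 * t) ^ 2 * C) * t ^ n := by ring
          _ ≤ (ε0 ^ 2 * (t ^ 3 / s)) * t ^ n := mul_le_mul_of_nonneg_right h5 (by positivity)
          _ = ε0 ^ 2 * (t ^ n * (t ^ 3 / s)) := by ring
      · refine (hall z).trans ?_
        rw [mem_ball, dist_eq_norm] at hzb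
        calc ‖z - y‖ = ‖(z - p) + (p - y)‖ := by rw [sub_add_sub_cancel]
          _ ≤ ‖z - p‖ + ‖p - y‖ := norm_add_le _ _
          _ ≤ 3 / 2 * t := by linarith

end Vale.Agent.P120
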