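import Vale.Agent.Lib.P120.UR.FlatQuant
import Vale.Agent.Lib.P120.UR.StartFlat
import Vale.Agent.Lib.P120.UR.NetsExist

/-!
P120: start nodes of regimes are dense (module StartDense).
-/

open MeasureTheory Filter Set Metric Module
open scoped Topology ENNReal NNReal RealInnerProductSpace

namespace Vale.Agent.P120

variable {d n : ℕ}

theorem start_dense (n d : ℕ) (hn : 1 ≤ n) (hnd : n ≤ d) (C c CT lam ε0 : ℝ) (hC : 0 < C)
    (hc : 0 < c) (hlam : 0 < lam) (hlam1 : lam ≤ 1 / 64) (hε0 : 0 < ε0) :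
    ∃ m1 : ℕ, ∀ (μ : Measure (E d)) (x0 : E d) (D s0 : ℝ) (N : ℕ), UB n μ C → LB n μ c D →
      TB n μ CT → 0 < s0 → 100 * s0 ≤ D → ∀ (T : Nets μ x0 s0 lam N) (k : ℕ) (p : E d),
      p ∈ T.pts k → k + m1 ≤ N → ‖p - x0‖ ≤ 2 * s0 →
      ∃ (i : ℕ) (q : E d), i ≤ m1 ∧ q ∈ T.pts (k + i) ∧ up T.par k i q = p ∧
        ∃ (U : E n →ₗᵢ[ℝ] E d) (b : E d), Perp U 0 b ∧
          Growth n (μ.restrict (closedBall x0 D)) q (s0 * lam ^ (k + i)) U 0 b ε0 := by
  obtain ⟨θ, hθ, σ, hσ, hσ1, hstart⟩ := start_of_flat n d C hC lam ε0 hlam (by linarith) hε0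
  obtain ⟨η, hη, hflat⟩ := exists_flat_quant n d hn hnd C c CT hC hc θ hθ
  -- `m1` with `lam ^ m1 ≤ lam σ η / 8`
  obtain ⟨m1, hm1⟩ := exists_pow_lt_of_lt_one (show 0 < lam * σ * (η / 8) by positivity)
    (show lam < 1 by linarith)
  refine ⟨m1, ?_⟩
  intro μ x0 D s0 N hU hL hT hs0 hs0D T k p hp hkN hpx
  have hkN' : k ≤ N := by omega
  have hpS := (T.mem_supp k hkN' p hp).1
  set s : ℝ := s0 * lam ^ k with hs
  have hs_pos : 0 < s := by positivity
  have hss0 : s ≤ s0 := by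
    have : lam ^ k ≤ 1 := pow_le_one₀ hlam.le (by linarith)
    rw [hs]; nlinarith only [hs0, this]
  obtain ⟨y, hyS, r, hr1, hr2, hsub, V, hV, hVflat⟩ := hflat μ D hU hL hT p hpS (s / 8)
    (by positivity) (by linarith)
  have hr0 : 0 < r := lt_of_lt_of_le (by positivity) hr1
  have hyp : ‖y - p‖ < s / 8 := by
    have := hsub (mem_ball_self hr0)
    rwa [mem_ball, dist_eq_norm] at this
  -- the level
  have hex : ∃ i : ℕ, s * lam ^ i ≤ σ * r := by
    obtain ⟨i, hi⟩ := exists_pow_lt_of_lt_one (show 0 < σ * r / s by positivity)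
      (show lam < 1 by linarith)
    refine ⟨i, ?_⟩
    rw [lt_div_iff₀ hs_pos] at hi
    linarith
  classical
  set i := Nat.find hex with hi
  have hi1 : s * lam ^ i ≤ σ * r := Nat.find_spec hex
  have hσr : σ * r < s := by
    have h1 : σ * r ≤ 1 / 4 * (s / 8) := by gcongr
    linarith
  have hi0 : i ≠ 0 := by
    intro h0
    rw [h0, pow_zero, mul_one] at hi1
    linarith
  have hi2 : lam * σ * r < s * lam ^ i := by
    have h1 := Nat.find_min hex (m := i - 1) (by omega)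
    push Not at h1
    have h2 : lam ^ i = lam * lam ^ (i - 1) := by
      rw [← pow_succ']; congr 1; omega
    calc lam * σ * r = lam * (σ * r) := by ring
      _ < lam * (s * lam ^ (i - 1)) := by gcongr
      _ = s * lam ^ i := by rw [h2]; ring
  have him : i ≤ m1 := by
    by_contra hcon
    push Not at hcon
    have h1 : lam ^ i ≤ lam ^ m1 := pow_le_pow_of_le_one hlam.le (by linarith) hcon.le
    have h2 : lam * σ * (η / 8) * s ≤ lam * σ * r := by
      calc lam * σ * (η / 8) * s = lam * σ * (η * (s / 8)) := by ring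
        _ ≤ lam * σ * r := by gcongr
    have h3 : s * lam ^ i < s * (lam * σ * (η / 8)) := by
      have : lam ^ i < lam * σ * (η / 8) := h1.trans_lt hm1
      gcongr
    linarith
  have hkiN : k + i ≤ N := by omega
  have hsi : s0 * lam ^ (k + i) = s * lam ^ i := by rw [hs, pow_add]; ring
  have hyx0 : ‖y - x0‖ ≤ 8 * s0 := by
    have := norm_sub_le_norm_sub_add_norm_sub y p x0
    linarith
  obtain ⟨q, hq, hqy⟩ := T.dense (k + i) hkiN y hyS hyx0
  rw [hsi] at hqy
  have hqy' : ‖q - y‖ ≤ r / 4 := by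
    rw [norm_sub_rev]
    have : σ * r ≤ 1 / 4 * r := by gcongr
    linarith
  refine ⟨i, q, him, hq, ?_, ?_⟩
  · refine Nets.up_near hs0 hlam hlam1 T hkiN hq hp ?_
    have h1 := norm_sub_le_norm_sub_add_norm_sub q y p
    rw [← hs]
    linarith
  · rw [hsi]
    exact hstart μ (μ.restrict (closedBall x0 D)) hU Measure.restrict_le_self V y r hr0 hV hVflat q
      (s * lam ^ i) hqy' hi2.le hi1

end Vale.Agent.P120
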