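import Vale.Agent.Lib.P120.UR.Base
import Vale.Agent.Lib.P120.UR.Decay

/-!
P120: one step of the iteration in the tree (blueprint module `Step`).
-/

open MeasureTheory Filter Set Metric Module
open scoped Topology ENNReal NNReal RealInnerProductSpace

namespace Vale.Agent.P120

variable {d n : ℕ}


theorem step_intOn {ν : Measure (E d)} {C : ℝ} (hU : UB n ν C) (U : E n →ₗᵢ[ℝ] E d)
    (M : E n →L[ℝ] E d) (b x : E d) (t : ℝ) :
    IntegrableOn (fun y => ‖hgt U M b y‖ ^ 2) (ball x t) ν := by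
  have := hU.isLocallyFinite
  have h1 : Continuous fun y => ‖hgt U M b y‖ ^ 2 := (continuous_hgt U M b).norm.pow 2
  exact (h1.continuousOn.integrableOn_compact (isCompact_closedBall x t)).mono_set
    ball_subset_closedBall

/-- The height over the modified plane. -/
theorem step_hgt (U : E n →ₗᵢ[ℝ] E d) (M B : E n →L[ℝ] E d) (b β q : E d) (s e : ℝ) (y : E d) :
    hgt U (M + e • B) (b + e • (s • β - B (adjU U q))) y =
      hgt U M b y - e • (s • β + B (adjU U (y - q))) := by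
  unfold hgt
  simp only [add_apply, smul_apply, map_sub, smul_add,
    smul_sub]
  abel

/-- The step with abstract constants. -/
theorem step_core {C c C1 Lam ε1 δ κ Q lam τ K : ℝ} (hC : 0 < C) (hC1 : 0 < C1) (hδ : 0 < δ)
    (hκ : κ = 2 ^ (n + 4)) (hκ1 : 1 ≤ κ) (hQ : Q = 2 * κ ^ 2 * (1 + 4 * C1 ^ 2 * C))
    (hlam0 : 0 < lam) (hlam1 : lam ≤ 1) (hlamQ : lam * Q ≤ 1) (hτ : τ * κ = lam ^ (n + 2))
    (hK1 : 1 ≤ K) (hKδ' : 1 ≤ K * δ)
    {ν : Measure (E d)} (hU : UB n ν C)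
    {p q : E d} {s D : ℝ} (hs : 0 < s) (hsD : s ≤ D) (hqp : ‖q - p‖ ≤ s)
    (hLB : LBloc n ν c q D) {U : E n →ₗᵢ[ℝ] E d} {M : E n →L[ℝ] E d} {b : E d} {ε a ε' : ℝ}
    (hP : Perp U M b) (hε : 0 < ε) (hG : Growth n ν p s U M b ε)
    (ha : 0 ≤ a) (hE : EnLe n ν (Lam / lam) q (lam * s) a) (h1 : ε / 2 ≤ ε')
    (h2 : K * Real.sqrt (a + s / D) ≤ ε') (h3 : κ * ε' ≤ ε1)
    (hd : ∀ ε : ℝ, 0 < ε → ε ≤ ε1 → LBloc n ν c q (s / ε ^ 2) →
      Growth n ν q s U M b ε → EnLe n ν Lam q s ((δ * ε) ^ 2) →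
      ∃ (B : E n →L[ℝ] E d) (β : E d), ‖B‖ ≤ C1 ∧ ‖β‖ ≤ C1 ∧ Perp U B β ∧
        ∫ y in ball q s, ‖hgt U M b y - ε • (s • β + B (adjU U (y - q)))‖ ^ 2 ∂ν ≤
          τ ^ 2 * ε ^ 2 * s ^ (n + 2)) :
    ∃ (M' : E n →L[ℝ] E d) (b' : E d), Perp U M' b' ∧ ‖M' - M‖ ≤ max 1 (κ * C1) * ε' ∧
      (∀ y, ‖hgt U M' b' y - hgt U M b y‖ ≤ max 1 (κ * C1) * ε' * (s + ‖y - q‖)) ∧
      Growth n ν q (lam * s) U M' b' ε' := by
  have hκ0 : 0 < κ := by linarith
  have hQ0 : 0 < Q := by rw [hQ]; positivity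
  have hε' : 0 < ε' := by linarith
  have hD : 0 < D := hs.trans_le hsD
  -- square of the hypothesis on `a` and `s / D`
  have h4 : K ^ 2 * (a + s / D) ≤ ε' ^ 2 := by
    have h5 : (K * Real.sqrt (a + s / D)) ^ 2 ≤ ε' ^ 2 :=
      pow_le_pow_left₀ (by positivity) h2 2
    rwa [mul_pow, Real.sq_sqrt (by positivity)] at h5
  have hsD0 : 0 ≤ s / D := by positivity
  have h5 : K ^ 2 * a ≤ ε' ^ 2 :=
    (mul_le_mul_of_nonneg_left (le_add_of_nonneg_right hsD0) (sq_nonneg K)).trans h4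
  have h6 : K ^ 2 * (s / D) ≤ ε' ^ 2 :=
    (mul_le_mul_of_nonneg_left (le_add_of_nonneg_left ha) (sq_nonneg K)).trans h4
  have hKK : 1 ≤ K ^ 2 := one_le_pow₀ hK1
  have h7 : s / D ≤ ε' ^ 2 := (le_mul_of_one_le_left hsD0 hKK).trans h6
  obtain ⟨e, he⟩ : ∃ e : ℝ, e = κ * ε' := ⟨_, rfl⟩
  have he0 : 0 < e := by rw [he]; positivity
  have he1 : e ≤ ε1 := by rw [he]; exact h3
  have heε' : ε' ≤ e := by rw [he]; exact le_mul_of_one_le_left hε'.le hκ1
  -- the growth around `q`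
  have hκ2 : (2 : ℝ) ^ (n + 3) * ε ^ 2 ≤ e ^ 2 := by
    have h8 : ε ≤ 2 * ε' := by linarith
    have h9 : ε ^ 2 ≤ (2 * ε') ^ 2 := pow_le_pow_left₀ hε.le h8 2
    have h10 : (2 : ℝ) ^ (n + 3) * 4 ≤ κ ^ 2 := by
      rw [hκ, ← pow_mul]
      calc (2 : ℝ) ^ (n + 3) * 4 = 2 ^ (n + 3 + 2) := by rw [pow_add _ (n + 3)]; norm_num
        _ ≤ 2 ^ ((n + 4) * 2) := pow_le_pow_right₀ (by norm_num) (by omega)
    calc (2 : ℝ) ^ (n + 3) * ε ^ 2 ≤ 2 ^ (n + 3) * (2 * ε') ^ 2 := by gcongr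
      _ = 2 ^ (n + 3) * 4 * ε' ^ 2 := by ring
      _ ≤ κ ^ 2 * ε' ^ 2 := by gcongr
      _ = e ^ 2 := by rw [he]; ring
  have hGq : Growth n ν q s U M b e := by
    intro t ht
    have ht0 : 0 < t := hs.trans_le ht
    have hsub : ball q t ⊆ ball p (2 * t) := by
      intro y hy
      rw [mem_ball, dist_eq_norm] at hy ⊢
      have := norm_sub_le_norm_sub_add_norm_sub y q p
      linarith
    calc ∫ y in ball q t, ‖hgt U M b y‖ ^ 2 ∂ν ≤ ∫ y in ball p (2 * t), ‖hgt U M b y‖ ^ 2 ∂ν := by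
          refine setIntegral_mono_set (step_intOn hU U M b p (2 * t)) ?_ ?_
          · exact Eventually.of_forall fun y => by positivity
          · exact Eventually.of_forall hsub
      _ ≤ ε ^ 2 * (2 * t) ^ (n + 3) / s := hG (2 * t) (by linarith)
      _ = (2 ^ (n + 3) * ε ^ 2) * t ^ (n + 3) / s := by rw [mul_pow]; ring
      _ ≤ e ^ 2 * t ^ (n + 3) / s := by gcongr
  have hLBq : LBloc n ν c q (s / e ^ 2) := by
    refine hLB.mono ?_
    rw [div_le_iff₀ (by positivity)]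
    rw [div_le_iff₀ hD] at h7
    have h8 : ε' ^ 2 ≤ e ^ 2 := pow_le_pow_left₀ hε'.le heε' 2
    calc s ≤ ε' ^ 2 * D := h7
      _ ≤ e ^ 2 * D := mul_le_mul_of_nonneg_right h8 hD.le
      _ = D * e ^ 2 := mul_comm _ _
  have hEq : EnLe n ν Lam q s ((δ * e) ^ 2) := by
    intro ψ hψ hsupp h0
    refine (hE ψ hψ ?_ h0).trans ?_
    · intro y hy
      refine hsupp y ?_
      have : Lam / lam * (lam * s) = Lam * s := by field_simp
      rwa [this] at hy
    · have hEn := En_nonneg (n := n) (ν := ν) ψ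
      refine mul_le_mul_of_nonneg_right ?_ hEn
      have h8 : (lam * s) ^ (n + 1) ≤ s ^ (n + 1) :=
        pow_le_pow_left₀ (by positivity) (mul_le_of_le_one_left hs.le hlam1) _
      have h9 : a ≤ (δ * e) ^ 2 := by
        have h10 : 1 ≤ (K * δ) ^ 2 := one_le_pow₀ hKδ'
        have h11 : a ≤ δ ^ 2 * (K ^ 2 * a) := by
          have : δ ^ 2 * (K ^ 2 * a) = (K * δ) ^ 2 * a := by ring
          rw [this]
          exact le_mul_of_one_le_left ha h10
        calc a ≤ δ ^ 2 * (K ^ 2 * a) := h11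
          _ ≤ δ ^ 2 * ε' ^ 2 := by gcongr
          _ ≤ δ ^ 2 * e ^ 2 := by gcongr
          _ = (δ * e) ^ 2 := by ring
      exact mul_le_mul h9 h8 (by positivity) (by positivity)
  obtain ⟨B, β, hB, hβ, hPB, hint⟩ := hd e he0 he1 hLBq hGq hEq
  refine ⟨M + e • B, b + e • (s • β - B (adjU U q)), ?_, ?_, ?_, ?_⟩
  · refine ⟨fun v w => ?_, fun v => ?_⟩
    · rw [add_apply, smul_apply, inner_add_right,
        inner_smul_right, hP.1, hPB.1]
      simp
    · rw [inner_add_right, inner_smul_right, inner_sub_right, inner_smul_right, hP.2, hPB.1, hPB.2]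
      simp
  · rw [add_sub_cancel_left, norm_smul, Real.norm_of_nonneg he0.le]
    calc e * ‖B‖ ≤ e * C1 := by gcongr
      _ = κ * C1 * ε' := by rw [he]; ring
      _ ≤ max 1 (κ * C1) * ε' := by gcongr; exact le_max_right _ _
  · intro y
    rw [step_hgt, sub_sub_cancel_left, norm_neg, norm_smul, Real.norm_of_nonneg he0.le]
    have h8 : ‖s • β + B (adjU U (y - q))‖ ≤ C1 * (s + ‖y - q‖) := by
      calc ‖s • β + B (adjU U (y - q))‖ ≤ ‖s • β‖ + ‖B (adjU U (y - q))‖ := norm_add_le _ _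
        _ ≤ s * C1 + C1 * ‖y - q‖ := by
            rw [norm_smul, Real.norm_of_nonneg hs.le]
            have h9 : ‖B (adjU U (y - q))‖ ≤ ‖B‖ * ‖adjU U (y - q)‖ := B.le_opNorm _
            have h10 := norm_adjU_le U (y - q)
            have h11 : ‖B‖ * ‖adjU U (y - q)‖ ≤ C1 * ‖y - q‖ :=
              mul_le_mul hB h10 (norm_nonneg _) hC1.le
            have h12 : s * ‖β‖ ≤ s * C1 := by gcongr
            linarith
        _ = C1 * (s + ‖y - q‖) := by ring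
    calc e * ‖s • β + B (adjU U (y - q))‖ ≤ e * (C1 * (s + ‖y - q‖)) := by gcongr
      _ = κ * C1 * ε' * (s + ‖y - q‖) := by rw [he]; ring
      _ ≤ max 1 (κ * C1) * ε' * (s + ‖y - q‖) := by gcongr; exact le_max_right _ _
  · intro t ht
    have ht0 : 0 < t := (by positivity : 0 < lam * s).trans_le ht
    rcases le_total t s with hts | hst
    · have h8 : ∫ y in ball q t, ‖hgt U (M + e • B) (b + e • (s • β - B (adjU U q))) y‖ ^ 2 ∂ν ≤
          τ ^ 2 * e ^ 2 * s ^ (n + 2) := by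
        refine le_trans ?_ hint
        calc ∫ y in ball q t, ‖hgt U (M + e • B) (b + e • (s • β - B (adjU U q))) y‖ ^ 2 ∂ν
            ≤ ∫ y in ball q s, ‖hgt U (M + e • B) (b + e • (s • β - B (adjU U q))) y‖ ^ 2 ∂ν := by
              refine setIntegral_mono_set (step_intOn hU _ _ _ q s) ?_ ?_
              · exact Eventually.of_forall fun y => by positivity
              · exact Eventually.of_forall (ball_subset_ball hts)
          _ = ∫ y in ball q s, ‖hgt U M b y - e • (s • β + B (adjU U (y - q)))‖ ^ 2 ∂ν := by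
              simp only [step_hgt]
      refine h8.trans ?_
      have h9 : τ ^ 2 * e ^ 2 = lam ^ (n + 2) * lam ^ (n + 2) * ε' ^ 2 := by
        rw [← hτ, he]; ring
      rw [h9, le_div_iff₀ (by positivity)]
      have h10 : (lam * s) ^ (n + 3) ≤ t ^ (n + 3) := pow_le_pow_left₀ (by positivity) ht _
      have h11 : lam ^ (n + 2) ≤ 1 := pow_le_one₀ hlam0.le hlam1
      calc lam ^ (n + 2) * lam ^ (n + 2) * ε' ^ 2 * s ^ (n + 2) * (lam * s)
          = lam ^ (n + 2) * (ε' ^ 2 * (lam * s) ^ (n + 3)) := by ring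
        _ ≤ 1 * (ε' ^ 2 * (lam * s) ^ (n + 3)) := by gcongr
        _ ≤ ε' ^ 2 * t ^ (n + 3) := by rw [one_mul]; gcongr
    · -- large radii
      have hpt : ∀ y ∈ ball q t, ‖hgt U (M + e • B) (b + e • (s • β - B (adjU U q))) y‖ ^ 2 ≤
          2 * ‖hgt U M b y‖ ^ 2 + 8 * e ^ 2 * C1 ^ 2 * t ^ 2 := by
        intro y hy
        rw [mem_ball, dist_eq_norm] at hy
        rw [step_hgt]
        have h8 : ‖e • (s • β + B (adjU U (y - q)))‖ ≤ 2 * e * C1 * t := by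
          rw [norm_smul, Real.norm_of_nonneg he0.le]
          have h9 : ‖s • β + B (adjU U (y - q))‖ ≤ 2 * C1 * t := by
            calc ‖s • β + B (adjU U (y - q))‖ ≤ ‖s • β‖ + ‖B (adjU U (y - q))‖ := norm_add_le _ _
              _ ≤ t * C1 + C1 * t := by
                  rw [norm_smul, Real.norm_of_nonneg hs.le]
                  have h9 : ‖B (adjU U (y - q))‖ ≤ ‖B‖ * ‖adjU U (y - q)‖ := B.le_opNorm _
                  have h10 := (norm_adjU_le U (y - q)).trans hy.le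
                  have h11 : ‖B‖ * ‖adjU U (y - q)‖ ≤ C1 * t :=
                    mul_le_mul hB h10 (norm_nonneg _) hC1.le
                  have h12 : s * ‖β‖ ≤ t * C1 := mul_le_mul hst hβ (norm_nonneg _) ht0.le
                  linarith
              _ = 2 * C1 * t := by ring
          calc e * ‖s • β + B (adjU U (y - q))‖ ≤ e * (2 * C1 * t) := by gcongr
            _ = 2 * e * C1 * t := by ring
        have h9 := norm_sub_le (hgt U M b y) (e • (s • β + B (adjU U (y - q))))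
        have h10 := norm_nonneg (hgt U M b y)
        have h11 := norm_nonneg (hgt U M b y - e • (s • β + B (adjU U (y - q))))
        have h12 := norm_nonneg (e • (s • β + B (adjU U (y - q))))
        have h13 : ‖hgt U M b y - e • (s • β + B (adjU U (y - q)))‖ ^ 2 ≤
            (‖hgt U M b y‖ + 2 * e * C1 * t) ^ 2 :=
          pow_le_pow_left₀ h11 (h9.trans (by linarith)) 2
        refine h13.trans (add_sq_le.trans (le_of_eq ?_))
        ring
      have hbt : ν.real (ball q t) ≤ C * t ^ n := by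
        rw [Measure.real]
        exact ENNReal.toReal_le_of_le_ofReal (by positivity) (hU.ball q ht0)
      have hfin : ν (ball q t) ≠ ⊤ := (hU.ball_lt_top q t).ne
      have hint1 := step_intOn hU U M b q t
      have hint2 : IntegrableOn (fun _ : E d => 8 * e ^ 2 * C1 ^ 2 * t ^ 2) (ball q t) ν :=
        integrableOn_const hfin
      have hint3 : IntegrableOn (fun y => 2 * ‖hgt U M b y‖ ^ 2 + 8 * e ^ 2 * C1 ^ 2 * t ^ 2)
          (ball q t) ν := by
        have h8 := (hint1.const_mul 2).add hint2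
        exact h8
      have h8 : ∫ y in ball q t, ‖hgt U (M + e • B) (b + e • (s • β - B (adjU U q))) y‖ ^ 2 ∂ν ≤
          2 * (e ^ 2 * t ^ (n + 3) / s) + 8 * e ^ 2 * C1 ^ 2 * t ^ 2 * (C * t ^ n) := by
        calc ∫ y in ball q t, ‖hgt U (M + e • B) (b + e • (s • β - B (adjU U q))) y‖ ^ 2 ∂ν
            ≤ ∫ y in ball q t, (2 * ‖hgt U M b y‖ ^ 2 + 8 * e ^ 2 * C1 ^ 2 * t ^ 2) ∂ν :=
              setIntegral_mono_on (step_intOn hU _ _ _ q t)
                hint3 measurableSet_ball hpt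
          _ = 2 * ∫ y in ball q t, ‖hgt U M b y‖ ^ 2 ∂ν +
              8 * e ^ 2 * C1 ^ 2 * t ^ 2 * ν.real (ball q t) := by
              rw [integral_add (hint1.const_mul 2) hint2, integral_const_mul, setIntegral_const,
                smul_eq_mul]
              ring
          _ ≤ _ := by
              have := hGq t hst
              gcongr
      refine h8.trans ?_
      have h9 : t ^ (n + 2) ≤ t ^ (n + 3) / s := by
        rw [le_div_iff₀ hs, pow_succ t (n + 2)]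
        gcongr
      have h10 : 2 * (e ^ 2 * t ^ (n + 3) / s) + 8 * e ^ 2 * C1 ^ 2 * t ^ 2 * (C * t ^ n) ≤
          Q * (ε' ^ 2 * (t ^ (n + 3) / s)) := by
        have h11 : 8 * e ^ 2 * C1 ^ 2 * t ^ 2 * (C * t ^ n) ≤
            8 * e ^ 2 * C1 ^ 2 * C * (t ^ (n + 3) / s) := by
          calc 8 * e ^ 2 * C1 ^ 2 * t ^ 2 * (C * t ^ n) = 8 * e ^ 2 * C1 ^ 2 * C * t ^ (n + 2) := by
                ring
            _ ≤ _ := by gcongr
        have h12 : Q * (ε' ^ 2 * (t ^ (n + 3) / s)) =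
            2 * (e ^ 2 * t ^ (n + 3) / s) + 8 * e ^ 2 * C1 ^ 2 * C * (t ^ (n + 3) / s) := by
          rw [hQ, he]; ring
        rw [h12]
        linarith
      refine h10.trans ?_
      have h13 : ε' ^ 2 * t ^ (n + 3) / (lam * s) = lam⁻¹ * (ε' ^ 2 * (t ^ (n + 3) / s)) := by
        field_simp
      rw [h13]
      refine mul_le_mul_of_nonneg_right ?_ (by positivity)
      rw [← one_div, le_div_iff₀ hlam0]
      linarith

theorem regime_step (n d : ℕ) (hn : 1 ≤ n) (C c : ℝ) (hC : 0 < C) (hc : 0 < c) :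
    ∃ lam Lam K C1 ε1 : ℝ, 0 < lam ∧ lam ≤ 1 / 64 ∧ 1 ≤ Lam ∧ 1 ≤ K ∧ 1 ≤ C1 ∧ 0 < ε1 ∧ ε1 ≤ 1 ∧
      StepProp n d C c lam Lam K C1 ε1 := by
  obtain ⟨C1, hC1, hdec⟩ := decay n d hn C c hC hc
  obtain ⟨κ, hκ⟩ : ∃ κ : ℝ, κ = 2 ^ (n + 4) := ⟨_, rfl⟩
  have hκ1 : 1 ≤ κ := by rw [hκ]; exact one_le_pow₀ (by norm_num)
  have hκ0 : 0 < κ := by linarith
  obtain ⟨Q, hQ⟩ : ∃ Q : ℝ, Q = 2 * κ ^ 2 * (1 + 4 * C1 ^ 2 * C) := ⟨_, rfl⟩
  have hQ0 : 0 < Q := by rw [hQ]; positivity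
  obtain ⟨lam, hlam0, hlam64, hlamQ⟩ : ∃ lam : ℝ, 0 < lam ∧ lam ≤ 1 / 64 ∧ lam * Q ≤ 1 := by
    refine ⟨min (1 / 64) (1 / Q), lt_min (by norm_num) (by positivity), min_le_left _ _, ?_⟩
    have : min (1 / 64) (1 / Q) ≤ 1 / Q := min_le_right _ _
    rwa [le_div_iff₀ hQ0] at this
  have hlam1 : lam ≤ 1 := hlam64.trans (by norm_num)
  obtain ⟨τ, hτ0, hτ⟩ : ∃ τ : ℝ, 0 < τ ∧ τ * κ = lam ^ (n + 2) :=
    ⟨lam ^ (n + 2) / κ, by positivity, by field_simp⟩
  obtain ⟨Lam, hLam, ε1, hε1, δ, hδ, hd⟩ := hdec τ hτ0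
  obtain ⟨K, hK1, hKδ⟩ : ∃ K : ℝ, 1 ≤ K ∧ 1 / δ ≤ K :=
    ⟨max 1 (1 / δ), le_max_left _ _, le_max_right _ _⟩
  have hKδ' : 1 ≤ K * δ := by rwa [div_le_iff₀ hδ] at hKδ
  refine ⟨lam, Lam / lam, K, max 1 (κ * C1), min 1 (ε1 / κ), hlam0, hlam64, ?_,
    hK1, le_max_left _ _, lt_min one_pos (by positivity), min_le_left _ _, ?_⟩
  · rw [le_div_iff₀ hlam0]
    linarith
  intro ν hU hb p q s D hq hs hsD hqp hLB U M b ε a ε' hM hP hε hG ha hE h1 h2 h3
  have h4 : κ * ε' ≤ ε1 := by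
    have h5 : ε' ≤ ε1 / κ := h3.trans (min_le_right _ _)
    rw [le_div_iff₀ hκ0] at h5
    linarith
  exact step_core hC hC1 hδ hκ hκ1 hQ hlam0 hlam1 hlamQ hτ hK1 hKδ' hU hs hsD hqp hLB hP hε hG ha
    hE h1 h2 h4 fun ε hε0 hε1' hLBq hGq hEq => hd ν hU hb q hq s hs ε hε0 hε1' hLBq U M b hM hP hGq hEq

end Vale.Agent.P120
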