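import Vale.Agent.Lib.P120.UR.Tilt
import Vale.Agent.Lib.P120.UR.Leaves
import Vale.Agent.Lib.P120.UR.NetsExist

/-!
P120, mass of the stopped nodes of a regime (`stop_sum`). See `blueprint/P120.md`.
-/

open MeasureTheory Filter Set Metric Module
open scoped Topology ENNReal NNReal RealInnerProductSpace

namespace Vale.Agent.P120



variable {d n : ℕ}

/-- geometric summation of `X (k+1) ≤ X k / 4 + b E k`, started at `k0` -/
theorem geom_level_sum {X Y : ℕ → ℝ} {N k0 : ℕ} {a : ℝ} (ha : 0 ≤ a) (hX : ∀ k, 0 ≤ X k)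
    (h0 : X 0 ≤ if 0 = k0 then a else 0)
    (hs : ∀ k < N, X (k + 1) ≤ 1 / 4 * X k + Y k + if k + 1 = k0 then a else 0) :
    ∑ k ∈ Finset.range (N + 1), X k ≤ 4 / 3 * (a + ∑ k ∈ Finset.range N, Y k) := by
  have h1 : ∑ k ∈ Finset.range (N + 1), X k ≤
      ∑ k ∈ Finset.range N, (1 / 4 * X k + Y k + if k + 1 = k0 then a else 0) +
        if 0 = k0 then a else 0 := by
    rw [Finset.sum_range_succ']
    exact add_le_add (Finset.sum_le_sum fun k hk => hs k (Finset.mem_range.1 hk)) h0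
  have h2 : ∑ k ∈ Finset.range N, (if k + 1 = k0 then a else 0) + (if 0 = k0 then a else 0) =
      ∑ k ∈ Finset.range (N + 1), (if k = k0 then a else 0) := by
    rw [Finset.sum_range_succ' (fun k => if k = k0 then a else 0)]
  have h3 : ∑ k ∈ Finset.range (N + 1), (if k = k0 then a else 0) ≤ a := by
    rw [Finset.sum_ite_eq']
    split_ifs
    · exact le_rfl
    · exact ha
  have h4 : ∑ k ∈ Finset.range N, X k ≤ ∑ k ∈ Finset.range (N + 1), X k := by
    rw [Finset.sum_range_succ]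
    linarith [hX N]
  rw [Finset.sum_add_distrib, Finset.sum_add_distrib, ← Finset.mul_sum] at h1
  linarith

theorem mass_nonneg {μ : Measure (E d)} {x0 : E d} {s0 lam : ℝ} {N : ℕ}
    (T : Nets μ x0 s0 lam N) (k : ℕ) (p : E d) : 0 ≤ mass T k p := by
  unfold mass
  positivity

section

variable {μ ν : Measure (E d)} {x0 : E d} {s0 lam : ℝ} {N : ℕ} {T : Nets μ x0 s0 lam N}
  {C1 ε1 κ : ℝ} {k0 : ℕ} {p0 : E d}

open Classical in
/-- the level sums `X k` of a regime -/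
noncomputable def levX (G : Regime n ν T C1 ε1 κ k0 p0) (k : ℕ) : ℝ :=
  ∑ p ∈ (T.pts k).filter (fun p => k0 ≤ k ∧ G.Act k p), G.ε k p ^ 2 * mass T k p

open Classical in
/-- the level sums of the energies -/
noncomputable def levE (T : Nets μ x0 s0 lam N) (D : ℝ) (e : ℕ → E d → ℝ) (k0 : ℕ)
    (Act : ℕ → E d → Prop) (k : ℕ) : ℝ :=
  ∑ q ∈ (T.pts (k + 1)).filter (fun q => k0 ≤ k ∧ Act k (T.par k q)),
    (e (k + 1) q + 4 * (s0 * lam ^ k) / D) * mass T (k + 1) q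

theorem regEn_eq (T : Nets μ x0 s0 lam N) (D : ℝ) (e : ℕ → E d → ℝ) (k0 : ℕ)
    (Act : ℕ → E d → Prop) :
    regEn T D e k0 Act = ∑ k ∈ Finset.range N, levE T D e k0 Act k := by
  unfold regEn levE
  rfl

theorem levX_nonneg (G : Regime n ν T C1 ε1 κ k0 p0) (k : ℕ) : 0 ≤ levX G k := by
  unfold levX
  exact Finset.sum_nonneg fun p _ => mul_nonneg (sq_nonneg _) (mass_nonneg T k p)

theorem levX_start (G : Regime n ν T C1 ε1 κ k0 p0) :
    levX G k0 ≤ G.ε k0 p0 ^ 2 * mass T k0 p0 := by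
  classical
  unfold levX
  have h : (T.pts k0).filter (fun p => k0 ≤ k0 ∧ G.Act k0 p) ⊆ {p0} := by
    intro p hp
    rw [Finset.mem_filter] at hp
    rw [Finset.mem_singleton]
    exact G.act_top p hp.2.2
  refine (Finset.sum_le_sum_of_subset_of_nonneg h ?_).trans ?_
  · intro p _ _
    exact mul_nonneg (sq_nonneg _) (mass_nonneg T _ p)
  · rw [Finset.sum_singleton]

theorem levX_below (G : Regime n ν T C1 ε1 κ k0 p0) {k : ℕ} (hk : k < k0) : levX G k = 0 := by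
  classical
  unfold levX
  apply Finset.sum_eq_zero
  intro p hp
  rw [Finset.mem_filter] at hp
  omega

open Classical in
/-- the level sum written over the children -/
theorem levX_children (G : Regime n ν T C1 ε1 κ k0 p0) {k : ℕ} (hk : k < N) :
    ∑ q ∈ (T.pts (k + 1)).filter (fun q => k0 ≤ k ∧ G.Act k (T.par k q)),
      G.ε k (T.par k q) ^ 2 * mass T (k + 1) q = levX G k := by
  classical
  unfold levX
  have h1 : ∀ p ∈ (T.pts k).filter (fun p => k0 ≤ k ∧ G.Act k p), G.ε k p ^ 2 * mass T k p =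
      ∑ q ∈ T.pts (k + 1), if T.par k q = p then G.ε k p ^ 2 * mass T (k + 1) q else 0 := by
    intro p hp
    rw [Finset.mem_filter] at hp
    rw [mass_children T (k := k) (i := 1) hk p hp.1, Finset.mul_sum]
    apply Finset.sum_congr rfl
    intro q _
    have hup : up T.par k 1 q = T.par k q := rfl
    rw [hup]
    split_ifs with h
    · rfl
    · exact mul_zero _
  rw [Finset.sum_congr rfl h1, Finset.sum_comm, Finset.sum_filter]
  apply Finset.sum_congr rfl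
  intro q hq
  have hpar := T.par_mem k hk q hq
  rw [Finset.sum_ite_eq]
  simp only [Finset.mem_filter, hpar, true_and]

end

theorem sq_max_le (x y : ℝ) : max x y ^ 2 ≤ x ^ 2 + y ^ 2 := by
  rcases le_total x y with h | h
  · rw [max_eq_right h]
    linarith [sq_nonneg x]
  · rw [max_eq_left h]
    linarith [sq_nonneg y]

section

variable {μ ν : Measure (E d)} {x0 : E d} {s0 lam : ℝ} {N : ℕ} {T : Nets μ x0 s0 lam N}
  {C1 ε1 κ : ℝ} {k0 : ℕ} {p0 : E d}

theorem levE_nonneg (hs0 : 0 < s0) (hlam : 0 < lam) {D : ℝ} (hD : 0 < D) {e : ℕ → E d → ℝ}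
    (he : ∀ k p, 0 ≤ e k p) (Act : ℕ → E d → Prop) (k : ℕ) : 0 ≤ levE T D e k0 Act k := by
  classical
  unfold levE
  refine Finset.sum_nonneg fun q _ => mul_nonneg ?_ (mass_nonneg T _ q)
  have := he (k + 1) q
  positivity

/-- one step of the geometric recursion -/
theorem levX_step (hs0 : 0 < s0) (hlam : 0 < lam) {D K : ℝ} (hD : 0 < D) {e : ℕ → E d → ℝ}
    (he : ∀ k p, 0 ≤ e k p) (G : Regime n ν T C1 ε1 κ k0 p0)
    (hε : ∀ k, k0 ≤ k → k < N → ∀ q ∈ T.pts (k + 1), G.Act k (T.par k q) →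
        G.ε (k + 1) q = max (G.ε k (T.par k q) / 2)
          (K * Real.sqrt (e (k + 1) q + 4 * (s0 * lam ^ k) / D))) {k : ℕ} (hk : k < N) :
    levX G (k + 1) ≤ 1 / 4 * levX G k + K ^ 2 * levE T D e k0 G.Act k +
      if k + 1 = k0 then G.ε k0 p0 ^ 2 * mass T k0 p0 else 0 := by
  classical
  have hX := levX_nonneg G k
  have hE := levE_nonneg (T := T) (k0 := k0) hs0 hlam hD he G.Act k
  have hKE : 0 ≤ K ^ 2 * levE T D e k0 G.Act k := mul_nonneg (sq_nonneg K) hE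
  rcases lt_trichotomy (k + 1) k0 with h | h | h
  · rw [levX_below G h, if_neg (by omega)]
    linarith
  · rw [if_pos h, h]
    have := levX_start G
    linarith
  · have hkk : k0 ≤ k := by omega
    rw [if_neg (by omega), add_zero, ← levX_children G hk]
    have h1 : levX G (k + 1) ≤
        ∑ q ∈ (T.pts (k + 1)).filter (fun q => k0 ≤ k ∧ G.Act k (T.par k q)),
          G.ε (k + 1) q ^ 2 * mass T (k + 1) q := by
      unfold levX
      apply Finset.sum_le_sum_of_subset_of_nonneg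
      · intro q hq
        rw [Finset.mem_filter] at hq ⊢
        exact ⟨hq.1, hkk, G.act_par k q hkk hq.2.2⟩
      · intro q _ _
        exact mul_nonneg (sq_nonneg _) (mass_nonneg T _ q)
    refine h1.trans ?_
    unfold levE
    rw [Finset.mul_sum, Finset.mul_sum, ← Finset.sum_add_distrib]
    apply Finset.sum_le_sum
    intro q hq
    rw [Finset.mem_filter] at hq
    rw [hε k hkk hk q hq.1 hq.2.2]
    have hm := mass_nonneg T (k + 1) q
    have h2 := sq_max_le (G.ε k (T.par k q) / 2)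
      (K * Real.sqrt (e (k + 1) q + 4 * (s0 * lam ^ k) / D))
    have h3 : (K * Real.sqrt (e (k + 1) q + 4 * (s0 * lam ^ k) / D)) ^ 2 =
        K ^ 2 * (e (k + 1) q + 4 * (s0 * lam ^ k) / D) := by
      rw [mul_pow, Real.sq_sqrt]
      have := he (k + 1) q
      positivity
    rw [h3] at h2
    calc _ ≤ ((G.ε k (T.par k q) / 2) ^ 2 + K ^ 2 * (e (k + 1) q + 4 * (s0 * lam ^ k) / D)) *
          mass T (k + 1) q := mul_le_mul_of_nonneg_right h2 hm
      _ = _ := by ring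

/-- the sum of all level sums -/
theorem sum_levX (hs0 : 0 < s0) (hlam : 0 < lam) {D K : ℝ} (hD : 0 < D) {e : ℕ → E d → ℝ}
    (he : ∀ k p, 0 ≤ e k p) (G : Regime n ν T C1 ε1 κ k0 p0)
    (hε : ∀ k, k0 ≤ k → k < N → ∀ q ∈ T.pts (k + 1), G.Act k (T.par k q) →
        G.ε (k + 1) q = max (G.ε k (T.par k q) / 2)
          (K * Real.sqrt (e (k + 1) q + 4 * (s0 * lam ^ k) / D))) :
    ∑ k ∈ Finset.range (N + 1), levX G k ≤
      4 / 3 * (G.ε k0 p0 ^ 2 * mass T k0 p0 + K ^ 2 * regEn T D e k0 G.Act) := by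
  rw [regEn_eq, Finset.mul_sum]
  apply geom_level_sum (k0 := k0) (mul_nonneg (sq_nonneg _) (mass_nonneg T _ _))
    (levX_nonneg G)
  · split_ifs with h
    · subst h
      exact levX_start G
    · rw [levX_below G (by omega)]
  · intro k hk
    exact levX_step hs0 hlam hD he G hε hk

open Classical in
/-- nodes stopped because of the energy -/
theorem stop_energy (hs0 : 0 < s0) (hlam : 0 < lam) {D K : ℝ} (hD : 0 < D) (hε1 : 0 < ε1)
    (hK : 1 ≤ K) {e : ℕ → E d → ℝ}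
    (he : ∀ k p, 0 ≤ e k p) (G : Regime n ν T C1 ε1 κ k0 p0)
    (hε : ∀ k, k0 ≤ k → k < N → ∀ q ∈ T.pts (k + 1), G.Act k (T.par k q) →
        G.ε (k + 1) q = max (G.ε k (T.par k q) / 2)
          (K * Real.sqrt (e (k + 1) q + 4 * (s0 * lam ^ k) / D))) {k : ℕ} (hk : k < N) :
    ∑ q ∈ (T.pts (k + 1)).filter (fun q => k0 ≤ k ∧ G.Act k (T.par k q) ∧ ε1 < G.ε (k + 1) q),
      mass T (k + 1) q ≤ (K / ε1) ^ 2 * levE T D e k0 G.Act k := by
  have h1 : ∑ q ∈ (T.pts (k + 1)).filter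
      (fun q => k0 ≤ k ∧ G.Act k (T.par k q) ∧ ε1 < G.ε (k + 1) q), mass T (k + 1) q ≤
      ∑ q ∈ (T.pts (k + 1)).filter
        (fun q => k0 ≤ k ∧ G.Act k (T.par k q) ∧ ε1 < G.ε (k + 1) q),
        (K / ε1) ^ 2 * ((e (k + 1) q + 4 * (s0 * lam ^ k) / D) * mass T (k + 1) q) := by
    apply Finset.sum_le_sum
    intro q hq
    rw [Finset.mem_filter] at hq
    obtain ⟨hq1, hq2, hq3, hq4⟩ := hq
    have h2 := hε k hq2 hk q hq1 hq3
    have h3 : G.ε k (T.par k q) ≤ ε1 := (G.small k _ hq3).1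
    have h5 : 0 ≤ e (k + 1) q + 4 * (s0 * lam ^ k) / D := by
      have := he (k + 1) q
      positivity
    have h4 : ε1 < K * Real.sqrt (e (k + 1) q + 4 * (s0 * lam ^ k) / D) := by
      rw [h2] at hq4
      rcases lt_max_iff.1 hq4 with h | h
      · linarith
      · exact h
    have h6 : ε1 ^ 2 ≤ K ^ 2 * (e (k + 1) q + 4 * (s0 * lam ^ k) / D) := by
      have h7 := pow_le_pow_left₀ hε1.le h4.le 2
      rwa [mul_pow, Real.sq_sqrt h5] at h7
    have h8 : 1 ≤ (K / ε1) ^ 2 * (e (k + 1) q + 4 * (s0 * lam ^ k) / D) := by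
      rw [div_pow, div_mul_eq_mul_div, one_le_div (by positivity)]
      exact h6
    have hm := mass_nonneg T (k + 1) q
    calc mass T (k + 1) q = 1 * mass T (k + 1) q := (one_mul _).symm
      _ ≤ (K / ε1) ^ 2 * (e (k + 1) q + 4 * (s0 * lam ^ k) / D) * mass T (k + 1) q :=
        mul_le_mul_of_nonneg_right h8 hm
      _ = _ := by ring
  refine h1.trans ?_
  rw [← Finset.mul_sum]
  apply mul_le_mul_of_nonneg_left _ (sq_nonneg _)
  unfold levE
  apply Finset.sum_le_sum_of_subset_of_nonneg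
  · intro q hq
    rw [Finset.mem_filter] at hq ⊢
    exact ⟨hq.1, hq.2.1, hq.2.2.1⟩
  · intro q _ _
    refine mul_nonneg ?_ (mass_nonneg T _ q)
    have := he (k + 1) q
    positivity

open Classical in
/-- nodes stopped because of the tilt -/
theorem stop_tilt (hs0 : 0 < s0) (hlam : 0 < lam) (hlam1 : lam ≤ 1 / 64) {a A Ct : ℝ}
    (ha : 0 < a) (hA : 0 < A) (hCt : 0 < Ct) (hp0 : ‖p0 - x0‖ ≤ 2 * s0)
    (G : Regime n ν T C1 ε1 κ k0 p0)
    (hlow : ∀ k ≤ N, ∀ p ∈ T.pts k, ‖p - x0‖ ≤ 4 * s0 →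
        a * (lam ^ k / lam ^ N) ^ n ≤ mass T k p)
    (hup : ∀ k ≤ N, ∀ p ∈ T.pts k, mass T k p ≤ A * (lam ^ k / lam ^ N) ^ n)
    (htilt : ∑ k ∈ Finset.range N, ∑ q ∈ (T.pts (k + 1)).filter (fun q => k0 ≤ k ∧
          G.Act k (T.par k q) ∧ G.ε (k + 1) q ≤ ε1 ∧ κ < ‖G.M (k + 1) q‖),
            (s0 * lam ^ (k + 1)) ^ n ≤
        Ct * ∑ k ∈ Finset.range (N + 1), ∑ p ∈ (T.pts k).filter (fun p => k0 ≤ k ∧ G.Act k p),
          G.ε k p ^ 2 * (s0 * lam ^ k) ^ n) :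
    ∑ k ∈ Finset.range N, ∑ q ∈ (T.pts (k + 1)).filter (fun q => k0 ≤ k ∧
          G.Act k (T.par k q) ∧ G.ε (k + 1) q ≤ ε1 ∧ κ < ‖G.M (k + 1) q‖), mass T (k + 1) q ≤
      A * Ct / a * ∑ k ∈ Finset.range (N + 1), levX G k := by
  set Z : ℝ := (s0 * lam ^ N) ^ n with hZ
  have hlN : 0 < lam ^ N := pow_pos hlam N
  have hZ0 : 0 < Z := pow_pos (mul_pos hs0 hlN) n
  have hscale : ∀ k : ℕ, (s0 * lam ^ k) ^ n = Z * (lam ^ k / lam ^ N) ^ n := by
    intro k
    rw [hZ, ← mul_pow]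
    congr 1
    field_simp
  -- upper bound of the left side
  have h1 : ∑ k ∈ Finset.range N, ∑ q ∈ (T.pts (k + 1)).filter (fun q => k0 ≤ k ∧
          G.Act k (T.par k q) ∧ G.ε (k + 1) q ≤ ε1 ∧ κ < ‖G.M (k + 1) q‖), mass T (k + 1) q ≤
      A / Z * ∑ k ∈ Finset.range N, ∑ q ∈ (T.pts (k + 1)).filter (fun q => k0 ≤ k ∧
          G.Act k (T.par k q) ∧ G.ε (k + 1) q ≤ ε1 ∧ κ < ‖G.M (k + 1) q‖),
            (s0 * lam ^ (k + 1)) ^ n := by
    rw [Finset.mul_sum]
    apply Finset.sum_le_sum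
    intro k hk
    rw [Finset.mul_sum]
    apply Finset.sum_le_sum
    intro q hq
    rw [Finset.mem_filter] at hq
    refine (hup (k + 1) (Finset.mem_range.1 hk) q hq.1).trans (le_of_eq ?_)
    rw [hscale]
    field_simp
  -- upper bound of the right side
  have h2 : ∑ k ∈ Finset.range (N + 1), ∑ p ∈ (T.pts k).filter (fun p => k0 ≤ k ∧ G.Act k p),
          G.ε k p ^ 2 * (s0 * lam ^ k) ^ n ≤ Z / a * ∑ k ∈ Finset.range (N + 1), levX G k := by
    rw [Finset.mul_sum]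
    apply Finset.sum_le_sum
    intro k hk
    unfold levX
    rw [Finset.mul_sum]
    apply Finset.sum_le_sum
    intro p hp
    rw [Finset.mem_filter] at hp
    obtain ⟨hp1, hp2, hp3⟩ := hp
    have hkN : k ≤ N := by
      have := Finset.mem_range.1 hk
      omega
    -- distance of p to the root
    have hdist : ‖p - p0‖ ≤ 64 / 63 * (s0 * lam ^ k0) := by
      have e : k0 + (k - k0) = k := by omega
      have hu := Nets.up_dist hs0 hlam hlam1 T (j := k0) (i := k - k0) (by rw [e]; exact hkN)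
        (p := p) (by rw [e]; exact hp1)
      have hact : up T.par k0 (k - k0) p = p0 := by
        apply G.act_top
        have aux : ∀ (i : ℕ) (r : E d), G.Act (k0 + i) r → G.Act k0 (up T.par k0 i r) := by
          intro i
          induction i with
          | zero => intro r hr; exact hr
          | succ i ih => intro r hr; exact ih _ (G.act_par (k0 + i) r (by omega) hr)
        apply aux
        rw [e]
        exact hp3
      rwa [hact] at hu
    have hs : s0 * lam ^ k0 ≤ s0 := by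
      have : lam ^ k0 ≤ 1 := pow_le_one₀ hlam.le (by linarith)
      calc s0 * lam ^ k0 ≤ s0 * 1 := mul_le_mul_of_nonneg_left this hs0.le
        _ = s0 := mul_one _
    have hd : ‖p - x0‖ ≤ 4 * s0 := by
      calc ‖p - x0‖ = ‖(p - p0) + (p0 - x0)‖ := by rw [sub_add_sub_cancel]
        _ ≤ ‖p - p0‖ + ‖p0 - x0‖ := norm_add_le _ _
        _ ≤ _ := by linarith
    have hl := hlow k hkN p hp1 hd
    have hl' : (s0 * lam ^ k) ^ n ≤ Z / a * mass T k p := by
      rw [hscale]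
      calc Z * (lam ^ k / lam ^ N) ^ n = Z / a * (a * (lam ^ k / lam ^ N) ^ n) := by field_simp
        _ ≤ _ := mul_le_mul_of_nonneg_left hl (by positivity)
    calc G.ε k p ^ 2 * (s0 * lam ^ k) ^ n ≤ G.ε k p ^ 2 * (Z / a * mass T k p) :=
          mul_le_mul_of_nonneg_left hl' (sq_nonneg _)
      _ = _ := by ring
  calc _ ≤ A / Z * ∑ k ∈ Finset.range N, ∑ q ∈ (T.pts (k + 1)).filter (fun q => k0 ≤ k ∧
          G.Act k (T.par k q) ∧ G.ε (k + 1) q ≤ ε1 ∧ κ < ‖G.M (k + 1) q‖),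
            (s0 * lam ^ (k + 1)) ^ n := h1
    _ ≤ A / Z * (Ct * (Z / a * ∑ k ∈ Finset.range (N + 1), levX G k)) := by
        apply mul_le_mul_of_nonneg_left _ (by positivity)
        exact htilt.trans (mul_le_mul_of_nonneg_left h2 hCt.le)
    _ = _ := by field_simp

/-- splitting of the stopped nodes -/
theorem stopMass_split (hε1 : 0 < ε1) (G : Regime n ν T C1 ε1 κ k0 p0) :
    stopMass T k0 G.Act ≤ (by
      classical
      exact ∑ k ∈ Finset.range N, ∑ q ∈ (T.pts (k + 1)).filter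
        (fun q => k0 ≤ k ∧ G.Act k (T.par k q) ∧ ε1 < G.ε (k + 1) q), mass T (k + 1) q) +
      (by
      classical
      exact ∑ k ∈ Finset.range N, ∑ q ∈ (T.pts (k + 1)).filter
        (fun q => k0 ≤ k ∧ G.Act k (T.par k q) ∧ G.ε (k + 1) q ≤ ε1 ∧ κ < ‖G.M (k + 1) q‖),
          mass T (k + 1) q) := by
  classical
  unfold stopMass
  rw [← Finset.sum_add_distrib]
  apply Finset.sum_le_sum
  intro k hk
  rw [← Finset.sum_union_inter]
  refine le_trans ?_ (le_add_of_nonneg_right ?_)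
  · apply Finset.sum_le_sum_of_subset_of_nonneg
    · intro q hq
      rw [Finset.mem_union, Finset.mem_filter, Finset.mem_filter]
      rw [Finset.mem_filter] at hq
      obtain ⟨hq1, hq2, hq3, hq4⟩ := hq
      by_cases h : G.ε (k + 1) q ≤ ε1
      · right
        refine ⟨hq1, hq2, hq3, h, ?_⟩
        by_contra hcon
        exact hq4 ((G.act_iff k (Finset.mem_range.1 hk) q hq1 hq3).2 ⟨h, not_lt.1 hcon⟩)
      · left
        exact ⟨hq1, hq2, hq3, not_le.1 h⟩
    · intro q _ _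
      exact mass_nonneg T _ q
  · exact Finset.sum_nonneg fun q _ => mass_nonneg T _ q

end

/-- `UR/StopSum.lean` (uses tilt_packing, card_leaves_*, mass_children): (H1) of the packing. -/
theorem stop_sum (n d : ℕ) (hn : 1 ≤ n) (C c lam K C1 κ : ℝ) (hC : 0 < C) (hc : 0 < c)
    (hlam : 0 < lam) (hlam1 : lam ≤ 1 / 64) (hK : 1 ≤ K) (hC1 : 1 ≤ C1) (hκ : 0 < κ)
    (hκ1 : κ ≤ 1 / 10) :
    ∃ ε1m : ℝ, 0 < ε1m ∧ ∀ ε1 : ℝ, 0 < ε1 → ε1 ≤ ε1m → ∃ ε0m : ℝ, 0 < ε0m ∧ ∃ Cs : ℝ, 0 < Cs ∧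
      ∀ ε0 : ℝ, 0 < ε0 → ε0 ≤ ε0m → ε0 ≤ ε1 →
      ∀ (μ : Measure (E d)) (x0 : E d) (D s0 : ℝ) (N : ℕ), UB n μ C → LB n μ c D → 0 < s0 →
      100 * s0 ≤ D → ∀ (T : Nets μ x0 s0 lam N) (e : ℕ → E d → ℝ), (∀ k p, 0 ≤ e k p) →
      ∀ (k0 : ℕ) (p0 : E d), ‖p0 - x0‖ ≤ 2 * s0 →
      ∀ (G : Regime n (μ.restrict (closedBall x0 D)) T C1 ε1 κ k0 p0), G.ε k0 p0 = ε0 →
      (∀ k, k0 ≤ k → k < N → ∀ q ∈ T.pts (k + 1), G.Act k (T.par k q) →
        G.ε (k + 1) q = max (G.ε k (T.par k q) / 2)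
          (K * Real.sqrt (e (k + 1) q + 4 * (s0 * lam ^ k) / D))) →
      stopMass T k0 G.Act ≤ 1 / 4 * mass T k0 p0 + Cs * regEn T D e k0 G.Act := by
  classical
  obtain ⟨a, ha, hlow⟩ := card_leaves_lower n d C c hC hc
  obtain ⟨A, hA, hup⟩ := card_leaves_upper n d C c hC hc
  obtain ⟨ε1m, hε1m, Ct, hCt, htilt⟩ := tilt_packing n d hn C c lam C1 κ hC hc hlam hlam1 hC1 hκ
    hκ1
  refine ⟨ε1m, hε1m, fun ε1 hε1 hε1' => ?_⟩
  set B : ℝ := A * Ct / a * (4 / 3) with hB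
  have hB0 : 0 < B := by positivity
  refine ⟨min 1 (1 / (4 * B)), by positivity, (K / ε1) ^ 2 + B * K ^ 2, by positivity, ?_⟩
  intro ε0 hε0 hε0m hε01 μ x0 D s0 N hU hL hs0 hs0D T e he k0 p0 hp0 G hG0 hε
  have hD : 0 < D := by linarith
  have hs16 : 16 * s0 ≤ D := by linarith
  have h1 := stopMass_split hε1 G
  have h2 := stop_tilt hs0 hlam hlam1 ha hA hCt hp0 G
    (fun k hk p hp hd => hlow μ x0 D s0 lam N hU hL hs0 hs16 hlam hlam1 T k hk p hp hd)
    (fun k hk p hp => hup μ x0 D s0 lam N hU hL hs0 hs16 hlam hlam1 T k hk p hp)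
    (htilt ε1 hε1 hε1' μ x0 D s0 N hU hL hs0 hs0D T k0 p0 hp0 G)
  have h3 := sum_levX hs0 hlam hD he G hε
  have h4 : ∑ k ∈ Finset.range N, ∑ q ∈ (T.pts (k + 1)).filter
      (fun q => k0 ≤ k ∧ G.Act k (T.par k q) ∧ ε1 < G.ε (k + 1) q), mass T (k + 1) q ≤
      (K / ε1) ^ 2 * regEn T D e k0 G.Act := by
    rw [regEn_eq, Finset.mul_sum]
    exact Finset.sum_le_sum fun k hk => stop_energy hs0 hlam hD hε1 hK he G hε
      (Finset.mem_range.1 hk)
  have h5 : A * Ct / a * ∑ k ∈ Finset.range (N + 1), levX G k ≤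
      B * (ε0 ^ 2 * mass T k0 p0 + K ^ 2 * regEn T D e k0 G.Act) := by
    rw [hG0] at h3
    calc _ ≤ A * Ct / a * (4 / 3 * (ε0 ^ 2 * mass T k0 p0 + K ^ 2 * regEn T D e k0 G.Act)) :=
          mul_le_mul_of_nonneg_left h3 (by positivity)
      _ = _ := by rw [hB]; ring
  have h6 : B * ε0 ^ 2 ≤ 1 / 4 := by
    have e1 : ε0 ≤ 1 := hε0m.trans (min_le_left _ _)
    have e2 : ε0 ≤ 1 / (4 * B) := hε0m.trans (min_le_right _ _)
    have e3 : ε0 ^ 2 ≤ 1 / (4 * B) := by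
      calc ε0 ^ 2 = ε0 * ε0 := sq ε0
        _ ≤ ε0 * 1 := mul_le_mul_of_nonneg_left e1 hε0.le
        _ ≤ _ := by linarith
    calc B * ε0 ^ 2 ≤ B * (1 / (4 * B)) := mul_le_mul_of_nonneg_left e3 hB0.le
      _ = 1 / 4 := by field_simp
  have hm := mass_nonneg T k0 p0
  have h7 : B * ε0 ^ 2 * mass T k0 p0 ≤ 1 / 4 * mass T k0 p0 :=
    mul_le_mul_of_nonneg_right h6 hm
  calc stopMass T k0 G.Act ≤ _ := h1
    _ ≤ (K / ε1) ^ 2 * regEn T D e k0 G.Act +
        B * (ε0 ^ 2 * mass T k0 p0 + K ^ 2 * regEn T D e k0 G.Act) :=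
      add_le_add h4 (h2.trans h5)
    _ = B * ε0 ^ 2 * mass T k0 p0 + ((K / ε1) ^ 2 + B * K ^ 2) * regEn T D e k0 G.Act := by ring
    _ ≤ _ := by linarith

end Vale.Agent.P120
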