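import Vale.Agent.Lib.P120.UR.AlmostOrth
import Vale.Agent.Lib.P120.UR.Step
import Vale.Agent.Lib.P120.UR.StopSum
import Vale.Agent.Lib.P120.UR.StartDense
import Vale.Agent.Lib.P120.UR.Packing
import Vale.Agent.Lib.P120.UR.Glue
import Vale.Agent.Lib.P120.UR.NetsExist
import Vale.Agent.Lib.P120.UR.Leaves
import Vale.Agent.Lib.P120.UR.RegimeExists

/-!
P120, module FiniteDepth: assembly of the finite depth statement `finite_depth`.
-/

open MeasureTheory Filter Set Metric Module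
open scoped Topology ENNReal NNReal RealInnerProductSpace

namespace Vale.Agent.P120



variable {d n : ℕ}

/-- `StepProp` is monotone in the threshold. -/
theorem StepProp.fd_mono {C c lam Lam K C1 ε1 ε1' : ℝ} (h : StepProp n d C c lam Lam K C1 ε1)
    (h1 : ε1' ≤ ε1) : StepProp n d C c lam Lam K C1 ε1' := by
  intro ν hU hb p q s D hq hs hsD hqp hL U M b ε a ε' hM hP hε hG ha hE hεε' hK hε1
  exact h ν hU hb p q s D hq hs hsD hqp hL U M b ε a ε' hM hP hε hG ha hE hεε' hK (hε1.trans h1)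

theorem fd_geom {lam : ℝ} (hlam : 0 < lam) (hlam1 : lam ≤ 1 / 64) (N : ℕ) :
    ∑ k ∈ Finset.range N, lam ^ k ≤ 2 := by
  have h1 : lam < 1 := by linarith
  have h2 : ∑ k ∈ Finset.range N, lam ^ k ≤ ∑' k : ℕ, lam ^ k :=
    (summable_geometric_of_lt_one hlam.le h1).sum_le_tsum _ (fun i _ => by positivity)
  rw [tsum_geometric_of_lt_one hlam.le h1] at h2
  have h3 : (1 - lam)⁻¹ ≤ 2 := by
    rw [inv_le_comm₀ (by linarith) (by norm_num)]
    linarith
  linarith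

/-- The energy bound in mass units. -/
theorem fd_energy_mass {μ : Measure (E d)} {x0 : E d} {s0 lam D : ℝ} {N : ℕ}
    (T : Nets μ x0 s0 lam N) (e : ℕ → E d → ℝ) (he0 : ∀ k p, 0 ≤ e k p) {A A' a CE : ℝ}
    (hlam : 0 < lam) (hlam1 : lam ≤ 1 / 64) (hs0 : 0 < s0) (hD : D = 100 * s0) (ha : 0 < a)
    (hA : 0 < A) (hA' : 0 < A') (hCE : 0 < CE)
    (hlow : a * (lam ^ 0 / lam ^ N) ^ n ≤ mass T 0 x0)
    (hup : ∀ k ≤ N, ∀ p ∈ T.pts k, mass T k p ≤ A * (lam ^ k / lam ^ N) ^ n)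
    (hcard : ∀ k ≤ N, ((T.pts k).card : ℝ) ≤ A' * (1 / lam ^ k) ^ n)
    (hE : ∑ k ∈ Finset.range (N + 1), ∑ p ∈ T.pts k, e k p * (s0 * lam ^ k) ^ n ≤ CE * D ^ n) :
    ∑ k ∈ Finset.range N, ∑ q ∈ T.pts (k + 1),
        (e (k + 1) q + 4 * (s0 * lam ^ k) / D) * mass T (k + 1) q ≤
      (A * CE * 100 ^ n / a + A * A' / a) * mass T 0 x0 := by
  set W : ℝ := (1 / lam ^ N) ^ n with hW
  have hWpos : 0 < W := by positivity
  have hDpos : 0 < D := by rw [hD]; positivity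
  have hkey : ∀ k ∈ Finset.range N, ∀ q ∈ T.pts (k + 1),
      (e (k + 1) q + 4 * (s0 * lam ^ k) / D) * mass T (k + 1) q ≤
        A * W / s0 ^ n * (e (k + 1) q * (s0 * lam ^ (k + 1)) ^ n) +
          A * W * (1 / 25 * lam ^ k) * (lam ^ (k + 1)) ^ n := by
    intro k hk q hq
    have hkN : k + 1 ≤ N := Finset.mem_range.mp hk
    have h1 := hup (k + 1) hkN q hq
    have h2 : (lam ^ (k + 1) / lam ^ N) ^ n = W * (lam ^ (k + 1)) ^ n := by
      rw [hW, ← mul_pow]; congr 1; field_simp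
    rw [h2] at h1
    have h3 : 4 * (s0 * lam ^ k) / D = 1 / 25 * lam ^ k := by
      rw [hD]; field_simp; ring
    rw [h3]
    have h4 : 0 ≤ e (k + 1) q + 1 / 25 * lam ^ k := by
      have := he0 (k + 1) q
      positivity
    calc (e (k + 1) q + 1 / 25 * lam ^ k) * mass T (k + 1) q
        ≤ (e (k + 1) q + 1 / 25 * lam ^ k) * (A * (W * (lam ^ (k + 1)) ^ n)) :=
          mul_le_mul_of_nonneg_left h1 h4
      _ = _ := by
          rw [mul_pow]
          field_simp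
  have hsum1 : ∑ k ∈ Finset.range N, ∑ q ∈ T.pts (k + 1),
        (e (k + 1) q + 4 * (s0 * lam ^ k) / D) * mass T (k + 1) q ≤
      ∑ k ∈ Finset.range N, ∑ q ∈ T.pts (k + 1),
        (A * W / s0 ^ n * (e (k + 1) q * (s0 * lam ^ (k + 1)) ^ n) +
          A * W * (1 / 25 * lam ^ k) * (lam ^ (k + 1)) ^ n) :=
    Finset.sum_le_sum fun k hk => Finset.sum_le_sum fun q hq => hkey k hk q hq
  have hsum2 : ∑ k ∈ Finset.range N, ∑ q ∈ T.pts (k + 1),
        (A * W / s0 ^ n * (e (k + 1) q * (s0 * lam ^ (k + 1)) ^ n) +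
          A * W * (1 / 25 * lam ^ k) * (lam ^ (k + 1)) ^ n) =
      A * W / s0 ^ n * ∑ k ∈ Finset.range N, ∑ q ∈ T.pts (k + 1),
          e (k + 1) q * (s0 * lam ^ (k + 1)) ^ n +
        ∑ k ∈ Finset.range N, ((T.pts (k + 1)).card : ℝ) *
          (A * W * (1 / 25 * lam ^ k) * (lam ^ (k + 1)) ^ n) := by
    simp only [Finset.sum_add_distrib, Finset.mul_sum, Finset.sum_const, nsmul_eq_mul]
  have hb1 : ∑ k ∈ Finset.range N, ∑ q ∈ T.pts (k + 1),
      e (k + 1) q * (s0 * lam ^ (k + 1)) ^ n ≤ CE * D ^ n := by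
    refine le_trans ?_ hE
    rw [Finset.sum_range_succ' (fun k => ∑ p ∈ T.pts k, e k p * (s0 * lam ^ k) ^ n) N]
    have : 0 ≤ ∑ p ∈ T.pts 0, e 0 p * (s0 * lam ^ 0) ^ n :=
      Finset.sum_nonneg fun p _ => mul_nonneg (he0 0 p) (by positivity)
    linarith
  have hb2 : ∑ k ∈ Finset.range N, ((T.pts (k + 1)).card : ℝ) *
      (A * W * (1 / 25 * lam ^ k) * (lam ^ (k + 1)) ^ n) ≤ A * A' * W := by
    have hterm : ∀ k ∈ Finset.range N, ((T.pts (k + 1)).card : ℝ) *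
        (A * W * (1 / 25 * lam ^ k) * (lam ^ (k + 1)) ^ n) ≤ A * A' * W / 25 * lam ^ k := by
      intro k hk
      have hkN : k + 1 ≤ N := Finset.mem_range.mp hk
      have h1 := hcard (k + 1) hkN
      calc ((T.pts (k + 1)).card : ℝ) * (A * W * (1 / 25 * lam ^ k) * (lam ^ (k + 1)) ^ n)
          ≤ (A' * (1 / lam ^ (k + 1)) ^ n) *
            (A * W * (1 / 25 * lam ^ k) * (lam ^ (k + 1)) ^ n) :=
            mul_le_mul_of_nonneg_right h1 (by positivity)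
        _ = A * A' * W / 25 * lam ^ k * ((1 / lam ^ (k + 1)) ^ n * (lam ^ (k + 1)) ^ n) := by
            ring
        _ = _ := by
            rw [← mul_pow, one_div, inv_mul_cancel₀ (by positivity), one_pow, mul_one]
    refine (Finset.sum_le_sum hterm).trans ?_
    rw [← Finset.mul_sum]
    have hg := fd_geom hlam hlam1 N
    have hpos : 0 ≤ A * A' * W := by positivity
    calc A * A' * W / 25 * ∑ k ∈ Finset.range N, lam ^ k ≤ A * A' * W / 25 * 2 :=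
          mul_le_mul_of_nonneg_left hg (by positivity)
      _ ≤ _ := by linarith
  have hb3 : A * W / s0 ^ n * (CE * D ^ n) = A * CE * 100 ^ n * W := by
    rw [hD, mul_pow]
    field_simp
  have hmass : a * W ≤ mass T 0 x0 := by
    have : (lam ^ 0 / lam ^ N) ^ n = W := by rw [hW, pow_zero]
    rw [this] at hlow
    exact hlow
  calc ∑ k ∈ Finset.range N, ∑ q ∈ T.pts (k + 1),
        (e (k + 1) q + 4 * (s0 * lam ^ k) / D) * mass T (k + 1) q
      ≤ _ := hsum1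
    _ = _ := hsum2
    _ ≤ A * W / s0 ^ n * (CE * D ^ n) + A * A' * W :=
        add_le_add (mul_le_mul_of_nonneg_left hb1 (by positivity)) hb2
    _ = A * CE * 100 ^ n * W + A * A' * W := by rw [hb3]
    _ = (A * CE * 100 ^ n / a + A * A' / a) * (a * W) := by field_simp
    _ ≤ _ := mul_le_mul_of_nonneg_left hmass (by positivity)

/-- Gluing of boundedly many maps at one site. -/
theorem fd_glue (n d : ℕ) (hn : 1 ≤ n) (L : ℝ≥0) (R : ℝ) (hR : 0 < R) (K : ℕ) :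
    ∃ (L' : ℝ≥0) (R' : ℝ), 0 < R' ∧ ∀ (ι : Type) (I : Finset ι) (x0 : E d) (s0 : ℝ)
      (g : ι → E n → E d), 0 < s0 → I.card ≤ K →
      (∀ i ∈ I, LipschitzWith L (g i) ∧ ‖g i 0 - x0‖ ≤ (R + 2) * s0) →
      ∃ G : E n → E d, LipschitzWith L' G ∧
        ∀ i ∈ I, g i '' closedBall 0 (R * s0) ⊆ G '' closedBall 0 (R' * s0) := by
  classical
  obtain ⟨L', R', hR', h⟩ := glue_abstract n d hn 1 (R + 2) (L : ℝ) R K one_pos (by linarith)
    L.2 hR
  refine ⟨L', R', hR', ?_⟩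
  intro ι I x0 s0 g hs0 hcard hg
  obtain ⟨G, hGL, hG⟩ := h Unit {()} (fun _ => x0) (fun _ => 0) (fun _ => s0) s0 0
    (fun _ m => if hm : (m : ℕ) < I.card then g (I.equivFin.symm ⟨m, hm⟩ : I) else fun _ => x0)
    hs0
    (by
      intro i _
      refine ⟨hs0, ?_, ?_⟩
      · nlinarith only [hR, hs0]
      · rw [sub_self, norm_zero]; positivity)
    (by
      intro i _ j _ hij
      exact absurd (Subsingleton.elim i j) hij)
    (by
      intro i _ m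
      by_cases hm : (m : ℕ) < I.card
      · simp only [hm, dite_true]
        have := hg _ (I.equivFin.symm ⟨m, hm⟩ : I).2
        rw [Real.toNNReal_coe]
        exact this
      · simp only [hm, dite_false]
        refine ⟨(LipschitzWith.const x0).weaken bot_le, ?_⟩
        rw [sub_self, norm_zero]; positivity)
  refine ⟨G, hGL, ?_⟩
  intro i hi
  have hm : ((I.equivFin ⟨i, hi⟩ : Fin I.card) : ℕ) < K :=
    lt_of_lt_of_le (I.equivFin ⟨i, hi⟩).2 hcard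
  have h1 := hG () (Finset.mem_singleton_self _) ⟨(I.equivFin ⟨i, hi⟩ : Fin I.card), hm⟩
  have h2 : ((I.equivFin ⟨i, hi⟩ : Fin I.card) : ℕ) < I.card := (I.equivFin ⟨i, hi⟩).2
  simp only [h2, dite_true] at h1
  simpa using h1

/-- `UR/FiniteDepth.lean`: the covering at finite depth. -/
theorem finite_depth (n d : ℕ) (hn : 1 ≤ n) (hnd : n ≤ d) (C c CT : ℝ) (hC : 0 < C)
    (hc : 0 < c) :
    ∃ θ : ℝ, 0 < θ ∧ ∃ (L : ℝ≥0) (R : ℝ), 0 < R ∧ ∃ lam : ℝ, 0 < lam ∧ lam ≤ 1 / 64 ∧ ∃ N0 : ℕ,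
      ∀ (μ : Measure (E d)) (D : ℝ), UB n μ C → LB n μ c D → TB n μ CT → ∀ x0 ∈ μ.support,
      ∀ N : ℕ, N0 ≤ N → ∃ (G : Finset (E d)) (g : E n → E d),
        (∀ x ∈ G, x ∈ μ.support ∧ ‖x - x0‖ ≤ D / 2) ∧
        (∀ x ∈ G, ∀ y ∈ G, x ≠ y → D * θ * lam ^ N ≤ ‖x - y‖) ∧
        θ ≤ (G.card : ℝ) * (lam ^ N) ^ n ∧
        LipschitzWith L g ∧ (G : Set (E d)) ⊆ g '' closedBall 0 (R * D) := by
  classical
  obtain ⟨lam, Lam, K, C1, ε1s, hlam, hlam1, hLam, hK, hC1, hε1s, hε1s1, hstep⟩ :=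
    regime_step n d hn C c hC hc
  have hlamlt : lam < 1 := by linarith
  obtain ⟨ε1a, hε1a, hstop⟩ := stop_sum n d hn C c lam K C1 (1 / 10) hC hc hlam hlam1 hK hC1
    (by norm_num) le_rfl
  obtain ⟨ε1b, hε1b, hcov⟩ := cover_of_rcov n d hn C c lam C1 (1 / 10) hC hc hlam hlam1
    (by norm_num) le_rfl
  obtain ⟨ε1, hε1, hε1_s, hε1_a, hε1_b⟩ : ∃ ε1 : ℝ, 0 < ε1 ∧ ε1 ≤ ε1s ∧ ε1 ≤ ε1a ∧ ε1 ≤ ε1b :=
    ⟨min ε1s (min ε1a ε1b), lt_min hε1s (lt_min hε1a hε1b), min_le_left _ _,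
      (min_le_right _ _).trans (min_le_left _ _), (min_le_right _ _).trans (min_le_right _ _)⟩
  have hstep1 := StepProp.fd_mono hstep hε1_s
  obtain ⟨ε0m, hε0m, Cs, hCs, hstop⟩ := hstop ε1 hε1 hε1_a
  obtain ⟨ε0, hε0, hε0_m, hε0_1⟩ : ∃ ε0 : ℝ, 0 < ε0 ∧ ε0 ≤ ε0m ∧ ε0 ≤ ε1 :=
    ⟨min ε0m ε1, lt_min hε0m hε1, min_le_left _ _, min_le_right _ _⟩
  obtain ⟨m1, hdense⟩ := start_dense n d hn hnd C c CT lam ε0 hC hc hlam hlam1 hε0
  obtain ⟨a, ha, hlow⟩ := card_leaves_lower n d C c hC hc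
  obtain ⟨A, hA, hup⟩ := card_leaves_upper n d C c hC hc
  obtain ⟨A', hA', hcard⟩ := card_pts_upper n d C c hC hc
  obtain ⟨CE, hCE, henergy⟩ := exists_energy n d C c CT lam Lam hC hc hlam hlamlt hLam
  obtain ⟨c1, hc1, hc11, hc1a⟩ : ∃ c1 : ℝ, 0 < c1 ∧ c1 ≤ 1 ∧ c1 * A ≤ a * (lam ^ m1) ^ n :=
    ⟨min 1 (a * (lam ^ m1) ^ n / A), lt_min one_pos (by positivity), min_le_left _ _, by
      calc min 1 (a * (lam ^ m1) ^ n / A) * A ≤ (a * (lam ^ m1) ^ n / A) * A :=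
            mul_le_mul_of_nonneg_right (min_le_right _ _) hA.le
        _ = _ := by field_simp⟩
  obtain ⟨CE', hCE', hCE'def⟩ : ∃ CE' : ℝ, 0 < CE' ∧ CE' = A * CE * 100 ^ n / a + A * A' / a :=
    ⟨_, by positivity, rfl⟩
  obtain ⟨J, m0, hpack⟩ := packing d m1 c1 Cs CE' hc1 hc11 hCs hCE'
  obtain ⟨L, R, hR, hcov⟩ := hcov ε1 hε1 hε1_b m0 J
  choose Kf hKf using fun i : ℕ => card_below n d C c lam hC hc hlam hlam1 i
  obtain ⟨L', R', hR', hglue⟩ := fd_glue n d hn L R hR (∑ i ∈ Finset.range (m0 + 1), Kf i)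
  refine ⟨min (1 / 100) (a / 2), lt_min (by norm_num) (by positivity), L', R', hR', lam, hlam,
    hlam1, m0, ?_⟩
  intro μ D hU hL hTB x0 hx0 N hN
  have hD : 0 < D := hL.2.1
  obtain ⟨s0, hs0, hDs0⟩ : ∃ s0 : ℝ, 0 < s0 ∧ D = 100 * s0 :=
    ⟨D / 100, by positivity, by ring⟩
  have hs0D : 100 * s0 ≤ D := hDs0.ge
  have hs0D16 : 16 * s0 ≤ D := by linarith
  obtain ⟨T⟩ := exists_nets hU hx0 hs0 hlam hlam1 N
  have hlamk : ∀ k : ℕ, lam ^ k ≤ 1 := fun k => pow_le_one₀ hlam.le hlamlt.le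
  have hlamkpos : ∀ k : ℕ, 0 < lam ^ k := fun k => by positivity
  -- energies
  obtain ⟨e, he0, heL, hesum⟩ := henergy μ hU hTB x0 D hD s0 hs0 (by linarith) N T.pts T.sep (by
    intro k hk p hp
    obtain ⟨hps, hpd⟩ := T.mem_supp k hk p hp
    have h1 : ENNReal.ofReal (c * (s0 * lam ^ k) ^ n) ≤ μ (ball p (s0 * lam ^ k)) := by
      refine hL.2.2 p hps _ (by positivity) ?_
      have := hlamk k
      nlinarith only [hs0, hs0D, this]
    refine h1.trans (measure_mono ?_)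
    intro y hy
    rw [mem_ball, dist_eq_norm] at hy
    have h2 : s0 * lam ^ k ≤ s0 := by
      have := hlamk k
      nlinarith only [hs0, this]
    refine ⟨?_, ?_⟩
    · rw [mem_closedBall, dist_eq_norm]
      have h3 : y - x0 = (y - p) + (p - x0) := by abel
      rw [h3]
      refine (norm_add_le _ _).trans ?_
      linarith
    · rw [mem_closedBall, dist_eq_norm]
      have h4 : 0 < s0 * lam ^ k := by positivity
      nlinarith only [hLam, hy, h4])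
  -- positions of nodes below the root
  have hpos : ∀ k ≤ N, ∀ p ∈ T.pts k, up T.par 0 k p = x0 → ‖p - x0‖ ≤ 2 * s0 := by
    intro k hk p hp hup0
    have h1 : 0 + k ≤ N := by omega
    have h2 : p ∈ T.pts (0 + k) := by rw [zero_add]; exact hp
    have h3 := Nets.up_dist hs0 hlam hlam1 T h1 h2
    rw [hup0, pow_zero, mul_one] at h3
    linarith
  -- the start nodes and their regimes
  let St : ℕ → E d → Prop := fun k0 p0 => ∃ (U : E n →ₗᵢ[ℝ] E d) (b : E d), Perp U 0 b ∧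
    Growth n (μ.restrict (closedBall x0 D)) p0 (s0 * lam ^ k0) U 0 b ε0
  have hreg : ∀ k0 p0, St k0 p0 → k0 ≤ N → p0 ∈ T.pts k0 →
      ∃ G : Regime n (μ.restrict (closedBall x0 D)) T C1 ε1 (1 / 10) k0 p0, G.ε k0 p0 = ε0 ∧
      ∀ k, k0 ≤ k → k < N → ∀ q ∈ T.pts (k + 1), G.Act k (T.par k q) →
        G.ε (k + 1) q = max (G.ε k (T.par k q) / 2)
          (K * Real.sqrt (e (k + 1) q + 4 * (s0 * lam ^ k) / D)) := by
    intro k0 p0 hSt hk0 hp0
    obtain ⟨U, b, hP, hG⟩ := hSt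
    exact exists_regime n d hn C c lam Lam K C1 ε1 (1 / 10) hC hc hlam hlam1 hK hε1 (by norm_num)
      (by norm_num) hstep1 μ x0 D s0 N hU hL hs0 hs0D T e he0 heL k0 hk0 p0 hp0 U b ε0 hε0 hε0_1
      hP hG
  obtain ⟨Ac, hAc⟩ : ∃ Ac : ℕ → E d → ℕ → E d → Prop, ∀ k0 p0, St k0 p0 → k0 ≤ N →
      p0 ∈ T.pts k0 → ∃ G : Regime n (μ.restrict (closedBall x0 D)) T C1 ε1 (1 / 10) k0 p0,
      G.Act = Ac k0 p0 ∧ G.ε k0 p0 = ε0 ∧
      ∀ k, k0 ≤ k → k < N → ∀ q ∈ T.pts (k + 1), G.Act k (T.par k q) →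
        G.ε (k + 1) q = max (G.ε k (T.par k q) / 2)
          (K * Real.sqrt (e (k + 1) q + 4 * (s0 * lam ^ k) / D)) := by
    refine ⟨fun k0 p0 => if h : St k0 p0 ∧ k0 ≤ N ∧ p0 ∈ T.pts k0 then
      (Classical.choose (hreg k0 p0 h.1 h.2.1 h.2.2)).Act else fun _ _ => False, ?_⟩
    intro k0 p0 h1 h2 h3
    have h : St k0 p0 ∧ k0 ≤ N ∧ p0 ∈ T.pts k0 := ⟨h1, h2, h3⟩
    refine ⟨Classical.choose (hreg k0 p0 h.1 h.2.1 h.2.2), ?_, ?_⟩
    · beta_reduce
      rw [dif_pos h]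
    · exact Classical.choose_spec (hreg k0 p0 h.1 h.2.1 h.2.2)
  -- masses
  have hx0p : x0 ∈ T.pts 0 := T.root_mem
  have hmlow0 : a * (lam ^ 0 / lam ^ N) ^ n ≤ mass T 0 x0 :=
    hlow μ x0 D s0 lam N hU hL hs0 hs0D16 hlam hlam1 T 0 (Nat.zero_le _) x0 hx0p (by
      rw [sub_self, norm_zero]; positivity)
  obtain ⟨G, hGsub, hGcard, hG⟩ := hpack μ x0 s0 lam D N hs0 hlam hlam1 hs0D hN T e he0 St Ac
    (by
      intro k0 p0 h1 h2 h3
      obtain ⟨G, hG, -, -⟩ := hAc k0 p0 h1 h2 h3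
      rw [← hG]
      exact ⟨G.act_root, G.act_level, G.act_top, G.act_par⟩)
    (by
      intro k0 p0 h1 h2 h3 h4
      obtain ⟨G, hG, hGε, hGs⟩ := hAc k0 p0 h1 h2 h4
      rw [← hG]
      exact hstop ε0 hε0 hε0_m hε0_1 μ x0 D s0 N hU hL hs0 hs0D T e he0 k0 p0
        (hpos k0 h2 p0 h4 h3) G hGε hGs)
    (by
      intro k p hp hup0 hkm
      have hkN : k ≤ N := by omega
      obtain ⟨i, q, hi, hq, hqp, U, b, hP, hGr⟩ := hdense μ x0 D s0 N hU hL hTB hs0 hs0D T k p hp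
        hkm (hpos k hkN p hp hup0)
      refine ⟨i, q, hi, hq, hqp, ⟨U, b, hP, hGr⟩, ?_⟩
      have hkiN : k + i ≤ N := by omega
      have hq0 : up T.par 0 (k + i) q = x0 := by
        have h5 := up_up T.par 0 k i q
        rw [zero_add] at h5
        rw [← h5, hqp, hup0]
      have h6 := hlow μ x0 D s0 lam N hU hL hs0 hs0D16 hlam hlam1 T (k + i) hkiN q hq
        ((hpos (k + i) hkiN q hq hq0).trans (by linarith))
      have h7 := hup μ x0 D s0 lam N hU hL hs0 hs0D16 hlam hlam1 T k hkN p hp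
      refine le_trans ?_ h6
      have h8 : lam ^ m1 ≤ lam ^ i := pow_le_pow_of_le_one hlam.le hlamlt.le hi
      have h9 : (lam ^ m1) ^ n ≤ (lam ^ i) ^ n := pow_le_pow_left₀ (hlamkpos m1).le h8 n
      have h10 : (lam ^ (k + i) / lam ^ N) ^ n = (lam ^ i) ^ n * (lam ^ k / lam ^ N) ^ n := by
        rw [← mul_pow, pow_add]; congr 1; field_simp
      rw [h10]
      have h11 : 0 < (lam ^ k / lam ^ N) ^ n := by positivity
      calc c1 * mass T k p ≤ c1 * (A * (lam ^ k / lam ^ N) ^ n) :=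
            mul_le_mul_of_nonneg_left h7 hc1.le
        _ = c1 * A * (lam ^ k / lam ^ N) ^ n := by ring
        _ ≤ a * (lam ^ m1) ^ n * (lam ^ k / lam ^ N) ^ n :=
            mul_le_mul_of_nonneg_right hc1a h11.le
        _ ≤ a * (lam ^ i) ^ n * (lam ^ k / lam ^ N) ^ n :=
            mul_le_mul_of_nonneg_right (mul_le_mul_of_nonneg_left h9 ha.le) h11.le
        _ = _ := by ring)
    (by
      rw [hCE'def]
      exact fd_energy_mass T e he0 hlam hlam1 hs0 hDs0 ha hA hA' hCE hmlow0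
        (fun k hk p hp => hup μ x0 D s0 lam N hU hL hs0 hs0D16 hlam hlam1 T k hk p hp)
        (fun k hk => hcard μ x0 D s0 lam N hU hL hs0 hs0D16 hlam hlam1 T k hk) hesum)
  have hGN : ∀ x ∈ G, x ∈ T.pts N := by
    intro x hx
    exact (Finset.mem_filter.mp (hGsub hx)).1
  -- the finitely many maps
  let I : Finset (ℕ × E d) := (Finset.range (m0 + 1)).biUnion fun i =>
    ((T.pts i).filter fun q => up T.par 0 i q = x0 ∧ St i q ∧
      RCov T St Ac m0 J i q (G.filter fun z => z ∈ leaves T i q)).image fun q => (i, q)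
  have hIcard : I.card ≤ ∑ i ∈ Finset.range (m0 + 1), Kf i := by
    refine Finset.card_biUnion_le.trans (Finset.sum_le_sum fun i hi => ?_)
    refine Finset.card_image_le.trans ?_
    have hiN : 0 + i ≤ N := by
      have := Finset.mem_range.mp hi
      omega
    refine hKf i μ x0 D s0 N hU hL hs0 hs0D16 T 0 hiN x0 _ ?_
    intro q hq
    rw [Finset.mem_filter] at hq
    rw [zero_add]
    exact ⟨hq.1, hq.2.1⟩
  have hImem : ∀ i q, (i, q) ∈ I ↔ i ≤ m0 ∧ q ∈ T.pts i ∧ up T.par 0 i q = x0 ∧ St i q ∧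
      RCov T St Ac m0 J i q (G.filter fun z => z ∈ leaves T i q) := by
    intro i q
    simp only [I, Finset.mem_biUnion, Finset.mem_range, Finset.mem_image, Finset.mem_filter,
      Prod.mk.injEq]
    constructor
    · rintro ⟨i', hi', q', ⟨h1, h2, h3, h3'⟩, h4, h5⟩
      subst h4; subst h5
      exact ⟨by omega, h1, h2, h3, h3'⟩
    · rintro ⟨h1, h2, h3, h4, h5⟩
      exact ⟨i, by omega, q, ⟨h2, h3, h4, h5⟩, rfl, rfl⟩
  have hmap : ∀ P : ℕ × E d, ∃ g : E n → E d, P ∈ I → LipschitzWith L g ∧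
      ‖g 0 - P.2‖ ≤ R * (s0 * lam ^ P.1) ∧
      ((G.filter fun z => z ∈ leaves T P.1 P.2 : Finset (E d)) : Set (E d)) ⊆
        g '' closedBall 0 (R * (s0 * lam ^ P.1)) := by
    rintro ⟨i, q⟩
    by_cases h : (i, q) ∈ I
    · obtain ⟨h1, h2, h3, h4, h5⟩ := (hImem i q).mp h
      obtain ⟨g, hg⟩ := hcov μ x0 D s0 N hU hL hs0 hs0D T St Ac
        (by
          intro k0 p0 h1 h2 h3 _
          obtain ⟨G, hG, -, -⟩ := hAc k0 p0 h1 h2 h3
          exact ⟨G, hG⟩) i q h4 (h1.trans hN) h2 h3 _ h5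
      exact ⟨g, fun _ => hg⟩
    · exact ⟨fun _ => 0, fun h' => absurd h' h⟩
  choose gf hgf using hmap
  have hscale : ∀ i : ℕ, R * (s0 * lam ^ i) ≤ R * s0 := by
    intro i
    have h1 := hlamk i
    have h2 : s0 * lam ^ i ≤ s0 * 1 := mul_le_mul_of_nonneg_left h1 hs0.le
    rw [mul_one] at h2
    exact mul_le_mul_of_nonneg_left h2 hR.le
  obtain ⟨Gm, hGmL, hGm⟩ := hglue (ℕ × E d) I x0 s0 gf hs0 hIcard (by
    rintro ⟨i, q⟩ hP
    obtain ⟨h1, h2, h3, h4, h5⟩ := (hImem i q).mp hP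
    obtain ⟨h6, h7, -⟩ := hgf _ hP
    refine ⟨h6, ?_⟩
    have h8 : gf (i, q) 0 - x0 = (gf (i, q) 0 - q) + (q - x0) := by abel
    rw [h8]
    refine (norm_add_le _ _).trans ?_
    have h9 := hpos i (h1.trans hN) q h2 h3
    have h10 := hscale i
    have h11 : ‖gf (i, q) 0 - q‖ ≤ R * (s0 * lam ^ i) := h7
    linarith)
  refine ⟨G, Gm, ?_, ?_, ?_, hGmL, ?_⟩
  · intro x hx
    obtain ⟨h1, h2⟩ := T.mem_supp N le_rfl x (hGN x hx)
    exact ⟨h1, by linarith⟩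
  · intro x hx y hy hxy
    have h1 := T.sep N le_rfl x (hGN x hx) y (hGN y hy) hxy
    refine le_trans ?_ h1
    have h2 : D * min (1 / 100) (a / 2) ≤ s0 := by
      calc D * min (1 / 100) (a / 2) ≤ D * (1 / 100) :=
            mul_le_mul_of_nonneg_left (min_le_left _ _) hD.le
        _ = s0 := by rw [hDs0]; ring
    exact mul_le_mul_of_nonneg_right h2 (hlamkpos N).le
  · have h1 : a / 2 * (lam ^ 0 / lam ^ N) ^ n ≤ (G.card : ℝ) := by
      calc a / 2 * (lam ^ 0 / lam ^ N) ^ n = 1 / 2 * (a * (lam ^ 0 / lam ^ N) ^ n) := by ring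
        _ ≤ 1 / 2 * mass T 0 x0 := mul_le_mul_of_nonneg_left hmlow0 (by norm_num)
        _ ≤ _ := hGcard
    have h2 : (lam ^ 0 / lam ^ N) ^ n * (lam ^ N) ^ n = 1 := by
      rw [← mul_pow, pow_zero, one_div, inv_mul_cancel₀ (hlamkpos N).ne', one_pow]
    calc min (1 / 100) (a / 2) ≤ a / 2 := min_le_right _ _
      _ = a / 2 * ((lam ^ 0 / lam ^ N) ^ n * (lam ^ N) ^ n) := by rw [h2, mul_one]
      _ = a / 2 * (lam ^ 0 / lam ^ N) ^ n * (lam ^ N) ^ n := by ring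
      _ ≤ _ := mul_le_mul_of_nonneg_right h1 (by positivity)
  · intro x hx
    obtain ⟨i, q', hi, hq', hq0, hSt, hxl, hRC⟩ := hG x hx
    have hP : (i, q') ∈ I := (hImem i q').mpr ⟨hi, hq', hq0, hSt, hRC⟩
    have h1 := (hgf _ hP).2.2
    have hxF : x ∈ ((G.filter fun z => z ∈ leaves T i q' : Finset (E d)) : Set (E d)) := by
      rw [Finset.mem_coe, Finset.mem_filter]
      exact ⟨hx, hxl⟩
    have h2 : x ∈ gf (i, q') '' closedBall 0 (R * (s0 * lam ^ i)) := h1 hxF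
    have h3 : x ∈ gf (i, q') '' closedBall 0 (R * s0) :=
      image_mono (closedBall_subset_closedBall (hscale i)) h2
    have h4 := hGm _ hP h3
    refine image_mono (closedBall_subset_closedBall ?_) h4
    have h5 : s0 ≤ D := by linarith
    exact mul_le_mul_of_nonneg_left h5 hR'.le

end Vale.Agent.P120
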