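import Vale.Agent.Lib.P120.UR.Basic
import Vale.Agent.Lib.P120.Tail

/-!
Caccioppoli inequality for the half Laplacian on `ℝ^n` at unit scale.
-/

open MeasureTheory Filter Set Metric Module
open scoped Topology ENNReal NNReal RealInnerProductSpace

namespace Vale.Agent.P120

namespace FlatCacc

variable {n : ℕ}

/-- the kernel -/
noncomputable def th (n : ℕ) (z : E n) : ℝ := (‖z‖ ^ (n + 1))⁻¹

/-- the truncated kernel -/
noncomputable def mm (n : ℕ) (z : E n) : ℝ := min (‖z‖ ^ 2) 1 * th n z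

lemma th_nonneg (z : E n) : 0 ≤ th n z := by unfold th; positivity

lemma norm_th (z : E n) : ‖(‖z‖ ^ (n + 1))⁻¹‖ = (‖z‖ ^ (n + 1))⁻¹ :=
  Real.norm_of_nonneg (th_nonneg z)

lemma th_neg (z : E n) : th n (-z) = th n z := by unfold th; rw [norm_neg]

lemma th_sub_comm (x y : E n) : th n (x - y) = th n (y - x) := by
  rw [← th_neg, neg_sub]

lemma wt_eq (x y : E n) : wt n x y = th n (x - y) := rfl

lemma measurable_th : Measurable (th n) := by unfold th; fun_prop

lemma mm_nonneg (z : E n) : 0 ≤ mm n z := mul_nonneg (by positivity) (th_nonneg z)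

lemma mm_neg (z : E n) : mm n (-z) = mm n z := by unfold mm; rw [norm_neg, th_neg]

lemma mm_sub_comm (x y : E n) : mm n (x - y) = mm n (y - x) := by
  rw [← mm_neg, neg_sub]

lemma integrable_mm (hn : 1 ≤ n) : Integrable (mm n) := by
  have : Nonempty (Fin n) := ⟨⟨0, hn⟩⟩
  have h := integrable_fun_norm_addHaar (volume : Measure (E n))
    (f := fun y : ℝ => min (y ^ 2) 1 * (y ^ (n + 1))⁻¹)
  refine h.2 ?_
  rw [finrank_euclideanSpace_fin]
  refine Integrable.mono' ((integrable_inv_one_add_sq.const_mul 2).integrableOn (s := Ioi 0))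
    (Measurable.aestronglyMeasurable (by fun_prop)) ?_
  filter_upwards [ae_restrict_mem measurableSet_Ioi] with y hy
  have hy' : 0 < y := hy
  have h1 : y ^ (n + 1) = y ^ (n - 1) * y ^ 2 := by
    rw [← pow_add]; congr 1; omega
  have h2 : y ^ (n - 1) • (min (y ^ 2) 1 * (y ^ (n + 1))⁻¹) = min (y ^ 2) 1 / y ^ 2 := by
    rw [h1, smul_eq_mul]; field_simp
  rw [h2, Real.norm_of_nonneg (by positivity), div_le_iff₀ (by positivity), ← div_eq_mul_inv,
    div_mul_eq_mul_div, le_div_iff₀ (by positivity)]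
  rcases le_total (y ^ 2) 1 with h | h
  · rw [min_eq_left h]; nlinarith only [sq_nonneg y, h]
  · rw [min_eq_right h]; linarith only [h]

/-- products `g(y) h(x-y)` -/
lemma conv_int {g h : E n → ℝ} (hg : Integrable g) (hh : Integrable h) :
    Integrable (fun p : E n × E n => g p.2 * h (p.1 - p.2)) ∧
    ∫ p : E n × E n, g p.2 * h (p.1 - p.2) = (∫ x, g x) * ∫ x, h x := by
  have hi : Integrable (fun p : E n × E n => g p.2 * h (p.1 - p.2))
      ((volume : Measure (E n)).prod volume) :=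
    Integrable.convolution_integrand (ContinuousLinearMap.mul ℝ ℝ) hg hh
  refine ⟨hi, ?_⟩
  rw [Measure.volume_eq_prod, integral_prod_symm _ hi]
  simp only
  rw [← integral_mul_const]
  refine integral_congr_ae (Eventually.of_forall fun y => ?_)
  simp only
  rw [integral_const_mul, integral_sub_right_eq_self]

/-- products `g(x) h(x-y)`, `h` even -/
lemma conv_int' {g h : E n → ℝ} (hg : Integrable g) (hh : Integrable h)
    (he : ∀ x y, h (x - y) = h (y - x)) :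
    Integrable (fun p : E n × E n => g p.1 * h (p.1 - p.2)) ∧
    ∫ p : E n × E n, g p.1 * h (p.1 - p.2) = (∫ x, g x) * ∫ x, h x := by
  obtain ⟨h1, h2⟩ := conv_int hg hh
  have h3 : (fun p : E n × E n => g p.1 * h (p.1 - p.2)) =
      (fun p : E n × E n => g p.2 * h (p.1 - p.2)) ∘ Prod.swap := by
    funext p
    simp only [Function.comp, Prod.fst_swap, Prod.snd_swap]
    rw [he]
  refine ⟨?_, ?_⟩
  · rw [h3]
    exact Integrable.swap h1
  · rw [← h2, h3, Measure.volume_eq_prod]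
    exact integral_prod_swap (fun p : E n × E n => g p.2 * h (p.1 - p.2))

/-- Integrability of forms. -/
lemma int_form (hn : 1 ≤ n) {u : E n × E n → ℝ} (hu : AEStronglyMeasurable u)
    {G : E n → ℝ} (hG : Integrable G)
    (hb : ∀ x y, |u (x, y)| ≤ (G x + G y) * min (‖x - y‖ ^ 2) 1) :
    Integrable (fun p : E n × E n => u p * wt n p.1 p.2) ∧
    |∫ p : E n × E n, u p * wt n p.1 p.2| ≤ 2 * (∫ x, G x) * ∫ x, mm n x := by
  obtain ⟨h1, h2⟩ := conv_int hG (integrable_mm hn)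
  obtain ⟨h3, h4⟩ := conv_int' hG (integrable_mm hn) mm_sub_comm
  have hle : ∀ p : E n × E n, ‖u p * wt n p.1 p.2‖ ≤
      G p.1 * mm n (p.1 - p.2) + G p.2 * mm n (p.1 - p.2) := by
    rintro ⟨x, y⟩
    have hw : ‖wt n x y‖ = wt n x y := Real.norm_of_nonneg (th_nonneg (x - y))
    rw [norm_mul, Real.norm_eq_abs, hw]
    calc |u (x, y)| * wt n x y ≤ (G x + G y) * min (‖x - y‖ ^ 2) 1 * wt n x y := by
          gcongr
          · exact th_nonneg _
          · exact hb x y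
      _ = _ := by simp only [mm, wt_eq]; ring
  have hm : AEStronglyMeasurable (fun p : E n × E n => u p * wt n p.1 p.2) := by
    refine hu.mul (Measurable.aestronglyMeasurable ?_)
    unfold wt
    fun_prop
  refine ⟨(h3.add h1).mono' hm (Eventually.of_forall hle), ?_⟩
  calc |∫ p : E n × E n, u p * wt n p.1 p.2|
      ≤ ∫ p : E n × E n, (G p.1 * mm n (p.1 - p.2) + G p.2 * mm n (p.1 - p.2)) :=
        norm_integral_le_of_norm_le (h3.add h1) (Eventually.of_forall hle)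
    _ = _ := by rw [integral_add h3 h1, h2, h4]; ring

/-- first differences -/
lemma first_diff {f : E n → ℝ} (hf : ContDiff ℝ 1 f) (hfc : HasCompactSupport f) :
    ∃ K : ℝ, 0 ≤ K ∧ (∀ x, |f x| ≤ K) ∧ ∀ x y, |f x - f y| ≤ K * min ‖x - y‖ 1 := by
  obtain ⟨L, hL⟩ := ContDiff.lipschitzWith_of_hasCompactSupport hfc hf one_ne_zero
  obtain ⟨B, hB⟩ := hfc.exists_bound_of_continuous hf.continuous
  have hB0 : 0 ≤ B := (norm_nonneg _).trans (hB 0)
  refine ⟨L + 2 * B, by positivity, fun x => ?_, fun x y => ?_⟩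
  · have := hB x
    rw [Real.norm_eq_abs] at this
    have hL0 : (0 : ℝ) ≤ L := L.2
    linarith
  · have hL0 : (0 : ℝ) ≤ L := L.2
    rcases le_total ‖x - y‖ 1 with h | h
    · rw [min_eq_left h]
      have h1 : |f x - f y| ≤ L * ‖x - y‖ := by
        have := hL.dist_le_mul x y
        rwa [Real.dist_eq, dist_eq_norm] at this
      nlinarith only [norm_nonneg (x - y), hB0, h1]
    · rw [min_eq_right h, mul_one]
      have h1 := hB x
      have h2 := hB y
      rw [Real.norm_eq_abs] at h1 h2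
      calc |f x - f y| ≤ |f x| + |f y| := abs_sub _ _
        _ ≤ _ := by linarith

/-- second differences -/
lemma second_diff {f : E n → ℝ} (hf : ContDiff ℝ 2 f) (hfc : HasCompactSupport f) :
    ∃ K : ℝ, 0 ≤ K ∧ ∀ v z, |2 * f v - f (v + z) - f (v - z)| ≤ K * min (‖z‖ ^ 2) 1 := by
  have hf1 : ContDiff ℝ 1 (fderiv ℝ f) := hf.fderiv_right (by norm_num)
  obtain ⟨L, hL⟩ := ContDiff.lipschitzWith_of_hasCompactSupport (hfc.fderiv ℝ) hf1 one_ne_zero
  obtain ⟨B, hB⟩ := hfc.exists_bound_of_continuous hf.continuous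
  have hB0 : 0 ≤ B := (norm_nonneg _).trans (hB 0)
  have hL0 : (0 : ℝ) ≤ L := L.2
  have hd : Differentiable ℝ f := hf.differentiable (by norm_num)
  refine ⟨L + 4 * B, by positivity, fun v z => ?_⟩
  rcases le_total (‖z‖ ^ 2) 1 with h | h
  · rw [min_eq_left h]
    have hd' : ∀ u, DifferentiableAt ℝ (fun u => f (u + z)) u := fun u =>
      (hd (u + z)).comp u ((differentiableAt_id).add_const z)
    have h1 : ‖(f (v + z) - f v) - (f (v - z + z) - f (v - z))‖ ≤ L * ‖z‖ * ‖v - (v - z)‖ := by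
      refine Convex.norm_image_sub_le_of_norm_fderiv_le (𝕜 := ℝ)
        (f := fun u : E n => f (u + z) - f u) (C := L * ‖z‖) (s := univ) (x := v - z) (y := v)
        (fun u _ => (hd' u).sub (hd u)) (fun u _ => ?_) convex_univ (mem_univ _) (mem_univ _)
      · have hfd : fderiv ℝ (fun u : E n => f (u + z) - f u) u =
            fderiv ℝ f (u + z) - fderiv ℝ f u := by
          rw [fderiv_fun_sub (hd' u) (hd u), fderiv_comp_add_right]
        rw [hfd]
        have := hL.dist_le_mul (u + z) u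
        rwa [dist_eq_norm, dist_eq_norm, add_sub_cancel_left] at this
    rw [sub_add_cancel, sub_sub_cancel, Real.norm_eq_abs] at h1
    have h2 : |2 * f v - f (v + z) - f (v - z)| = |f (v + z) - f v - (f v - f (v - z))| := by
      rw [← abs_neg]; congr 1; ring
    rw [h2]
    nlinarith only [norm_nonneg z, sq_nonneg ‖z‖, hB0, h1]
  · rw [min_eq_right h, mul_one]
    have h1 := abs_le.1 (Real.norm_eq_abs _ ▸ hB v)
    have h2 := abs_le.1 (Real.norm_eq_abs _ ▸ hB (v + z))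
    have h3 := abs_le.1 (Real.norm_eq_abs _ ▸ hB (v - z))
    rw [abs_le]
    constructor <;> linarith

lemma Lop_bound (hn : 1 ≤ n) {f : E n → ℝ} {K : ℝ}
    (hK : ∀ v z, |2 * f v - f (v + z) - f (v - z)| ≤ K * min (‖z‖ ^ 2) 1) (v : E n) :
    |Lop n f v| ≤ K * ∫ z, mm n z := by
  rw [← integral_const_mul]
  change ‖∫ z : E n, (2 * f v - f (v + z) - f (v - z)) * (‖z‖ ^ (n + 1))⁻¹‖ ≤ _
  refine norm_integral_le_of_norm_le ((integrable_mm hn).const_mul K)
    (Eventually.of_forall fun z => ?_)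
  rw [norm_mul, Real.norm_eq_abs, norm_th]
  unfold mm
  rw [← mul_assoc]
  exact mul_le_mul_of_nonneg_right (hK v z) (th_nonneg z)

/-- The form identity. -/
theorem lop_form (hn : 1 ≤ n) {f ψ : E n → ℝ} (hf : ContDiff ℝ 1 f) (hfc : HasCompactSupport f)
    (hψ : ContDiff ℝ 2 ψ) (hψc : HasCompactSupport ψ) :
    Integrable (fun v => f v * Lop n ψ v) ∧
    Integrable (fun p : E n × E n => (f p.1 - f p.2) * (ψ p.1 - ψ p.2) * wt n p.1 p.2) ∧
    ∫ v, f v * Lop n ψ v =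
      ∫ p : E n × E n, (f p.1 - f p.2) * (ψ p.1 - ψ p.2) * wt n p.1 p.2 := by
  obtain ⟨K, hK0, hK⟩ := second_diff hψ hψc
  obtain ⟨Kf, hKf0, hKf, hKf'⟩ := first_diff hf hfc
  obtain ⟨Kp, hKp0, hKp, hKp'⟩ := first_diff (hψ.of_le (by norm_num)) hψc
  have hfi : Integrable f := hf.continuous.integrable_of_hasCompactSupport hfc
  have hfm := hf.continuous.measurable
  have hψm := hψ.continuous.measurable
  -- integrability of G
  have hG : Integrable (fun p : E n × E n => f p.1 *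
      ((2 * ψ p.1 - ψ (p.1 + p.2) - ψ (p.1 - p.2)) * (‖p.2‖ ^ (n + 1))⁻¹))
      ((volume : Measure (E n)).prod volume) := by
    have h1 : Integrable (fun p : E n × E n => |f p.1| * (K * mm n p.2))
        ((volume : Measure (E n)).prod volume) :=
      Integrable.mul_prod hfi.abs ((integrable_mm hn).const_mul K)
    refine h1.mono' (Measurable.aestronglyMeasurable (by fun_prop))
      (Eventually.of_forall fun p => ?_)
    rw [norm_mul, norm_mul, Real.norm_eq_abs, Real.norm_eq_abs,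
      norm_th]
    unfold mm
    rw [← mul_assoc K]
    exact mul_le_mul_of_nonneg_left (mul_le_mul_of_nonneg_right (hK _ _) (th_nonneg _))
      (abs_nonneg _)
  -- integrability of the form
  have hH := (int_form hn (u := fun p : E n × E n => (f p.1 - f p.2) * (ψ p.1 - ψ p.2))
    (Measurable.aestronglyMeasurable (by fun_prop)) (G := fun x => (tsupport ψ).indicator
      (fun _ => Kf * Kp) x) ?_ ?_).1
  rotate_left
  · exact (integrable_indicator_iff (isClosed_tsupport ψ).measurableSet).2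
      (integrableOn_const hψc.measure_lt_top.ne)
  · intro x y
    by_cases hx : x ∈ tsupport ψ ∨ y ∈ tsupport ψ
    · have h1 : Kf * Kp ≤ (tsupport ψ).indicator (fun _ => Kf * Kp) x +
          (tsupport ψ).indicator (fun _ => Kf * Kp) y := by
        have h0 : ∀ z, 0 ≤ (tsupport ψ).indicator (fun _ => Kf * Kp) z := fun z =>
          indicator_nonneg (fun _ _ => by positivity) z
        rcases hx with hx | hy
        · rw [indicator_of_mem hx]; linarith [h0 y]
        · rw [indicator_of_mem hy]; linarith [h0 x]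
      have h2 : |(f x - f y) * (ψ x - ψ y)| ≤ Kf * Kp * min (‖x - y‖ ^ 2) 1 := by
        rw [abs_mul]
        calc |f x - f y| * |ψ x - ψ y| ≤ (Kf * min ‖x - y‖ 1) * (Kp * min ‖x - y‖ 1) :=
              mul_le_mul (hKf' x y) (hKp' x y) (abs_nonneg _) (by positivity)
          _ = Kf * Kp * (min ‖x - y‖ 1) ^ 2 := by ring
          _ ≤ _ := by
              gcongr
              rcases le_total ‖x - y‖ 1 with h | h
              · rw [min_eq_left h, min_eq_left (by nlinarith only [norm_nonneg (x - y), h])]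
              · rw [min_eq_right h, min_eq_right (by nlinarith only [norm_nonneg (x - y), h])]; norm_num
      exact h2.trans (mul_le_mul_of_nonneg_right h1 (by positivity))
    · push Not at hx
      have h1 : ψ x = 0 := image_eq_zero_of_notMem_tsupport hx.1
      have h2 : ψ y = 0 := image_eq_zero_of_notMem_tsupport hx.2
      simp only [h1, h2, sub_self, mul_zero, abs_zero]
      rw [indicator_of_notMem hx.1, indicator_of_notMem hx.2]
      simp
  have hH' : Integrable (fun p : E n × E n => (f p.1 - f p.2) * (ψ p.1 - ψ p.2) * wt n p.1 p.2)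
      ((volume : Measure (E n)).prod volume) := hH
  -- shifted form
  have hS : Integrable (fun p : E n × E n => (f p.1 - f (p.1 + p.2)) * (ψ p.1 - ψ (p.1 + p.2)) *
      (‖p.2‖ ^ (n + 1))⁻¹) ((volume : Measure (E n)).prod volume) := by
    have h1 := (measurePreserving_prod_add (volume : Measure (E n)) volume).integrable_comp
      (g := fun p : E n × E n => (f p.1 - f p.2) * (ψ p.1 - ψ p.2) * wt n p.1 p.2)
      hH'.aestronglyMeasurable
    have h2 := h1.2 hH'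
    refine h2.congr (Eventually.of_forall fun p => ?_)
    simp only [Function.comp, wt]
    rw [sub_add_cancel_left, norm_neg]
  refine ⟨?_, hH, ?_⟩
  · have := hG.integral_prod_left
    refine this.congr (Eventually.of_forall fun v => ?_)
    simp only [Lop]
    rw [integral_const_mul]
  · have e1 : ∫ v, f v * Lop n ψ v = ∫ z : E n, ∫ v : E n, f v *
        ((2 * ψ v - ψ (v + z) - ψ (v - z)) * (‖z‖ ^ (n + 1))⁻¹) := by
      rw [← integral_integral_swap hG]
      refine integral_congr_ae (Eventually.of_forall fun v => ?_)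
      simp only [Lop]
      rw [integral_const_mul]
    have e2 : ∀ z : E n, ∫ v : E n, f v *
        ((2 * ψ v - ψ (v + z) - ψ (v - z)) * (‖z‖ ^ (n + 1))⁻¹) =
        ∫ v : E n, (f v - f (v + z)) * (ψ v - ψ (v + z)) * (‖z‖ ^ (n + 1))⁻¹ := by
      intro z
      have c1 : Continuous f := hf.continuous
      have c2 : Continuous ψ := hψ.continuous
      have i1 : Integrable (fun v => f v * ψ v) :=
        (c1.mul c2).integrable_of_hasCompactSupport hfc.mul_right
      have i2 : Integrable (fun v => f v * ψ (v + z)) :=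
        (c1.mul (by fun_prop)).integrable_of_hasCompactSupport hfc.mul_right
      have i3 : Integrable (fun v => f v * ψ (v - z)) :=
        (c1.mul (by fun_prop)).integrable_of_hasCompactSupport hfc.mul_right
      have i4 : Integrable (fun v => f (v + z) * ψ v) :=
        (Continuous.mul (by fun_prop) c2).integrable_of_hasCompactSupport hψc.mul_left
      have i5 : Integrable (fun v => f (v + z) * ψ (v + z)) := i1.comp_add_right z
      have j1 : ∫ v, f (v + z) * ψ (v + z) = ∫ v, f v * ψ v :=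
        integral_add_right_eq_self (fun v => f v * ψ v) z
      have j2 : ∫ v, f (v + z) * ψ v = ∫ v, f v * ψ (v - z) := by
        rw [← integral_add_right_eq_self (fun v => f v * ψ (v - z)) z]
        simp only [add_sub_cancel_right]
      have k1 : ∫ v, f v * (2 * ψ v - ψ (v + z) - ψ (v - z)) =
          2 * (∫ v, f v * ψ v) - (∫ v, f v * ψ (v + z)) - ∫ v, f v * ψ (v - z) := by
        have i6 : Integrable (fun v => 2 * (f v * ψ v)) := i1.const_mul 2
        have i7 : Integrable (fun v => 2 * (f v * ψ v) - f v * ψ (v + z)) := i6.sub i2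
        rw [← integral_const_mul, ← integral_sub i6 i2, ← integral_sub i7 i3]
        refine integral_congr_ae (Eventually.of_forall fun v => ?_)
        simp only
        ring
      have k2 : ∫ v, (f v - f (v + z)) * (ψ v - ψ (v + z)) =
          2 * (∫ v, f v * ψ v) - (∫ v, f v * ψ (v + z)) - ∫ v, f v * ψ (v - z) := by
        rw [← j2, two_mul]
        nth_rewrite 2 [← j1]
        have i6 : Integrable (fun v => f v * ψ v + f (v + z) * ψ (v + z)) := i1.add i5
        have i7 : Integrable (fun v => f v * ψ v + f (v + z) * ψ (v + z) - f v * ψ (v + z)) :=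
          i6.sub i2
        rw [← integral_add i1 i5, ← integral_sub i6 i2, ← integral_sub i7 i4]
        refine integral_congr_ae (Eventually.of_forall fun v => ?_)
        simp only
        ring
      rw [integral_mul_const, k2, ← k1, ← integral_mul_const]
      refine integral_congr_ae (Eventually.of_forall fun v => ?_)
      simp only
      ring
    rw [e1]
    simp_rw [e2]
    rw [← integral_integral_swap hS, Measure.volume_eq_prod, integral_prod _ hH']
    refine integral_congr_ae (Eventually.of_forall fun v => ?_)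
    simp only [wt]
    rw [← integral_add_left_eq_self
      (fun y => (f v - f y) * (ψ v - ψ y) * (‖v - y‖ ^ (n + 1))⁻¹) v]
    refine integral_congr_ae (Eventually.of_forall fun z => ?_)
    simp only
    rw [sub_add_cancel_left, norm_neg]

/-- Cauchy-Schwarz on balls -/
lemma l1_l2 {w : E n → ℝ} (hw : Continuous w) {R : ℝ} (hR : 0 < R) :
    (∫ v in ball (0 : E n) R, |w v|) ^ 2 ≤
      volume.real (ball (0 : E n) R) * ∫ v in ball (0 : E n) R, w v ^ 2 := by
  have hV : 0 < volume.real (ball (0 : E n) R) :=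
    ENNReal.toReal_pos (measure_ball_pos _ _ hR).ne' measure_ball_lt_top.ne
  have hi : ∀ g : E n → ℝ, Continuous g → IntegrableOn g (ball (0 : E n) R) := fun g hg =>
    (hg.continuousOn.integrableOn_compact (isCompact_closedBall (0 : E n) R)).mono_set
      ball_subset_closedBall
  set a := ∫ v in ball (0 : E n) R, |w v| with ha
  set V := volume.real (ball (0 : E n) R) with hVd
  have h0 : 0 ≤ ∫ v in ball (0 : E n) R, (|w v| - a / V) ^ 2 :=
    integral_nonneg fun _ => sq_nonneg _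
  have h1 : ∫ v in ball (0 : E n) R, (|w v| - a / V) ^ 2 =
      (∫ v in ball (0 : E n) R, w v ^ 2) - 2 * (a / V) * a + (a / V) ^ 2 * V := by
    have e1 : ∀ v, (|w v| - a / V) ^ 2 = w v ^ 2 - 2 * (a / V) * |w v| + (a / V) ^ 2 := by
      intro v
      rw [sub_sq, sq_abs]; ring
    simp_rw [e1]
    have i1 : IntegrableOn (fun v => w v ^ 2) (ball (0 : E n) R) := hi _ (hw.pow 2)
    have i2 : IntegrableOn (fun v => 2 * (a / V) * |w v|) (ball (0 : E n) R) :=
      hi _ (continuous_const.mul hw.abs)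
    have i3 : IntegrableOn (fun v => w v ^ 2 - 2 * (a / V) * |w v|) (ball (0 : E n) R) :=
      i1.sub i2
    have i4 : IntegrableOn (fun _ => (a / V) ^ 2) (ball (0 : E n) R) :=
      hi _ continuous_const
    rw [integral_add i3 i4, integral_sub i1 i2, integral_const_mul, setIntegral_const, smul_eq_mul]
    ring
  rw [h1] at h0
  have h2 : 2 * (a / V) * a - (a / V) ^ 2 * V = a ^ 2 / V := by field_simp; ring
  have h3 : a ^ 2 / V ≤ ∫ v in ball (0 : E n) R, w v ^ 2 := by linarith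
  rw [div_le_iff₀ hV] at h3
  linarith

lemma vol_ball {R : ℝ} (hR : 0 < R) :
    volume.real (ball (0 : E n) R) = R ^ n * volume.real (ball (0 : E n) 1) := by
  rw [Measure.real, Measure.addHaar_ball_of_pos volume (0 : E n) hR, ENNReal.toReal_mul,
    ENNReal.toReal_ofReal (by positivity), finrank_euclideanSpace_fin]
  rfl

/-- `L¹` growth -/
lemma l1_growth {w : E n → ℝ} (hw : Continuous w) {A : ℝ} (hA : 0 ≤ A)
    (hg : ∀ R : ℝ, 1 ≤ R → ∫ v in ball (0 : E n) R, w v ^ 2 ≤ A * R ^ (n + 3)) {S : ℝ}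
    (hS : 1 ≤ S) :
    ∫ v in ball (0 : E n) (S ^ 2), |w v| ≤
      Real.sqrt (volume.real (ball (0 : E n) 1) * A) * (S ^ (2 * n + 3)) := by
  have hS2 : 1 ≤ S ^ 2 := one_le_pow₀ hS
  have h1 := l1_l2 hw (R := S ^ 2) (by positivity)
  have h2 := hg (S ^ 2) hS2
  rw [vol_ball (by positivity)] at h1
  have h0 : 0 ≤ ∫ v in ball (0 : E n) (S ^ 2), |w v| := integral_nonneg fun _ => abs_nonneg _
  have h3 : (∫ v in ball (0 : E n) (S ^ 2), |w v|) ^ 2 ≤
      (Real.sqrt (volume.real (ball (0 : E n) 1) * A) * (S ^ (2 * n + 3))) ^ 2 := by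
    rw [mul_pow, Real.sq_sqrt (by positivity)]
    calc _ ≤ _ := h1
      _ ≤ (S ^ 2) ^ n * volume.real (ball (0 : E n) 1) * (A * (S ^ 2) ^ (n + 3)) := by gcongr
      _ = _ := by rw [← pow_mul, ← pow_mul, ← pow_mul]; ring
  exact (le_abs_self _).trans (abs_le_of_sq_le_sq h3 (by positivity))

/-- far integral -/
lemma far_int {w : E n → ℝ} (hw : Continuous w) {A : ℝ} (hA : 0 ≤ A)
    (hg : ∀ R : ℝ, 1 ≤ R → ∫ v in ball (0 : E n) R, w v ^ 2 ≤ A * R ^ (n + 3)) :
    IntegrableOn (fun v => |w v| * (‖v‖ ^ (n + 2))⁻¹) {v : E n | 1 ≤ ‖v‖} ∧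
    ∫ v in {v : E n | 1 ≤ ‖v‖}, |w v| * (‖v‖ ^ (n + 2))⁻¹ ≤
      2 * (2 ^ (2 * n + 3) * Real.sqrt (volume.real (ball (0 : E n) 1) * A)) := by
  have hms : MeasurableSet {v : E n | 1 ≤ ‖v‖} := measurableSet_le measurable_const (by fun_prop)
  have hwm : Measurable w := hw.measurable
  have hnn : ∀ v : E n, 0 ≤ |w v| * (‖v‖ ^ (n + 2))⁻¹ := fun v => by positivity
  have key : ∫⁻ v in {v : E n | 1 ≤ ‖v‖}, ENNReal.ofReal (|w v| * (‖v‖ ^ (n + 2))⁻¹) ≤
      ENNReal.ofReal (2 * (2 ^ (2 * n + 3) * Real.sqrt (volume.real (ball (0 : E n) 1) * A))) := by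
    have h1 := lintegral_annuli_le (μ := (volume : Measure (E n)).withDensity
      (fun v => ENNReal.ofReal |w v|)) (fun v => ENNReal.ofReal ((‖v‖ ^ (n + 2))⁻¹))
      (fun j => {v : E n | 4 ^ j ≤ ‖v‖ ∧ ‖v‖ < 4 ^ (j + 1)}) (fun j => ?_)
      {v : E n | 1 ≤ ‖v‖} ?_ (fun j => ((4 ^ j) ^ (n + 2))⁻¹)
      (fun j => Real.sqrt (volume.real (ball (0 : E n) 1) * A) * ((2 ^ (j + 1)) ^ (2 * n + 3)))
      (2 ^ (2 * n + 3) * Real.sqrt (volume.real (ball (0 : E n) 1) * A)) ?_ ?_ ?_ ?_ ?_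
    · refine le_trans (le_of_eq ?_) h1
      have m1 : Measurable (fun v : E n => ENNReal.ofReal |w v|) := by fun_prop
      have m2 : Measurable (fun v : E n => ENNReal.ofReal ((‖v‖ ^ (n + 2))⁻¹)) := by fun_prop
      rw [setLIntegral_withDensity_eq_setLIntegral_mul _ m1 m2 hms]
      refine lintegral_congr fun v => ?_
      rw [Pi.mul_apply, ENNReal.ofReal_mul (abs_nonneg _)]
    · have m1 : MeasurableSet {v : E n | 4 ^ j ≤ ‖v‖} :=
        measurableSet_le measurable_const (by fun_prop)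
      have m2 : MeasurableSet {v : E n | ‖v‖ < 4 ^ (j + 1)} :=
        measurableSet_lt (by fun_prop) measurable_const
      exact m1.inter m2
    · intro v hv
      have hv1 : 1 ≤ ‖v‖ := hv
      obtain ⟨j, hj1, hj2⟩ := exists_nat_pow_near hv1 (show (1 : ℝ) < 4 by norm_num)
      exact mem_iUnion.2 ⟨j, hj1, hj2⟩
    · intro j; positivity
    · positivity
    · intro j v hv
      apply ENNReal.ofReal_le_ofReal
      have := hv.1
      gcongr
    · intro j
      have hsub : {v : E n | 4 ^ j ≤ ‖v‖ ∧ ‖v‖ < 4 ^ (j + 1)} ⊆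
          ball (0 : E n) ((2 ^ (j + 1)) ^ 2) := by
        intro v hv
        rw [mem_ball_zero_iff]
        refine hv.2.trans_le (le_of_eq ?_)
        rw [← pow_mul, mul_comm, pow_mul]; norm_num
      refine (measure_mono hsub).trans ?_
      rw [withDensity_apply _ measurableSet_ball,
        ← ofReal_integral_eq_lintegral_ofReal _ (Eventually.of_forall fun v => abs_nonneg _)]
      · exact ENNReal.ofReal_le_ofReal (l1_growth hw hA hg (one_le_pow₀ (by norm_num)))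
      · exact ((hw.abs.continuousOn).integrableOn_compact
          (isCompact_closedBall (0 : E n) ((2 ^ (j + 1)) ^ 2))).mono_set ball_subset_closedBall
    · intro j
      apply le_of_eq
      have e1 : ((4 : ℝ) ^ j) ^ (n + 2) = (2 ^ j) ^ (2 * n + 3) * 2 ^ j := by
        rw [← pow_succ, ← pow_mul, ← pow_mul, show (4 : ℝ) = 2 ^ 2 by norm_num, ← pow_mul]
        congr 1; ring
      have e2 : ((2 : ℝ) ^ (j + 1)) ^ (2 * n + 3) = (2 ^ j) ^ (2 * n + 3) * 2 ^ (2 * n + 3) := by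
        rw [pow_succ (2 : ℝ) j, mul_pow]
      rw [e1, e2, one_div, inv_pow]
      field_simp
  have hI : IntegrableOn (fun v => |w v| * (‖v‖ ^ (n + 2))⁻¹) {v : E n | 1 ≤ ‖v‖} := by
    refine ⟨Measurable.aestronglyMeasurable (by fun_prop), ?_⟩
    rw [hasFiniteIntegral_iff_ofReal (Eventually.of_forall hnn)]
    exact key.trans_lt ENNReal.ofReal_lt_top
  refine ⟨hI, ?_⟩
  rw [integral_eq_lintegral_of_nonneg_ae (Eventually.of_forall hnn) hI.aestronglyMeasurable]
  exact ENNReal.toReal_le_of_le_ofReal (by positivity) key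

/-- kernel difference -/
lemma th_diff {v y : E n} (hy : ‖y‖ ≤ 2) (hv : 3 ≤ ‖v‖) :
    |th n (y - v) - th n v| ≤ 2 * (n + 1) * 2 ^ n * 3 ^ (n + 1) * (‖v‖ ^ (n + 2))⁻¹ := by
  have hb : 0 < ‖v‖ := by linarith
  have h1 : ‖v‖ / 3 ≤ ‖y - v‖ := by
    have := norm_sub_norm_le v y
    rw [norm_sub_rev] at this
    linarith
  have h2 : ‖y - v‖ ≤ 2 * ‖v‖ := by
    have := norm_sub_le y v
    linarith
  have ha : 0 < ‖y - v‖ := by linarith
  have h3 : |‖v‖ - ‖y - v‖| ≤ 2 := by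
    have := abs_norm_sub_norm_le v (v - y)
    rw [sub_sub_cancel, norm_sub_rev v y] at this
    exact this.trans hy
  have h4 := abs_pow_sub_pow_le ‖v‖ ‖y - v‖ (n + 1)
  have h5 : |‖v‖ ^ (n + 1) - ‖y - v‖ ^ (n + 1)| ≤ 2 * (n + 1) * (2 * ‖v‖) ^ n := by
    refine h4.trans ?_
    rw [Nat.add_sub_cancel]
    push_cast
    have : max |‖v‖| |‖y - v‖| ≤ 2 * ‖v‖ := by
      rw [abs_norm, abs_norm]
      exact max_le (by linarith) h2
    gcongr
  have h6 : th n (y - v) - th n v = (‖v‖ ^ (n + 1) - ‖y - v‖ ^ (n + 1)) *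
      ((‖y - v‖ ^ (n + 1))⁻¹ * (‖v‖ ^ (n + 1))⁻¹) := by
    unfold th
    field_simp
  have h7 : (‖y - v‖ ^ (n + 1))⁻¹ ≤ 3 ^ (n + 1) * (‖v‖ ^ (n + 1))⁻¹ := by
    rw [← inv_pow, ← inv_pow, ← mul_pow]
    gcongr
    rw [inv_le_comm₀ ha (by positivity), mul_inv, inv_inv]
    linarith
  rw [h6, abs_mul, abs_of_nonneg (by positivity : 0 ≤ (‖y - v‖ ^ (n + 1))⁻¹ * (‖v‖ ^ (n + 1))⁻¹)]
  calc |‖v‖ ^ (n + 1) - ‖y - v‖ ^ (n + 1)| * ((‖y - v‖ ^ (n + 1))⁻¹ * (‖v‖ ^ (n + 1))⁻¹)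
      ≤ (2 * (n + 1) * (2 * ‖v‖) ^ n) * ((3 ^ (n + 1) * (‖v‖ ^ (n + 1))⁻¹) * (‖v‖ ^ (n + 1))⁻¹) := by
        gcongr
    _ = _ := by
        rw [mul_pow]
        field_simp
        ring

/-- far bound for `Lop` -/
lemma Lop_far {ψ : E n → ℝ} (hψ : Continuous ψ) (hψc : HasCompactSupport ψ)
    (hs : ∀ x, 2 < ‖x‖ → ψ x = 0) (h0 : ∫ x, ψ x = 0) {v : E n} (hv : 3 ≤ ‖v‖) :
    |Lop n ψ v| ≤ 4 * (n + 1) * 2 ^ n * 3 ^ (n + 1) * (∫ x, |ψ x|) * (‖v‖ ^ (n + 2))⁻¹ := by
  have hi : Integrable ψ := hψ.integrable_of_hasCompactSupport hψc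
  have hv0 : ψ v = 0 := hs v (by linarith)
  have hm : Measurable ψ := hψ.measurable
  have i0 : Integrable (fun y => ψ y * th n (y - v)) := by
    refine hi.abs.mono' ((hm.mul (measurable_th.comp (by fun_prop))).aestronglyMeasurable)
      (Eventually.of_forall fun y => ?_)
    rw [norm_mul, Real.norm_eq_abs, Real.norm_of_nonneg (th_nonneg _)]
    by_cases hy : 2 < ‖y‖
    · rw [hs y hy]; simp
    · push Not at hy
      have h1 : 1 ≤ ‖y - v‖ := by
        have := norm_sub_norm_le v y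
        rw [norm_sub_rev] at this
        linarith
      have h2 : th n (y - v) ≤ 1 := by
        unfold th
        exact inv_le_one_of_one_le₀ (one_le_pow₀ h1)
      nlinarith only [abs_nonneg (ψ y), h2]
  have i1 : Integrable (fun z => ψ (v + z) * th n z) := by
    have := i0.comp_add_left v
    refine this.congr (Eventually.of_forall fun z => ?_)
    simp only [add_sub_cancel_left]
  have i2 : Integrable (fun z => ψ (v - z) * th n z) := by
    have := i0.comp_sub_left v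
    refine this.congr (Eventually.of_forall fun z => ?_)
    simp only [sub_sub_cancel_left, th_neg]
  have e1 : ∫ z, ψ (v + z) * th n z = ∫ y, ψ y * th n (y - v) := by
    rw [← integral_add_left_eq_self (fun y => ψ y * th n (y - v)) v]
    simp only [add_sub_cancel_left]
  have e2 : ∫ z, ψ (v - z) * th n z = ∫ y, ψ y * th n (y - v) := by
    rw [← integral_sub_left_eq_self (fun y => ψ y * th n (y - v)) volume v]
    simp only [sub_sub_cancel_left, th_neg]
  have e3 : Lop n ψ v = -(2 * ∫ y, ψ y * th n (y - v)) := by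
    rw [two_mul]
    nth_rewrite 1 [← e1]
    rw [← e2, ← integral_add i1 i2, ← integral_neg]
    refine integral_congr_ae (Eventually.of_forall fun z => ?_)
    simp only [hv0, th]
    ring
  have e4 : ∫ y, ψ y * th n (y - v) = ∫ y, ψ y * (th n (y - v) - th n v) := by
    simp_rw [mul_sub]
    rw [integral_sub i0 (hi.mul_const _), integral_mul_const, h0, zero_mul, sub_zero]
  have e5 : |∫ y, ψ y * (th n (y - v) - th n v)| ≤
      ∫ y, |ψ y| * (2 * (n + 1) * 2 ^ n * 3 ^ (n + 1) * (‖v‖ ^ (n + 2))⁻¹) := by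
    change ‖∫ y, ψ y * (th n (y - v) - th n v)‖ ≤ _
    refine norm_integral_le_of_norm_le (hi.abs.mul_const _) (Eventually.of_forall fun y => ?_)
    rw [norm_mul, Real.norm_eq_abs, Real.norm_eq_abs]
    by_cases hy : 2 < ‖y‖
    · rw [hs y hy]; simp
    · push Not at hy
      exact mul_le_mul_of_nonneg_left (th_diff hy hv) (abs_nonneg _)
  rw [e3, abs_neg, abs_mul, abs_two, e4]
  rw [integral_mul_const] at e5
  linarith

lemma Lop_meas {ψ : E n → ℝ} (hψ : Continuous ψ) : StronglyMeasurable (Lop n ψ) := by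
  have hm : Measurable ψ := hψ.measurable
  unfold Lop
  refine StronglyMeasurable.integral_prod_right (f := fun v z : E n =>
    (2 * ψ v - ψ (v + z) - ψ (v - z)) * (‖z‖ ^ (n + 1))⁻¹) ?_
  refine Measurable.stronglyMeasurable ?_
  unfold Function.uncurry
  fun_prop

lemma integrableOn_b4 (g : E n → ℝ) (hg : Continuous g) : IntegrableOn g (ball (0 : E n) 4) :=
  (hg.continuousOn.integrableOn_compact (isCompact_closedBall (0 : E n) 4)).mono_set
    ball_subset_closedBall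

lemma vol4 : volume.real (ball (0 : E n) 4) = 4 ^ n * volume.real (ball (0 : E n) 1) :=
  vol_ball (by norm_num)

/-- size of `F` -/
lemma size_F {w χ : E n → ℝ} (hw : Continuous w) (hχ : Continuous χ) (c : ℝ)
    (hn0 : ∀ x, 0 ≤ χ x) (h1 : ∀ x, χ x ≤ 1) (h0 : ∀ x : E n, 4 ≤ ‖x‖ → χ x = 0) :
    ∫ x, (χ x * (w x - c)) ^ 2 ≤
      2 * (∫ x in ball (0 : E n) 4, w x ^ 2) +
        2 * c ^ 2 * (4 ^ n * volume.real (ball (0 : E n) 1)) := by
  rw [← setIntegral_eq_integral_of_forall_compl_eq_zero (s := ball (0 : E n) 4)]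
  · calc ∫ x in ball (0 : E n) 4, (χ x * (w x - c)) ^ 2 ≤
        ∫ x in ball (0 : E n) 4, (2 * w x ^ 2 + 2 * c ^ 2) := by
          refine integral_mono (integrableOn_b4 _ (by fun_prop))
            (integrableOn_b4 _ (by fun_prop)) (fun x => ?_)
          simp only
          have h1 : χ x ^ 2 ≤ 1 := pow_le_one₀ (hn0 x) (h1 x)
          nlinarith only [sq_nonneg (w x + c), sq_nonneg (w x - c), h1]
      _ = 2 * (∫ x in ball (0 : E n) 4, w x ^ 2) +
          2 * c ^ 2 * (4 ^ n * volume.real (ball (0 : E n) 1)) := by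
          rw [integral_add (integrableOn_b4 _ (by fun_prop)) (integrableOn_b4 _ (by fun_prop)),
            integral_const_mul, setIntegral_const, smul_eq_mul, vol4]
          ring
  · intro x hx
    rw [mem_ball_zero_iff, not_lt] at hx
    simp only [h0 x hx]
    ring

/-- size of `ψ` -/
lemma size_N {w φ : E n → ℝ} (hw : Continuous w) (hφ : Continuous φ) (c : ℝ)
    (hn0 : ∀ x, 0 ≤ φ x) (h1 : ∀ x, φ x ≤ 1) (h0 : ∀ x : E n, 4 ≤ ‖x‖ → φ x = 0) :
    ∫ x, |φ x ^ 2 * (w x - c)| ≤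
      (∫ x in ball (0 : E n) 4, |w x|) + |c| * (4 ^ n * volume.real (ball (0 : E n) 1)) := by
  rw [← setIntegral_eq_integral_of_forall_compl_eq_zero (s := ball (0 : E n) 4)]
  · calc ∫ x in ball (0 : E n) 4, |φ x ^ 2 * (w x - c)| ≤
          ∫ x in ball (0 : E n) 4, (|w x| + |c|) := by
          refine integral_mono (integrableOn_b4 _ (by fun_prop)) (integrableOn_b4 _ (by fun_prop))
            (fun x => ?_)
          simp only
          rw [abs_mul, abs_of_nonneg (sq_nonneg _)]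
          have h1 : φ x ^ 2 ≤ 1 := pow_le_one₀ (hn0 x) (h1 x)
          have h2 := abs_sub (w x) c
          nlinarith [abs_nonneg (w x - c)]
      _ = _ := by
          rw [integral_add (integrableOn_b4 _ (by fun_prop)) (integrableOn_b4 _ (by fun_prop)),
            setIntegral_const, smul_eq_mul, vol4]
          ring
  · intro x hx
    rw [mem_ball_zero_iff, not_lt] at hx
    simp only [h0 x hx]
    simp

lemma size_a {w φ : E n → ℝ} (hw : Continuous w)
    (hn0 : ∀ x, 0 ≤ φ x) (h1 : ∀ x, φ x ≤ 1) (h0 : ∀ x : E n, 4 ≤ ‖x‖ → φ x = 0) :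
    |∫ x, φ x ^ 2 * w x| ≤ ∫ x in ball (0 : E n) 4, |w x| := by
  rw [← setIntegral_eq_integral_of_forall_compl_eq_zero (s := ball (0 : E n) 4)]
  · change ‖∫ x in ball (0 : E n) 4, φ x ^ 2 * w x‖ ≤ _
    refine norm_integral_le_of_norm_le (integrableOn_b4 _ hw.abs)
      (Eventually.of_forall fun x => ?_)
    rw [norm_mul, Real.norm_eq_abs, Real.norm_eq_abs, abs_of_nonneg (sq_nonneg _)]
    have : φ x ^ 2 ≤ 1 := pow_le_one₀ (hn0 x) (h1 x)
    nlinarith [abs_nonneg (w x)]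
  · intro x hx
    rw [mem_ball_zero_iff, not_lt] at hx
    rw [h0 x (by linarith)]; ring

lemma hcs_sq {f : E n → ℝ} (hf : HasCompactSupport f) : HasCompactSupport (fun x => f x ^ 2) := by
  have : (fun x => f x ^ 2) = fun x => f x * f x := by funext x; ring
  rw [this]
  exact hf.mul_right

/-- mean zero -/
lemma mean_zero {w φ : E n → ℝ} (hw : Continuous w) (hφ : Continuous φ)
    (hφc : HasCompactSupport φ) (hP : 0 < ∫ x, φ x ^ 2) :
    ∫ x, φ x ^ 2 * (w x - (∫ x, φ x ^ 2 * w x) / ∫ x, φ x ^ 2) = 0 := by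
  have i1 : Integrable (fun x => φ x ^ 2 * w x) :=
    ((hφ.pow 2).mul hw).integrable_of_hasCompactSupport (hcs_sq hφc).mul_right
  have i2 : Integrable (fun x => φ x ^ 2 * ((∫ x, φ x ^ 2 * w x) / ∫ x, φ x ^ 2)) :=
    ((hφ.pow 2).mul continuous_const).integrable_of_hasCompactSupport (hcs_sq hφc).mul_right
  simp_rw [mul_sub]
  rw [integral_sub i1 i2, integral_mul_const]
  field_simp
  ring

/-- the third term -/
lemma term3 (hn : 1 ≤ n) {χ ψ : E n → ℝ} (hχ : ContDiff ℝ 3 χ) (hχc : HasCompactSupport χ)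
    (hψ : ContDiff ℝ 3 ψ) (hψc : HasCompactSupport ψ) {K : ℝ}
    (hK : ∀ v z, |2 * χ v - χ (v + z) - χ (v - z)| ≤ K * min (‖z‖ ^ 2) 1) :
    |∫ v, χ v * Lop n ψ v| ≤ K * (∫ z, mm n z) * ∫ x, |ψ x| := by
  obtain ⟨g1, g2, g3⟩ := lop_form hn (hχ.of_le (by norm_num)) hχc
    (hψ.of_le (by norm_num)) hψc
  obtain ⟨l1, l2, l3⟩ := lop_form hn (hψ.of_le (by norm_num)) hψc (hχ.of_le (by norm_num)) hχc
  have hsym : ∫ v, χ v * Lop n ψ v = ∫ v, ψ v * Lop n χ v := by
    rw [g3, l3]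
    refine integral_congr_ae (Eventually.of_forall fun p => ?_)
    simp only
    ring
  rw [hsym]
  have : |∫ v, ψ v * Lop n χ v| ≤ ∫ v, |ψ v| * (K * ∫ z, mm n z) := by
    change ‖∫ v, ψ v * Lop n χ v‖ ≤ _
    refine norm_integral_le_of_norm_le
      ((hψ.continuous.integrable_of_hasCompactSupport hψc).abs.mul_const _)
      (Eventually.of_forall fun v => ?_)
    rw [norm_mul, Real.norm_eq_abs, Real.norm_eq_abs]
    exact mul_le_mul_of_nonneg_left (Lop_bound hn hK v) (abs_nonneg _)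
  rw [integral_mul_const] at this
  linarith

/-- the far term -/
lemma term4 {w χ ψ : E n → ℝ} (hw : Continuous w) (hχ : Continuous χ)
    (hψ : Continuous ψ) (hψc : HasCompactSupport ψ)
    (hψs : ∀ x, 2 < ‖x‖ → ψ x = 0) (hψ0 : ∫ x, ψ x = 0) {A : ℝ} (hA : 0 ≤ A)
    (hg : ∀ R : ℝ, 1 ≤ R → ∫ v in ball (0 : E n) R, w v ^ 2 ≤ A * R ^ (n + 3))
    (hn0 : ∀ x, 0 ≤ χ x) (hl : ∀ x, χ x ≤ 1) (h1 : ∀ x : E n, ‖x‖ ≤ 3 → χ x = 1) :
    Integrable (fun v => (1 - χ v) * w v * Lop n ψ v) ∧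
    |∫ v, (1 - χ v) * w v * Lop n ψ v| ≤
      4 * (n + 1) * 2 ^ n * 3 ^ (n + 1) * (∫ x, |ψ x|) *
        (2 * (2 ^ (2 * n + 3) * Real.sqrt (volume.real (ball (0 : E n) 1) * A))) := by
  obtain ⟨q1, q2⟩ := far_int hw hA hg
  have hms : MeasurableSet {v : E n | 1 ≤ ‖v‖} := measurableSet_le measurable_const (by fun_prop)
  have hN0 : 0 ≤ ∫ x, |ψ x| := integral_nonneg fun _ => abs_nonneg _
  obtain ⟨K, hK⟩ : ∃ K : ℝ, K = 4 * (n + 1) * 2 ^ n * 3 ^ (n + 1) * (∫ x, |ψ x|) := ⟨_, rfl⟩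
  have hK0 : 0 ≤ K := by rw [hK]; positivity
  rw [← hK]
  have hfarle : ∀ v, ‖(1 - χ v) * w v * Lop n ψ v‖ ≤
      {v : E n | 1 ≤ ‖v‖}.indicator (fun v => |w v| * (‖v‖ ^ (n + 2))⁻¹) v * K := by
    intro v
    rcases le_total ‖v‖ 3 with h | h
    · rw [h1 v h, sub_self, zero_mul, zero_mul, norm_zero]
      exact mul_nonneg (indicator_nonneg (fun _ _ => by positivity) _) hK0
    · have hv : v ∈ {v : E n | 1 ≤ ‖v‖} := le_trans (by norm_num : (1 : ℝ) ≤ 3) h
      rw [indicator_of_mem hv]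
      have h1 := Lop_far hψ hψc hψs hψ0 h
      rw [← hK] at h1
      rw [norm_mul, norm_mul, Real.norm_eq_abs, Real.norm_eq_abs, Real.norm_eq_abs]
      have h2 : |1 - χ v| ≤ 1 := by
        rw [abs_le]; constructor <;> linarith [hn0 v, hl v]
      calc |1 - χ v| * |w v| * |Lop n ψ v| ≤ 1 * |w v| * (K * (‖v‖ ^ (n + 2))⁻¹) := by
            gcongr
        _ = _ := by ring
  have hfi0 : Integrable (fun v => {v : E n | 1 ≤ ‖v‖}.indicator
      (fun v => |w v| * (‖v‖ ^ (n + 2))⁻¹) v * K) :=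
    ((integrable_indicator_iff hms).2 q1).mul_const _
  refine ⟨?_, ?_⟩
  · refine hfi0.mono' ?_ (Eventually.of_forall hfarle)
    exact AEStronglyMeasurable.mul
      (Continuous.aestronglyMeasurable ((continuous_const.sub hχ).mul hw))
      (Lop_meas hψ).aestronglyMeasurable
  · have h1 : ‖∫ v, (1 - χ v) * w v * Lop n ψ v‖ ≤ _ :=
      norm_integral_le_of_norm_le hfi0 (Eventually.of_forall hfarle)
    rw [integral_mul_const, integral_indicator hms, Real.norm_eq_abs] at h1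
    calc _ ≤ _ := h1
      _ ≤ (2 * (2 ^ (2 * n + 3) * Real.sqrt (volume.real (ball (0 : E n) 1) * A))) * K := by gcongr
      _ = _ := by ring

/-- the second term -/
lemma term2 (hn : 1 ≤ n) {F φ : E n → ℝ} (hF : Continuous F) (hFc : HasCompactSupport F)
    (hφ : Continuous φ) {K : ℝ} (hK : ∀ x y, |φ x - φ y| ≤ K * min ‖x - y‖ 1) :
    Integrable (fun p : E n × E n => F p.1 * F p.2 * (φ p.1 - φ p.2) ^ 2 * wt n p.1 p.2) ∧
    |∫ p : E n × E n, F p.1 * F p.2 * (φ p.1 - φ p.2) ^ 2 * wt n p.1 p.2| ≤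
      K ^ 2 * (∫ z, mm n z) * ∫ x, F x ^ 2 := by
  have hF1 : Continuous fun p : E n × E n => F p.1 := hF.comp continuous_fst
  have hF2 : Continuous fun p : E n × E n => F p.2 := hF.comp continuous_snd
  have hp1 : Continuous fun p : E n × E n => φ p.1 := hφ.comp continuous_fst
  have hp2 : Continuous fun p : E n × E n => φ p.2 := hφ.comp continuous_snd
  have hu1 : Continuous fun p : E n × E n => F p.1 * F p.2 * (φ p.1 - φ p.2) ^ 2 :=
    (hF1.mul hF2).mul ((hp1.sub hp2).pow 2)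
  have hu : AEStronglyMeasurable
      (fun p : E n × E n => F p.1 * F p.2 * (φ p.1 - φ p.2) ^ 2) := by
    exact hu1.aestronglyMeasurable
  have hG1 : Integrable fun x : E n => F x ^ 2 :=
    (hF.pow 2).integrable_of_hasCompactSupport (hcs_sq hFc)
  have hG : Integrable fun x : E n => K ^ 2 / 2 * F x ^ 2 := hG1.const_mul _
  have hb : ∀ x y : E n, |(fun p : E n × E n => F p.1 * F p.2 * (φ p.1 - φ p.2) ^ 2) (x, y)| ≤
      (K ^ 2 / 2 * F x ^ 2 + K ^ 2 / 2 * F y ^ 2) * min (‖x - y‖ ^ 2) 1 := by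
    intro x y
    simp only
    rw [abs_mul, abs_mul, abs_of_nonneg (sq_nonneg (φ x - φ y))]
    have h1 : (φ x - φ y) ^ 2 ≤ K ^ 2 * min (‖x - y‖ ^ 2) 1 := by
      rw [← sq_abs]
      calc |φ x - φ y| ^ 2 ≤ (K * min ‖x - y‖ 1) ^ 2 := by gcongr; exact hK x y
        _ = K ^ 2 * (min ‖x - y‖ 1) ^ 2 := by ring
        _ ≤ _ := by
            gcongr
            rcases le_total ‖x - y‖ 1 with h | h
            · rw [min_eq_left h, min_eq_left (by nlinarith only [norm_nonneg (x - y), h])]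
            · rw [min_eq_right h, min_eq_right (by nlinarith only [norm_nonneg (x - y), h])]
              norm_num
    have h2 : |F x| * |F y| ≤ (F x ^ 2 + F y ^ 2) / 2 := by
      have e1 := sq_abs (F x)
      have e2 := sq_abs (F y)
      linarith only [sq_nonneg (|F x| - |F y|), e1, e2]
    calc |F x| * |F y| * (φ x - φ y) ^ 2 ≤ (F x ^ 2 + F y ^ 2) / 2 *
        (K ^ 2 * min (‖x - y‖ ^ 2) 1) := by gcongr
      _ = _ := by ring
  obtain ⟨s1, s2⟩ := int_form hn hu hG hb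
  rw [integral_const_mul] at s2
  refine ⟨s1, s2.trans (le_of_eq (by ring))⟩

/-- the energy identity -/
lemma energy_id (hn : 1 ≤ n) {F φ ψ : E n → ℝ} (hF : ContDiff ℝ 3 F) (hFc : HasCompactSupport F)
    (hφ : Continuous φ) {K : ℝ} (hK : ∀ x y, |φ x - φ y| ≤ K * min ‖x - y‖ 1)
    (hψ : ContDiff ℝ 3 ψ) (hψc : HasCompactSupport ψ) (hψF : ∀ x, ψ x = φ x ^ 2 * F x) :
    Integrable (fun p : E n × E n => (φ p.1 * F p.1 - φ p.2 * F p.2) ^ 2 * wt n p.1 p.2) ∧
    ∫ p : E n × E n, (φ p.1 * F p.1 - φ p.2 * F p.2) ^ 2 * wt n p.1 p.2 =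
      (∫ v, F v * Lop n ψ v) +
      ∫ p : E n × E n, F p.1 * F p.2 * (φ p.1 - φ p.2) ^ 2 * wt n p.1 p.2 := by
  obtain ⟨f1, f2, f3⟩ := lop_form hn (hF.of_le (by norm_num)) hFc
    (hψ.of_le (by norm_num)) hψc
  obtain ⟨s1, -⟩ := term2 hn hF.continuous hFc hφ hK
  have hid : ∀ p : E n × E n, (φ p.1 * F p.1 - φ p.2 * F p.2) ^ 2 * wt n p.1 p.2 =
      (F p.1 - F p.2) * (ψ p.1 - ψ p.2) * wt n p.1 p.2 +
      F p.1 * F p.2 * (φ p.1 - φ p.2) ^ 2 * wt n p.1 p.2 := by
    intro p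
    rw [hψF, hψF]
    ring
  refine ⟨(f2.add s1).congr (Eventually.of_forall fun p => (hid p).symm), ?_⟩
  rw [f3, ← integral_add f2 s1]
  exact integral_congr_ae (Eventually.of_forall hid)

/-- the core estimate with abstract cutoffs -/
lemma core (hn : 1 ≤ n) {φ χ : E n → ℝ} (hφd : ContDiff ℝ 3 φ) (hφc : HasCompactSupport φ)
    (hχd : ContDiff ℝ 3 χ) (hχc : HasCompactSupport χ)
    (hφ1 : ∀ x : E n, ‖x‖ ≤ 1 → φ x = 1) (hφ0 : ∀ x : E n, 2 ≤ ‖x‖ → φ x = 0)
    (hχ1 : ∀ x : E n, ‖x‖ ≤ 3 → χ x = 1)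
    (hχn : ∀ x, 0 ≤ χ x) (hχl : ∀ x, χ x ≤ 1)
    {Kφ : ℝ} (hKφ : ∀ x y, |φ x - φ y| ≤ Kφ * min ‖x - y‖ 1) {Kχ : ℝ}
    (hKχ : ∀ v z, |2 * χ v - χ (v + z) - χ (v - z)| ≤ Kχ * min (‖z‖ ^ 2) 1)
    {w : E n → ℝ} {A : ℝ} (hA : 0 ≤ A) (hw : ContDiff ℝ 3 w)
    (hg : ∀ R : ℝ, 1 ≤ R → ∫ v in ball (0 : E n) R, w v ^ 2 ≤ A * R ^ (n + 3))
    (heq : ∀ φ : E n → ℝ, ContDiff ℝ 3 φ → HasCompactSupport φ → ∫ v, φ v = 0 →
      ∫ v, w v * Lop n φ v = 0) {c : ℝ} (hψ0 : ∫ x, φ x ^ 2 * (w x - c) = 0) :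
    ∫ p in ball (0 : E n) 1 ×ˢ ball (0 : E n) 1, (w p.1 - w p.2) ^ 2 * wt n p.1 p.2 ≤
      Kφ ^ 2 * (∫ z, mm n z) * (∫ x, (χ x * (w x - c)) ^ 2) +
      |c| * (Kχ * (∫ z, mm n z) * ∫ x, |φ x ^ 2 * (w x - c)|) +
      4 * (n + 1) * 2 ^ n * 3 ^ (n + 1) * (∫ x, |φ x ^ 2 * (w x - c)|) *
        (2 * (2 ^ (2 * n + 3) * Real.sqrt (volume.real (ball (0 : E n) 1) * A))) := by
  have hwc : Continuous w := hw.continuous
  obtain ⟨F, hF⟩ : ∃ F : E n → ℝ, F = fun x => χ x * (w x - c) := ⟨_, rfl⟩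
  obtain ⟨ψ, hψ⟩ : ∃ ψ : E n → ℝ, ψ = fun x => φ x ^ 2 * (w x - c) := ⟨_, rfl⟩
  have hFx : ∀ x, χ x * (w x - c) = F x := fun x => by rw [hF]
  have hψx : ∀ x, φ x ^ 2 * (w x - c) = ψ x := fun x => by rw [hψ]
  simp only [hψx] at hψ0 ⊢
  simp only [hFx]
  have hFd : ContDiff ℝ 3 F := by rw [hF]; exact hχd.mul (hw.sub contDiff_const)
  have hψd : ContDiff ℝ 3 ψ := by
    rw [hψ]; exact (hφd.pow 2).mul (hw.sub contDiff_const)
  have hFc : HasCompactSupport F := by rw [hF]; exact hχc.mul_right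
  have hψc : HasCompactSupport ψ := by rw [hψ]; exact (hcs_sq hφc).mul_right
  have hφχ : ∀ x : E n, φ x * χ x = φ x := by
    intro x
    rcases le_total 2 ‖x‖ with h | h
    · rw [hφ0 x h, zero_mul]
    · rw [hχ1 x (by linarith), mul_one]
  have hψF : ∀ x, ψ x = φ x ^ 2 * F x := by
    intro x
    rw [hψ, hF]
    simp only
    rw [← mul_assoc, sq, mul_assoc (φ x) (φ x) (χ x), hφχ]
  have hψs : ∀ x : E n, 2 < ‖x‖ → ψ x = 0 := by
    intro x hx
    rw [hψF, hφ0 x hx.le]; ring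
  have hT3 := term3 hn hχd hχc hψd hψc hKχ
  obtain ⟨hfi, hT4⟩ := term4 hwc hχd.continuous hψd.continuous hψc hψs hψ0 hA hg hχn hχl hχ1
  obtain ⟨-, hT2⟩ := term2 hn hFd.continuous hFc hφd.continuous hKφ
  obtain ⟨hEi, hE⟩ := energy_id hn hFd hFc hφd.continuous hKφ hψd hψc hψF
  obtain ⟨f1, -, -⟩ := lop_form hn (hFd.of_le (by norm_num)) hFc (hψd.of_le (by norm_num)) hψc
  obtain ⟨g1, -, -⟩ := lop_form hn (hχd.of_le (by norm_num)) hχc (hψd.of_le (by norm_num)) hψc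
  -- the equation
  have h0 : (∫ v, F v * Lop n ψ v) + c * (∫ v, χ v * Lop n ψ v) +
      ∫ v, (1 - χ v) * w v * Lop n ψ v = 0 := by
    have i2 : Integrable (fun v => c * (χ v * Lop n ψ v)) := g1.const_mul c
    have i3 : Integrable (fun v => F v * Lop n ψ v + c * (χ v * Lop n ψ v)) := f1.add i2
    rw [← heq ψ hψd hψc hψ0, ← integral_const_mul, ← integral_add f1 i2, ← integral_add i3 hfi]
    refine integral_congr_ae (Eventually.of_forall fun v => ?_)
    simp only [hF]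
    ring
  have hnn : ∀ p : E n × E n, 0 ≤ (φ p.1 * F p.1 - φ p.2 * F p.2) ^ 2 * wt n p.1 p.2 :=
    fun p => mul_nonneg (sq_nonneg _) (th_nonneg _)
  have hlow : ∫ p in ball (0 : E n) 1 ×ˢ ball (0 : E n) 1, (w p.1 - w p.2) ^ 2 * wt n p.1 p.2 ≤
      ∫ p : E n × E n, (φ p.1 * F p.1 - φ p.2 * F p.2) ^ 2 * wt n p.1 p.2 := by
    calc _ = ∫ p in ball (0 : E n) 1 ×ˢ ball (0 : E n) 1,
          (φ p.1 * F p.1 - φ p.2 * F p.2) ^ 2 * wt n p.1 p.2 := by
          refine setIntegral_congr_fun (measurableSet_ball.prod measurableSet_ball) ?_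
          rintro ⟨x, y⟩ ⟨hx, hy⟩
          have hx' : ‖x‖ < 1 := mem_ball_zero_iff.1 hx
          have hy' : ‖y‖ < 1 := mem_ball_zero_iff.1 hy
          simp only [hF]
          rw [hφ1 x hx'.le, hφ1 y hy'.le, hχ1 x (by linarith), hχ1 y (by linarith)]
          ring
      _ ≤ _ := setIntegral_le_integral hEi (Eventually.of_forall hnn)
  have b2 := le_abs_self (∫ p : E n × E n, F p.1 * F p.2 * (φ p.1 - φ p.2) ^ 2 * wt n p.1 p.2)
  have b3 := neg_abs_le (c * ∫ v, χ v * Lop n ψ v)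
  have b4 := neg_abs_le (∫ v, (1 - χ v) * w v * Lop n ψ v)
  have hT3' : |c * ∫ v, χ v * Lop n ψ v| ≤ |c| * (Kχ * (∫ z, mm n z) * ∫ x, |ψ x|) := by
    rw [abs_mul]
    gcongr
  refine hlow.trans ?_
  rw [hE]
  linarith

/-- final arithmetic -/
lemma arith {Kφ Kχ I V K1 k1 K2 K4 A c b N Q s L m : ℝ} (hI : 0 ≤ I) (hKχ : 0 ≤ Kχ) (hK4 : 0 ≤ K4)
    (hL : 0 ≤ L) (hN0 : 0 ≤ N) (hQ : Q ≤ K2 * A) (hb : b ^ 2 ≤ K1 * A) (hc : c ^ 2 ≤ k1 * A)
    (hN : N ≤ b + |c| * m) (hs2 : s ^ 2 = V * A) :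
    Kφ ^ 2 * I * Q + |c| * (Kχ * I * N) + K4 * N * (2 * (L * s)) ≤
      (Kφ ^ 2 * I * K2 + Kχ * I * (k1 + (2 * K1 + 2 * k1 * m ^ 2)) / 2 +
        K4 * L * ((2 * K1 + 2 * k1 * m ^ 2) + V)) * A := by
  have hN2' : N ^ 2 ≤ (2 * K1 + 2 * k1 * m ^ 2) * A := by
    have h2 : N ^ 2 ≤ (b + |c| * m) ^ 2 := pow_le_pow_left₀ hN0 hN 2
    have h3 : (b + |c| * m) ^ 2 ≤ 2 * b ^ 2 + 2 * c ^ 2 * m ^ 2 := by
      rw [← sq_abs c]
      linarith only [sq_nonneg (b - |c| * m)]
    have h4 : c ^ 2 * m ^ 2 ≤ k1 * A * m ^ 2 := by gcongr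
    linarith
  obtain ⟨K3, hK3⟩ : ∃ K3, K3 = 2 * K1 + 2 * k1 * m ^ 2 := ⟨_, rfl⟩
  rw [← hK3] at hN2' ⊢
  have hcN : |c| * N ≤ (k1 * A + K3 * A) / 2 := by
    have := sq_abs c
    have h1 := sq_nonneg (|c| - N)
    have h2 : (|c| - N) ^ 2 = |c| ^ 2 - 2 * (|c| * N) + N ^ 2 := by ring
    linarith
  have hNs : N * s ≤ (K3 * A + V * A) / 2 := by
    have h1 := sq_nonneg (N - s)
    have h2 : (N - s) ^ 2 = N ^ 2 - 2 * (N * s) + s ^ 2 := by ring
    linarith
  have e3 : |c| * (Kχ * I * N) ≤ Kχ * I * ((k1 * A + K3 * A) / 2) := by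
    calc |c| * (Kχ * I * N) = Kχ * I * (|c| * N) := by ring
      _ ≤ _ := by gcongr
  have e4 : K4 * N * (2 * (L * s)) ≤ K4 * L * 2 * ((K3 * A + V * A) / 2) := by
    calc K4 * N * (2 * (L * s)) = K4 * L * 2 * (N * s) := by ring
      _ ≤ _ := by gcongr
  have e2 : Kφ ^ 2 * I * Q ≤ Kφ ^ 2 * I * (K2 * A) := by gcongr
  calc _ ≤ Kφ ^ 2 * I * (K2 * A) + Kχ * I * ((k1 * A + K3 * A) / 2) +
      K4 * L * 2 * ((K3 * A + V * A) / 2) := add_le_add (add_le_add e2 e3) e4
    _ = _ := by ring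

end FlatCacc

open FlatCacc in
theorem flat_cacc_unit (n : ℕ) (hn : 1 ≤ n) : ∃ CH : ℝ, 0 < CH ∧ ∀ (w : E n → ℝ) (A : ℝ), 0 ≤ A →
    ContDiff ℝ 3 w → (∀ R : ℝ, 1 ≤ R → ∫ v in ball (0 : E n) R, w v ^ 2 ≤ A * R ^ (n + 3)) →
    (∀ φ : E n → ℝ, ContDiff ℝ 3 φ → HasCompactSupport φ → ∫ v, φ v = 0 →
      ∫ v, w v * Lop n φ v = 0) →
    ∫ p in ball (0 : E n) 1 ×ˢ ball (0 : E n) 1, (w p.1 - w p.2) ^ 2 * wt n p.1 p.2 ≤ CH * A := by
  let φ : ContDiffBump (0 : E n) := ⟨1, 2, by norm_num, by norm_num⟩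
  let χ : ContDiffBump (0 : E n) := ⟨3, 4, by norm_num, by norm_num⟩
  obtain ⟨Kφ, hKφ0, -, hKφ⟩ := first_diff (f := φ) φ.contDiff φ.hasCompactSupport
  obtain ⟨Kχ, hKχ0, hKχ⟩ := second_diff (f := χ) χ.contDiff χ.hasCompactSupport
  obtain ⟨V, hV⟩ : ∃ V, V = volume.real (ball (0 : E n) 1) := ⟨_, rfl⟩
  obtain ⟨I, hI⟩ : ∃ I, I = ∫ z, mm n z := ⟨_, rfl⟩
  obtain ⟨P, hP⟩ : ∃ P, P = ∫ x, φ x ^ 2 := ⟨_, rfl⟩
  have hV0 : 0 ≤ V := hV ▸ measureReal_nonneg
  have hI0 : 0 ≤ I := hI ▸ integral_nonneg mm_nonneg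
  have hφc : HasCompactSupport φ := φ.hasCompactSupport
  have hP0 : 0 < P := by
    rw [hP]
    refine Continuous.integral_pos_of_hasCompactSupport_nonneg_nonzero (x := 0)
      (φ.continuous.pow 2) (hcs_sq hφc) (fun x => sq_nonneg _) ?_
    have : φ 0 = 1 := φ.one_of_mem_closedBall (mem_closedBall_self (by norm_num))
    rw [this]; norm_num
  -- constants
  obtain ⟨K1, hK1⟩ : ∃ K1, K1 = 4 ^ n * V * 4 ^ (n + 3) := ⟨_, rfl⟩
  obtain ⟨K2, hK2⟩ : ∃ K2, K2 = 2 * 4 ^ (n + 3) + 2 * (K1 / P ^ 2) * (4 ^ n * V) := ⟨_, rfl⟩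
  obtain ⟨K3, hK3⟩ : ∃ K3, K3 = 2 * K1 + 2 * (K1 / P ^ 2) * (4 ^ n * V) ^ 2 := ⟨_, rfl⟩
  obtain ⟨K4, hK4⟩ : ∃ K4 : ℝ, K4 = 4 * (n + 1) * 2 ^ n * 3 ^ (n + 1) := ⟨_, rfl⟩
  have hK10 : 0 ≤ K1 := by rw [hK1]; positivity
  have hK20 : 0 ≤ K2 := by rw [hK2]; positivity
  have hK30 : 0 ≤ K3 := by rw [hK3]; positivity
  have hK40 : 0 ≤ K4 := by rw [hK4]; positivity
  refine ⟨Kφ ^ 2 * I * K2 + Kχ * I * (K1 / P ^ 2 + K3) / 2 + K4 * 2 ^ (2 * n + 3) * (K3 + V) + 1,
    by positivity, ?_⟩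
  intro w A hA hw hg heq
  have hwc : Continuous w := hw.continuous
  have hφ4 : ∀ x : E n, 4 ≤ ‖x‖ → φ x = 0 := fun x hx =>
    φ.zero_of_le_dist (by rw [dist_zero_right]; exact le_trans (by norm_num) hx)
  have hm0 := mean_zero hwc φ.continuous hφc (hP ▸ hP0)
  have ha := size_a (φ := φ) hwc (fun x => φ.nonneg) (fun x => φ.le_one) hφ4
  obtain ⟨c, hc⟩ : ∃ c, c = (∫ x, φ x ^ 2 * w x) / ∫ x, φ x ^ 2 := ⟨_, rfl⟩
  rw [← hc] at hm0
  obtain ⟨b, hb⟩ : ∃ b, b = ∫ v in ball (0 : E n) 4, |w v| := ⟨_, rfl⟩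
  have hb0 : 0 ≤ b := hb ▸ integral_nonneg fun _ => abs_nonneg _
  have hg4 := hg 4 (by norm_num)
  have hb2 : b ^ 2 ≤ K1 * A := by
    have h1 := l1_l2 hwc (R := 4) (by norm_num)
    rw [vol4, ← hb, ← hV] at h1
    calc b ^ 2 ≤ _ := h1
      _ ≤ 4 ^ n * V * (A * 4 ^ (n + 3)) := by gcongr
      _ = _ := by rw [hK1]; ring
  have hc2 : c ^ 2 ≤ K1 / P ^ 2 * A := by
    rw [← hb] at ha
    rw [← hP] at hc
    have h1 : (∫ x, φ x ^ 2 * w x) ^ 2 ≤ K1 * A := by
      rw [← sq_abs]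
      exact (pow_le_pow_left₀ (abs_nonneg _) ha 2).trans hb2
    rw [hc, div_pow, div_mul_eq_mul_div]
    gcongr
  have hmain := core hn φ.contDiff hφc χ.contDiff χ.hasCompactSupport
    (fun x hx => φ.one_of_mem_closedBall (mem_closedBall_zero_iff.2 hx))
    (fun x hx => φ.zero_of_le_dist (by rw [dist_zero_right]; exact hx))
    (fun x hx => χ.one_of_mem_closedBall (mem_closedBall_zero_iff.2 hx))
    (fun x => χ.nonneg) (fun x => χ.le_one) hKφ hKχ hA hw hg heq hm0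
  have hF2 := size_F (χ := χ) hwc χ.continuous c (fun x => χ.nonneg) (fun x => χ.le_one)
    (fun x hx => χ.zero_of_le_dist (by rw [dist_zero_right]; exact hx))
  have hN2 := size_N (φ := φ) hwc φ.continuous c (fun x => φ.nonneg) (fun x => φ.le_one) hφ4
  have hN0 : 0 ≤ ∫ x, |φ x ^ 2 * (w x - c)| := integral_nonneg fun _ => abs_nonneg _
  rw [← hI, ← hV, ← hK4] at hmain
  rw [← hV] at hF2
  rw [← hb, ← hV] at hN2
  obtain ⟨N, hN⟩ : ∃ N, N = ∫ x, |φ x ^ 2 * (w x - c)| := ⟨_, rfl⟩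
  obtain ⟨Q, hQ⟩ : ∃ Q, Q = ∫ x, (χ x * (w x - c)) ^ 2 := ⟨_, rfl⟩
  rw [← hN, ← hQ] at hmain
  rw [← hN] at hN2 hN0
  rw [← hQ] at hF2
  clear hN hQ hm0 heq hg
  have hQ2 : Q ≤ K2 * A := by
    calc Q ≤ _ := hF2
      _ ≤ 2 * (A * 4 ^ (n + 3)) + 2 * (K1 / P ^ 2 * A) * (4 ^ n * V) := by gcongr
      _ = _ := by rw [hK2]; ring
  have hs2 : Real.sqrt (V * A) ^ 2 = V * A := Real.sq_sqrt (by positivity)
  refine hmain.trans ?_
  have h5 := arith hI0 hKχ0 hK40 (L := 2 ^ (2 * n + 3)) (by positivity) (Kφ := Kφ) hN0 hQ2 hb2 hc2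
    hN2 hs2
  rw [← hK3] at h5
  refine h5.trans ?_
  rw [add_mul _ 1 A, one_mul]
  exact le_add_of_nonneg_right hA

end Vale.Agent.P120
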