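import Vale.Agent.Lib.P120.UR.Base
import Vale.Agent.Lib.P120.UR.LopFacts
import Vale.Agent.Lib.P120.UR.FlatCacc

/-!
P120, `flat_diff`: one difference improves the growth of solutions of the half-Laplace equation.
-/

open MeasureTheory Filter Set Metric Module
open scoped Topology ENNReal NNReal RealInnerProductSpace Pointwise

namespace Vale.Agent.P120

theorem flatDiff_UB (n : ℕ) :
    0 < (volume : Measure (E n)).real (ball 0 1) ∧
      UB n (volume : Measure (E n)) ((volume : Measure (E n)).real (ball 0 1)) := by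
  have h1 : 0 < (volume : Measure (E n)).real (ball 0 1) := by
    rw [Measure.real, ENNReal.toReal_pos_iff]
    exact ⟨measure_ball_pos _ _ one_pos, measure_ball_lt_top⟩
  refine ⟨h1, h1, fun x r hr => ?_⟩
  rw [Measure.addHaar_closedBall _ x hr.le, finrank_euclideanSpace_fin, mul_comm,
    ENNReal.ofReal_mul h1.le, Measure.real, ENNReal.ofReal_toReal measure_ball_lt_top.ne]

theorem flatDiff_ball {n : ℕ} (x : E n) {r : ℝ} (hr : 0 < r) :
    (volume : Measure (E n)).real (ball x r) =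
      r ^ n * (volume : Measure (E n)).real (ball 0 1) := by
  rw [Measure.real, Measure.addHaar_ball_of_pos _ x hr, finrank_euclideanSpace_fin,
    ENNReal.toReal_mul, ENNReal.toReal_ofReal (by positivity), Measure.real]

theorem flatDiff_Lop_scale {n : ℕ} (φ : E n → ℝ) {R : ℝ} (hR : 0 < R) (v : E n) :
    Lop n (fun x => φ (R⁻¹ • x)) v = R⁻¹ * Lop n φ (R⁻¹ • v) := by
  unfold Lop
  set G : E n → ℝ := fun z => (2 * φ (R⁻¹ • v) - φ (R⁻¹ • v + z) - φ (R⁻¹ • v - z)) *
    (‖z‖ ^ (n + 1))⁻¹ with hG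
  have e1 : ∀ z : E n, (2 * φ (R⁻¹ • v) - φ (R⁻¹ • (v + z)) - φ (R⁻¹ • (v - z))) *
      (‖z‖ ^ (n + 1))⁻¹ = (R ^ (n + 1))⁻¹ * G (R⁻¹ • z) := by
    intro z
    rw [hG]
    simp only
    rw [smul_add, smul_sub, norm_smul, norm_inv, Real.norm_of_nonneg hR.le, mul_pow, inv_pow,
      mul_inv, inv_inv]
    have hRn : R ^ (n + 1) ≠ 0 := by positivity
    field_simp
  simp_rw [e1]
  rw [integral_const_mul, Measure.integral_comp_inv_smul, finrank_euclideanSpace_fin,
    abs_of_pos (by positivity), smul_eq_mul, pow_succ]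
  have hRn : R ^ n ≠ 0 := by positivity
  field_simp

theorem flatDiff_Lop_shift {n : ℕ} (φ : E n → ℝ) (z v : E n) :
    Lop n (fun x => φ (x - z)) v = Lop n φ (v - z) := by
  unfold Lop
  congr 1
  ext y
  have e1 : v + y - z = v - z + y := by abel
  have e2 : v - y - z = v - z - y := by abel
  simp only [e1, e2]

/-- the equation is invariant under scaling -/
theorem flatDiff_eq_scale {n : ℕ} {w : E n → ℝ}
    (heq : ∀ φ : E n → ℝ, ContDiff ℝ 3 φ → HasCompactSupport φ → ∫ v, φ v = 0 →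
      ∫ v, w v * Lop n φ v = 0) {R : ℝ} (hR : 0 < R) (φ : E n → ℝ) (hφ : ContDiff ℝ 3 φ)
    (hφc : HasCompactSupport φ) (h0 : ∫ v, φ v = 0) :
    ∫ v, w (R • v) * Lop n φ v = 0 := by
  have h1 : ContDiff ℝ 3 (fun x : E n => φ (R⁻¹ • x)) := hφ.comp (contDiff_const_smul _)
  have h2 : HasCompactSupport (fun x : E n => φ (R⁻¹ • x)) :=
    hφc.comp_smul (inv_ne_zero hR.ne')
  have h3 : ∫ x : E n, φ (R⁻¹ • x) = 0 := by
    rw [Measure.integral_comp_inv_smul, h0, smul_zero]
  have h4 := heq _ h1 h2 h3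
  set G : E n → ℝ := fun y => w (R • y) * Lop n φ y with hG
  have h5 : ∀ v : E n, w v * Lop n (fun x => φ (R⁻¹ • x)) v = R⁻¹ * G (R⁻¹ • v) := by
    intro v
    rw [hG]
    simp only
    rw [flatDiff_Lop_scale φ hR, smul_smul, mul_inv_cancel₀ hR.ne', one_smul]
    ring
  simp_rw [h5] at h4
  rw [integral_const_mul, Measure.integral_comp_inv_smul volume G R, finrank_euclideanSpace_fin,
    abs_of_pos (by positivity), smul_eq_mul] at h4
  have h6 : R⁻¹ * R ^ n ≠ 0 := by positivity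
  rw [← mul_assoc] at h4
  exact (mul_eq_zero.1 h4).resolve_left h6

theorem flatDiff_eq_shift {n : ℕ} {w : E n → ℝ}
    (heq : ∀ φ : E n → ℝ, ContDiff ℝ 3 φ → HasCompactSupport φ → ∫ v, φ v = 0 →
      ∫ v, w v * Lop n φ v = 0) (z : E n) (φ : E n → ℝ) (hφ : ContDiff ℝ 3 φ)
    (hφc : HasCompactSupport φ) (h0 : ∫ v, φ v = 0) :
    ∫ v, w (v + z) * Lop n φ v = 0 := by
  have h1 : ContDiff ℝ 3 (fun x : E n => φ (x - z)) := hφ.comp (contDiff_id.sub contDiff_const)
  have h2 : HasCompactSupport (fun x : E n => φ (x - z)) := by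
    have := hφc.comp_homeomorph (Homeomorph.subRight z)
    exact this
  have h3 : ∫ x : E n, φ (x - z) = 0 := by
    rw [integral_sub_right_eq_self, h0]
  have h4 := heq _ h1 h2 h3
  simp_rw [flatDiff_Lop_shift] at h4
  set G : E n → ℝ := fun y => w (y + z) * Lop n φ y with hG
  have h5 : ∀ v : E n, w v * Lop n φ (v - z) = G (v - z) := by
    intro v
    rw [hG]
    simp
  simp_rw [h5] at h4
  rwa [integral_sub_right_eq_self G] at h4

theorem flatDiff_abs_int {n : ℕ} {w : E n → ℝ} (hw : Continuous w) {A : ℝ}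
    (hA : ∀ R : ℝ, 1 ≤ R → ∫ v in ball (0 : E n) R, w v ^ 2 ≤ A * R ^ (n + 3)) (i : ℕ) :
    ∫ v in ball (0 : E n) (4 ^ i), |w v| ≤
      (A + (volume : Measure (E n)).real (ball 0 1)) / 2 * ((4 ^ i) ^ n * 8 ^ i) := by
  set V := (volume : Measure (E n)).real (ball 0 1) with hV
  have hi : ∀ f : E n → ℝ, Continuous f → IntegrableOn f (ball (0 : E n) (4 ^ i)) := fun f hf =>
    (hf.continuousOn.integrableOn_compact (isCompact_closedBall (0 : E n) (4 ^ i))).mono_set
      ball_subset_closedBall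
  have h8 : (0 : ℝ) < 8 ^ i := by positivity
  have h1 : ∫ v in ball (0 : E n) (4 ^ i), |w v| ≤
      ∫ v in ball (0 : E n) (4 ^ i), ((8 ^ i)⁻¹ / 2 * w v ^ 2 + 8 ^ i / 2) := by
    refine setIntegral_mono (hi _ hw.abs)
      (hi _ (((hw.pow 2).const_mul _).add continuous_const)) fun v => ?_
    simp only
    have h2 : 0 ≤ (8 ^ i : ℝ)⁻¹ * (|w v| - 8 ^ i) ^ 2 := by positivity
    have h3 : (8 ^ i : ℝ)⁻¹ * (|w v| - 8 ^ i) ^ 2 = (8 ^ i)⁻¹ * w v ^ 2 + 8 ^ i - 2 * |w v| := by
      rw [← sq_abs (w v)]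
      field_simp
      ring
    linarith
  refine h1.trans ?_
  have hI1 : IntegrableOn (fun v : E n => (8 ^ i : ℝ)⁻¹ / 2 * w v ^ 2) (ball (0 : E n) (4 ^ i)) :=
    hi _ ((hw.pow 2).const_mul _)
  have hI2 : IntegrableOn (fun _ : E n => (8 ^ i : ℝ) / 2) (ball (0 : E n) (4 ^ i)) :=
    hi _ continuous_const
  rw [integral_add hI1 hI2, integral_const_mul, setIntegral_const]
  have h2 : (volume : Measure (E n)).real (ball (0 : E n) (4 ^ i)) = (4 ^ i) ^ n * V :=
    flatDiff_ball _ (by positivity)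
  have h3 := hA (4 ^ i) (one_le_pow₀ (by norm_num))
  rw [h2, smul_eq_mul]
  have h4 : (8 ^ i : ℝ)⁻¹ / 2 * ∫ v in ball (0 : E n) (4 ^ i), w v ^ 2 ≤
      (8 ^ i)⁻¹ / 2 * (A * (4 ^ i) ^ (n + 3)) := mul_le_mul_of_nonneg_left h3 (by positivity)
  have h9 : ((4 : ℝ) ^ i) ^ 3 = 8 ^ i * 8 ^ i := by
    rw [← mul_pow, ← pow_mul, mul_comm i 3, pow_mul]
    norm_num
  have h5 : ((4 : ℝ) ^ i) ^ (n + 3) = (4 ^ i) ^ n * (8 ^ i * 8 ^ i) := by
    rw [pow_add, h9]
  rw [h5] at h4
  have h6 : (8 ^ i : ℝ)⁻¹ / 2 * (A * ((4 ^ i) ^ n * (8 ^ i * 8 ^ i))) =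
      A / 2 * ((4 ^ i) ^ n * 8 ^ i) := by
    field_simp
  rw [h6] at h4
  linarith only [h4]

theorem flatDiff_integrable {n : ℕ} {w g : E n → ℝ} (hw : Continuous w) (hg : Continuous g)
    {A A2 : ℝ}
    (hA : ∀ R : ℝ, 1 ≤ R → ∫ v in ball (0 : E n) R, w v ^ 2 ≤ A * R ^ (n + 3))
    (hA2 : ∀ v, |g v| ≤ A2 * ((1 + ‖v‖) ^ (n + 2))⁻¹) :
    Integrable (fun v => w v * g v) := by
  set V := (volume : Measure (E n)).real (ball 0 1) with hV
  have hA20 : 0 ≤ A2 := by
    have := (abs_nonneg _).trans (hA2 0)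
    simpa using this
  set s : ℕ → Set (E n) := fun i => ball 0 (4 ^ i) ∩ {v | (4 : ℝ) ^ i ≤ 4 * (1 + ‖v‖)} with hs
  have hsm : ∀ i, MeasurableSet (s i) := fun i =>
    measurableSet_ball.inter (measurableSet_le measurable_const (by fun_prop))
  have hcov : ⋃ i, s i = univ := by
    refine eq_univ_of_forall fun v => ?_
    have hex : ∃ i : ℕ, ‖v‖ < 4 ^ i := pow_unbounded_of_one_lt _ (by norm_num)
    classical
    have h1 := Nat.find_spec hex
    have h2 := fun m => Nat.find_min (m := m) hex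
    refine mem_iUnion.2 ⟨Nat.find hex, ?_, ?_⟩
    · simpa using h1
    · change (4 : ℝ) ^ Nat.find hex ≤ 4 * (1 + ‖v‖)
      rcases Nat.eq_zero_or_pos (Nat.find hex) with h3 | h3
      · rw [h3, pow_zero]
        linarith [norm_nonneg v]
      · obtain ⟨m, hm⟩ : ∃ m, Nat.find hex = m + 1 := ⟨Nat.find hex - 1, by omega⟩
        have h4 := h2 m (by omega)
        rw [not_lt] at h4
        rw [hm, pow_succ]
        linarith
  have hcont : Continuous (fun v => w v * g v) := hw.mul hg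
  have hi : ∀ (f : E n → ℝ) (i : ℕ), Continuous f → IntegrableOn f (ball (0 : E n) (4 ^ i)) :=
    fun f i hf =>
    (hf.continuousOn.integrableOn_compact (isCompact_closedBall (0 : E n) (4 ^ i))).mono_set
      ball_subset_closedBall
  have hbound : ∀ i, ∫ v in s i, ‖w v * g v‖ ≤
      A2 * 4 ^ (n + 2) * ((A + V) / 2) * (1 / 2) ^ i := by
    intro i
    have hq0 : (0 : ℝ) ≤ A2 * 4 ^ (n + 2) * ((4 ^ i) ^ (n + 2))⁻¹ := by positivity
    have h1 : ∫ v in s i, ‖w v * g v‖ ≤
        ∫ v in s i, A2 * 4 ^ (n + 2) * ((4 ^ i) ^ (n + 2))⁻¹ * |w v| := by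
      refine setIntegral_mono_on ((hi _ i hcont.norm).mono_set inter_subset_left)
        ((hi _ i (hw.abs.const_mul _)).mono_set inter_subset_left) (hsm i) fun v hv => ?_
      rw [norm_mul, Real.norm_eq_abs, Real.norm_eq_abs, mul_comm]
      apply mul_le_mul_of_nonneg_right _ (abs_nonneg _)
      refine (hA2 v).trans ?_
      rw [mul_assoc]
      apply mul_le_mul_of_nonneg_left _ hA20
      have h2 : (4 : ℝ) ^ i ≤ 4 * (1 + ‖v‖) := hv.2
      have h3 : ((4 : ℝ) ^ i) ^ (n + 2) ≤ (4 * (1 + ‖v‖)) ^ (n + 2) :=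
        pow_le_pow_left₀ (by positivity) h2 _
      rw [mul_pow] at h3
      rw [inv_le_iff_one_le_mul₀ (by have := norm_nonneg v; positivity)]
      have h4 : (0 : ℝ) < (4 ^ i) ^ (n + 2) := by positivity
      rw [mul_assoc, mul_comm, mul_assoc, ← div_eq_inv_mul, one_le_div h4]
      linarith
    refine h1.trans ?_
    rw [integral_const_mul]
    have h2 : ∫ v in s i, |w v| ≤ ∫ v in ball (0 : E n) (4 ^ i), |w v| :=
      setIntegral_mono_set (hi _ i hw.abs) (Eventually.of_forall fun v => abs_nonneg _)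
        inter_subset_left.eventuallyLE
    have h3 := mul_le_mul_of_nonneg_left (h2.trans (flatDiff_abs_int hw hA i)) hq0
    refine h3.trans (le_of_eq ?_)
    have h4 : ((4 : ℝ) ^ i) ^ 2 = 8 ^ i * 2 ^ i := by
      rw [← mul_pow, ← pow_mul, mul_comm i 2, pow_mul]
      norm_num
    have h5 : ((4 : ℝ) ^ i) ^ (n + 2) = (4 ^ i) ^ n * (8 ^ i * 2 ^ i) := by
      rw [pow_add, h4]
    rw [h5, ← hV, one_div, inv_pow]
    field_simp
  have hsum : Summable fun i => ∫ v in s i, ‖w v * g v‖ := by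
    refine Summable.of_nonneg_of_le (fun i => integral_nonneg fun v => norm_nonneg _) hbound ?_
    exact (summable_geometric_of_lt_one (by norm_num) (by norm_num)).mul_left _
  have h := integrableOn_iUnion_of_summable_integral_norm
    (f := fun v => w v * g v) (μ := (volume : Measure (E n)))
    (fun i => (hi _ i hcont).mono_set inter_subset_left) hsum
  rwa [hcov, integrableOn_univ] at h

theorem flatDiff_lip {n : ℕ} {w : E n → ℝ} (hw : ContDiff ℝ 1 w) (R : ℝ) :
    ∃ K : ℝ, 0 ≤ K ∧ ∀ x ∈ ball (0 : E n) R, ∀ y ∈ ball (0 : E n) R,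
      |w x - w y| ≤ K * ‖x - y‖ := by
  have hc : Continuous (fun v => ‖fderiv ℝ w v‖) := (hw.continuous_fderiv one_ne_zero).norm
  obtain ⟨K, hK⟩ := (isCompact_closedBall (0 : E n) R).bddAbove_image hc.continuousOn
  refine ⟨max K 0, le_max_right _ _, fun x hx y hy => ?_⟩
  have h1 := (convex_ball (0 : E n) R).norm_image_sub_le_of_norm_fderiv_le (f := w) (𝕜 := ℝ)
    (C := max K 0) (fun v _ => (hw.differentiable one_ne_zero).differentiableAt) (fun v hv => ?_) hy hx
  · exact h1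
  · exact (hK ⟨v, ball_subset_closedBall hv, rfl⟩).trans (le_max_left _ _)

/-- The energy density. -/
noncomputable def flatDiffF {n : ℕ} (w : E n → ℝ) (p : E n × E n) : ℝ :=
  (w p.1 - w p.2) ^ 2 * wt n p.1 p.2

theorem flatDiffF_nonneg {n : ℕ} (w : E n → ℝ) (p : E n × E n) : 0 ≤ flatDiffF w p :=
  mul_nonneg (sq_nonneg _) (wt_nonneg _ _)

theorem flatDiffF_measurable {n : ℕ} {w : E n → ℝ} (hw : Continuous w) :
    Measurable (flatDiffF w) := by
  unfold flatDiffF
  have h1 := measurable_wt (d := n) (n := n)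
  have h2 : Measurable fun p : E n × E n => w p.1 := hw.measurable.comp measurable_fst
  have h3 : Measurable fun p : E n × E n => w p.2 := hw.measurable.comp measurable_snd
  exact ((h2.sub h3).pow_const 2).mul h1

theorem flatDiffF_le {n : ℕ} {w : E n → ℝ} {K R : ℝ}
    (h : ∀ x ∈ ball (0 : E n) R, ∀ y ∈ ball (0 : E n) R, |w x - w y| ≤ K * ‖x - y‖)
    {x y : E n} (hx : x ∈ ball (0 : E n) R) (hy : y ∈ ball (0 : E n) R) :
    ‖flatDiffF w (x, y)‖ ≤ K ^ 2 * (‖x - y‖ ^ 2 * wt n x y) := by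
  rw [Real.norm_of_nonneg (flatDiffF_nonneg _ _), flatDiffF, ← mul_assoc]
  apply mul_le_mul_of_nonneg_right _ (wt_nonneg _ _)
  simp only
  rw [← mul_pow, ← sq_abs]
  exact pow_le_pow_left₀ (abs_nonneg _) (h x hx y hy) 2

/-- integrability on the product of balls -/
theorem flatDiff_prod_integrable {n : ℕ} {w : E n → ℝ} (hw : ContDiff ℝ 1 w) (R : ℝ) :
    IntegrableOn (flatDiffF w) (ball (0 : E n) R ×ˢ ball (0 : E n) R) := by
  obtain ⟨K, hK0, hK⟩ := flatDiff_lip hw R
  have hU := (flatDiff_UB n).2.restrict (ball (0 : E n) R)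
  have hb : ∃ R0, (volume : Measure (E n)).restrict (ball 0 R) (closedBall 0 R0)ᶜ = 0 := by
    refine ⟨R, ?_⟩
    rw [Measure.restrict_apply measurableSet_closedBall.compl]
    convert measure_empty (μ := (volume : Measure (E n)))
    rw [← disjoint_iff_inter_eq_empty]
    exact disjoint_compl_left_iff_subset.2 ball_subset_closedBall
  have h1 := near_prod_integrable hU hb
  rw [Measure.prod_restrict] at h1
  have h2 := h1.const_mul (K ^ 2)
  refine h2.mono' (flatDiffF_measurable hw.continuous).aestronglyMeasurable ?_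
  rw [ae_restrict_iff' (measurableSet_ball.prod measurableSet_ball)]
  exact Eventually.of_forall fun p hp => flatDiffF_le hK hp.1 hp.2

/-- integrability of the slices -/
theorem flatDiff_slice_integrable {n : ℕ} {w : E n → ℝ} (hw : ContDiff ℝ 1 w) {R : ℝ}
    (hR : 0 < R) {x : E n} (hx : x ∈ ball (0 : E n) R) :
    IntegrableOn (fun y => flatDiffF w (x, y)) (ball (0 : E n) R) := by
  obtain ⟨K, hK0, hK⟩ := flatDiff_lip hw R
  have h1 := ((flatDiff_UB n).2.near x (ρ := 2 * R) (by positivity)).1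
  have h2 : ball (0 : E n) R ⊆ closedBall x (2 * R) := by
    intro y hy
    rw [mem_ball, dist_zero_right] at hx hy
    rw [mem_closedBall, dist_eq_norm]
    have := norm_sub_le y x
    linarith
  have h3 := (h1.mono_set h2).const_mul (K ^ 2)
  refine h3.mono' ?_ ?_
  · exact ((flatDiffF_measurable hw.continuous).comp measurable_prodMk_left).aestronglyMeasurable
  · rw [ae_restrict_iff' measurableSet_ball]
    exact Eventually.of_forall fun y hy => flatDiffF_le hK hx hy

theorem flatDiff_growth_scale {n : ℕ} {w : E n → ℝ} {j : ℕ} {A : ℝ} (hA0 : 0 ≤ A)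
    (hgrow : ∀ R : ℝ, 1 ≤ R → ∫ v in ball (0 : E n) R, w v ^ 2 ≤ A * (R ^ (n + 3) / R ^ j))
    {R : ℝ} (hR : 1 ≤ R) {T : ℝ} (hT : 1 ≤ T) :
    ∫ v in ball (0 : E n) T, w (R • v) ^ 2 ≤ A * (R ^ 3 / R ^ j) * T ^ (n + 3) := by
  have hR0 : 0 < R := by linarith
  have hT0 : 0 < T := by linarith
  rw [Measure.setIntegral_comp_smul_of_pos volume (fun v => w v ^ 2) _ hR0,
    finrank_euclideanSpace_fin, smul_eq_mul]
  have h1 : R • ball (0 : E n) T = ball 0 (R * T) := by
    rw [_root_.smul_ball hR0.ne', smul_zero, Real.norm_of_nonneg hR0.le]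
  rw [h1]
  have h2 := hgrow (R * T) (by nlinarith)
  have h3 : (R ^ n)⁻¹ * ∫ v in ball (0 : E n) (R * T), w v ^ 2 ≤
      (R ^ n)⁻¹ * (A * ((R * T) ^ (n + 3) / (R * T) ^ j)) :=
    mul_le_mul_of_nonneg_left h2 (by positivity)
  refine h3.trans ?_
  have h4 : (R ^ n)⁻¹ * (A * ((R * T) ^ (n + 3) / (R * T) ^ j)) =
      A * (R ^ 3 / R ^ j) * (T ^ (n + 3) / T ^ j) := by
    rw [mul_pow, mul_pow]
    have e1 : R ^ (n + 3) = R ^ n * R ^ 3 := pow_add _ _ _
    rw [e1]
    field_simp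
  rw [h4]
  apply mul_le_mul_of_nonneg_left _ (by positivity)
  exact div_le_self (by positivity) (one_le_pow₀ hT)

/-- the energy on large balls -/
theorem flatDiff_energy {n : ℕ} {CH : ℝ}
    (hCH : ∀ (w : E n → ℝ) (A : ℝ), 0 ≤ A →
      ContDiff ℝ 3 w → (∀ R : ℝ, 1 ≤ R → ∫ v in ball (0 : E n) R, w v ^ 2 ≤ A * R ^ (n + 3)) →
      (∀ φ : E n → ℝ, ContDiff ℝ 3 φ → HasCompactSupport φ → ∫ v, φ v = 0 →
        ∫ v, w v * Lop n φ v = 0) →
      ∫ p in ball (0 : E n) 1 ×ˢ ball (0 : E n) 1, (w p.1 - w p.2) ^ 2 * wt n p.1 p.2 ≤ CH * A)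
    {w : E n → ℝ} (hw : ContDiff ℝ 3 w) {j : ℕ} {A : ℝ} (hA0 : 0 ≤ A)
    (hgrow : ∀ R : ℝ, 1 ≤ R → ∫ v in ball (0 : E n) R, w v ^ 2 ≤ A * (R ^ (n + 3) / R ^ j))
    (heq : ∀ φ : E n → ℝ, ContDiff ℝ 3 φ → HasCompactSupport φ → ∫ v, φ v = 0 →
      ∫ v, w v * Lop n φ v = 0) {R : ℝ} (hR : 1 ≤ R) :
    ∫ p in ball (0 : E n) R ×ˢ ball (0 : E n) R, flatDiffF w p ≤
      CH * A * (R ^ (n + 2) / R ^ j) := by
  have hR0 : 0 < R := by linarith
  have h1 := hCH (fun v => w (R • v)) (A * (R ^ 3 / R ^ j)) (by positivity)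
    (hw.comp (contDiff_const_smul _)) (fun T hT => flatDiff_growth_scale hA0 hgrow hR hT)
    (fun φ hφ hφc h0 => flatDiff_eq_scale heq hR0 φ hφ hφc h0)
  have h2 : ∀ p : E n × E n, (w (R • p.1) - w (R • p.2)) ^ 2 * wt n p.1 p.2 =
      R ^ (n + 1) * flatDiffF w (R • p) := by
    intro p
    rw [flatDiffF, wt, wt, Prod.smul_fst, Prod.smul_snd, ← smul_sub, norm_smul,
      Real.norm_of_nonneg hR0.le, mul_pow, mul_inv]
    field_simp
  simp_rw [h2] at h1
  have h3 : R • (ball (0 : E n) 1 ×ˢ ball (0 : E n) 1) = ball (0 : E n) R ×ˢ ball (0 : E n) R := by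
    rw [ball_prod_same, ball_prod_same, _root_.smul_ball hR0.ne', Real.norm_of_nonneg hR0.le,
      mul_one, Prod.mk_zero_zero, smul_zero]
  have hH : (volume : Measure (E n × E n)).IsAddHaarMeasure := by
    rw [Measure.volume_eq_prod]
    infer_instance
  rw [integral_const_mul, Measure.setIntegral_comp_smul_of_pos volume (flatDiffF w) _ hR0, h3,
    smul_eq_mul] at h1
  have h4 : finrank ℝ (E n × E n) = n + n := by
    rw [finrank_prod, finrank_euclideanSpace_fin]
  rw [h4] at h1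
  set I := ∫ p in ball (0 : E n) R ×ˢ ball (0 : E n) R, flatDiffF w p with hI
  have h5 : R ^ (n + 1) * ((R ^ (n + n))⁻¹ * I) = I * (R * (R ^ n)⁻¹) := by
    rw [pow_add R n n, pow_succ]
    field_simp
  rw [h5] at h1
  have h6 : I = I * (R * (R ^ n)⁻¹) * (R ^ n * R⁻¹) := by
    field_simp
  rw [h6]
  have h7 : CH * A * (R ^ (n + 2) / R ^ j) = CH * (A * (R ^ 3 / R ^ j)) * (R ^ n * R⁻¹) := by
    rw [pow_add]
    field_simp
  rw [h7]
  exact mul_le_mul_of_nonneg_right h1 (by positivity)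

theorem flatDiff_point {n : ℕ} (w : E n → ℝ) {r : ℝ} (x y : E n)
    (hxy : ‖x - y‖ ≤ 2 * r) :
    (w x - w y) ^ 2 ≤ (2 * r) ^ (n + 1) * flatDiffF w (x, y) := by
  rw [flatDiffF, wt]
  simp only
  rcases eq_or_ne x y with h | h
  · rw [h]
    simp
  · have h1 : 0 < ‖x - y‖ := norm_pos_iff.2 (sub_ne_zero.2 h)
    have h2 : 1 ≤ (2 * r) ^ (n + 1) * (‖x - y‖ ^ (n + 1))⁻¹ := by
      rw [← div_eq_mul_inv, one_le_div (by positivity)]
      exact pow_le_pow_left₀ h1.le hxy _
    calc (w x - w y) ^ 2 = (w x - w y) ^ 2 * 1 := by ring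
      _ ≤ (w x - w y) ^ 2 * ((2 * r) ^ (n + 1) * (‖x - y‖ ^ (n + 1))⁻¹) :=
          mul_le_mul_of_nonneg_left h2 (sq_nonneg _)
      _ = _ := by ring

/-- the averaging estimate for the difference -/
theorem flatDiff_avg {n : ℕ} {w : E n → ℝ} (hw : ContDiff ℝ 1 w) {z : E n} (hz : z ≠ 0)
    {R : ℝ} (hR : 0 < R) :
    ∫ v in ball (0 : E n) R, (w (v + z) - w v) ^ 2 ≤
      4 * (2 * ‖z‖) ^ (n + 1) / (‖z‖ ^ n * (volume : Measure (E n)).real (ball 0 1)) *
      ∫ p in ball (0 : E n) (R + 2 * ‖z‖) ×ˢ ball (0 : E n) (R + 2 * ‖z‖), flatDiffF w p := by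
  set r := ‖z‖
  have hr0 : 0 < r := norm_pos_iff.2 hz
  set V := (volume : Measure (E n)).real (ball 0 1) with hV
  have hV0 : 0 < V := (flatDiff_UB n).1
  set R' := R + 2 * r with hR'
  have hR'0 : 0 < R' := by positivity
  set g : E n → ℝ := fun x => ∫ y in ball (0 : E n) R', flatDiffF w (x, y) with hg
  have hg0 : ∀ x, 0 ≤ g x := fun x => integral_nonneg fun y => flatDiffF_nonneg w _
  have hint := flatDiff_prod_integrable hw R'
  have hgint : IntegrableOn g (ball (0 : E n) R') := by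
    have h1 := hint
    rw [IntegrableOn, Measure.volume_eq_prod, ← Measure.prod_restrict] at h1
    exact h1.integral_prod_left
  have hgI : ∫ p in ball (0 : E n) R' ×ˢ ball (0 : E n) R', flatDiffF w p =
      ∫ x in ball (0 : E n) R', g x := by
    rw [Measure.volume_eq_prod] at hint ⊢
    exact setIntegral_prod _ hint
  have hmem : ∀ v ∈ ball (0 : E n) R, v ∈ ball (0 : E n) R' ∧ v + z ∈ ball (0 : E n) R' ∧
      ball v r ⊆ ball (0 : E n) R' := by
    intro v hv
    rw [mem_ball, dist_zero_right] at hv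
    refine ⟨?_, ?_, fun y hy => ?_⟩
    · rw [mem_ball, dist_zero_right]
      linarith
    · rw [mem_ball, dist_zero_right]
      have := norm_add_le v z
      linarith
    · rw [mem_ball, dist_eq_norm] at hy
      rw [mem_ball, dist_zero_right]
      have h1 : y = (y - v) + v := by abel
      have h2 := norm_add_le (y - v) v
      rw [← h1] at h2
      linarith
  -- pointwise estimate
  have hpt : ∀ v ∈ ball (0 : E n) R, (w (v + z) - w v) ^ 2 ≤
      2 * (2 * r) ^ (n + 1) / (r ^ n * V) * (g (v + z) + g v) := by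
    intro v hv
    obtain ⟨hv1, hv2, hv3⟩ := hmem v hv
    have i1 := flatDiff_slice_integrable hw hR'0 hv1
    have i2 := flatDiff_slice_integrable hw hR'0 hv2
    have h1 : ∀ y ∈ ball v r, (w (v + z) - w v) ^ 2 ≤
        2 * (2 * r) ^ (n + 1) * (flatDiffF w (v + z, y) + flatDiffF w (v, y)) := by
      intro y hy
      rw [mem_ball, dist_eq_norm, norm_sub_rev] at hy
      have h2 := flatDiff_point w (r := r) v y (by linarith)
      have h3 := flatDiff_point w (r := r) (v + z) y (by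
        have h4 : v + z - y = (v - y) + z := by abel
        have h5 := norm_add_le (v - y) z
        rw [← h4] at h5
        linarith)
      have h4 : (w (v + z) - w v) ^ 2 ≤ 2 * (w (v + z) - w y) ^ 2 + 2 * (w v - w y) ^ 2 := by
        linarith only [sq_nonneg (w (v + z) - w y + (w v - w y))]
      linarith only [h2, h3, h4]
    have h2 : ∫ y in ball v r, (w (v + z) - w v) ^ 2 ≤
        ∫ y in ball v r, 2 * (2 * r) ^ (n + 1) * (flatDiffF w (v + z, y) + flatDiffF w (v, y)) := by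
      refine setIntegral_mono_on ?_ ?_ measurableSet_ball h1
      · exact integrableOn_const measure_ball_lt_top.ne
      · exact ((i2.add i1).mono_set hv3).const_mul _
    rw [setIntegral_const, flatDiff_ball v hr0, ← hV, smul_eq_mul, integral_const_mul,
      integral_add (i2.mono_set hv3) (i1.mono_set hv3)] at h2
    have h3 : ∫ y in ball v r, flatDiffF w (v + z, y) ≤ g (v + z) :=
      setIntegral_mono_set i2 (Eventually.of_forall fun y => flatDiffF_nonneg w _)
        hv3.eventuallyLE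
    have h4 : ∫ y in ball v r, flatDiffF w (v, y) ≤ g v :=
      setIntegral_mono_set i1 (Eventually.of_forall fun y => flatDiffF_nonneg w _)
        hv3.eventuallyLE
    have h5 : 0 < r ^ n * V := by positivity
    rw [div_mul_eq_mul_div, le_div_iff₀ h5]
    have h6 : 2 * (2 * r) ^ (n + 1) * (∫ y in ball v r, flatDiffF w (v + z, y)) +
        2 * (2 * r) ^ (n + 1) * (∫ y in ball v r, flatDiffF w (v, y)) ≤
        2 * (2 * r) ^ (n + 1) * g (v + z) + 2 * (2 * r) ^ (n + 1) * g v :=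
      add_le_add (mul_le_mul_of_nonneg_left h3 (by positivity))
        (mul_le_mul_of_nonneg_left h4 (by positivity))
    linarith
  -- integrate in `v`
  have hsub1 : ball (0 : E n) R ⊆ ball (0 : E n) R' := fun v hv => (hmem v hv).1
  have hsub2 : ball z R ⊆ ball (0 : E n) R' := by
    intro x hx
    have h1 : x - z ∈ ball (0 : E n) R := by
      rw [mem_ball, dist_zero_right]
      rwa [mem_ball, dist_eq_norm] at hx
    have h2 := (hmem _ h1).2.1
    rwa [sub_add_cancel] at h2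
  have htr : ∀ f : E n → ℝ, ∫ v in ball (0 : E n) R, f (v + z) = ∫ x in ball z R, f x := by
    intro f
    have h1 := (measurePreserving_add_right (volume : Measure (E n)) z).setIntegral_preimage_emb
      (measurableEmbedding_addRight z) f (ball z R)
    have h2 : (fun x => x + z) ⁻¹' ball z R = ball (0 : E n) R := by
      ext x
      rw [mem_preimage, mem_ball, mem_ball, dist_zero_right, dist_eq_norm, add_sub_cancel_right]
    rw [h2] at h1
    exact h1
  have hgz : IntegrableOn (fun v => g (v + z)) (ball (0 : E n) R) := by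
    have h1 := (measurePreserving_add_right (volume : Measure (E n)) z).integrableOn_comp_preimage
      (measurableEmbedding_addRight z) (f := g) (s := ball z R)
    have h2 : (fun x => x + z) ⁻¹' ball z R = ball (0 : E n) R := by
      ext x
      rw [mem_preimage, mem_ball, mem_ball, dist_zero_right, dist_eq_norm, add_sub_cancel_right]
    rw [h2] at h1
    exact h1.2 (hgint.mono_set hsub2)
  have hwc : Continuous (fun v => (w (v + z) - w v) ^ 2) := by
    have := hw.continuous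
    fun_prop
  have hcont : IntegrableOn (fun v => (w (v + z) - w v) ^ 2) (ball (0 : E n) R) :=
    (hwc.continuousOn.integrableOn_compact (isCompact_closedBall (0 : E n) R)).mono_set
      ball_subset_closedBall
  have h7 : ∫ v in ball (0 : E n) R, (w (v + z) - w v) ^ 2 ≤
      ∫ v in ball (0 : E n) R, 2 * (2 * r) ^ (n + 1) / (r ^ n * V) * (g (v + z) + g v) := by
    refine setIntegral_mono_on hcont ?_ measurableSet_ball hpt
    exact (hgz.add (hgint.mono_set hsub1)).const_mul _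
  refine h7.trans ?_
  rw [integral_const_mul, integral_add hgz (hgint.mono_set hsub1), htr g, hgI]
  have h8 : ∫ x in ball z R, g x ≤ ∫ x in ball (0 : E n) R', g x :=
    setIntegral_mono_set hgint (Eventually.of_forall hg0) hsub2.eventuallyLE
  have h9 : ∫ x in ball (0 : E n) R, g x ≤ ∫ x in ball (0 : E n) R', g x :=
    setIntegral_mono_set hgint (Eventually.of_forall hg0) hsub1.eventuallyLE
  have h10 : 0 ≤ 2 * (2 * r) ^ (n + 1) / (r ^ n * V) := by positivity
  have h11 := mul_le_mul_of_nonneg_left (add_le_add h8 h9) h10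
  refine h11.trans (le_of_eq ?_)
  ring

theorem flatDiff_growth_shift {n : ℕ} {w : E n → ℝ} (hw : Continuous w) {j : ℕ} {A : ℝ}
    (hA0 : 0 ≤ A)
    (hgrow : ∀ R : ℝ, 1 ≤ R → ∫ v in ball (0 : E n) R, w v ^ 2 ≤ A * (R ^ (n + 3) / R ^ j))
    (z : E n) {R : ℝ} (hR : 1 ≤ R) :
    ∫ v in ball (0 : E n) R, w (v + z) ^ 2 ≤ A * (1 + ‖z‖) ^ (n + 3) * R ^ (n + 3) := by
  have h1 := (measurePreserving_add_right (volume : Measure (E n)) z).setIntegral_preimage_emb
      (measurableEmbedding_addRight z) (fun v => w v ^ 2) (ball z R)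
  have h2 : (fun x => x + z) ⁻¹' ball z R = ball (0 : E n) R := by
    ext x
    rw [mem_preimage, mem_ball, mem_ball, dist_zero_right, dist_eq_norm, add_sub_cancel_right]
  rw [h2] at h1
  rw [h1]
  have hz := norm_nonneg z
  have h3 : ball z R ⊆ ball (0 : E n) (R + ‖z‖) := by
    intro x hx
    rw [mem_ball, dist_eq_norm] at hx
    rw [mem_ball, dist_zero_right]
    have h4 := norm_add_le (x - z) z
    rw [sub_add_cancel] at h4
    linarith
  have hi : IntegrableOn (fun v => w v ^ 2) (ball (0 : E n) (R + ‖z‖)) :=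
    ((hw.pow 2).continuousOn.integrableOn_compact
      (isCompact_closedBall (0 : E n) (R + ‖z‖))).mono_set ball_subset_closedBall
  have h4 : ∫ v in ball z R, w v ^ 2 ≤ ∫ v in ball (0 : E n) (R + ‖z‖), w v ^ 2 :=
    setIntegral_mono_set hi (Eventually.of_forall fun v => sq_nonneg _) h3.eventuallyLE
  have h5 := h4.trans (hgrow (R + ‖z‖) (by linarith))
  refine h5.trans ?_
  rw [mul_assoc]
  apply mul_le_mul_of_nonneg_left _ hA0
  rw [← mul_pow]
  have h6 : R + ‖z‖ ≤ (1 + ‖z‖) * R := by nlinarith only [hR, hz]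
  calc (R + ‖z‖) ^ (n + 3) / (R + ‖z‖) ^ j ≤ (R + ‖z‖) ^ (n + 3) :=
        div_le_self (by positivity) (one_le_pow₀ (by linarith))
    _ ≤ ((1 + ‖z‖) * R) ^ (n + 3) := pow_le_pow_left₀ (by positivity) h6 _

/-- `UR/FlatDiff.lean`: one difference improves the growth (`j`-th class:
`∫_{B_R} w² ≤ A R^(n+3)/R^j`). -/
theorem flat_diff (n : ℕ) (hn : 1 ≤ n) (w : E n → ℝ) (hw : ContDiff ℝ 3 w) (j : ℕ) (A : ℝ)
    (hgrow : ∀ R : ℝ, 1 ≤ R → ∫ v in ball (0 : E n) R, w v ^ 2 ≤ A * (R ^ (n + 3) / R ^ j))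
    (heq : ∀ φ : E n → ℝ, ContDiff ℝ 3 φ → HasCompactSupport φ → ∫ v, φ v = 0 →
      ∫ v, w v * Lop n φ v = 0) (z : E n) :
    ContDiff ℝ 3 (fun v => w (v + z) - w v) ∧
    (∃ A' : ℝ, ∀ R : ℝ, 1 ≤ R → ∫ v in ball (0 : E n) R, (w (v + z) - w v) ^ 2 ≤
      A' * (R ^ (n + 3) / R ^ (j + 1))) ∧
    (∀ φ : E n → ℝ, ContDiff ℝ 3 φ → HasCompactSupport φ → ∫ v, φ v = 0 →
      ∫ v, (w (v + z) - w v) * Lop n φ v = 0) := by
  have hw1 : ContDiff ℝ 1 w := hw.of_le (by norm_num)
  have hA0 : 0 ≤ A := by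
    have h1 := hgrow 1 le_rfl
    have h2 : 0 ≤ ∫ v in ball (0 : E n) 1, w v ^ 2 := integral_nonneg fun v => sq_nonneg _
    simp only [one_pow, div_one, mul_one] at h1
    linarith
  refine ⟨(hw.comp (contDiff_id.add contDiff_const)).sub hw, ?_, ?_⟩
  · obtain ⟨CH, hCH0, hCH⟩ := flat_cacc_unit n hn
    rcases eq_or_ne z 0 with hz | hz
    · refine ⟨0, fun R hR => ?_⟩
      rw [hz]
      simp
    · set r := ‖z‖ with hr
      have hr0 : 0 < r := norm_pos_iff.2 hz
      have hV0 : 0 < (volume : Measure (E n)).real (ball 0 1) := (flatDiff_UB n).1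
      refine ⟨4 * (2 * r) ^ (n + 1) / (r ^ n * (volume : Measure (E n)).real (ball 0 1)) *
        (CH * A * (1 + 2 * r) ^ (n + 2)), fun R hR => ?_⟩
      have hR0 : 0 < R := by linarith
      refine (flatDiff_avg hw1 hz hR0).trans ?_
      rw [← hr, mul_assoc (4 * (2 * r) ^ (n + 1) / _)]
      apply mul_le_mul_of_nonneg_left _ (by positivity)
      refine (flatDiff_energy hCH hw hA0 hgrow heq (R := R + 2 * r) (by linarith)).trans ?_
      rw [mul_assoc (CH * A)]
      apply mul_le_mul_of_nonneg_left _ (by positivity)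
      have h1 : R ^ (n + 3) / R ^ (j + 1) = R ^ (n + 2) / R ^ j := by
        rw [pow_succ R (n + 2), pow_succ R j]
        field_simp
      rw [h1, ← mul_div_assoc, ← mul_pow]
      have h2 : R + 2 * r ≤ (1 + 2 * r) * R := by nlinarith only [hr0, hR]
      exact div_le_div₀ (by positivity) (pow_le_pow_left₀ (by positivity) h2 _) (by positivity)
        (pow_le_pow_left₀ hR0.le (by linarith) _)
  · intro φ hφ hφc h0
    have hφ2 : ContDiff ℝ 2 φ := hφ.of_le (by norm_num)
    obtain ⟨A2, hA2⟩ := Lop_decay_zero n hn φ hφ2 hφc h0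
    have hLc := Lop_continuous n hn φ hφ2 hφc
    have i1 : Integrable (fun v => w v * Lop n φ v) := by
      refine flatDiff_integrable hw.continuous hLc (A := A) (fun R hR => ?_) hA2
      refine (hgrow R hR).trans (mul_le_mul_of_nonneg_left ?_ hA0)
      exact div_le_self (by positivity) (one_le_pow₀ hR)
    have i2 : Integrable (fun v => w (v + z) * Lop n φ v) :=
      flatDiff_integrable (w := fun v => w (v + z)) (by
        have := hw.continuous
        fun_prop) hLc
        (fun R hR => flatDiff_growth_shift hw.continuous hA0 hgrow z hR) hA2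
    have h1 : ∫ v, (w (v + z) - w v) * Lop n φ v =
        ∫ v, (w (v + z) * Lop n φ v - w v * Lop n φ v) := by
      congr 1
      ext v
      ring
    rw [h1, integral_sub i2 i1, heq φ hφ hφc h0, flatDiff_eq_shift heq z φ hφ hφc h0, sub_zero]

end Vale.Agent.P120
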