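import Vale.Agent.Lib.P120.LemmaA
import Vale.Agent.Lib.P120.UR.Base

/-!
Smooth averages of the truncated Riesz transform (`smooth_average`).
-/

open MeasureTheory Filter Set Metric Module
open scoped Topology ENNReal NNReal RealInnerProductSpace

namespace Vale.Agent.P120

variable {d n : ℕ}

lemma bmp_nonneg (x : E d) (s : ℝ) (y : E d) : 0 ≤ bmp x s y := le_max_left _ _

lemma bmp_le_one (x : E d) {s : ℝ} (hs : 0 < s) (y : E d) : bmp x s y ≤ 1 := by
  unfold bmp
  refine max_le zero_le_one ?_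
  have : 0 ≤ ‖y - x‖ / s := by positivity
  linarith

lemma bmp_eq_zero (x : E d) {s : ℝ} (hs : 0 < s) {y : E d} (hy : s ≤ ‖y - x‖) :
    bmp x s y = 0 := by
  unfold bmp
  rw [max_eq_left]
  have : 1 ≤ ‖y - x‖ / s := by rwa [one_le_div hs]
  linarith

lemma bmp_ge_half (x : E d) {s : ℝ} (hs : 0 < s) {y : E d} (hy : ‖y - x‖ ≤ s / 2) :
    1 / 2 ≤ bmp x s y := by
  unfold bmp
  refine le_max_of_le_right ?_
  have : ‖y - x‖ / s ≤ 1 / 2 := by
    rw [div_le_iff₀ hs]
    linarith
  linarith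

lemma abs_bmp_sub_le (x : E d) {s : ℝ} (hs : 0 < s) (y z : E d) :
    |bmp x s y - bmp x s z| ≤ ‖y - z‖ / s := by
  unfold bmp
  have h1 : |max 0 (1 - ‖y - x‖ / s) - max 0 (1 - ‖z - x‖ / s)| ≤
      |(1 - ‖y - x‖ / s) - (1 - ‖z - x‖ / s)| := by
    have := abs_max_sub_max_le_abs (1 - ‖y - x‖ / s) (1 - ‖z - x‖ / s) 0
    rwa [max_comm _ (0 : ℝ), max_comm _ (0 : ℝ)] at this
  refine h1.trans ?_
  rw [show (1 - ‖y - x‖ / s) - (1 - ‖z - x‖ / s) = (‖z - x‖ - ‖y - x‖) / s by ring, abs_div,
    abs_of_pos hs]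
  gcongr
  have h2 := abs_norm_sub_norm_le (z - x) (y - x)
  rw [show z - x - (y - x) = z - y by abel, norm_sub_rev z y] at h2
  exact h2

lemma lip_bmp (x : E d) {s : ℝ} (hs : 0 < s) : Lip (bmp x s) := by
  refine ⟨Real.toNNReal (1 / s), LipschitzWith.of_dist_le_mul fun y z => ?_⟩
  rw [Real.dist_eq, Real.coe_toNNReal _ (by positivity), dist_eq_norm]
  refine (abs_bmp_sub_le x hs y z).trans (le_of_eq ?_)
  ring

/-- Bound of an integral over a product by a bound of the inner integrals. -/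
lemma norm_integral_prod_le {α β : Type*} [MeasurableSpace α] [MeasurableSpace β]
    {m1 : Measure α} {m2 : Measure β} [SFinite m1] [IsFiniteMeasure m1] [SFinite m2]
    {F : α × β → E d} (hF : Integrable F (m1.prod m2)) {K : ℝ}
    (h : ∀ᵐ x ∂m1, ‖∫ y, F (x, y) ∂m2‖ ≤ K) : ‖∫ p, F p ∂(m1.prod m2)‖ ≤ K * m1.real univ := by
  rw [integral_prod _ hF]
  exact norm_integral_le_of_norm_le_const h

section main

variable {C : ℝ} {ν : Measure (E d)}

/-- `BF` of a function vanishing outside of `B`. -/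
lemma BF_split (hU : UB n ν C) (hb : ∃ R0, ν (closedBall 0 R0)ᶜ = 0) {ψ : E d → ℝ}
    (hψ : Lip ψ) {B : Set (E d)} (hB : MeasurableSet B) (h0 : ∀ y ∉ B, ψ y = 0) :
    BF n ν ψ = (1 / 2 : ℝ) • ∫ p : E d × E d, (ψ p.1 - ψ p.2) • rieszKernel n (p.1 - p.2)
        ∂((ν.restrict B).prod (ν.restrict B)) +
      ∫ p : E d × E d, (ψ p.1 - ψ p.2) • rieszKernel n (p.1 - p.2)
        ∂((ν.restrict B).prod (ν.restrict Bᶜ)) := by
  have hfin : IsFiniteMeasure ν := hU.isFiniteMeasure hb
  have hint := BF_integrable (n := n) hU hb hψ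
  set F : E d × E d → E d := fun p => (ψ p.1 - ψ p.2) • rieszKernel n (p.1 - p.2) with hFdef
  set ν1 := ν.restrict B with hν1
  set ν2 := ν.restrict Bᶜ with hν2
  have hsum : ν = ν1 + ν2 := (Measure.restrict_add_restrict_compl hB).symm
  have hprod : ν.prod ν = (ν1.prod ν1 + ν1.prod ν2) + (ν2.prod ν1 + ν2.prod ν2) := by
    conv_lhs => rw [hsum]
    rw [Measure.add_prod, Measure.prod_add, Measure.prod_add]
  have hle : ∀ m : Measure (E d × E d), m ≤ ν.prod ν → Integrable F m := fun m hm =>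
    hint.mono_measure hm
  have hi11 : Integrable F (ν1.prod ν1) := by
    rw [hν1, Measure.prod_restrict]; exact hint.restrict
  have hi12 : Integrable F (ν1.prod ν2) := by
    rw [hν1, hν2, Measure.prod_restrict]; exact hint.restrict
  have hi21 : Integrable F (ν2.prod ν1) := by
    rw [hν1, hν2, Measure.prod_restrict]; exact hint.restrict
  have hi22 : Integrable F (ν2.prod ν2) := by
    rw [hν2, Measure.prod_restrict]; exact hint.restrict
  have h22 : ∫ p, F p ∂(ν2.prod ν2) = 0 := by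
    rw [hν2, Measure.prod_restrict]
    rw [setIntegral_congr_fun (hB.compl.prod hB.compl) (g := fun _ => 0)]
    · simp
    · intro p hp
      simp only [hFdef, h0 p.1 hp.1, h0 p.2 hp.2, sub_zero, zero_smul]
  have h21 : ∫ p, F p ∂(ν2.prod ν1) = ∫ p, F p ∂(ν1.prod ν2) := by
    rw [← integral_prod_swap]
    refine integral_congr_ae (Eventually.of_forall fun p => ?_)
    simp only [hFdef, Prod.fst_swap, Prod.snd_swap]
    rw [rieszKernel_sub_comm p.1 p.2, smul_neg, ← neg_smul, neg_sub]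
  unfold BF
  change (1 / 2 : ℝ) • ∫ p, F p ∂(ν.prod ν) = _
  rw [hprod, integral_add_measure (hi11.add_measure hi12) (hi21.add_measure hi22),
    integral_add_measure hi11 hi12, integral_add_measure hi21 hi22, h22, h21, add_zero, add_assoc,
    ← two_smul ℝ (∫ p, F p ∂(ν1.prod ν2)), smul_add, smul_smul]
  norm_num

lemma norm_rieszKernel_eq (x y : E d) : ‖rieszKernel n (x - y)‖ = ‖x - y‖ * wt n x y := by
  unfold rieszKernel wt
  rw [norm_smul, norm_inv, norm_pow, norm_norm, mul_comm]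

lemma norm_bmp_kernel_le (x : E d) {s : ℝ} (hs : 0 < s) (y z : E d) :
    ‖(bmp x s y - bmp x s z) • rieszKernel n (y - z)‖ ≤ s⁻¹ * (‖y - z‖ ^ 2 * wt n y z) := by
  rw [norm_smul, norm_rieszKernel_eq, Real.norm_eq_abs]
  have h1 := abs_bmp_sub_le x hs y z
  have h2 := wt_nonneg (n := n) y z
  calc |bmp x s y - bmp x s z| * (‖y - z‖ * wt n y z)
      ≤ (‖y - z‖ / s) * (‖y - z‖ * wt n y z) := by gcongr
    _ = _ := by ring

lemma real_ball_le (hU : UB n ν C) (x : E d) {s : ℝ} (hs : 0 < s) :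
    ν.real (ball x s) ≤ C * s ^ n := by
  have hC := hU.1
  exact ENNReal.toReal_le_of_le_ofReal (by positivity) (hU.ball x hs)

lemma sa_first (hU : UB n ν C) (hb : ∃ R0, ν (closedBall 0 R0)ᶜ = 0) (x : E d) {s : ℝ}
    (hs : 0 < s) :
    ‖∫ p : E d × E d, (bmp x s p.1 - bmp x s p.2) • rieszKernel n (p.1 - p.2)
        ∂((ν.restrict (ball x s)).prod (ν.restrict (ball x s)))‖ ≤
      2 ^ (n + 4) * C * (C * s ^ n) := by
  have hfin : IsFiniteMeasure ν := hU.isFiniteMeasure hb
  have hC := hU.1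
  have hint := BF_integrable (n := n) hU hb (lip_bmp x hs)
  have hi11 : Integrable (fun p : E d × E d => (bmp x s p.1 - bmp x s p.2) •
      rieszKernel n (p.1 - p.2)) ((ν.restrict (ball x s)).prod (ν.restrict (ball x s))) := by
    rw [Measure.prod_restrict]; exact hint.restrict
  have h1 := norm_integral_prod_le (K := 2 ^ (n + 4) * C) hi11 ?_
  · refine h1.trans ?_
    rw [measureReal_restrict_apply_univ]
    have := real_ball_le hU x hs
    gcongr
  · filter_upwards [ae_restrict_mem measurableSet_ball] with y hy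
    have hnear := hU.near y (ρ := 2 * s) (by positivity)
    have hsub : ball x s ⊆ closedBall y (2 * s) := by
      intro z hz
      rw [mem_ball] at hy hz
      rw [mem_closedBall]
      have := dist_triangle_right z y x
      linarith
    have hg : IntegrableOn (fun z => s⁻¹ * (‖y - z‖ ^ 2 * wt n y z)) (closedBall y (2 * s)) ν :=
      hnear.1.const_mul _
    have h2 : ‖∫ z in ball x s, (bmp x s y - bmp x s z) • rieszKernel n (y - z) ∂ν‖ ≤
        ∫ z in ball x s, s⁻¹ * (‖y - z‖ ^ 2 * wt n y z) ∂ν :=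
      norm_integral_le_of_norm_le (hg.mono_set hsub)
        (Eventually.of_forall fun z => norm_bmp_kernel_le x hs y z)
    refine h2.trans ?_
    have h3 : ∫ z in ball x s, s⁻¹ * (‖y - z‖ ^ 2 * wt n y z) ∂ν ≤
        ∫ z in closedBall y (2 * s), s⁻¹ * (‖y - z‖ ^ 2 * wt n y z) ∂ν := by
      refine setIntegral_mono_set hg (Eventually.of_forall fun z => ?_)
        (Eventually.of_forall hsub)
      have := wt_nonneg (n := n) y z
      simp only [Pi.zero_apply]
      positivity
    refine h3.trans ?_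
    rw [integral_const_mul]
    calc s⁻¹ * ∫ z in closedBall y (2 * s), ‖y - z‖ ^ 2 * wt n y z ∂ν
        ≤ s⁻¹ * (2 ^ (n + 3) * C * (2 * s)) := by gcongr; exact hnear.2
      _ = 2 ^ (n + 4) * C := by
        rw [pow_succ (2 : ℝ) (n + 3)]
        field_simp

/-- The pointwise bound of the difference. -/
lemma sa_pointwise (x : E d) {s : ℝ} (hs : 0 < s) {y z : E d} (hy : y ∈ ball x s)
    (hz : z ∉ ball x s) :
    ‖(bmp x s y - bmp x s z) • rieszKernel n (y - z) - bmp x s y • rieszKernel n (x - z)‖ ≤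
      ((n + 2) * 4 ^ (n + 1) + 2 ^ (n + 1)) * s * wt n x z +
        (closedBall y (3 * s)).indicator (fun z => s⁻¹ * (‖y - z‖ ^ 2 * wt n y z)) z := by
  rw [mem_ball, dist_eq_norm] at hy
  rw [mem_ball, dist_eq_norm, not_lt] at hz
  have hbz : bmp x s z = 0 := bmp_eq_zero x hs hz
  have hw := wt_nonneg (n := n) x z
  have hb0 := bmp_nonneg x s y
  have hb1 := bmp_le_one x hs y
  have hind : 0 ≤ (closedBall y (3 * s)).indicator
      (fun z => s⁻¹ * (‖y - z‖ ^ 2 * wt n y z)) z := by
    refine indicator_nonneg (fun z _ => ?_) z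
    have := wt_nonneg (n := n) y z
    positivity
  rcases le_or_gt (2 * s) ‖z - x‖ with h | h
  · -- far
    rw [hbz, sub_zero, ← smul_sub, norm_smul, Real.norm_eq_abs, abs_of_nonneg hb0]
    have hne : x - z ≠ 0 := by
      intro h0
      rw [← norm_eq_zero, norm_sub_rev] at h0
      linarith
    have h1 := rieszKernel_lipschitz (n := n) (x - z) (y - z) hne (by
      rw [show x - z - (y - z) = x - y by abel, norm_sub_rev x y, norm_sub_rev x z]
      linarith)
    rw [show x - z - (y - z) = x - y by abel, norm_sub_rev x y] at h1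
    rw [norm_sub_rev]
    have h2 : ‖rieszKernel n (x - z) - rieszKernel n (y - z)‖ ≤
        (n + 2) * 4 ^ (n + 1) * s * wt n x z := by
      refine h1.trans ?_
      unfold wt
      gcongr
    calc bmp x s y * ‖rieszKernel n (x - z) - rieszKernel n (y - z)‖
        ≤ 1 * ((n + 2) * 4 ^ (n + 1) * s * wt n x z) := by gcongr
      _ ≤ ((n + 2) * 4 ^ (n + 1) + 2 ^ (n + 1)) * s * wt n x z + 0 := by
        have : 0 ≤ 2 ^ (n + 1) * s * wt n x z := by positivity
        linarith only [this]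
      _ ≤ _ := by gcongr
  · -- near
    have hmem : z ∈ closedBall y (3 * s) := by
      rw [mem_closedBall, dist_eq_norm]
      have := norm_sub_le_norm_sub_add_norm_sub z x y
      rw [norm_sub_rev x y] at this
      linarith
    rw [indicator_of_mem hmem]
    refine (norm_sub_le _ _).trans ?_
    rw [add_comm]
    have h1 : ‖bmp x s y • rieszKernel n (x - z)‖ ≤
        ((n + 2) * 4 ^ (n + 1) + 2 ^ (n + 1)) * s * wt n x z := by
      rw [norm_smul, Real.norm_eq_abs, abs_of_nonneg hb0, norm_rieszKernel_eq]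
      have h3 : ‖x - z‖ ≤ 2 * s := by rw [norm_sub_rev]; exact h.le
      have h4 : (2 : ℝ) ≤ 2 ^ (n + 1) := by
        calc (2 : ℝ) = 2 ^ 1 := by norm_num
          _ ≤ 2 ^ (n + 1) := by gcongr <;> norm_num
      calc bmp x s y * (‖x - z‖ * wt n x z) ≤ 1 * (2 * s * wt n x z) := by gcongr
        _ = 2 * s * wt n x z := by ring
        _ ≤ ((n + 2) * 4 ^ (n + 1) + 2 ^ (n + 1)) * s * wt n x z := by
          gcongr
          have : (0 : ℝ) ≤ (n + 2) * 4 ^ (n + 1) := by positivity
          linarith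
    exact add_le_add h1 (norm_bmp_kernel_le x hs y z)

lemma sa_second (hU : UB n ν C) (hb : ∃ R0, ν (closedBall 0 R0)ᶜ = 0) (x : E d) {s : ℝ}
    (hs : 0 < s) :
    ‖(∫ p : E d × E d, (bmp x s p.1 - bmp x s p.2) • rieszKernel n (p.1 - p.2)
        ∂((ν.restrict (ball x s)).prod (ν.restrict (ball x s)ᶜ))) -
      (∫ y, bmp x s y ∂(ν.restrict (ball x s))) •
        ∫ z, rieszKernel n (x - z) ∂(ν.restrict (ball x s)ᶜ)‖ ≤
      (((n + 2) * 4 ^ (n + 1) + 2 ^ (n + 1)) * (2 ^ (n + 1) * C) + 3 * 2 ^ (n + 3) * C) *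
        (C * s ^ n) := by
  have hfin : IsFiniteMeasure ν := hU.isFiniteMeasure hb
  have hC := hU.1
  have hint := BF_integrable (n := n) hU hb (lip_bmp x hs)
  have hi12 : Integrable (fun p : E d × E d => (bmp x s p.1 - bmp x s p.2) •
      rieszKernel n (p.1 - p.2)) ((ν.restrict (ball x s)).prod (ν.restrict (ball x s)ᶜ)) := by
    rw [Measure.prod_restrict]; exact hint.restrict
  have hK : Integrable (fun z => rieszKernel n (x - z)) (ν.restrict (ball x s)ᶜ) := by
    have := integrableOn_kernel (n := n) (μ := ν) (S := univ) (measure_lt_top _ _)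
      MeasurableSet.univ x hs
    rwa [← compl_eq_univ_sdiff] at this
  have hbint : Integrable (bmp x s) (ν.restrict (ball x s)) := by
    refine Integrable.of_bound ((lip_bmp x hs).continuous.aestronglyMeasurable) 1
      (Eventually.of_forall fun y => ?_)
    rw [Real.norm_eq_abs, abs_of_nonneg (bmp_nonneg x s y)]
    exact bmp_le_one x hs y
  have hi12' : Integrable (fun p : E d × E d => bmp x s p.1 • rieszKernel n (x - p.2))
      ((ν.restrict (ball x s)).prod (ν.restrict (ball x s)ᶜ)) := hbint.smul_prod hK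
  rw [← integral_prod_smul, ← integral_sub hi12 hi12']
  have h1 := norm_integral_prod_le
    (K := ((n + 2) * 4 ^ (n + 1) + 2 ^ (n + 1)) * (2 ^ (n + 1) * C) + 3 * 2 ^ (n + 3) * C)
    (hi12.sub hi12') ?_
  · refine h1.trans ?_
    rw [measureReal_restrict_apply_univ]
    have := real_ball_le hU x hs
    gcongr
  · filter_upwards [ae_restrict_mem measurableSet_ball] with y hy
    have hnear := hU.near y (ρ := 3 * s) (by positivity)
    have htail := hU.tail x hs
    have hg1 : Integrable (fun z => ((n + 2) * 4 ^ (n + 1) + 2 ^ (n + 1)) * s * wt n x z)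
        (ν.restrict (ball x s)ᶜ) := htail.1.const_mul _
    have hg2' : Integrable ((closedBall y (3 * s)).indicator
        (fun z => s⁻¹ * (‖y - z‖ ^ 2 * wt n y z))) ν := by
      rw [integrable_indicator_iff measurableSet_closedBall]
      exact hnear.1.const_mul _
    have hg2 : Integrable ((closedBall y (3 * s)).indicator
        (fun z => s⁻¹ * (‖y - z‖ ^ 2 * wt n y z))) (ν.restrict (ball x s)ᶜ) := hg2'.restrict
    have h2 := norm_integral_le_of_norm_le (μ := ν.restrict (ball x s)ᶜ)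
      (f := fun z => (bmp x s y - bmp x s z) • rieszKernel n (y - z) -
        bmp x s y • rieszKernel n (x - z)) (hg1.add hg2) (by
        filter_upwards [ae_restrict_mem measurableSet_ball.compl] with z hz
        exact sa_pointwise x hs hy hz)
    refine le_trans h2 ?_
    simp only [Pi.add_apply]
    rw [integral_add hg1 hg2, integral_const_mul]
    have h3 : ∫ z in (ball x s)ᶜ, (closedBall y (3 * s)).indicator
        (fun z => s⁻¹ * (‖y - z‖ ^ 2 * wt n y z)) z ∂ν ≤ 3 * 2 ^ (n + 3) * C := by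
      have h4 : ∫ z in (ball x s)ᶜ, (closedBall y (3 * s)).indicator
          (fun z => s⁻¹ * (‖y - z‖ ^ 2 * wt n y z)) z ∂ν ≤
          ∫ z, (closedBall y (3 * s)).indicator
          (fun z => s⁻¹ * (‖y - z‖ ^ 2 * wt n y z)) z ∂ν := by
        refine setIntegral_le_integral hg2' (Eventually.of_forall fun z => ?_)
        refine indicator_nonneg (fun z _ => ?_) z
        have := wt_nonneg (n := n) y z
        positivity
      refine h4.trans ?_
      rw [integral_indicator measurableSet_closedBall, integral_const_mul]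
      calc s⁻¹ * ∫ z in closedBall y (3 * s), ‖y - z‖ ^ 2 * wt n y z ∂ν
          ≤ s⁻¹ * (2 ^ (n + 3) * C * (3 * s)) := by gcongr; exact hnear.2
        _ = 3 * 2 ^ (n + 3) * C := by field_simp
    have h5 : ((n + 2) * 4 ^ (n + 1) + 2 ^ (n + 1)) * s * ∫ z in (ball x s)ᶜ, wt n x z ∂ν ≤
        ((n + 2) * 4 ^ (n + 1) + 2 ^ (n + 1)) * (2 ^ (n + 1) * C) := by
      calc ((n + 2) * 4 ^ (n + 1) + 2 ^ (n + 1)) * s * ∫ z in (ball x s)ᶜ, wt n x z ∂ν
          ≤ ((n + 2) * 4 ^ (n + 1) + 2 ^ (n + 1)) * s * (2 ^ (n + 1) * C / s) := by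
            gcongr; exact htail.2
        _ = _ := by field_simp
    exact add_le_add h5 h3

end main

/-- `UR/SmoothAvg.lean` -/
theorem smooth_average (n d : ℕ) (C c : ℝ) (hC : 0 < C) (hc : 0 < c) :
    ∃ CA : ℝ, 0 < CA ∧ ∀ (μ : Measure (E d)), UB n μ C → ∀ (x : E d) (s : ℝ), 0 < s →
      ENNReal.ofReal (c * s ^ n) ≤ μ (ball x (s / 2)) → ∀ S : Set (E d), MeasurableSet S →
      Bornology.IsBounded S → ball x (2 * s) ⊆ S →
      ‖(∫ y, bmp x s y ∂μ)⁻¹ • BF n (μ.restrict S) (bmp x s) -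
        ∫ y in S \ ball x s, rieszKernel n (x - y) ∂μ‖ ≤ CA := by
  set C1 : ℝ := 2 ^ (n + 4) * C + (((n + 2) * 4 ^ (n + 1) + 2 ^ (n + 1)) * (2 ^ (n + 1) * C) +
    3 * 2 ^ (n + 3) * C) with hC1
  have hC1pos : 0 < C1 := by positivity
  refine ⟨2 / c * (C1 * C), by positivity, ?_⟩
  intro μ hU x s hs hmass S hS hSb hsub
  set ν := μ.restrict S with hν
  have hUν : UB n ν C := hU.restrict S
  have hbν : ∃ R0, ν (closedBall 0 R0)ᶜ = 0 := by
    obtain ⟨R0, hR0⟩ := hSb.subset_closedBall 0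
    refine ⟨R0, ?_⟩
    rw [hν, Measure.restrict_apply isClosed_closedBall.measurableSet.compl]
    have : (closedBall (0 : E d) R0)ᶜ ∩ S = ∅ := by
      ext y
      simp only [mem_inter_iff, mem_compl_iff, mem_empty_iff_false, iff_false, not_and]
      exact fun h1 h2 => h1 (hR0 h2)
    rw [this, measure_empty]
  have hfin : IsFiniteMeasure ν := hUν.isFiniteMeasure hbν
  have hBS : ball x s ⊆ S := (ball_subset_ball (by linarith)).trans hsub
  have hsplit := BF_split hUν hbν (lip_bmp x hs) (B := ball x s) measurableSet_ball (fun y hy =>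
    bmp_eq_zero x hs (by rwa [mem_ball, dist_eq_norm, not_lt] at hy))
  have h1 := sa_first hUν hbν x hs
  have h2 := sa_second hUν hbν x hs
  have e1 : ∫ y, bmp x s y ∂(ν.restrict (ball x s)) = ∫ y, bmp x s y ∂μ := by
    rw [hν, Measure.restrict_restrict measurableSet_ball, inter_eq_left.mpr hBS]
    apply setIntegral_eq_integral_of_forall_compl_eq_zero
    intro y hy
    exact bmp_eq_zero x hs (by rwa [mem_ball, dist_eq_norm, not_lt] at hy)
  have e2 : ∫ z, rieszKernel n (x - z) ∂(ν.restrict (ball x s)ᶜ) =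
      ∫ y in S \ ball x s, rieszKernel n (x - y) ∂μ := by
    rw [hν, Measure.restrict_restrict measurableSet_ball.compl, inter_comm, sdiff_eq]
  rw [e1, e2] at h2
  set J : ℝ := ∫ y, bmp x s y ∂μ with hJ
  have hJlow : c / 2 * s ^ n ≤ J := by
    have hbint : IntegrableOn (bmp x s) (ball x s) μ := by
      refine Measure.integrableOn_of_bounded (M := 1) (hU.ball_lt_top x s).ne
        ((lip_bmp x hs).continuous.aestronglyMeasurable) (Eventually.of_forall fun y => ?_)
      rw [Real.norm_eq_abs, abs_of_nonneg (bmp_nonneg x s y)]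
      exact bmp_le_one x hs y
    have h3 : J = ∫ y in ball x s, bmp x s y ∂μ := by
      symm
      apply setIntegral_eq_integral_of_forall_compl_eq_zero
      intro y hy
      exact bmp_eq_zero x hs (by rwa [mem_ball, dist_eq_norm, not_lt] at hy)
    have hsub2 : ball x (s / 2) ⊆ ball x s := ball_subset_ball (by linarith)
    have h4 : ∫ y in ball x (s / 2), bmp x s y ∂μ ≤ J := by
      rw [h3]
      exact setIntegral_mono_set hbint (Eventually.of_forall fun y => bmp_nonneg x s y)
        (Eventually.of_forall hsub2)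
    have h5 : ∫ y in ball x (s / 2), (1 / 2 : ℝ) ∂μ ≤ ∫ y in ball x (s / 2), bmp x s y ∂μ := by
      refine setIntegral_mono_on ?_ (hbint.mono_set hsub2) measurableSet_ball ?_
      · exact integrableOn_const (hU.ball_lt_top x _).ne
      · intro y hy
        rw [mem_ball, dist_eq_norm] at hy
        exact bmp_ge_half x hs hy.le
    rw [setIntegral_const, smul_eq_mul] at h5
    have h6 : c * s ^ n ≤ μ.real (ball x (s / 2)) :=
      (ENNReal.ofReal_le_iff_le_toReal (hU.ball_lt_top x _).ne).mp hmass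
    linarith
  have hJ0 : 0 < J := lt_of_lt_of_le (by positivity) hJlow
  have h7 : ‖BF n ν (bmp x s) - J • ∫ y in S \ ball x s, rieszKernel n (x - y) ∂μ‖ ≤
      C1 * (C * s ^ n) := by
    rw [hsplit, add_sub_assoc]
    refine (norm_add_le _ _).trans ?_
    have h8 : ‖(1 / 2 : ℝ) • ∫ p : E d × E d, (bmp x s p.1 - bmp x s p.2) •
        rieszKernel n (p.1 - p.2) ∂((ν.restrict (ball x s)).prod (ν.restrict (ball x s)))‖ ≤
        2 ^ (n + 4) * C * (C * s ^ n) := by
      rw [norm_smul]
      have h9 : ‖(1 / 2 : ℝ)‖ ≤ 1 := by rw [Real.norm_eq_abs, abs_of_pos] <;> norm_num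
      calc _ ≤ 1 * (2 ^ (n + 4) * C * (C * s ^ n)) := by
            apply mul_le_mul h9 h1 (norm_nonneg _) zero_le_one
        _ = _ := one_mul _
    refine (add_le_add h8 h2).trans (le_of_eq ?_)
    rw [hC1]
    ring
  have h10 : J⁻¹ • BF n ν (bmp x s) - ∫ y in S \ ball x s, rieszKernel n (x - y) ∂μ =
      J⁻¹ • (BF n ν (bmp x s) - J • ∫ y in S \ ball x s, rieszKernel n (x - y) ∂μ) := by
    rw [smul_sub, smul_smul, inv_mul_cancel₀ hJ0.ne', one_smul]
  rw [h10, norm_smul, norm_inv, Real.norm_eq_abs, abs_of_pos hJ0]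
  calc J⁻¹ * ‖BF n ν (bmp x s) - J • ∫ y in S \ ball x s, rieszKernel n (x - y) ∂μ‖
      ≤ (c / 2 * s ^ n)⁻¹ * (C1 * (C * s ^ n)) := by gcongr
    _ = 2 / c * (C1 * C) := by field_simp

end Vale.Agent.P120
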