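import Vale.Agent.Lib.P120.UR.Net
import Vale.Agent.Lib.P120.UR.SmoothAvg
import Vale.Agent.Lib.P120.UR.AlmostOrth
import Vale.Agent.Lib.P120.LemmaA2

/-!
P120: quantitative existence of good balls (bounded truncated integrals).
-/

open MeasureTheory Filter Set Metric Module
open scoped Topology ENNReal NNReal RealInnerProductSpace

namespace Vale.Agent.P120
variable {d n : ℕ}

theorem bmp_lipschitz (x : E d) {s : ℝ} (hs : 0 < s) :
    LipschitzWith (Real.toNNReal (1 / s)) (bmp x s) := by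
  refine LipschitzWith.of_dist_le_mul fun y z => ?_
  rw [Real.coe_toNNReal _ (by positivity), Real.dist_eq]
  unfold bmp
  refine (abs_max_sub_max_le_max _ _ _ _).trans ?_
  refine max_le (by simp; positivity) ?_
  have e : (1 - ‖y - x‖ / s) - (1 - ‖z - x‖ / s) = (1 / s) * (‖z - x‖ - ‖y - x‖) := by
    field_simp; ring
  rw [e, abs_mul, abs_of_pos (by positivity : (0 : ℝ) < 1 / s)]
  gcongr
  refine (abs_norm_sub_norm_le _ _).trans ?_
  rw [sub_sub_sub_cancel_right, ← dist_eq_norm, dist_comm]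

theorem bmp_Lip (x : E d) {s : ℝ} (hs : 0 < s) : Lip (bmp x s) := ⟨_, bmp_lipschitz x hs⟩

theorem half_le_bmp (x : E d) {s : ℝ} (hs : 0 < s) {y : E d} (hy : y ∈ ball x (s / 2)) :
    1 / 2 ≤ bmp x s y := by
  rw [mem_ball, dist_eq_norm] at hy
  unfold bmp
  refine le_max_of_le_right ?_
  have : ‖y - x‖ / s ≤ 1 / 2 := by
    rw [div_le_iff₀ hs]; linarith
  linarith

/-- Integral of a bump from below. -/
theorem bmp_integral_lower {μ : Measure (E d)} {C : ℝ} (hU : UB n μ C) (x : E d) {s a : ℝ}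
    (hs : 0 < s) (ha : ENNReal.ofReal a ≤ μ (ball x (s / 2))) :
    Integrable (bmp x s) μ ∧ a / 2 ≤ ∫ y, bmp x s y ∂μ := by
  have hfin := hU.closedBall_lt_top x s
  have hint : Integrable (bmp x s) μ := by
    have h1 : IntegrableOn (bmp x s) (closedBall x s) μ := by
      refine Measure.integrableOn_of_bounded (M := 1) hfin.ne
        (bmp_Lip x hs).continuous.aestronglyMeasurable ?_
      refine Eventually.of_forall fun y => ?_
      rw [Real.norm_eq_abs, abs_of_nonneg (bmp_nonneg x s y)]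
      exact bmp_le_one x hs y
    refine (integrableOn_iff_integrable_of_support_subset ?_).mp h1
    intro y hy
    by_contra hcon
    rw [mem_closedBall, not_le, dist_eq_norm] at hcon
    exact hy (bmp_eq_zero x hs hcon.le)
  refine ⟨hint, ?_⟩
  have h2 : ∫ y in ball x (s / 2), (1 / 2 : ℝ) ∂μ ≤ ∫ y, bmp x s y ∂μ := by
    calc ∫ y in ball x (s / 2), (1 / 2 : ℝ) ∂μ ≤ ∫ y in ball x (s / 2), bmp x s y ∂μ := by
          refine setIntegral_mono_on ?_ hint.integrableOn measurableSet_ball ?_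
          · exact integrableOn_const (hU.ball_lt_top _ _).ne
          · intro y hy; exact half_le_bmp x hs hy
      _ ≤ ∫ y, bmp x s y ∂μ :=
          setIntegral_le_integral hint (Eventually.of_forall fun y => bmp_nonneg x s y)
  rw [setIntegral_const, smul_eq_mul] at h2
  have h3 : a ≤ μ.real (ball x (s / 2)) := by
    rw [measureReal_def]
    exact (ENNReal.ofReal_le_iff_le_toReal (hU.ball_lt_top _ _).ne).mp ha
  linarith

/-- The difference of two normalised bumps: bound of the energy. -/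
theorem bmp_energy {ν : Measure (E d)} {C : ℝ} (hU : UB n ν C)
    (hb : ∃ R0, ν (closedBall 0 R0)ᶜ = 0) (x : E d) {s a : ℝ} (hs : 0 < s) (ha : 0 < a)
    {I : ℝ} (hI : a * s ^ n ≤ I) :
    En n ν (fun y => I⁻¹ * bmp x s y) ≤ 4 ^ (n + 6) * C ^ 2 * (a⁻¹) ^ 2 * (s ^ (n + 1))⁻¹ := by
  have hC := hU.1
  have hI0 : 0 < I := lt_of_lt_of_le (by positivity) hI
  rw [En_smul]
  have h1 := En_le_of_lipschitz hU hb (bmp_lipschitz x hs) hs
    (fun y hy => bmp_eq_zero x hs hy.le)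
  rw [Real.coe_toNNReal _ (by positivity)] at h1
  have h2 : I⁻¹ ≤ (a * s ^ n)⁻¹ := by gcongr
  have h3 := En_nonneg (n := n) (ν := ν) (bmp x s)
  calc I⁻¹ ^ 2 * En n ν (bmp x s) ≤ ((a * s ^ n)⁻¹) ^ 2 *
        (4 ^ (n + 6) * C ^ 2 * (1 / s) ^ 2 * s ^ (n + 1)) := by gcongr
    _ = 4 ^ (n + 6) * C ^ 2 * (a⁻¹) ^ 2 * (s ^ (n + 1))⁻¹ := by
        field_simp
        ring

/-- Small energy implies a good ball. -/
theorem good_of_energy (n d : ℕ) {C c CA δ a Q e0 : ℝ} (hC : 0 < C) (hc : 0 < c) (hCA : 0 < CA)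
    (hSA : ∀ (μ : Measure (E d)), UB n μ C → ∀ (x : E d) (s : ℝ), 0 < s →
      ENNReal.ofReal (c / 2 ^ n * s ^ n) ≤ μ (ball x (s / 2)) → ∀ S : Set (E d), MeasurableSet S →
      Bornology.IsBounded S → ball x (2 * s) ⊆ S →
      ‖(∫ y, bmp x s y ∂μ)⁻¹ • BF n (μ.restrict S) (bmp x s) -
        ∫ y in S \ ball x s, rieszKernel n (x - y) ∂μ‖ ≤ CA)
    (hδ : 0 < δ) (ha : a = c / 2 ^ (n + 1)) (ha0 : 0 < a)
    (hQ : Q = 4 * (4 ^ (n + 6) * C ^ 2 * (a⁻¹) ^ 2) / δ ^ (n + 1)) (hQ0 : 0 < Q)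
    (he0 : e0 = 1 / Q) {μ : Measure (E d)} {D : ℝ} (hU : UB n μ C) (hL : LB n μ c D)
    {xs p : E d} {rs r0 ep : ℝ} (hrs : 0 < rs) (hrsD : rs ≤ D) (hr00 : 0 < r0)
    (hr01 : r0 ≤ rs / 4) (hpd : ‖p - xs‖ ≤ rs / 2) (hep0 : 0 ≤ ep) (hep : ep ≤ e0)
    (hEn : EnLe n (μ.restrict (closedBall xs (4 * rs))) 2 p r0 ep) :
    Good n μ (2 * CA + 1) δ p r0 := by
  intro x hx hxb s s' hs1 hs2 hs3
  have hlow := hL.2.2
  have hs0 : 0 < s := lt_of_lt_of_le (by positivity) hs1
  have hs0' : 0 < s' := hs0.trans_le hs2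
  rw [mem_ball, dist_eq_norm] at hxb
  set S : Set (E d) := closedBall xs (4 * rs) with hS
  have hSm : MeasurableSet S := measurableSet_closedBall
  have hSb : Bornology.IsBounded S := isBounded_closedBall
  set ν := μ.restrict S with hν
  have hνU : UB n ν C := hU.restrict S
  have hνb : ∃ R0, ν (closedBall 0 R0)ᶜ = 0 := by
    refine ⟨‖xs‖ + 4 * rs, ?_⟩
    rw [hν, Measure.restrict_apply measurableSet_closedBall.compl]
    have : (closedBall (0 : E d) (‖xs‖ + 4 * rs))ᶜ ∩ S = ∅ := by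
      rw [← disjoint_iff_inter_eq_empty, Set.disjoint_left]
      intro y hy1 hy2
      apply hy1
      rw [hS, mem_closedBall, dist_eq_norm] at hy2
      rw [mem_closedBall, dist_eq_norm, sub_zero]
      have := norm_sub_norm_le y xs
      linarith
    rw [this, measure_empty]
  -- lower bounds
  have hball : ∀ t, 0 < t → t ≤ r0 → ENNReal.ofReal (c / 2 ^ n * t ^ n) ≤
      μ (ball x (t / 2)) := by
    intro t ht ht'
    have h1 := hlow x hx (t / 2) (by positivity) (by linarith)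
    refine le_trans (le_of_eq ?_) h1
    congr 1
    rw [div_pow]; ring
  have hsub2 : ∀ t, 0 < t → t ≤ r0 → ball x (2 * t) ⊆ S := by
    intro t ht ht' y hy
    rw [mem_ball, dist_eq_norm] at hy
    rw [hS, mem_closedBall, dist_eq_norm]
    have h1 := norm_sub_le_norm_sub_add_norm_sub y x xs
    have h2 := norm_sub_le_norm_sub_add_norm_sub x p xs
    linarith
  set I : ℝ := ∫ y, bmp x s y ∂μ with hI
  set I' : ℝ := ∫ y, bmp x s' y ∂μ with hI'
  obtain ⟨hint, hIlow⟩ := bmp_integral_lower hU x hs0 (hball s hs0 (hs2.trans hs3))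
  obtain ⟨hint', hIlow'⟩ := bmp_integral_lower hU x hs0' (hball s' hs0' hs3)
  have hIa : a * s ^ n ≤ I := by
    refine le_trans (le_of_eq ?_) hIlow
    rw [ha, pow_succ]; ring
  have hIa' : a * s' ^ n ≤ I' := by
    refine le_trans (le_of_eq ?_) hIlow'
    rw [ha, pow_succ]; ring
  have hI0 : 0 < I := lt_of_lt_of_le (by positivity) hIa
  have hI0' : 0 < I' := lt_of_lt_of_le (by positivity) hIa'
  have hSA1 := hSA μ hU x s hs0 (hball s hs0 (hs2.trans hs3)) S hSm hSb
    (hsub2 s hs0 (hs2.trans hs3))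
  have hSA2 := hSA μ hU x s' hs0' (hball s' hs0' hs3) S hSm hSb (hsub2 s' hs0' hs3)
  -- the test function
  set ψ1 : E d → ℝ := fun y => I⁻¹ * bmp x s y with hψ1
  set ψ2 : E d → ℝ := fun y => (-I'⁻¹) * bmp x s' y with hψ2
  have hL1 : Lip ψ1 := (bmp_Lip x hs0).const_mul _
  have hL2 : Lip ψ2 := (bmp_Lip x hs0').const_mul _
  have hψL : Lip (fun y => ψ1 y + ψ2 y) := hL1.add hL2
  have hψs : ∀ y, 2 * r0 < ‖y - p‖ → ψ1 y + ψ2 y = 0 := by
    intro y hy
    have h1 : s' ≤ ‖y - x‖ := by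
      have := norm_sub_le_norm_sub_add_norm_sub y x p
      linarith
    simp only [hψ1, hψ2]
    rw [bmp_eq_zero x hs0 (hs2.trans h1), bmp_eq_zero x hs0' h1]
    simp
  have hνint : ∀ t, 0 < t → t ≤ r0 → ∫ y, bmp x t y ∂ν = ∫ y, bmp x t y ∂μ := by
    intro t ht ht'
    rw [hν]
    refine setIntegral_eq_integral_of_forall_compl_eq_zero ?_
    intro y hy
    apply bmp_eq_zero x ht
    by_contra hcon
    push Not at hcon
    apply hy
    apply hsub2 t ht ht'
    rw [mem_ball, dist_eq_norm]; linarith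
  have hψ0 : ∫ y, (ψ1 y + ψ2 y) ∂ν = 0 := by
    simp only [hψ1, hψ2]
    rw [integral_add (hint.integrableOn.const_mul _) (hint'.integrableOn.const_mul _),
      integral_const_mul, integral_const_mul, hνint s hs0 (hs2.trans hs3), hνint s' hs0' hs3,
      ← hI, ← hI']
    field_simp
    ring
  have hE := hEn (fun y => ψ1 y + ψ2 y) hψL hψs hψ0
  -- energy
  have hδr : δ * r0 ≤ s := hs1
  have hEn1 : En n ν ψ1 ≤ 4 ^ (n + 6) * C ^ 2 * (a⁻¹) ^ 2 * ((δ * r0) ^ (n + 1))⁻¹ := by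
    refine (bmp_energy hνU hνb x hs0 ha0 hIa).trans ?_
    gcongr
  have hEn2 : En n ν ψ2 ≤ 4 ^ (n + 6) * C ^ 2 * (a⁻¹) ^ 2 * ((δ * r0) ^ (n + 1))⁻¹ := by
    have h1 : En n ν ψ2 = En n ν (fun y => I'⁻¹ * bmp x s' y) := by
      rw [hψ2, En_smul, En_smul]; ring
    rw [h1]
    refine (bmp_energy hνU hνb x hs0' ha0 hIa').trans ?_
    have : δ * r0 ≤ s' := hδr.trans hs2
    gcongr
  have hEnψ : En n ν (fun y => ψ1 y + ψ2 y) ≤ Q * (r0 ^ (n + 1))⁻¹ := by
    refine (En_add_le hνU hνb hL1 hL2).trans ?_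
    calc 2 * En n ν ψ1 + 2 * En n ν ψ2 ≤
          2 * (4 ^ (n + 6) * C ^ 2 * (a⁻¹) ^ 2 * ((δ * r0) ^ (n + 1))⁻¹) +
          2 * (4 ^ (n + 6) * C ^ 2 * (a⁻¹) ^ 2 * ((δ * r0) ^ (n + 1))⁻¹) := by gcongr
      _ = Q * (r0 ^ (n + 1))⁻¹ := by
          rw [hQ, mul_pow]; field_simp; ring
  have hBF : ‖BF n ν (fun y => ψ1 y + ψ2 y)‖ ≤ 1 := by
    have h1 : ‖BF n ν (fun y => ψ1 y + ψ2 y)‖ ^ 2 ≤ 1 := by
      refine hE.trans ?_
      calc ep * r0 ^ (n + 1) * En n ν (fun y => ψ1 y + ψ2 y)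
          ≤ e0 * r0 ^ (n + 1) * (Q * (r0 ^ (n + 1))⁻¹) := by
            have := En_nonneg (n := n) (ν := ν) (fun y => ψ1 y + ψ2 y)
            have he00 : 0 ≤ e0 := hep0.trans hep
            gcongr
        _ = 1 := by rw [he0]; field_simp
    have h2 := norm_nonneg (BF n ν (fun y => ψ1 y + ψ2 y))
    by_contra hcon
    push Not at hcon
    nlinarith only [h1, hcon]
  rw [BF_add hνU hνb hL1 hL2, hψ1, hψ2, BF_smul, BF_smul] at hBF
  -- the difference of the integrals
  have hintK : ∀ t, 0 < t → IntegrableOn (fun y => rieszKernel n (x - y)) (S \ ball x t) μ := by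
    intro t ht
    have := integrableOn_kernel (n := n) (μ := μ) (S := S)
      (hU.closedBall_lt_top xs (4 * rs)) hSm x ht
    exact this
  have hdiff : ∫ y in ball x s' \ ball x s, rieszKernel n (x - y) ∂μ =
      ∫ y in S \ ball x s, rieszKernel n (x - y) ∂μ -
        ∫ y in S \ ball x s', rieszKernel n (x - y) ∂μ := by
    have h1 : S \ ball x s = (ball x s' \ ball x s) ∪ (S \ ball x s') := by
      ext y
      simp only [Set.mem_sdiff, mem_union]
      constructor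
      · rintro ⟨h1, h2⟩
        by_cases h3 : y ∈ ball x s'
        · exact Or.inl ⟨h3, h2⟩
        · exact Or.inr ⟨h1, h3⟩
      · rintro (⟨h1, h2⟩ | ⟨h1, h2⟩)
        · exact ⟨hsub2 s' hs0' hs3 (ball_subset_ball (by linarith) h1), h2⟩
        · exact ⟨h1, fun h3 => h2 (ball_subset_ball hs2 h3)⟩
    have h2 : Disjoint (ball x s' \ ball x s) (S \ ball x s') := by
      rw [Set.disjoint_left]
      rintro y ⟨h1, _⟩ ⟨_, h2⟩
      exact h2 h1
    have h3 : IntegrableOn (fun y => rieszKernel n (x - y)) (ball x s' \ ball x s) μ := by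
      refine (hintK s hs0).mono_set ?_
      rw [h1]; exact subset_union_left
    rw [h1, setIntegral_union h2 (hSm.diff measurableSet_ball) h3 (hintK s' hs0')]
    abel
  rw [hdiff]
  set X := ∫ y in S \ ball x s, rieszKernel n (x - y) ∂μ with hX
  set Y := ∫ y in S \ ball x s', rieszKernel n (x - y) ∂μ with hY
  set P := I⁻¹ • BF n ν (bmp x s) with hP
  set P' := I'⁻¹ • BF n ν (bmp x s') with hP'
  have e1 : X - Y = (P + (-I'⁻¹) • BF n ν (bmp x s')) - (P - X) + (P' - Y) := by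
    rw [neg_smul, ← hP']; abel
  rw [e1]
  calc ‖(P + (-I'⁻¹) • BF n ν (bmp x s')) - (P - X) + (P' - Y)‖
      ≤ ‖P + (-I'⁻¹) • BF n ν (bmp x s')‖ + ‖P - X‖ + ‖P' - Y‖ :=
        (norm_add_le _ _).trans (by gcongr; exact norm_sub_le _ _)
    _ ≤ 1 + CA + CA := by gcongr
    _ = 2 * CA + 1 := by ring

theorem exists_good_quant (n d : ℕ) (C c CT : ℝ) (hC : 0 < C) (hc : 0 < c) :
    ∃ C4 : ℝ, 0 < C4 ∧ ∀ δ : ℝ, 0 < δ → ∃ η : ℝ, 0 < η ∧ ∀ (μ : Measure (E d)) (D : ℝ),
      UB n μ C → LB n μ c D → TB n μ CT → ∀ xs ∈ μ.support, ∀ rs : ℝ, 0 < rs → rs ≤ D →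
      ∃ x0 ∈ μ.support, ∃ r0 : ℝ, η * rs ≤ r0 ∧ r0 ≤ rs ∧ ball x0 r0 ⊆ ball xs rs ∧
        Good n μ C4 δ x0 r0 := by
  obtain ⟨CA, hCA, hSA⟩ := smooth_average n d C (c / 2 ^ n) hC (by positivity)
  obtain ⟨CE, hCE, hEn⟩ := exists_energy n d C c CT (1 / 2) 2 hC hc (by norm_num) (by norm_num)
    (by norm_num)
  refine ⟨2 * CA + 1, by positivity, ?_⟩
  intro δ hδ
  -- constants
  set a : ℝ := c / 2 ^ (n + 1) with ha
  have ha0 : 0 < a := by positivity
  set Q : ℝ := 4 * (4 ^ (n + 6) * C ^ 2 * (a⁻¹) ^ 2) / δ ^ (n + 1) with hQ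
  have hQ0 : 0 < Q := by positivity
  set e0 : ℝ := 1 / Q with he0
  have he00 : 0 < e0 := by positivity
  set c' : ℝ := c / (C * 2 ^ n) with hc'
  have hc'0 : 0 < c' := by positivity
  obtain ⟨N, hN⟩ := exists_nat_gt (CE * 4 ^ n / (e0 * c'))
  have hN' : CE * 4 ^ n < N * (e0 * c') := by rwa [div_lt_iff₀ (by positivity)] at hN
  refine ⟨1 / 4 * (1 / 2) ^ N, by positivity, ?_⟩
  intro μ D hU hL hT xs hxs rs hrs hrsD
  have hlow := hL.2.2
  -- nets
  have hKc : IsCompact (μ.support ∩ closedBall xs (rs / 2)) :=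
    (isCompact_closedBall xs (rs / 2)).inter_left Measure.isClosed_support
  have hnet : ∀ k : ℕ, ∃ A : Finset (E d), (A : Set (E d)) ⊆ μ.support ∩ closedBall xs (rs / 2) ∧
      (∀ p ∈ A, ∀ q ∈ A, p ≠ q → rs / 4 * (1 / 2) ^ k ≤ ‖p - q‖) ∧
      ∀ y ∈ μ.support ∩ closedBall xs (rs / 2), ∃ p ∈ A, ‖y - p‖ < rs / 4 * (1 / 2) ^ k := by
    intro k
    obtain ⟨A, -, h1, h2, h3⟩ := exists_sep_net hKc (s := rs / 4 * (1 / 2) ^ k) (by positivity) ∅
      (by simp) (by simp)
    exact ⟨A, h1, h2, h3⟩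
  choose A hAsub hAsep hAdense using hnet
  have hsk : ∀ k : ℕ, 0 < rs / 4 * (1 / 2 : ℝ) ^ k := fun k => by positivity
  have hsk1 : ∀ k : ℕ, rs / 4 * (1 / 2 : ℝ) ^ k ≤ rs / 4 := by
    intro k
    have : (1 / 2 : ℝ) ^ k ≤ 1 := pow_le_one₀ (by norm_num) (by norm_num)
    nlinarith only [hrs, this]
  obtain ⟨e, he0', heE, hesum⟩ := hEn μ hU hT xs (4 * rs) (by positivity) (rs / 4) (by positivity)
    (by linarith) N A (fun k _ => hAsep k) (by
      intro k _ p hp
      have hpS := hAsub k hp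
      have h1 : ball p (rs / 4 * (1 / 2) ^ k) ⊆
          closedBall xs (4 * rs) ∩ closedBall p (2 * (rs / 4 * (1 / 2) ^ k)) := by
        intro y hy
        have h2 := hpS.2
        have h3 := hsk1 k
        have h4 := hsk k
        rw [mem_ball] at hy
        rw [mem_closedBall] at h2
        constructor
        · rw [mem_closedBall]
          have := dist_triangle y p xs
          linarith
        · rw [mem_closedBall]; linarith
      refine le_trans ?_ (measure_mono h1)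
      exact hlow p hpS.1 _ (hsk k) (by
        have := hsk1 k
        linarith))
  -- pigeonhole
  obtain ⟨k, hkN, p, hpA, hep⟩ : ∃ k ≤ N, ∃ p ∈ A k, e k p ≤ e0 := by
    by_contra hcon
    push Not at hcon
    have h1 : ∀ k ∈ Finset.range (N + 1), e0 * (c' * rs ^ n) ≤
        ∑ p ∈ A k, e k p * (rs / 4 * (1 / 2) ^ k) ^ n := by
      intro k hk
      rw [Finset.mem_range, Nat.lt_succ_iff] at hk
      have h2 : ∑ p ∈ A k, e0 * (rs / 4 * (1 / 2) ^ k) ^ n ≤
          ∑ p ∈ A k, e k p * (rs / 4 * (1 / 2) ^ k) ^ n := by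
        refine Finset.sum_le_sum fun p hp => ?_
        have := (hcon k hk p hp).le
        have := hsk k
        gcongr
      refine le_trans ?_ h2
      rw [Finset.sum_const, nsmul_eq_mul]
      -- covering
      have h3 : μ (ball xs (rs / 2)) ≤ ∑ p ∈ A k, μ (closedBall p (rs / 4 * (1 / 2) ^ k)) := by
        have h4 : μ (ball xs (rs / 2)) ≤ μ (ball xs (rs / 2) ∩ μ.support) := by
          calc μ (ball xs (rs / 2)) ≤ μ ((ball xs (rs / 2) ∩ μ.support) ∪ μ.supportᶜ) := by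
                refine measure_mono fun y hy => ?_
                by_cases hyS : y ∈ μ.support
                · exact Or.inl ⟨hy, hyS⟩
                · exact Or.inr hyS
            _ ≤ μ (ball xs (rs / 2) ∩ μ.support) + μ μ.supportᶜ := measure_union_le _ _
            _ = _ := by rw [Measure.measure_compl_support, add_zero]
        refine h4.trans ?_
        refine le_trans (measure_mono ?_) (measure_biUnion_finset_le (A k) _)
        intro y hy
        obtain ⟨p, hp, hyp⟩ := hAdense k y ⟨hy.2, ball_subset_closedBall hy.1⟩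
        simp only [mem_iUnion]
        refine ⟨p, hp, ?_⟩
        rw [mem_closedBall, dist_eq_norm]; exact hyp.le
      have h5 : ENNReal.ofReal (c * (rs / 2) ^ n) ≤
          ENNReal.ofReal ((A k).card * (C * (rs / 4 * (1 / 2) ^ k) ^ n)) := by
        refine (hlow xs hxs (rs / 2) (by positivity) (by linarith)).trans (h3.trans ?_)
        refine (Finset.sum_le_sum fun p _ => hU.2 p _ (hsk k)).trans ?_
        rw [Finset.sum_const, nsmul_eq_mul, ENNReal.ofReal_mul (by positivity),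
          ENNReal.ofReal_mul (Nat.cast_nonneg _), ENNReal.ofReal_natCast,
          ENNReal.ofReal_mul hC.le]
      have hskk := hsk k
      rw [ENNReal.ofReal_le_ofReal_iff (by positivity)] at h5
      have h6 : c' * rs ^ n ≤ (A k).card * (rs / 4 * (1 / 2) ^ k) ^ n := by
        have h7 : c' * rs ^ n = c * (rs / 2) ^ n / C := by
          rw [hc', div_pow]; field_simp
        rw [h7, div_le_iff₀ hC]
        calc c * (rs / 2) ^ n ≤ (A k).card * (C * (rs / 4 * (1 / 2) ^ k) ^ n) := h5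
          _ = _ := by ring
      calc e0 * (c' * rs ^ n) ≤ e0 * ((A k).card * (rs / 4 * (1 / 2) ^ k) ^ n) := by gcongr
        _ = _ := by ring
    have h8 := Finset.sum_le_sum h1
    rw [Finset.sum_const, Finset.card_range, nsmul_eq_mul] at h8
    have h9 := h8.trans hesum
    rw [mul_pow] at h9
    have h10 : (0 : ℝ) < rs ^ n := by positivity
    have h11 : ((N + 1 : ℕ) : ℝ) * (e0 * c') ≤ CE * 4 ^ n := by
      have h12 : ((N + 1 : ℕ) : ℝ) * (e0 * c') * rs ^ n ≤ CE * 4 ^ n * rs ^ n := by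
        calc ((N + 1 : ℕ) : ℝ) * (e0 * c') * rs ^ n =
            ((N + 1 : ℕ) : ℝ) * (e0 * (c' * rs ^ n)) := by ring
          _ ≤ CE * (4 ^ n * rs ^ n) := h9
          _ = _ := by ring
      exact le_of_mul_le_mul_right h12 h10
    push_cast at h11
    have : 0 < e0 * c' := by positivity
    linarith
  -- the good ball
  set r0 : ℝ := rs / 4 * (1 / 2) ^ k with hr0
  have hr00 : 0 < r0 := hsk k
  have hr01 : r0 ≤ rs / 4 := hsk1 k
  have hpS := hAsub k hpA
  have hpd : ‖p - xs‖ ≤ rs / 2 := by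
    have := hpS.2
    rwa [mem_closedBall, dist_eq_norm] at this
  refine ⟨p, hpS.1, r0, ?_, by linarith, ?_, ?_⟩
  · have h1 : (1 / 2 : ℝ) ^ N ≤ (1 / 2) ^ k :=
      pow_le_pow_of_le_one (by norm_num) (by norm_num) hkN
    calc 1 / 4 * (1 / 2) ^ N * rs ≤ 1 / 4 * (1 / 2) ^ k * rs := by gcongr
      _ = r0 := by rw [hr0]; ring
  · intro y hy
    rw [mem_ball, dist_eq_norm] at hy ⊢
    have := norm_sub_le_norm_sub_add_norm_sub y p xs
    linarith
  · exact good_of_energy n d hC hc hCA hSA hδ ha ha0 hQ hQ0 he0 hU hL hrs hrsD hr00 hr01 hpd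
      (he0' k p) hep (heE k hkN p hpA)

end Vale.Agent.P120
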