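import Vale.Agent.Lib.P120.LowDim
import Vale.Agent.Lib.P120.UR.Basic
import Vale.Agent.Lib.P120.UR.GoodQuant

/-!
P120: quantitative existence of flat balls (constants depend only on `n d C c CT θ`).
-/

open MeasureTheory Filter Set Metric Module
open scoped Topology ENNReal NNReal RealInnerProductSpace

namespace Vale.Agent.P120

variable {d n : ℕ}

/-- An AD-regular set of dimension `n` has holes of proportional size in every `k`-plane,
`k > n`. -/
theorem porosity_unif (n d : ℕ) {C c : ℝ} (hC : 0 < C) (hc : 0 < c) (k : ℕ) (hk : n < k) :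
    ∃ c0 : ℝ, 0 < c0 ∧ c0 ≤ 1 / 8 ∧ ∀ (μ : Measure (E d)) (D : ℝ), UB n μ C → LB n μ c D →
      ∀ x0 ∈ μ.support, ∀ r0 : ℝ, 0 < r0 → r0 ≤ D →
      ∀ V : Submodule ℝ (E d), finrank ℝ V = k →
        ∃ z ∈ V, ‖z‖ ≤ r0 / 4 ∧ ∀ y ∈ μ.support, c0 * r0 ≤ ‖y - (x0 + z)‖ := by
  have hk0 : 0 < k := lt_of_le_of_lt (Nat.zero_le n) hk
  have hkR : (1 : ℝ) ≤ k := by exact_mod_cast hk0
  obtain ⟨N, hN⟩ := exists_nat_gt (C / c * (16 * k) ^ n)
  have hN0 : (0 : ℝ) < N := lt_of_le_of_lt (by positivity) hN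
  have hN1 : (1 : ℝ) ≤ N := by
    have : 0 < N := by exact_mod_cast hN0
    exact_mod_cast this
  set c0 : ℝ := 1 / (16 * k * N) with hc0
  have hc00 : 0 < c0 := by positivity
  have hc08 : c0 ≤ 1 / 16 := by
    rw [hc0]
    apply one_div_le_one_div_of_le (by norm_num)
    linarith only [mul_le_mul hkR hN1 zero_le_one (by positivity)]
  refine ⟨c0, hc00, by linarith, ?_⟩
  intro μ D hU hL x0 hx0 r0 hr0 hr0D V hV
  obtain ⟨-, hup⟩ := hU
  obtain ⟨-, hD, hlow⟩ := hL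
  by_contra hcon
  push Not at hcon
  subst hV
  set k := finrank ℝ V with hkdef
  let b := stdOrthonormalBasis ℝ V
  set a : ℝ := 4 * c0 * r0 with ha
  have ha0 : 0 < a := by positivity
  let vec : (Fin k → Fin N) → EuclideanSpace ℝ (Fin k) := fun m => WithLp.toLp 2 (fun i => ((m i : ℕ) : ℝ))
  let z : (Fin k → Fin N) → E d := fun m => a • ((b.repr.symm (vec m) : V) : E d)
  have hn : ∀ v : V, ‖(v : E d)‖ = ‖v‖ := fun v => rfl
  have hzV : ∀ m, z m ∈ V := fun m => V.smul_mem _ (Subtype.mem _)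
  have hvecnorm : ∀ m, ‖vec m‖ ≤ k * N := by
    intro m
    rw [EuclideanSpace.norm_eq]
    apply Real.sqrt_le_iff.mpr
    refine ⟨by positivity, ?_⟩
    have h1 : ∀ i ∈ (Finset.univ : Finset (Fin k)), ‖vec m i‖ ^ 2 ≤ (N : ℝ) ^ 2 := by
      intro i _
      have h2 : ((m i : ℕ) : ℝ) ≤ N := by exact_mod_cast (m i).2.le
      have h3 : (0 : ℝ) ≤ ((m i : ℕ) : ℝ) := Nat.cast_nonneg _
      simp only [vec, Real.norm_eq_abs, abs_of_nonneg h3]
      gcongr
    refine (Finset.sum_le_sum h1).trans ?_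
    simp only [Finset.sum_const, Finset.card_univ, Fintype.card_fin, nsmul_eq_mul]
    rw [mul_pow]
    have : (k : ℝ) ≤ (k : ℝ) ^ 2 := by nlinarith only [hkR]
    gcongr
  have hznorm : ∀ m, ‖z m‖ ≤ r0 / 4 := by
    intro m
    simp only [z]
    rw [norm_smul, Real.norm_eq_abs, abs_of_pos ha0, hn, LinearIsometryEquiv.norm_map]
    calc a * ‖vec m‖ ≤ a * (k * N) := by gcongr; exact hvecnorm m
      _ = r0 / 4 := by rw [ha, hc0]; field_simp; norm_num
  have hzsep : ∀ m m', m ≠ m' → a ≤ ‖z m - z m'‖ := by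
    intro m m' hmm
    obtain ⟨i, hi⟩ := Function.ne_iff.mp hmm
    have e1 : z m - z m' = a • ((b.repr.symm (vec m - vec m') : V) : E d) := by
      simp only [z, map_sub, smul_sub, Submodule.coe_sub]
    rw [e1, norm_smul, Real.norm_eq_abs, abs_of_pos ha0, hn, LinearIsometryEquiv.norm_map]
    have h1 : (1 : ℝ) ≤ ‖vec m - vec m'‖ := by
      refine le_trans ?_ (PiLp.norm_apply_le (vec m - vec m') i)
      simp only [vec, PiLp.sub_apply, Real.norm_eq_abs]
      have h2 : ((m i : ℕ) : ℤ) - ((m' i : ℕ) : ℤ) ≠ 0 := by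
        intro h
        apply hi
        apply Fin.ext
        omega
      have h3 : (1 : ℤ) ≤ |((m i : ℕ) : ℤ) - ((m' i : ℕ) : ℤ)| := Int.one_le_abs h2
      have h4 : ((1 : ℤ) : ℝ) ≤ ((|((m i : ℕ) : ℤ) - ((m' i : ℕ) : ℤ)| : ℤ) : ℝ) := by
        exact_mod_cast h3
      simpa using h4
    nlinarith only [ha0, h1]
  have hy : ∀ m, ∃ y ∈ μ.support, ‖y - (x0 + z m)‖ < c0 * r0 := fun m => hcon (z m) (hzV m) (hznorm m)
  choose y hyS hy using hy
  have hsep : ∀ m m', m ≠ m' → c0 * r0 + c0 * r0 ≤ dist (y m) (y m') := by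
    intro m m' hmm
    have h1 := hzsep m m' hmm
    have h2 := hy m
    have h3 := hy m'
    rw [dist_eq_norm]
    have h4 : z m - z m' = (y m - y m') - (y m - (x0 + z m)) + (y m' - (x0 + z m')) := by abel
    have h5 : ‖z m - z m'‖ ≤ ‖y m - y m'‖ + ‖y m - (x0 + z m)‖ + ‖y m' - (x0 + z m')‖ := by
      rw [h4]
      exact (norm_add_le _ _).trans (by gcongr; exact norm_sub_le _ _)
    rw [ha] at h1
    linarith
  have hdisj : Pairwise (Function.onFun Disjoint (fun m => ball (y m) (c0 * r0))) := by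
    intro m m' hmm
    exact ball_disjoint_ball (hsep m m' hmm)
  have hsub : (⋃ m, ball (y m) (c0 * r0)) ⊆ ball x0 r0 := by
    intro w hw
    obtain ⟨m, hm⟩ := mem_iUnion.mp hw
    rw [mem_ball, dist_eq_norm] at hm ⊢
    have h1 := hy m
    have h2 := hznorm m
    have h3 : w - x0 = (w - y m) + (y m - (x0 + z m)) + z m := by abel
    rw [h3]
    have h4 : ‖(w - y m) + (y m - (x0 + z m)) + z m‖ ≤ ‖w - y m‖ + ‖y m - (x0 + z m)‖ + ‖z m‖ :=
      (norm_add_le _ _).trans (by gcongr; exact norm_add_le _ _)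
    nlinarith only [hc00, hc08, ha0, hm, h1, h2, h4]
  have hmeas : ∑ m : Fin k → Fin N, μ (ball (y m) (c0 * r0)) ≤ ENNReal.ofReal (C * r0 ^ n) := by
    have h := measure_iUnion (μ := μ) hdisj (fun m => measurableSet_ball)
    rw [tsum_fintype] at h
    rw [← h]
    exact (measure_mono hsub).trans ((measure_mono ball_subset_closedBall).trans (hup x0 r0 hr0))
  have hlow' : ∀ m : Fin k → Fin N, ENNReal.ofReal (c * (c0 * r0) ^ n) ≤
      μ (ball (y m) (c0 * r0)) := by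
    intro m
    refine hlow (y m) (hyS m) (c0 * r0) (by positivity) ?_
    nlinarith only [hr0D, hD, hc00, hc08]
  have hcount : ENNReal.ofReal ((N : ℝ) ^ k * (c * (c0 * r0) ^ n)) ≤
      ENNReal.ofReal (C * r0 ^ n) := by
    refine le_trans (le_of_eq ?_) ((Finset.sum_le_sum fun m _ => hlow' m).trans hmeas)
    rw [Finset.sum_const, Finset.card_univ, Fintype.card_fun, Fintype.card_fin, Fintype.card_fin,
      nsmul_eq_mul, ENNReal.ofReal_mul (by positivity), ENNReal.ofReal_pow hN0.le,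
      ENNReal.ofReal_natCast]
    push_cast
    rfl
  rw [ENNReal.ofReal_le_ofReal_iff (by positivity)] at hcount
  have hNk : (N : ℝ) * (N : ℝ) ^ n ≤ (N : ℝ) ^ k := by
    rw [← pow_succ']
    exact pow_le_pow_right₀ hN1 hk
  have h1 : (N : ℝ) * (N : ℝ) ^ n * (c * (c0 * r0) ^ n) ≤ C * r0 ^ n :=
    le_trans (by gcongr) hcount
  have h2 : (N : ℝ) * (N : ℝ) ^ n * (c * (c0 * r0) ^ n) =
      (N : ℝ) * c * ((16 * (k : ℝ)) ^ n)⁻¹ * r0 ^ n := by
    have e1 : c0 * r0 = (16 * (k : ℝ))⁻¹ * (N : ℝ)⁻¹ * r0 := by rw [hc0]; field_simp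
    rw [e1, mul_pow, mul_pow, inv_pow, inv_pow]
    field_simp
  rw [h2] at h1
  have h3 : (N : ℝ) * c * ((16 * (k : ℝ)) ^ n)⁻¹ ≤ C := by
    have : 0 < r0 ^ n := by positivity
    exact le_of_mul_le_mul_right h1 this
  have h4 : (N : ℝ) ≤ C / c * (16 * k) ^ n := by
    rw [← div_eq_mul_inv, div_le_iff₀ (by positivity)] at h3
    rw [div_mul_eq_mul_div, le_div_iff₀ hc]
    exact h3
  linarith

/-- One direction can be flattened at a controlled smaller scale. -/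
theorem flatten_unif (n d : ℕ) {C c : ℝ} (_hC : 0 < C) (hc : 0 < c) (C4 : ℝ) {θ : ℝ} (hθ : 0 < θ)
    (hθ1 : θ ≤ 1 / 2) :
    ∃ lam : ℝ, 0 < lam ∧ lam ≤ 1 ∧ ∀ (μ : Measure (E d)) (D : ℝ), UB n μ C → LB n μ c D →
      ∀ x1 ∈ μ.support, ∀ e : E d, ‖e‖ = 1 → ∀ ρ : ℝ, 0 < ρ → ρ ≤ D →
      (∀ s : ℝ, lam * ρ ≤ s → s ≤ ρ →
        ‖∫ y in ball x1 ρ \ ball x1 s, rieszKernel n (x1 - y) ∂μ‖ ≤ C4) →
      (∀ y ∈ μ.support, y ∈ ball x1 ρ → -(ρ⁻¹ * ‖x1 - y‖ ^ 2) ≤ inner ℝ (y - x1) e) →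
      ∃ t : ℝ, lam * ρ ≤ t ∧ t ≤ ρ ∧ 0 < t ∧
        ∀ y ∈ μ.support, y ∈ ball x1 t → |inner ℝ (y - x1) e| ≤ θ * t := by
  set κ : ℝ := θ / 4 with hκ
  have hκ0 : 0 < κ := by positivity
  have hκ1 : κ ≤ 1 := by rw [hκ]; linarith
  set c7 : ℝ := c * (θ / 4) ^ (n + 1) with hc7
  have hc70 : 0 < c7 := by positivity
  set M : ℝ := C4 + 2 * (C * 2 ^ (n + 1)) with hM
  obtain ⟨J, hJ⟩ := exists_nat_gt (M / c7)
  have hJM : M < J * c7 := by rwa [div_lt_iff₀ hc70] at hJ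
  refine ⟨κ ^ J * θ, by positivity, ?_, ?_⟩
  · calc κ ^ J * θ ≤ 1 * 1 := by
          gcongr
          · exact pow_le_one₀ hκ0.le hκ1
          · linarith
      _ = 1 := one_mul 1
  intro μ D hU hL x1 hx1 e he ρ hρ hρD hint hhalf
  obtain ⟨-, hD, hlow⟩ := hL
  set lam : ℝ := κ ^ J * θ with hlam
  have hlam0 : 0 < lam := by positivity
  set s : ℝ := lam * ρ with hs
  have hs0 : 0 < s := by positivity
  by_contra hcon
  push Not at hcon
  let t : ℕ → ℝ := fun j => κ ^ j * (θ * ρ)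
  have ht0 : ∀ j, 0 < t j := fun j => by positivity
  have htθ : ∀ j, t j ≤ θ * ρ := by
    intro j
    calc κ ^ j * (θ * ρ) ≤ 1 * (θ * ρ) := by
          gcongr
          exact pow_le_one₀ hκ0.le hκ1
      _ = θ * ρ := one_mul _
  have htρ : ∀ j, t j ≤ ρ := fun j => (htθ j).trans (by nlinarith only [hθ1, hlam0, hs0])
  have hts : ∀ j, j < J → s ≤ θ / 2 * t j := by
    intro j hj
    have h1 : κ ^ J ≤ κ ^ (j + 1) := pow_le_pow_of_le_one hκ0.le hκ1 hj
    calc s = κ ^ J * (θ * ρ) := by rw [hs, hlam]; ring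
      _ ≤ κ ^ (j + 1) * (θ * ρ) := by gcongr
      _ = κ * t j := by simp only [t]; ring
      _ ≤ θ / 2 * t j := by
          have := ht0 j
          rw [hκ]
          nlinarith only [hκ, hκ0, this]
  have hy : ∀ j, ∃ y : E d, j < J → y ∈ μ.support ∧ y ∈ ball x1 (t j) ∧
      θ * t j < inner ℝ (y - x1) e := by
    intro j
    by_cases hj : j < J
    · have h1 : s ≤ t j := by
        have := hts j hj
        have := ht0 j
        nlinarith
      obtain ⟨y, hyS, hyb, hyθ⟩ := hcon (t j) h1 (htρ j) (ht0 j)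
      refine ⟨y, fun _ => ⟨hyS, hyb, ?_⟩⟩
      rcases lt_abs.mp hyθ with h2 | h2
      · exact h2
      · exfalso
        have h3 := hhalf y hyS (ball_subset_ball (htρ j) hyb)
        rw [mem_ball, dist_comm, dist_eq_norm] at hyb
        have h4 : ‖x1 - y‖ ^ 2 < t j ^ 2 := by
          have := norm_nonneg (x1 - y)
          nlinarith only [hyb, this]
        have h5 : θ * t j < ρ⁻¹ * t j ^ 2 := by
          have : ρ⁻¹ * ‖x1 - y‖ ^ 2 < ρ⁻¹ * t j ^ 2 := by
            have : 0 < ρ⁻¹ := by positivity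
            nlinarith only [h4, this]
          linarith
        have h6 : θ * ρ < t j := by
          rw [inv_mul_eq_div, lt_div_iff₀ hρ] at h5
          have := ht0 j
          nlinarith only [h5, this]
        exact absurd (htθ j) (not_le.mpr h6)
    · exact ⟨0, fun h => absurd h hj⟩
  choose y hy using hy
  let B : ℕ → Set (E d) := fun j => ball (y j) (θ / 2 * t j)
  -- properties of the points of `B j`
  have hBin : ∀ j, j < J → ∀ w ∈ B j, θ / 2 * t j < inner ℝ (w - x1) e ∧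
      θ / 2 * t j < ‖w - x1‖ ∧ ‖w - x1‖ < 2 * t j := by
    intro j hj w hw
    obtain ⟨hyS, hyb, hyθ⟩ := hy j hj
    exact ball_geometry he (ht0 j) hθ1 hyb hyθ hw
  have hBsub : ∀ j, j < J → B j ⊆ ball x1 ρ \ ball x1 s := by
    intro j hj w hw
    obtain ⟨_, h2, h3⟩ := hBin j hj w hw
    constructor
    · rw [mem_ball, dist_eq_norm]
      have h4 := htθ j
      nlinarith only [hθ1, hlam0, hs0, h3, h4]
    · rw [mem_ball, not_lt, dist_eq_norm]
      exact (hts j hj).trans h2.le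
  have hdisj : Set.Pairwise (↑(Finset.range J)) (Function.onFun Disjoint B) := by
    have key : ∀ i j, i < J → j < J → i < j → Disjoint (B i) (B j) := by
      intro i j hi hj hij
      rw [Set.disjoint_left]
      intro w hwi hwj
      obtain ⟨_, h2, _⟩ := hBin i hi w hwi
      obtain ⟨_, _, h3⟩ := hBin j hj w hwj
      have h4 : t j ≤ κ * t i := by
        have h5 : κ ^ j ≤ κ ^ (i + 1) := pow_le_pow_of_le_one hκ0.le hκ1 hij
        calc t j ≤ κ ^ (i + 1) * (θ * ρ) := by simp only [t]; gcongr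
          _ = κ * t i := by simp only [t]; ring
      rw [hκ] at h4
      linarith
    intro i hi j hj hij
    simp only [Finset.coe_range, mem_Iio] at hi hj
    rcases lt_or_gt_of_ne hij with h | h
    · exact key i j hi hj h
    · exact (key j i hj hi h).symm
  -- the integrand
  set Ann := ball x1 ρ \ ball x1 s with hAnn
  have hgi := integrableOn_gfun (n := n) hU x1 e (ρ := ρ) hs0
  have hhi := integrableOn_hfun (n := n) hU x1 hs0 hρ
  have hnn : 0 ≤ᵐ[μ.restrict Ann] (fun w => gfun n x1 e w + hfun n x1 ρ w) := by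
    have h1 : ∀ᵐ w ∂μ, w ∈ μ.support := by
      rw [ae_iff]; exact Measure.measure_compl_support
    rw [EventuallyLE, ae_restrict_iff' (measurableSet_ball.diff measurableSet_ball)]
    filter_upwards [h1] with w hw hwA
    have h2 := hhalf w hw hwA.1
    show 0 ≤ gfun n x1 e w + hfun n x1 ρ w
    unfold gfun hfun
    rw [norm_sub_rev w x1]
    have h3 : 0 ≤ (‖x1 - w‖ ^ (n + 1))⁻¹ := by positivity
    have h4 : 0 ≤ (inner ℝ (w - x1) e + ρ⁻¹ * ‖x1 - w‖ ^ 2) * (‖x1 - w‖ ^ (n + 1))⁻¹ :=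
      mul_nonneg (by linarith) h3
    linarith
  have hupper : ∫ w in Ann, (gfun n x1 e w + hfun n x1 ρ w) ∂μ ≤ M := by
    rw [integral_add hgi hhi, integral_gfun hU x1 e hs0]
    have h1 := hint s le_rfl (by
      have : lam ≤ 1 := by
        calc κ ^ J * θ ≤ 1 * 1 := by
              gcongr
              · exact pow_le_one₀ hκ0.le hκ1
              · linarith
          _ = 1 := one_mul 1
      rw [hs]; nlinarith only [hlam0, hs0, this])
    have h2 : |inner ℝ e (∫ w in Ann, rieszKernel n (x1 - w) ∂μ)| ≤ C4 := by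
      refine (abs_real_inner_le_norm _ _).trans ?_
      rw [he, one_mul]
      exact h1
    have h3 := integral_hfun_le (n := n) hU x1 hs0 hρ
    have h4 := (abs_le.mp h2).1
    linarith
  have hlower : J * c7 ≤ ∫ w in Ann, (gfun n x1 e w + hfun n x1 ρ w) ∂μ := by
    have hUsub : (⋃ i ∈ Finset.range J, B i) ⊆ Ann := by
      intro w hw
      simp only [mem_iUnion, Finset.mem_range] at hw
      obtain ⟨i, hi, hwi⟩ := hw
      exact hBsub i hi hwi
    have h1 := setIntegral_mono_set (hgi.add hhi) hnn hUsub.eventuallyLE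
    refine le_trans ?_ h1
    have hii : ∀ i ∈ Finset.range J,
        IntegrableOn (gfun n x1 e + hfun n x1 ρ) (B i) μ := by
      intro i hi
      exact (hgi.add hhi).mono_set (hBsub i (Finset.mem_range.mp hi))
    rw [integral_biUnion_finset _ (fun i _ => measurableSet_ball) hdisj hii]
    have h2 : ∀ i ∈ Finset.range J, c7 ≤ ∫ w in B i, (gfun n x1 e + hfun n x1 ρ) w ∂μ := by
      intro i hi
      have hiJ := Finset.mem_range.mp hi
      have hti := ht0 i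
      have hlowB : c * (θ / 2 * t i) ^ n ≤ μ.real (B i) := by
        have h3 := hlow (y i) (hy i hiJ).1 (θ / 2 * t i) (by positivity) (by
          have := htρ i
          nlinarith only [hθ1, hρD, hti, this])
        rw [measureReal_def]
        exact (ENNReal.ofReal_le_iff_le_toReal (hU.ball_lt_top _ _).ne).mp h3
      exact ball_contribution hU hθ hti hρ (hBin i hiJ) hlowB (hii i hi)
    calc (J : ℝ) * c7 = ∑ i ∈ Finset.range J, c7 := by simp
      _ ≤ _ := Finset.sum_le_sum h2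
  linarith

/-- Reduction of the dimension by one. -/
theorem reduce_step_unif (n d : ℕ) {C c : ℝ} (hC : 0 < C) (hc : 0 < c) (C4 : ℝ) {c0 : ℝ}
    (hc0 : 0 < c0) {θ : ℝ} (hθ : 0 < θ) (hθ1 : θ ≤ 1) :
    ∃ lam : ℝ, 0 < lam ∧ lam ≤ 1 ∧ ∀ (μ : Measure (E d)) (D : ℝ), UB n μ C → LB n μ c D →
      ∀ δ : ℝ, 0 < δ → ∀ x0 ∈ μ.support, ∀ r0 : ℝ, 0 < r0 → r0 ≤ D →
      ∀ V : Submodule ℝ (E d), Good n μ C4 (min δ 1 * lam * c0) x0 r0 →
        Flat μ V (θ * lam * c0 / 12) x0 r0 →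
        (∃ z ∈ V, ‖z‖ ≤ r0 / 4 ∧ ∀ y ∈ μ.support, c0 * r0 ≤ ‖y - (x0 + z)‖) →
        ∃ x1 ∈ μ.support, ∃ t : ℝ, 0 < t ∧ lam * c0 * r0 ≤ t ∧ ball x1 t ⊆ ball x0 r0 ∧ t ≤ r0 ∧
          Good n μ C4 δ x1 t ∧ 
          ∃ V' : Submodule ℝ (E d), finrank ℝ V' < finrank ℝ V ∧ Flat μ V' θ x1 t := by
  obtain ⟨lam, hlam0, hlam1, hflat⟩ := flatten_unif n d hC hc C4 (θ := θ / 4)
    (by positivity) (by linarith)
  refine ⟨lam, hlam0, hlam1, ?_⟩
  intro μ D hU hL δ hδ x0 hx0 r0 hr0 hr0D V hgood hVflat hz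
  obtain ⟨z, hzV, hznorm, hzfar⟩ := hz
  set δ' : ℝ := min δ 1 * lam * c0 with hδ'
  set θ' : ℝ := θ * lam * c0 / 12 with hθ'
  have hmin0 : 0 < min δ 1 := lt_min hδ one_pos
  have hδ'0 : 0 < δ' := by positivity
  have hθ'0 : 0 < θ' := by positivity
  -- the nearest point
  obtain ⟨x1, hx1S, hx1⟩ := Measure.isClosed_support (μ := μ).exists_infDist_eq_dist ⟨x0, hx0⟩ (x0 + z)
  set ρ : ℝ := infDist (x0 + z) μ.support with hρ
  have hρn : ‖x1 - (x0 + z)‖ = ρ := by rw [hx1, dist_comm, dist_eq_norm]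
  have hρlow : c0 * r0 ≤ ρ := by rw [← hρn]; exact hzfar x1 hx1S
  have hρ0 : 0 < ρ := lt_of_lt_of_le (by positivity) hρlow
  have hρup : ρ ≤ r0 / 4 := by
    refine (infDist_le_dist_of_mem hx0).trans ?_
    rw [dist_eq_norm]
    simpa using hznorm
  have hρmin : ∀ y ∈ μ.support, ρ ≤ ‖y - (x0 + z)‖ := by
    intro y hy
    have := infDist_le_dist_of_mem (x := x0 + z) hy
    rwa [dist_comm, dist_eq_norm] at this
  set e' : E d := ρ⁻¹ • (x1 - (x0 + z)) with he'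
  have he'n : ‖e'‖ = 1 := by
    rw [he', norm_smul, hρn, Real.norm_eq_abs, abs_of_pos (by positivity), inv_mul_cancel₀ hρ0.ne']
  have hx10 : ‖x1 - x0‖ ≤ r0 / 2 := by
    have h1 : x1 - x0 = (x1 - (x0 + z)) + z := by abel
    rw [h1]
    refine (norm_add_le _ _).trans ?_
    rw [hρn]; linarith
  have hx1b : x1 ∈ ball x0 r0 := by
    rw [mem_ball, dist_eq_norm]; linarith
  -- half space property
  have hhalf : ∀ y ∈ μ.support, y ∈ ball x1 ρ → -(ρ⁻¹ * ‖x1 - y‖ ^ 2) ≤ inner ℝ (y - x1) e' := by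
    intro y hy _
    have h1 := hρmin y hy
    have h2 : ‖y - (x0 + z)‖ ^ 2 = ‖y - x1‖ ^ 2 + 2 * inner ℝ (y - x1) (x1 - (x0 + z)) + ρ ^ 2 := by
      have : y - (x0 + z) = (y - x1) + (x1 - (x0 + z)) := by abel
      rw [this, norm_add_sq_real, hρn]
    have h3 : ρ ^ 2 ≤ ‖y - (x0 + z)‖ ^ 2 := by gcongr
    have h4 : inner ℝ (y - x1) e' = ρ⁻¹ * inner ℝ (y - x1) (x1 - (x0 + z)) := by
      rw [he', real_inner_smul_right]
    rw [h4, norm_sub_rev x1 y, ← mul_neg]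
    have h5 : 0 < ρ⁻¹ := by positivity
    have h6 : -‖y - x1‖ ^ 2 ≤ inner ℝ (y - x1) (x1 - (x0 + z)) := by
      have : 0 ≤ ‖y - x1‖ ^ 2 := by positivity
      linarith
    exact mul_le_mul_of_nonneg_left h6 h5.le
  -- bounded integrals at `x1`
  have hint : ∀ s : ℝ, lam * ρ ≤ s → s ≤ ρ →
      ‖∫ y in ball x1 ρ \ ball x1 s, rieszKernel n (x1 - y) ∂μ‖ ≤ C4 := by
    intro s hs1 hs2
    refine hgood x1 hx1S hx1b s ρ ?_ hs2 (by linarith)
    refine le_trans ?_ hs1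
    calc min δ 1 * lam * c0 * r0 ≤ 1 * lam * (c0 * r0) := by
          rw [mul_assoc (min δ 1 * lam)]
          gcongr
          exact min_le_right _ _
      _ ≤ lam * ρ := by rw [one_mul]; gcongr
  obtain ⟨t, ht1, ht2, ht0, ht⟩ := hflat μ D hU hL x1 hx1S e' he'n ρ hρ0 (by linarith) hint hhalf
  have htlow : lam * c0 * r0 ≤ t := by
    refine le_trans ?_ ht1
    rw [mul_assoc]; gcongr
  have hsub : ball x1 t ⊆ ball x0 r0 := by
    intro w hw
    rw [mem_ball, dist_eq_norm] at hw ⊢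
    have h1 : w - x0 = (w - x1) + (x1 - x0) := by abel
    rw [h1]
    have := norm_add_le (w - x1) (x1 - x0)
    linarith
  refine ⟨x1, hx1S, t, ht0, htlow, hsub, by linarith, ?_, ?_⟩
  · intro x hx hxb s s' hs1 hs2 hs3
    refine hgood x hx (hsub hxb) s s' ?_ hs2 (by linarith)
    refine le_trans ?_ hs1
    calc min δ 1 * lam * c0 * r0 = min δ 1 * (lam * c0 * r0) := by ring
      _ ≤ δ * t := by
          gcongr
          exact min_le_left _ _
  exact flat_reduce hc0 hθ hθ1 hlam0 hlam1 hr0 hρ0 ht0 hzV hVflat hx1S hx1b hsub hρlow htlow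
    he'n ht


/-- Quantitative existence of balls which are unilaterally flat in dimension `k ≥ n`. -/
theorem exists_flat_of_good_unif (n d : ℕ) {C c : ℝ} (hC : 0 < C) (hc : 0 < c) (C4 CT : ℝ)
    (hgood : ∀ δ : ℝ, 0 < δ → ∃ η : ℝ, 0 < η ∧ ∀ (μ : Measure (E d)) (D : ℝ),
      UB n μ C → LB n μ c D → TB n μ CT → ∀ xs ∈ μ.support, ∀ rs : ℝ, 0 < rs → rs ≤ D →
      ∃ x0 ∈ μ.support, ∃ r0 : ℝ, η * rs ≤ r0 ∧ r0 ≤ rs ∧ ball x0 r0 ⊆ ball xs rs ∧
        Good n μ C4 δ x0 r0) :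
    ∀ j k : ℕ, k + j = d → n ≤ k → ∀ θ : ℝ, 0 < θ → ∀ δ : ℝ, 0 < δ → ∃ η : ℝ, 0 < η ∧
      ∀ (μ : Measure (E d)) (D : ℝ), UB n μ C → LB n μ c D → TB n μ CT → ∀ xs ∈ μ.support,
      ∀ rs : ℝ, 0 < rs → rs ≤ D →
      ∃ x0 ∈ μ.support, ∃ r0 : ℝ, η * rs ≤ r0 ∧ r0 ≤ rs ∧ ball x0 r0 ⊆ ball xs rs ∧
        Good n μ C4 δ x0 r0 ∧ ∃ V : Submodule ℝ (E d), finrank ℝ V ≤ k ∧ Flat μ V θ x0 r0 := by
  intro j
  induction j with
  | zero =>
    intro k hk _ θ hθ δ hδ
    obtain ⟨η, hη, hg⟩ := hgood δ hδ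
    refine ⟨η, hη, ?_⟩
    intro μ D hU hL hT xs hxs rs hrs hrsD
    obtain ⟨x0, hx0, r0, hr0, hr0D, hsub, hg⟩ := hg μ D hU hL hT xs hxs rs hrs hrsD
    have hr0p : 0 < r0 := lt_of_lt_of_le (by positivity) hr0
    refine ⟨x0, hx0, r0, hr0, hr0D, hsub, hg, ⊤, ?_, ?_⟩
    · rw [finrank_top, finrank_euclideanSpace, Fintype.card_fin]; omega
    · intro y _ _
      refine ⟨y - x0, Submodule.mem_top, ?_⟩
      rw [sub_self, norm_zero]; positivity
  | succ j ih =>
    intro k hk hnk θ hθ δ hδ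
    obtain ⟨c0, hc0, hc01, hpor⟩ := porosity_unif n d hC hc (k + 1) (by omega)
    have hθm : 0 < min θ 1 := lt_min hθ one_pos
    obtain ⟨lam, hlam0, hlam1, hstep⟩ := reduce_step_unif n d hC hc C4 hc0 hθm (min_le_right _ _)
    obtain ⟨η, hη, hih⟩ := ih (k + 1) (by omega) (by omega) (min θ 1 * lam * c0 / 12)
      (by positivity) (min δ 1 * lam * c0) (mul_pos (mul_pos (lt_min hδ one_pos) hlam0) hc0)
    refine ⟨lam * c0 * η, by positivity, ?_⟩
    intro μ D hU hL hT xs hxs rs hrs hrsD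
    obtain ⟨x0, hx0, r0, hr0, hr0rs, hsub, hg, V, hVk, hV⟩ := hih μ D hU hL hT xs hxs rs hrs hrsD
    have hr0p : 0 < r0 := lt_of_lt_of_le (by positivity) hr0
    have hr0D : r0 ≤ D := hr0rs.trans hrsD
    rcases Nat.lt_or_ge (finrank ℝ V) (k + 1) with hlt | hge
    · refine ⟨x0, hx0, r0, ?_, hr0rs, hsub, hg.mono hr0p.le ?_, V, by omega,
        hV.mono hr0p.le ?_⟩
      · calc lam * c0 * η * rs ≤ 1 * 1 * η * rs := by
              gcongr
              linarith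
          _ = η * rs := by ring
          _ ≤ r0 := hr0
      · calc min δ 1 * lam * c0 ≤ δ * 1 * 1 := by
              gcongr
              · exact min_le_left _ _
              · linarith
          _ = δ := by ring
      · have h1 : min θ 1 * lam * c0 ≤ θ * 1 * 1 := by
          gcongr
          · exact min_le_left _ _
          · linarith
        linarith
    · have hVeq : finrank ℝ V = k + 1 := le_antisymm hVk hge
      obtain ⟨x1, hx1, t, ht0, htlow, hsub1, htr, hg1, V', hV'1, hV'2⟩ :=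
        hstep μ D hU hL δ hδ x0 hx0 r0 hr0p hr0D V hg hV (hpor μ D hU hL x0 hx0 r0 hr0p hr0D V hVeq)
      refine ⟨x1, hx1, t, ?_, htr.trans hr0rs, hsub1.trans hsub, hg1, V', by omega,
        hV'2.mono ht0.le (min_le_left _ _)⟩
      calc lam * c0 * η * rs = lam * c0 * (η * rs) := by ring
        _ ≤ lam * c0 * r0 := by gcongr
        _ ≤ t := htlow

theorem exists_submodule_finrank_eq (V : Submodule ℝ (E d)) (m : ℕ) (h1 : finrank ℝ V ≤ m)
    (h2 : m ≤ d) : ∃ V' : Submodule ℝ (E d), V ≤ V' ∧ finrank ℝ V' = m := by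
  obtain ⟨i, rfl⟩ := Nat.exists_eq_add_of_le h1
  clear h1
  induction i with
  | zero => exact ⟨V, le_rfl, by simp⟩
  | succ i ih =>
    obtain ⟨V', hVV', hV'⟩ := ih (by omega)
    have hne : V' ≠ ⊤ := by
      intro h
      rw [h, finrank_top, finrank_euclideanSpace, Fintype.card_fin] at hV'
      omega
    obtain ⟨v, -, hv⟩ := SetLike.exists_of_lt (lt_top_iff_ne_top.mpr hne)
    refine ⟨V' ⊔ Submodule.span ℝ {v}, hVV'.trans le_sup_left, ?_⟩
    rw [Submodule.finrank_sup_span_singleton hv, hV']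
    omega

theorem exists_flat_quant (n d : ℕ) (hn : 1 ≤ n) (hnd : n ≤ d) (C c CT : ℝ) (hC : 0 < C)
    (hc : 0 < c) (θ : ℝ) (hθ : 0 < θ) :
    ∃ η : ℝ, 0 < η ∧ ∀ (μ : Measure (E d)) (D : ℝ), UB n μ C → LB n μ c D → TB n μ CT →
      ∀ xs ∈ μ.support, ∀ rs : ℝ, 0 < rs → rs ≤ D →
      ∃ x0 ∈ μ.support, ∃ r0 : ℝ, η * rs ≤ r0 ∧ r0 ≤ rs ∧ ball x0 r0 ⊆ ball xs rs ∧
        ∃ V : Submodule ℝ (E d), finrank ℝ V = n ∧ Flat μ V θ x0 r0 := by
  obtain ⟨C4, hC4, hgood⟩ := exists_good_quant n d C c CT hC hc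
  obtain ⟨η, hη, h⟩ := exists_flat_of_good_unif n d hC hc C4 CT hgood (d - n) n (by omega) le_rfl
    θ hθ 1 one_pos
  refine ⟨η, hη, ?_⟩
  intro μ D hU hL hT xs hxs rs hrs hrsD
  obtain ⟨x0, hx0, r0, hr0, hr0rs, hsub, hg, V, hVk, hV⟩ := h μ D hU hL hT xs hxs rs hrs hrsD
  obtain ⟨V', hVV', hV'⟩ : ∃ V' : Submodule ℝ (E d), V ≤ V' ∧ finrank ℝ V' = n := by
    exact exists_submodule_finrank_eq V n hVk hnd
  refine ⟨x0, hx0, r0, hr0, hr0rs, hsub, V', hV', ?_⟩
  intro y hy hyb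
  obtain ⟨v, hv, hv2⟩ := hV y hy hyb
  exact ⟨v, hVV' hv, hv2⟩

end Vale.Agent.P120
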