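import Vale.Agent.Lib.P120.UR.Basic

/-!
P120, abstract gluing of Lipschitz maps (`glue_abstract`). See `blueprint/P120.md`, section 11.
-/

open MeasureTheory Filter Set Metric Module
open scoped Topology ENNReal NNReal RealInnerProductSpace

namespace Vale.Agent.P120

variable {d n : ℕ}

/-- centre of the domain piece `(i,m)` -/
noncomputable def glueC {ι : Type} (Lam R : ℝ) (e v0 : E n) (v : ι → E n) (σ : ι → ℝ) (i : ι)
    (m : ℕ) : E n :=
  Lam • (v i - v0) + (4 * R * m * σ i) • e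

theorem glueC_norm_le {ι : Type} {A S R Lam : ℝ} {K : ℕ} (hR : 0 < R) (hLam : 0 ≤ Lam) {e v0 : E n}
    (he : ‖e‖ = 1) {v : ι → E n} {σ : ι → ℝ} {i : ι} (hσ : 0 < σ i) (hσA : σ i ≤ A * S)
    (hv : ‖v i - v0‖ ≤ A * S) (m : Fin K) :
    ‖glueC Lam R e v0 v σ i m‖ ≤ (Lam * A + 4 * K * R * A) * S := by
  have hm : (m : ℝ) ≤ K := by exact_mod_cast m.2.le
  have h0 : 0 ≤ 4 * R * (m : ℝ) * σ i := by positivity
  have h1 : ‖(4 * R * (m : ℝ) * σ i) • e‖ = 4 * R * m * σ i := by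
    rw [norm_smul, he, mul_one, Real.norm_of_nonneg h0]
  have h2 : ‖Lam • (v i - v0)‖ ≤ Lam * (A * S) := by
    rw [norm_smul, Real.norm_of_nonneg hLam]
    exact mul_le_mul_of_nonneg_left hv hLam
  have h3 : 4 * R * (m : ℝ) * σ i ≤ 4 * R * K * (A * S) := by
    apply mul_le_mul _ hσA hσ.le (by positivity)
    exact mul_le_mul_of_nonneg_left hm (by positivity)
  calc ‖glueC Lam R e v0 v σ i m‖ ≤ ‖Lam • (v i - v0)‖ + ‖(4 * R * (m : ℝ) * σ i) • e‖ :=
        norm_add_le _ _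
    _ ≤ Lam * (A * S) + 4 * R * K * (A * S) := by rw [h1]; linarith
    _ = _ := by ring

/-- centres of the same site are separated -/
theorem glueC_same {ι : Type} {R Lam : ℝ} (hR : 0 < R) {e v0 : E n}
    (he : ‖e‖ = 1) {v : ι → E n} {σ : ι → ℝ} {i : ι} (hσ : 0 < σ i) {m m' : ℕ} (hm : m ≠ m') :
    4 * (R * σ i) ≤ ‖glueC Lam R e v0 v σ i m - glueC Lam R e v0 v σ i m'‖ := by
  have h1 : glueC Lam R e v0 v σ i m - glueC Lam R e v0 v σ i m' =
      ((4 * (R * σ i)) * ((m : ℝ) - m')) • e := by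
    unfold glueC
    module
  have h2 : (1 : ℝ) ≤ |(m : ℝ) - m'| := by
    have : (1 : ℤ) ≤ |(m : ℤ) - m'| := by
      apply Int.one_le_abs
      omega
    exact_mod_cast this
  rw [h1, norm_smul, he, mul_one, Real.norm_eq_abs, abs_mul,
    abs_of_nonneg (show 0 ≤ 4 * (R * σ i) by positivity)]
  exact le_mul_of_one_le_right (by positivity) h2

/-- centres of different sites are separated -/
theorem glueC_ne {ι : Type} {a R Lam : ℝ} {K : ℕ} (ha : 0 < a) (hR : 0 < R)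
    (hLam : Lam = 1 + 2 * (4 * K + 1) * R / a) {e v0 : E n}
    (he : ‖e‖ = 1) {v : ι → E n} {σ : ι → ℝ} {i j : ι} (hσi : 0 < σ i) (hσj : 0 < σ j)
    (hv : a * max (σ i) (σ j) ≤ ‖v i - v j‖) (m m' : Fin K) :
    ‖v i - v j‖ + R * σ i + R * σ j ≤
      ‖glueC Lam R e v0 v σ i m - glueC Lam R e v0 v σ j m'‖ := by
  have hm : (m : ℝ) ≤ K := by exact_mod_cast m.2.le
  have hm' : (m' : ℝ) ≤ K := by exact_mod_cast m'.2.le
  have hLam0 : 0 ≤ Lam := by rw [hLam]; positivity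
  have h1 : glueC Lam R e v0 v σ i m - glueC Lam R e v0 v σ j m' =
      Lam • (v i - v j) - ((4 * R * m' * σ j) • e - (4 * R * m * σ i) • e) := by
    unfold glueC
    module
  have hb : ‖(4 * R * (m' : ℝ) * σ j) • e - (4 * R * (m : ℝ) * σ i) • e‖ ≤
      4 * R * K * σ j + 4 * R * K * σ i := by
    refine (norm_sub_le _ _).trans ?_
    rw [norm_smul, norm_smul, he, mul_one, mul_one,
      Real.norm_of_nonneg (show 0 ≤ 4 * R * (m' : ℝ) * σ j by positivity),
      Real.norm_of_nonneg (show 0 ≤ 4 * R * (m : ℝ) * σ i by positivity)]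
    apply add_le_add
    · exact mul_le_mul_of_nonneg_right (mul_le_mul_of_nonneg_left hm' (by positivity)) hσj.le
    · exact mul_le_mul_of_nonneg_right (mul_le_mul_of_nonneg_left hm (by positivity)) hσi.le
  have h2 : ‖Lam • (v i - v j)‖ = Lam * ‖v i - v j‖ := by
    rw [norm_smul, Real.norm_of_nonneg hLam0]
  have h3 : ‖Lam • (v i - v j)‖ - ‖(4 * R * (m' : ℝ) * σ j) • e - (4 * R * (m : ℝ) * σ i) • e‖ ≤
      ‖Lam • (v i - v j) - ((4 * R * m' * σ j) • e - (4 * R * m * σ i) • e)‖ :=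
    norm_sub_norm_le _ _
  rw [h1]
  refine le_trans ?_ h3
  rw [h2]
  have hmax1 : a * σ i ≤ ‖v i - v j‖ :=
    (mul_le_mul_of_nonneg_left (le_max_left _ _) ha.le).trans hv
  have hmax2 : a * σ j ≤ ‖v i - v j‖ :=
    (mul_le_mul_of_nonneg_left (le_max_right _ _) ha.le).trans hv
  have h4 : (4 * K + 1) * R * σ i ≤ (4 * K + 1) * R / a * ‖v i - v j‖ := by
    calc (4 * K + 1) * R * σ i = (4 * K + 1) * R / a * (a * σ i) := by
          field_simp
      _ ≤ _ := mul_le_mul_of_nonneg_left hmax1 (by positivity)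
  have h5 : (4 * K + 1) * R * σ j ≤ (4 * K + 1) * R / a * ‖v i - v j‖ := by
    calc (4 * K + 1) * R * σ j = (4 * K + 1) * R / a * (a * σ j) := by
          field_simp
      _ ≤ _ := mul_le_mul_of_nonneg_left hmax2 (by positivity)
  have h6 : Lam * ‖v i - v j‖ = ‖v i - v j‖ + (4 * K + 1) * R / a * ‖v i - v j‖ +
      (4 * K + 1) * R / a * ‖v i - v j‖ := by
    rw [hLam]
    ring
  linarith

/-- distance of the image to the centre -/
theorem glue_image_dist {A L R : ℝ} (hL : 0 ≤ L) {x : E d} {σ : ℝ}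
    {g : E n → E d} (hg : LipschitzWith (Real.toNNReal L) g) (hg0 : ‖g 0 - x‖ ≤ A * σ)
    {z : E n} (hz : ‖z‖ ≤ R * σ) : ‖g z - x‖ ≤ (L * R + A) * σ := by
  have h1 : ‖g z - g 0‖ ≤ L * ‖z‖ := by
    have := hg.dist_le_mul z 0
    rw [dist_eq_norm, dist_zero_right, Real.coe_toNNReal L hL] at this
    exact this
  have h2 : L * ‖z‖ ≤ L * (R * σ) := mul_le_mul_of_nonneg_left hz hL
  calc ‖g z - x‖ = ‖(g z - g 0) + (g 0 - x)‖ := by rw [sub_add_sub_cancel]
    _ ≤ ‖g z - g 0‖ + ‖g 0 - x‖ := norm_add_le _ _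
    _ ≤ _ := by linarith

/-- the pairwise Lipschitz estimate -/
theorem glue_pair {ι : Type} {I : Finset ι} {a A L R Lam : ℝ} {K : ℕ} (ha : 0 < a) (hA : 0 < A)
    (hL : 0 ≤ L) (hR : 0 < R) (hLam : Lam = 1 + 2 * (4 * K + 1) * R / a)
    {x : ι → E d} {v : ι → E n} {σ : ι → ℝ} {v0 e : E n} (he : ‖e‖ = 1)
    {g : ι → Fin K → E n → E d} (hσ : ∀ i ∈ I, 0 < σ i)
    (hsep : ∀ i ∈ I, ∀ j ∈ I, i ≠ j → a * max (σ i) (σ j) ≤ ‖v i - v j‖ ∧
        ‖x i - x j‖ ≤ A * ‖v i - v j‖)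
    (hg : ∀ i ∈ I, ∀ m, LipschitzWith (Real.toNNReal L) (g i m) ∧ ‖g i m 0 - x i‖ ≤ A * σ i)
    {i j : ι} (hi : i ∈ I) (hj : j ∈ I) (m m' : Fin K) {y y' : E n}
    (hy : ‖y - glueC Lam R e v0 v σ i m‖ ≤ R * σ i)
    (hy' : ‖y' - glueC Lam R e v0 v σ j m'‖ ≤ R * σ j) :
    ‖g i m (y - glueC Lam R e v0 v σ i m) - g j m' (y' - glueC Lam R e v0 v σ j m')‖ ≤
      (L + (L * R + A) / R + (2 * (L * R + A) / a + A)) * ‖y - y'‖ := by
  have hB1 : 0 ≤ (L * R + A) / R := by positivity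
  have hB2 : 0 ≤ 2 * (L * R + A) / a + A := by positivity
  have hny := norm_nonneg (y - y')
  have hd1 := glue_image_dist hL (hg i hi m).1 (hg i hi m).2 hy
  have hd2 := glue_image_dist hL (hg j hj m').1 (hg j hj m').2 hy'
  have hσi := hσ i hi
  have hσj := hσ j hj
  have key : ‖glueC Lam R e v0 v σ i m - glueC Lam R e v0 v σ j m'‖ ≤
      R * σ i + ‖y - y'‖ + R * σ j := by
    have e1 : glueC Lam R e v0 v σ i m - glueC Lam R e v0 v σ j m' =
        -(y - glueC Lam R e v0 v σ i m) + (y - y') + (y' - glueC Lam R e v0 v σ j m') := by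
      abel
    rw [e1]
    refine (norm_add_le _ _).trans ?_
    refine (add_le_add (norm_add_le _ _) le_rfl).trans ?_
    rw [norm_neg]
    linarith
  by_cases hij : i = j
  · subst hij
    by_cases hm : m = m'
    · subst hm
      have h1 := (hg i hi m).1.dist_le_mul (y - glueC Lam R e v0 v σ i m)
        (y' - glueC Lam R e v0 v σ i m)
      rw [dist_eq_norm, dist_eq_norm, sub_sub_sub_cancel_right, Real.coe_toNNReal L hL] at h1
      refine h1.trans (mul_le_mul_of_nonneg_right ?_ hny)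
      linarith
    · have hm1 : (m : ℕ) ≠ (m' : ℕ) := fun h => hm (Fin.ext h)
      have h1 := glueC_same (Lam := Lam) hR (v0 := v0) he (v := v) hσi hm1
      have h2 : 2 * (R * σ i) ≤ ‖y - y'‖ := by linarith
      have h3 : 2 * ((L * R + A) * σ i) ≤ (L * R + A) / R * ‖y - y'‖ := by
        calc 2 * ((L * R + A) * σ i) = (L * R + A) / R * (2 * (R * σ i)) := by
              field_simp
          _ ≤ _ := mul_le_mul_of_nonneg_left h2 hB1
      calc ‖g i m (y - glueC Lam R e v0 v σ i m) - g i m' (y' - glueC Lam R e v0 v σ i m')‖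
          = ‖(g i m (y - glueC Lam R e v0 v σ i m) - x i) -
              (g i m' (y' - glueC Lam R e v0 v σ i m') - x i)‖ := by
            rw [sub_sub_sub_cancel_right]
        _ ≤ (L * R + A) * σ i + (L * R + A) * σ i := (norm_sub_le _ _).trans (add_le_add hd1 hd2)
        _ ≤ (L * R + A) / R * ‖y - y'‖ := by linarith
        _ ≤ _ := by
          apply mul_le_mul_of_nonneg_right _ hny
          linarith
  · obtain ⟨hs1, hs2⟩ := hsep i hi j hj hij
    have h1 := glueC_ne (Lam := Lam) ha hR hLam (v0 := v0) he hσi hσj hs1 m m'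
    have h2 : ‖v i - v j‖ ≤ ‖y - y'‖ := by linarith
    have hmax1 : a * σ i ≤ ‖v i - v j‖ :=
      (mul_le_mul_of_nonneg_left (le_max_left _ _) ha.le).trans hs1
    have hmax2 : a * σ j ≤ ‖v i - v j‖ :=
      (mul_le_mul_of_nonneg_left (le_max_right _ _) ha.le).trans hs1
    have h3 : (L * R + A) * σ i ≤ (L * R + A) / a * ‖v i - v j‖ := by
      calc (L * R + A) * σ i = (L * R + A) / a * (a * σ i) := by field_simp
        _ ≤ _ := mul_le_mul_of_nonneg_left hmax1 (by positivity)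
    have h4 : (L * R + A) * σ j ≤ (L * R + A) / a * ‖v i - v j‖ := by
      calc (L * R + A) * σ j = (L * R + A) / a * (a * σ j) := by field_simp
        _ ≤ _ := mul_le_mul_of_nonneg_left hmax2 (by positivity)
    have e1 : g i m (y - glueC Lam R e v0 v σ i m) - g j m' (y' - glueC Lam R e v0 v σ j m') =
        (g i m (y - glueC Lam R e v0 v σ i m) - x i) + (x i - x j) -
          (g j m' (y' - glueC Lam R e v0 v σ j m') - x j) := by
      abel
    calc ‖g i m (y - glueC Lam R e v0 v σ i m) - g j m' (y' - glueC Lam R e v0 v σ j m')‖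
        ≤ ‖g i m (y - glueC Lam R e v0 v σ i m) - x i‖ + ‖x i - x j‖ +
          ‖g j m' (y' - glueC Lam R e v0 v σ j m') - x j‖ := by
          rw [e1]
          exact (norm_sub_le _ _).trans (add_le_add (norm_add_le _ _) le_rfl)
      _ ≤ (L * R + A) / a * ‖v i - v j‖ + A * ‖v i - v j‖ + (L * R + A) / a * ‖v i - v j‖ := by
          linarith
      _ = (2 * (L * R + A) / a + A) * ‖v i - v j‖ := by ring
      _ ≤ (2 * (L * R + A) / a + A) * ‖y - y'‖ := mul_le_mul_of_nonneg_left h2 hB2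
      _ ≤ _ := by
          apply mul_le_mul_of_nonneg_right _ hny
          linarith

theorem glue_abstract (n d : ℕ) (hn : 1 ≤ n) (a A L R : ℝ) (K : ℕ) (ha : 0 < a) (hA : 0 < A)
    (hL : 0 ≤ L) (hR : 0 < R) :
    ∃ (L' : ℝ≥0) (R' : ℝ), 0 < R' ∧ ∀ (ι : Type) (I : Finset ι) (x : ι → E d) (v : ι → E n)
      (σ : ι → ℝ) (S : ℝ) (v0 : E n) (g : ι → Fin K → E n → E d), 0 < S →
      (∀ i ∈ I, 0 < σ i ∧ σ i ≤ A * S ∧ ‖v i - v0‖ ≤ A * S) →
      (∀ i ∈ I, ∀ j ∈ I, i ≠ j → a * max (σ i) (σ j) ≤ ‖v i - v j‖ ∧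
        ‖x i - x j‖ ≤ A * ‖v i - v j‖) →
      (∀ i ∈ I, ∀ m, LipschitzWith (Real.toNNReal L) (g i m) ∧ ‖g i m 0 - x i‖ ≤ A * σ i) →
      ∃ G : E n → E d, LipschitzWith L' G ∧
        ∀ i ∈ I, ∀ m, g i m '' closedBall 0 (R * σ i) ⊆ G '' closedBall 0 (R' * S) := by
  classical
  obtain ⟨e, he⟩ : ∃ e : E n, ‖e‖ = 1 :=
    ⟨EuclideanSpace.single (⟨0, hn⟩ : Fin n) (1 : ℝ), by simp⟩
  set Lam : ℝ := 1 + 2 * (4 * K + 1) * R / a with hLam
  have hLam0 : 0 < Lam := by positivity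
  set B : ℝ := L + (L * R + A) / R + (2 * (L * R + A) / a + A) with hB
  have hB0 : 0 ≤ B := by positivity
  refine ⟨lipschitzExtensionConstant (E d) * Real.toNNReal B,
    Lam * A + 4 * K * R * A + R * A, by positivity, ?_⟩
  intro ι I x v σ S v0 g hS h1 h2 h3
  have hσ : ∀ i ∈ I, 0 < σ i := fun i hi => (h1 i hi).1
  have hpair := fun (i j : ι) (hi : i ∈ I) (hj : j ∈ I) (m m' : Fin K) (y y' : E n) hy hy' =>
    glue_pair (Lam := Lam) (v0 := v0) ha hA hL hR hLam he hσ h2 h3 hi hj m m' (y := y)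
      (y' := y') hy hy'
  -- the set and the map
  let P : E n → ι × Fin K → Prop := fun y w =>
    w.1 ∈ I ∧ ‖y - glueC Lam R e v0 v σ w.1 w.2‖ ≤ R * σ w.1
  let s : Set (E n) := {y | ∃ w, P y w}
  let f : E n → E d := fun y => if h : ∃ w, P y w then
    g h.choose.1 h.choose.2 (y - glueC Lam R e v0 v σ h.choose.1 h.choose.2) else 0
  have hf : ∀ y w, P y w → f y = g w.1 w.2 (y - glueC Lam R e v0 v σ w.1 w.2) := by
    intro y w hw
    have hex : ∃ w, P y w := ⟨w, hw⟩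
    have hc := hex.choose_spec
    have h := hpair hex.choose.1 w.1 hc.1 hw.1 hex.choose.2 w.2 y y hc.2 hw.2
    rw [sub_self, norm_zero, mul_zero] at h
    have h' := sub_eq_zero.1 (norm_le_zero_iff.1 h)
    simp only [f, dif_pos hex]
    exact h'
  have hLip : LipschitzOnWith (Real.toNNReal B) f s := by
    apply LipschitzOnWith.of_dist_le_mul
    intro y hy y' hy'
    obtain ⟨w, hw⟩ := hy
    obtain ⟨w', hw'⟩ := hy'
    rw [hf y w hw, hf y' w' hw', dist_eq_norm, dist_eq_norm, Real.coe_toNNReal B hB0]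
    exact hpair w.1 w'.1 hw.1 hw'.1 w.2 w'.2 y y' hw.2 hw'.2
  obtain ⟨G, hG1, hG2⟩ := hLip.extend_finite_dimension
  refine ⟨G, hG1, ?_⟩
  intro i hi m
  rintro _ ⟨z, hz, rfl⟩
  rw [mem_closedBall, dist_zero_right] at hz
  obtain ⟨hs1, hs2, hs3⟩ := h1 i hi
  have hP : P (z + glueC Lam R e v0 v σ i m) (i, m) := by
    refine ⟨hi, ?_⟩
    rw [add_sub_cancel_right]
    exact hz
  refine ⟨z + glueC Lam R e v0 v σ i m, ?_, ?_⟩
  · rw [mem_closedBall, dist_zero_right]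
    have h4 := glueC_norm_le (K := K) hR hLam0.le he hs1 hs2 hs3 m
    have h5 : R * σ i ≤ R * (A * S) := mul_le_mul_of_nonneg_left hs2 hR.le
    calc ‖z + glueC Lam R e v0 v σ i m‖ ≤ ‖z‖ + ‖glueC Lam R e v0 v σ i m‖ := norm_add_le _ _
      _ ≤ R * (A * S) + (Lam * A + 4 * K * R * A) * S := by linarith
      _ = _ := by ring
  · rw [← hG2 ⟨(i, m), hP⟩, hf _ _ hP, add_sub_cancel_right]

end Vale.Agent.P120
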