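import Vale.Agent.Lib.P120.UR.Base
import Vale.Agent.Lib.P120.UR.Overlap
import Vale.Agent.Lib.P120.UR.Poincare

/-!
One level of the Bessel system: `L²` and energy bounds of `∑ a_p ψ_p`.

The energy is split into the part `|x - y| < s`, where only boundedly many of the `ψ_p` are
involved, and the part `|x - y| ≥ s`, which is bounded by `C s⁻¹ ∫ Ψ²`.
-/

open MeasureTheory Filter Set Metric Module
open scoped Topology ENNReal NNReal RealInnerProductSpace

namespace Vale.Agent.P120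


variable {d n : ℕ}

namespace LevelEn

theorem sq_sum_le {ι : Type*} (A B : Finset ι) (hB : B ⊆ A) (N : ℕ) (hN : B.card ≤ N)
    (f : ι → ℝ) (h0 : ∀ p ∈ A, p ∉ B → f p = 0) :
    (∑ p ∈ A, f p) ^ 2 ≤ N * ∑ p ∈ A, f p ^ 2 := by
  rw [← Finset.sum_subset hB h0]
  have h1 : (∑ p ∈ B, f p) ^ 2 ≤ B.card * ∑ p ∈ B, f p ^ 2 := sq_sum_le_card_mul_sum_sq
  have h2 : ∑ p ∈ B, f p ^ 2 ≤ ∑ p ∈ A, f p ^ 2 :=
    Finset.sum_le_sum_of_subset_of_nonneg hB fun _ _ _ => sq_nonneg _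
  have h3 : 0 ≤ ∑ p ∈ A, f p ^ 2 := Finset.sum_nonneg fun _ _ => sq_nonneg _
  have h4 : (B.card : ℝ) ≤ N := by exact_mod_cast hN
  calc _ ≤ (B.card : ℝ) * ∑ p ∈ B, f p ^ 2 := h1
    _ ≤ (B.card : ℝ) * ∑ p ∈ A, f p ^ 2 := mul_le_mul_of_nonneg_left h2 (Nat.cast_nonneg _)
    _ ≤ _ := mul_le_mul_of_nonneg_right h4 h3

theorem bdd_of_supp {ψ : E d → ℝ} (hψ : Lip ψ) {p : E d} {ρ : ℝ}
    (hs : ∀ y, ρ < ‖y - p‖ → ψ y = 0) : ∃ B, 0 ≤ B ∧ ∀ y, |ψ y| ≤ B := by
  obtain ⟨K, hK⟩ := hψ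
  refine ⟨|ψ p| + K * |ρ|, by positivity, fun y => ?_⟩
  by_cases h : ρ < ‖y - p‖
  · rw [hs y h, abs_zero]; positivity
  · push Not at h
    have h1 := hK.dist_le_mul y p
    rw [Real.dist_eq, dist_eq_norm] at h1
    have h2 : |ψ y| ≤ |ψ p| + |ψ y - ψ p| := by
      have h5 := abs_add_le (ψ p) (ψ y - ψ p)
      rwa [add_sub_cancel] at h5
    have h3 : (K : ℝ) * ‖y - p‖ ≤ K * |ρ| :=
      mul_le_mul_of_nonneg_left (h.trans (le_abs_self ρ)) K.2
    linarith

theorem lip_sum {ι : Type*} (A : Finset ι) (a : ι → ℝ) {ψ : ι → E d → ℝ}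
    (h : ∀ p ∈ A, Lip (ψ p)) : Lip (fun y => ∑ p ∈ A, a p * ψ p y) := by
  classical
  induction A using Finset.induction_on with
  | empty =>
    refine ⟨0, ?_⟩
    simp only [Finset.sum_empty]
    exact LipschitzWith.const 0
  | insert i A hi ih =>
    have h1 := Lip.const_mul (a i) (h i (Finset.mem_insert_self i A))
    have h2 := ih fun p hp => h p (Finset.mem_insert_of_mem hp)
    have h3 := Lip.add h1 h2
    simp only [Finset.sum_insert hi]
    exact h3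

theorem bdd_sum {ι : Type*} (A : Finset ι) (a : ι → ℝ) {ψ : ι → E d → ℝ}
    (h : ∀ p ∈ A, ∃ B, 0 ≤ B ∧ ∀ y, |ψ p y| ≤ B) :
    ∃ B, 0 ≤ B ∧ ∀ y, |∑ p ∈ A, a p * ψ p y| ≤ B := by
  classical
  induction A using Finset.induction_on with
  | empty => exact ⟨0, le_refl _, fun y => by simp⟩
  | insert i A hi ih =>
    obtain ⟨B1, h1, h1'⟩ := h i (Finset.mem_insert_self i A)
    obtain ⟨B2, h2, h2'⟩ := ih fun p hp => h p (Finset.mem_insert_of_mem hp)
    refine ⟨|a i| * B1 + B2, by positivity, fun y => ?_⟩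
    rw [Finset.sum_insert hi]
    refine (abs_add_le _ _).trans (add_le_add ?_ (h2' y))
    rw [abs_mul]
    exact mul_le_mul_of_nonneg_left (h1' y) (abs_nonneg _)

/-- the far part of the kernel -/
noncomputable def far (n : ℕ) (s : ℝ) (q : E d × E d) : ℝ :=
  if ‖q.1 - q.2‖ < s then 0 else wt n q.1 q.2

theorem far_nonneg (s : ℝ) (q : E d × E d) : 0 ≤ far n s q := by
  unfold far
  split_ifs
  · exact le_refl _
  · exact wt_nonneg _ _

theorem far_le {s : ℝ} (hs : 0 < s) (q : E d × E d) : far n s q ≤ (s ^ (n + 1))⁻¹ := by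
  unfold far
  split_ifs with h
  · positivity
  · push Not at h
    unfold wt
    exact inv_anti₀ (by positivity) (pow_le_pow_left₀ hs.le h _)

theorem far_swap (s : ℝ) (q : E d × E d) : far n s q.swap = far n s q := by
  unfold far
  rw [Prod.fst_swap, Prod.snd_swap, norm_sub_rev, wt_comm]

theorem measurable_far (s : ℝ) : Measurable (far (d := d) n s) := by
  unfold far
  refine Measurable.ite ?_ measurable_const measurable_wt
  exact measurableSet_lt (by fun_prop) measurable_const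

theorem far_eq_indicator (s : ℝ) (x y : E d) :
    far n s (x, y) = (ball x s)ᶜ.indicator (fun y => wt n x y) y := by
  unfold far
  by_cases h : ‖x - y‖ < s
  · rw [if_pos h, indicator_of_notMem]
    rw [mem_compl_iff, not_not, mem_ball, dist_comm, dist_eq_norm]
    exact h
  · rw [if_neg h, indicator_of_mem]
    rw [mem_compl_iff, mem_ball, dist_comm, dist_eq_norm]
    exact h

theorem far_integrable {ν : Measure (E d)} [IsFiniteMeasure ν] {s : ℝ} (hs : 0 < s)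
    {F : E d × E d → ℝ} (hF : Measurable F) {B : ℝ} (hB : ∀ q, |F q| ≤ B) (hB0 : 0 ≤ B) :
    Integrable (fun q => F q * far n s q) (ν.prod ν) := by
  refine Integrable.of_bound ((hF.mul (measurable_far s)).aestronglyMeasurable)
    (B * (s ^ (n + 1))⁻¹) (Eventually.of_forall fun q => ?_)
  rw [Real.norm_eq_abs, abs_mul, abs_of_nonneg (far_nonneg s q)]
  exact mul_le_mul (hB q) (far_le hs q) (far_nonneg s q) hB0

/-- the far part of the energy -/
theorem far_bound {ν : Measure (E d)} [IsFiniteMeasure ν] {C : ℝ} (hU : UB n ν C) {s : ℝ}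
    (hs : 0 < s) {Ψ : E d → ℝ} (hΨ : Continuous Ψ) {B : ℝ} (hB : ∀ y, |Ψ y| ≤ B) :
    ∫ q : E d × E d, Ψ q.1 ^ 2 * far n s q ∂(ν.prod ν) ≤
      2 ^ (n + 1) * C / s * ∫ y, Ψ y ^ 2 ∂ν := by
  have hsq : ∀ y, |Ψ y ^ 2| ≤ B ^ 2 := fun y => by
    rw [abs_pow]; exact pow_le_pow_left₀ (abs_nonneg _) (hB y) 2
  have hint : Integrable (fun q : E d × E d => Ψ q.1 ^ 2 * far n s q) (ν.prod ν) := by
    refine far_integrable hs (F := fun q => Ψ q.1 ^ 2) ?_ (fun q => hsq q.1) (sq_nonneg B)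
    exact ((hΨ.comp continuous_fst).pow 2).measurable
  rw [integral_prod _ hint, ← integral_const_mul]
  have hi2 : Integrable (fun y => Ψ y ^ 2) ν :=
    Integrable.of_bound (hΨ.pow 2).aestronglyMeasurable (B ^ 2)
      (Eventually.of_forall fun y => by rw [Real.norm_eq_abs]; exact hsq y)
  refine integral_mono hint.integral_prod_left (hi2.const_mul _) fun x => ?_
  simp only
  rw [integral_const_mul, mul_comm]
  refine mul_le_mul_of_nonneg_right ?_ (sq_nonneg _)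
  have h1 := (UB.tail hU x hs).2
  refine le_trans (le_of_eq ?_) h1
  rw [← integral_indicator measurableSet_ball.compl]
  refine integral_congr_ae (Eventually.of_forall fun y => ?_)
  exact far_eq_indicator s x y

end LevelEn

open LevelEn in
/-- `UR/LevelEn.lean`: one level of the Bessel system. -/
theorem level_bounds (n d : ℕ) (C c Lam : ℝ) (hC : 0 < C) (hc : 0 < c) (hLam : 1 ≤ Lam) :
    ∃ CL : ℝ, 0 < CL ∧ ∀ (ν : Measure (E d)), UB n ν C → (∃ R0, ν (closedBall 0 R0)ᶜ = 0) →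
    ∀ s : ℝ, 0 < s → ∀ A : Finset (E d), (∀ p ∈ A, ∀ q ∈ A, p ≠ q → s ≤ ‖p - q‖) →
    (∀ p ∈ A, ENNReal.ofReal (c * s ^ n) ≤ ν (closedBall p (Lam * s))) →
    ∀ ψ : E d → E d → ℝ, (∀ p ∈ A, Lip (ψ p) ∧ (∀ y, Lam * s < ‖y - p‖ → ψ p y = 0) ∧
      ∫ y, ψ p y ∂ν = 0 ∧ En n ν (ψ p) ≤ s⁻¹) → ∀ a : E d → ℝ,
    ∫ y, (∑ p ∈ A, a p * ψ p y) ^ 2 ∂ν ≤ CL * ∑ p ∈ A, a p ^ 2 ∧
      En n ν (fun y => ∑ p ∈ A, a p * ψ p y) ≤ CL * s⁻¹ * ∑ p ∈ A, a p ^ 2 := by
  obtain ⟨N1, hN1⟩ := overlap d Lam (by linarith)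
  obtain ⟨N2, hN2⟩ := overlap d (Lam + 1) (by linarith)
  set P0 : ℝ := (2 * Lam) ^ (n + 1) / (2 * c) with hP0
  have hP00 : 0 ≤ P0 := by positivity
  refine ⟨N1 * P0 + N2 + 4 * (2 ^ (n + 1) * C) * (N1 * P0) + 1, by positivity, ?_⟩
  intro ν hU hb s hs A hsep hmass ψ hψ a
  have hfin : IsFiniteMeasure ν := UB.isFiniteMeasure hU hb
  have hLs : 0 < Lam * s := mul_pos (by linarith) hs
  set S : ℝ := ∑ p ∈ A, a p ^ 2 with hS
  have hS0 : 0 ≤ S := Finset.sum_nonneg fun _ _ => sq_nonneg _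
  have hbd : ∀ p ∈ A, ∃ B, 0 ≤ B ∧ ∀ y, |ψ p y| ≤ B := fun p hp =>
    bdd_of_supp (hψ p hp).1 (hψ p hp).2.1
  have hcont : ∀ p ∈ A, Continuous (ψ p) := fun p hp => Lip.continuous (hψ p hp).1
  -- the norm of one function
  have hone : ∀ p ∈ A, ∫ y, ψ p y ^ 2 ∂ν ≤ P0 := by
    intro p hp
    obtain ⟨h1, h2, h3, h4⟩ := hψ p hp
    have hm : 0 < c * s ^ n := by positivity
    have hmass' : c * s ^ n ≤ ν.real (closedBall p (Lam * s)) := by
      rw [measureReal_def]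
      exact (ENNReal.ofReal_le_iff_le_toReal (measure_ne_top ν _)).1 (hmass p hp)
    have h5 := poincare_zero hU hb h1 p hLs hm hmass' h2 h3
    refine h5.trans ?_
    calc (2 * (Lam * s)) ^ (n + 1) / (2 * (c * s ^ n)) * En n ν (ψ p)
        ≤ (2 * (Lam * s)) ^ (n + 1) / (2 * (c * s ^ n)) * s⁻¹ :=
          mul_le_mul_of_nonneg_left h4 (by positivity)
      _ = P0 := by
          rw [hP0, ← mul_assoc, mul_pow, pow_succ s n]
          field_simp
  have hisq : ∀ p ∈ A, Integrable (fun y => ψ p y ^ 2) ν := by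
    intro p hp
    obtain ⟨B, hB0, hB⟩ := hbd p hp
    refine Integrable.of_bound ((hcont p hp).pow 2).aestronglyMeasurable (B ^ 2)
      (Eventually.of_forall fun y => ?_)
    rw [Real.norm_eq_abs, abs_pow]
    exact pow_le_pow_left₀ (abs_nonneg _) (hB y) 2
  set Ψ : E d → ℝ := fun y => ∑ p ∈ A, a p * ψ p y with hΨ
  have hΨL : Lip Ψ := lip_sum A a fun p hp => (hψ p hp).1
  have hΨc : Continuous Ψ := Lip.continuous hΨL
  obtain ⟨B, hB0, hB⟩ := bdd_sum A a hbd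
  have hΨi : Integrable (fun y => Ψ y ^ 2) ν := by
    refine Integrable.of_bound (hΨc.pow 2).aestronglyMeasurable (B ^ 2)
      (Eventually.of_forall fun y => ?_)
    rw [Real.norm_eq_abs, abs_pow]
    exact pow_le_pow_left₀ (abs_nonneg _) (hB y) 2
  -- the `L²` bound
  have hL2 : ∫ y, Ψ y ^ 2 ∂ν ≤ N1 * P0 * S := by
    have h1 : ∀ y, Ψ y ^ 2 ≤ N1 * ∑ p ∈ A, a p ^ 2 * ψ p y ^ 2 := by
      intro y
      have h2 := sq_sum_le A (A.filter fun p => ‖p - y‖ ≤ Lam * s) (Finset.filter_subset _ _) N1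
        (hN1 s hs A hsep y) (fun p => a p * ψ p y) (fun p hp hpn => by
          rw [Finset.mem_filter, not_and, not_le] at hpn
          rw [(hψ p hp).2.1 y (by rw [norm_sub_rev]; exact hpn hp), mul_zero])
      simp only [mul_pow] at h2
      exact h2
    have h3 : Integrable (fun y => (N1 : ℝ) * ∑ p ∈ A, a p ^ 2 * ψ p y ^ 2) ν :=
      (integrable_finsetSum A fun p hp => (hisq p hp).const_mul (a p ^ 2)).const_mul _
    calc ∫ y, Ψ y ^ 2 ∂ν ≤ ∫ y, (N1 : ℝ) * ∑ p ∈ A, a p ^ 2 * ψ p y ^ 2 ∂ν :=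
          integral_mono hΨi h3 h1
      _ = N1 * ∑ p ∈ A, a p ^ 2 * ∫ y, ψ p y ^ 2 ∂ν := by
          rw [integral_const_mul, integral_finsetSum A fun p hp => (hisq p hp).const_mul _]
          congr 1
          exact Finset.sum_congr rfl fun p _ => integral_const_mul _ _
      _ ≤ N1 * ∑ p ∈ A, a p ^ 2 * P0 := by
          refine mul_le_mul_of_nonneg_left (Finset.sum_le_sum fun p hp => ?_) (Nat.cast_nonneg _)
          exact mul_le_mul_of_nonneg_left (hone p hp) (sq_nonneg _)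
      _ = N1 * P0 * S := by rw [← Finset.sum_mul, hS]; ring
  refine ⟨?_, ?_⟩
  · refine hL2.trans ?_
    refine mul_le_mul_of_nonneg_right ?_ hS0
    have h1 : 0 ≤ 4 * (2 ^ (n + 1) * C) * (N1 * P0) := by positivity
    have h2 : (0 : ℝ) ≤ N2 := Nat.cast_nonneg _
    linarith
  -- the energy bound
  have hpt : ∀ q : E d × E d, (Ψ q.1 - Ψ q.2) ^ 2 * wt n q.1 q.2 ≤
      (N2 * ∑ p ∈ A, a p ^ 2 * ((ψ p q.1 - ψ p q.2) ^ 2 * wt n q.1 q.2)) +
        (2 * (Ψ q.1 ^ 2 * far n s q) + 2 * (Ψ q.2 ^ 2 * far n s q)) := by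
    intro q
    have hw := wt_nonneg (n := n) q.1 q.2
    have hf := far_nonneg (n := n) s q
    by_cases hq : ‖q.1 - q.2‖ < s
    · have h2 := sq_sum_le A (A.filter fun p => ‖p - q.1‖ ≤ (Lam + 1) * s)
        (Finset.filter_subset _ _) N2 (hN2 s hs A hsep q.1)
        (fun p => a p * (ψ p q.1 - ψ p q.2)) (fun p hp hpn => by
          rw [Finset.mem_filter, not_and, not_le] at hpn
          have h3 := hpn hp
          have h4 : Lam * s < ‖q.1 - p‖ := by
            rw [norm_sub_rev]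
            linarith only [hs, h3]
          have h5 : Lam * s < ‖q.2 - p‖ := by
            have h6 : ‖p - q.1‖ ≤ ‖q.2 - p‖ + ‖q.1 - q.2‖ := by
              have h7 := norm_add_le (q.2 - p) (q.1 - q.2)
              rw [show q.2 - p + (q.1 - q.2) = q.1 - p by abel] at h7
              rw [norm_sub_rev p q.1]
              exact h7
            linarith only [hq, h3, h6]
          rw [(hψ p hp).2.1 _ h4, (hψ p hp).2.1 _ h5, sub_zero, mul_zero])
      have h8 : Ψ q.1 - Ψ q.2 = ∑ p ∈ A, a p * (ψ p q.1 - ψ p q.2) := by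
        simp only [hΨ, mul_sub, Finset.sum_sub_distrib]
      rw [h8]
      have h9 := mul_le_mul_of_nonneg_right h2 hw
      have h10 : (N2 : ℝ) * (∑ p ∈ A, (a p * (ψ p q.1 - ψ p q.2)) ^ 2) * wt n q.1 q.2 =
          N2 * ∑ p ∈ A, a p ^ 2 * ((ψ p q.1 - ψ p q.2) ^ 2 * wt n q.1 q.2) := by
        rw [mul_assoc, Finset.sum_mul]
        congr 1
        exact Finset.sum_congr rfl fun p _ => by ring
      rw [h10] at h9
      have h11 : 0 ≤ 2 * (Ψ q.1 ^ 2 * far n s q) + 2 * (Ψ q.2 ^ 2 * far n s q) := by positivity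
      linarith
    · have h2 : far n s q = wt n q.1 q.2 := by unfold far; rw [if_neg hq]
      rw [h2]
      have h3 : 0 ≤ (N2 : ℝ) * ∑ p ∈ A, a p ^ 2 * ((ψ p q.1 - ψ p q.2) ^ 2 * wt n q.1 q.2) :=
        mul_nonneg (Nat.cast_nonneg _) (Finset.sum_nonneg fun p _ => by positivity)
      have h4 : (Ψ q.1 - Ψ q.2) ^ 2 ≤ 2 * Ψ q.1 ^ 2 + 2 * Ψ q.2 ^ 2 := by
        linarith only [sq_nonneg (Ψ q.1 + Ψ q.2)]
      have h5 := mul_le_mul_of_nonneg_right h4 hw
      linarith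
  have hEi : ∀ p ∈ A, Integrable (fun q : E d × E d => (ψ p q.1 - ψ p q.2) ^ 2 * wt n q.1 q.2)
      (ν.prod ν) := by
    intro p hp
    have h1 := En_integrable hU hb (hψ p hp).1 (hψ p hp).1
    refine h1.congr (Eventually.of_forall fun q => ?_)
    simp only
    ring
  have hΨE : Integrable (fun q : E d × E d => (Ψ q.1 - Ψ q.2) ^ 2 * wt n q.1 q.2)
      (ν.prod ν) := by
    have h1 := En_integrable hU hb hΨL hΨL
    refine h1.congr (Eventually.of_forall fun q => ?_)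
    simp only
    ring
  have hsqB : ∀ y, |Ψ y ^ 2| ≤ B ^ 2 := fun y => by
    rw [abs_pow]; exact pow_le_pow_left₀ (abs_nonneg _) (hB y) 2
  have hf1 : Integrable (fun q : E d × E d => Ψ q.1 ^ 2 * far n s q) (ν.prod ν) :=
    far_integrable hs (F := fun q => Ψ q.1 ^ 2)
      ((hΨc.comp continuous_fst).pow 2).measurable (fun q => hsqB q.1) (sq_nonneg B)
  have hf2 : Integrable (fun q : E d × E d => Ψ q.2 ^ 2 * far n s q) (ν.prod ν) :=
    far_integrable hs (F := fun q => Ψ q.2 ^ 2)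
      ((hΨc.comp continuous_snd).pow 2).measurable (fun q => hsqB q.2) (sq_nonneg B)
  have hswap : ∫ q : E d × E d, Ψ q.2 ^ 2 * far n s q ∂(ν.prod ν) =
      ∫ q : E d × E d, Ψ q.1 ^ 2 * far n s q ∂(ν.prod ν) := by
    rw [← integral_prod_swap]
    refine integral_congr_ae (Eventually.of_forall fun q => ?_)
    simp only [Prod.snd_swap, far_swap]
  have hfar := far_bound (n := n) hU hs hΨc hB
  have hsumi : Integrable (fun q : E d × E d =>
      (N2 : ℝ) * ∑ p ∈ A, a p ^ 2 * ((ψ p q.1 - ψ p q.2) ^ 2 * wt n q.1 q.2)) (ν.prod ν) :=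
    (integrable_finsetSum A fun p hp => (hEi p hp).const_mul (a p ^ 2)).const_mul _
  have hfi : Integrable (fun q : E d × E d =>
      2 * (Ψ q.1 ^ 2 * far n s q) + 2 * (Ψ q.2 ^ 2 * far n s q)) (ν.prod ν) :=
    (hf1.const_mul 2).add (hf2.const_mul 2)
  have hmain : En n ν Ψ ≤ N2 * ∑ p ∈ A, a p ^ 2 * En n ν (ψ p) +
      4 * (2 ^ (n + 1) * C / s * ∫ y, Ψ y ^ 2 ∂ν) := by
    calc En n ν Ψ = ∫ q : E d × E d, (Ψ q.1 - Ψ q.2) ^ 2 * wt n q.1 q.2 ∂(ν.prod ν) := rfl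
      _ ≤ ∫ q : E d × E d,
          ((N2 * ∑ p ∈ A, a p ^ 2 * ((ψ p q.1 - ψ p q.2) ^ 2 * wt n q.1 q.2)) +
            (2 * (Ψ q.1 ^ 2 * far n s q) + 2 * (Ψ q.2 ^ 2 * far n s q))) ∂(ν.prod ν) :=
          integral_mono hΨE (hsumi.add hfi) hpt
      _ = N2 * ∑ p ∈ A, a p ^ 2 * En n ν (ψ p) +
          (2 * ∫ q : E d × E d, Ψ q.1 ^ 2 * far n s q ∂(ν.prod ν) +
            2 * ∫ q : E d × E d, Ψ q.2 ^ 2 * far n s q ∂(ν.prod ν)) := by
          rw [integral_add hsumi hfi,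
            integral_add (hf1.const_mul 2) (hf2.const_mul 2), integral_const_mul,
            integral_const_mul, integral_const_mul,
            integral_finsetSum A fun p hp => (hEi p hp).const_mul _]
          congr 2
          exact Finset.sum_congr rfl fun p _ => integral_const_mul _ _
      _ ≤ _ := by
          rw [hswap]
          linarith
  refine hmain.trans ?_
  have h1 : ∑ p ∈ A, a p ^ 2 * En n ν (ψ p) ≤ s⁻¹ * S := by
    rw [hS, Finset.mul_sum]
    refine Finset.sum_le_sum fun p hp => ?_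
    rw [mul_comm]
    exact mul_le_mul_of_nonneg_right (hψ p hp).2.2.2 (sq_nonneg _)
  have hsi : 0 < s⁻¹ := inv_pos.2 hs
  calc N2 * ∑ p ∈ A, a p ^ 2 * En n ν (ψ p) + 4 * (2 ^ (n + 1) * C / s * ∫ y, Ψ y ^ 2 ∂ν)
      ≤ N2 * (s⁻¹ * S) + 4 * (2 ^ (n + 1) * C / s * (N1 * P0 * S)) := by
        gcongr
    _ = (N2 + 4 * (2 ^ (n + 1) * C) * (N1 * P0)) * (s⁻¹ * S) := by
        rw [div_eq_mul_inv]; ring
    _ ≤ (N1 * P0 + N2 + 4 * (2 ^ (n + 1) * C) * (N1 * P0) + 1) * (s⁻¹ * S) := by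
        refine mul_le_mul_of_nonneg_right ?_ (by positivity)
        have : 0 ≤ (N1 : ℝ) * P0 := by positivity
        linarith
    _ = _ := by ring

end Vale.Agent.P120
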