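import Vale.Agent.Lib.P120.UR.Base

/-!
# P120: passage to the limit in the covering by Lipschitz images (module LimitCover)
-/

open MeasureTheory Filter Set Metric Module
open scoped Topology ENNReal NNReal RealInnerProductSpace

namespace Vale.Agent.P120

variable {d n : ℕ}

namespace LimitCover

/-- equi-Lipschitz maps that are bounded at one point converge along an ultrafilter, uniformly on
bounded sets -/
theorem exists_limit_map {L : ℝ≥0} (g : ℕ → E n → E d) (hg : ∀ j, LipschitzWith L (g j))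
    (B : ℝ) (hB : ∀ j, ‖g j 0‖ ≤ B) :
    ∃ f : E n → E d, LipschitzWith L f ∧ ∀ ρ : ℝ, ∀ δ > 0,
      ∀ᶠ j in (hyperfilter ℕ : Filter ℕ), ∀ u : E n, ‖u‖ ≤ ρ → ‖g j u - f u‖ ≤ δ := by
  have hlim : ∀ u : E n, ∃ w : E d, Tendsto (fun j => g j u) (hyperfilter ℕ : Filter ℕ) (𝓝 w) := by
    intro u
    obtain ⟨w, _, hw⟩ := (isCompact_closedBall (0 : E d) (L * ‖u‖ + B)).ultrafilter_le_nhds
      ((hyperfilter ℕ).map (fun j => g j u)) (by
        rw [Ultrafilter.coe_map, le_principal_iff, mem_map]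
        refine Eventually.of_forall fun j => ?_
        change g j u ∈ closedBall (0 : E d) (L * ‖u‖ + B)
        rw [mem_closedBall, dist_zero_right]
        have h1 := (hg j).dist_le_mul u 0
        rw [dist_eq_norm, dist_zero_right] at h1
        have h2 : ‖g j u‖ ≤ ‖g j u - g j 0‖ + ‖g j 0‖ := by
          calc ‖g j u‖ = ‖(g j u - g j 0) + g j 0‖ := by rw [sub_add_cancel]
            _ ≤ _ := norm_add_le _ _
        have := hB j
        linarith)
    exact ⟨w, hw⟩
  choose f hf using hlim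
  have hfL : LipschitzWith L f := by
    apply LipschitzWith.of_dist_le_mul
    intro u v
    exact le_of_tendsto ((hf u).dist (hf v))
      (Eventually.of_forall fun j => (hg j).dist_le_mul u v)
  refine ⟨f, hfL, fun ρ δ hδ => ?_⟩
  set e : ℝ := δ / (3 * ((L : ℝ) + 1)) with he
  have hL0 : (0 : ℝ) ≤ L := L.2
  have he0 : 0 < e := by positivity
  have hLe : (L : ℝ) * e ≤ δ / 3 := by
    rw [he]
    rw [mul_div_assoc', div_le_iff₀ (by positivity)]
    nlinarith
  obtain ⟨t, _, htf, htc⟩ := (isCompact_closedBall (0 : E n) ρ).finite_cover_balls he0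
  have h1 : ∀ᶠ j in (hyperfilter ℕ : Filter ℕ), ∀ x ∈ t, ‖g j x - f x‖ ≤ δ / 3 := by
    rw [eventually_all_finite htf]
    intro x _
    have := (Metric.tendsto_nhds.1 (hf x)) (δ / 3) (by positivity)
    filter_upwards [this] with j hj
    rw [dist_eq_norm] at hj
    exact hj.le
  filter_upwards [h1] with j hj u hu
  have hu' : u ∈ closedBall (0 : E n) ρ := by
    rw [mem_closedBall, dist_zero_right]; exact hu
  obtain ⟨x, hx, hux⟩ := mem_iUnion₂.1 (htc hu')
  rw [mem_ball] at hux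
  have h2 : ‖g j u - g j x‖ ≤ δ / 3 := by
    rw [← dist_eq_norm]
    exact ((hg j).dist_le_mul u x).trans ((mul_le_mul_of_nonneg_left hux.le hL0).trans hLe)
  have h3 : ‖f x - f u‖ ≤ δ / 3 := by
    rw [← dist_eq_norm, dist_comm]
    exact (hfL.dist_le_mul u x).trans ((mul_le_mul_of_nonneg_left hux.le hL0).trans hLe)
  calc ‖g j u - f u‖ = ‖(g j u - g j x) + (g j x - f x) + (f x - f u)‖ := by
        congr 1; abel
    _ ≤ ‖g j u - g j x‖ + ‖g j x - f x‖ + ‖f x - f u‖ := norm_add₃_le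
    _ ≤ δ := by have := hj x hx; linarith

/-- disjoint balls around separated points of the support -/
theorem measure_balls {μ : Measure (E d)} {c D : ℝ} (hL : LB n μ c D) {G : Finset (E d)} {r : ℝ}
    (hr : 0 < r) (hrD : r ≤ D) (hG : ∀ x ∈ G, x ∈ μ.support)
    (hsep : ∀ x ∈ G, ∀ y ∈ G, x ≠ y → 2 * r ≤ ‖x - y‖) {S : Set (E d)}
    (hS : ∀ x ∈ G, ball x r ⊆ S) : ENNReal.ofReal (G.card * (c * r ^ n)) ≤ μ S := by
  have h1 : ∑ x ∈ G, μ (ball x r) = μ (⋃ x ∈ G, ball x r) := by
    rw [measure_biUnion_finset]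
    · intro x hx y hy hxy
      apply ball_disjoint_ball
      rw [dist_eq_norm]
      have := hsep x hx y hy hxy
      linarith
    · intro x _
      exact measurableSet_ball
  calc ENNReal.ofReal (G.card * (c * r ^ n)) = ∑ _x ∈ G, ENNReal.ofReal (c * r ^ n) := by
        rw [Finset.sum_const, ENNReal.ofReal_mul (Nat.cast_nonneg _), ENNReal.ofReal_natCast,
          nsmul_eq_mul]
    _ ≤ ∑ x ∈ G, μ (ball x r) := Finset.sum_le_sum fun x hx => hL.2.2 x (hG x hx) r hr hrD
    _ = μ (⋃ x ∈ G, ball x r) := h1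
    _ ≤ μ S := measure_mono (iUnion₂_subset hS)

end LimitCover

open LimitCover

/-- `UR/LimitCover.lean` -/
theorem limit_cover (n d : ℕ) (hn : 1 ≤ n) (C c θ lam R : ℝ) (L : ℝ≥0) (hC : 0 < C) (hc : 0 < c)
    (hθ : 0 < θ) (hlam : 0 < lam) (hlam1 : lam ≤ 1 / 64) (hR : 0 < R) :
    ∃ θ' : ℝ, 0 < θ' ∧ ∃ L' : ℝ≥0, ∀ (μ : Measure (E d)) (D : ℝ), UB n μ C → LB n μ c D →
      ∀ x0 ∈ μ.support, (∃ N0 : ℕ, ∀ N : ℕ, N0 ≤ N → ∃ (G : Finset (E d)) (g : E n → E d),
        (∀ x ∈ G, x ∈ μ.support ∧ ‖x - x0‖ ≤ D / 2) ∧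
        (∀ x ∈ G, ∀ y ∈ G, x ≠ y → D * θ * lam ^ N ≤ ‖x - y‖) ∧
        θ ≤ (G.card : ℝ) * (lam ^ N) ^ n ∧
        LipschitzWith L g ∧ (G : Set (E d)) ⊆ g '' closedBall 0 (R * D)) →
      ∃ g : E n → E d, LipschitzWith L' g ∧
        ENNReal.ofReal (θ' * D ^ n) ≤ μ (ball x0 D ∩ g '' ball 0 D) := by
  refine ⟨θ * c * (θ / 2) ^ n, by positivity, L * Real.toNNReal (R + 1), ?_⟩
  intro μ D hU hL x0 hx0 ⟨N0, hN⟩
  have hD : 0 < D := hL.2.1
  have hlf := UB.isLocallyFinite hU
  choose G g hGs hGsep hGcard hgL hGg using fun j : ℕ => hN (N0 + j) (Nat.le_add_right N0 j)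
  have hGne : ∀ j, (G j).Nonempty := by
    intro j
    rw [← Finset.card_pos]
    by_contra hcon
    have h0 : (G j).card = 0 := by omega
    have := hGcard j
    rw [h0, Nat.cast_zero, zero_mul] at this
    linarith
  -- the maps are bounded at the origin
  have hB : ∀ j, ‖g j 0‖ ≤ L * (R * D) + D / 2 + ‖x0‖ := by
    intro j
    obtain ⟨x, hx⟩ := hGne j
    obtain ⟨v, hv, hvx⟩ := hGg j hx
    rw [mem_closedBall, dist_zero_right] at hv
    have h1 := (hgL j).dist_le_mul 0 v
    rw [dist_eq_norm, dist_zero_left, hvx] at h1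
    have h2 := (hGs j x hx).2
    calc ‖g j 0‖ = ‖(g j 0 - x) + (x - x0) + x0‖ := by congr 1; abel
      _ ≤ ‖g j 0 - x‖ + ‖x - x0‖ + ‖x0‖ := norm_add₃_le
      _ ≤ L * (R * D) + D / 2 + ‖x0‖ := by
          have h3 : (L : ℝ) * ‖v‖ ≤ L * (R * D) := mul_le_mul_of_nonneg_left hv L.2
          linarith
  obtain ⟨f, hfL, hf⟩ := exists_limit_map g hgL _ hB
  set K : Set (E d) := f '' closedBall 0 (R * D) with hK
  have hKc : IsCompact K := (isCompact_closedBall _ _).image hfL.continuous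
  set ν : Measure (E d) := μ.restrict (closedBall x0 (3 * D / 4)) with hν
  have hfin : IsFiniteMeasure ν := ⟨by
    rw [hν, Measure.restrict_apply_univ]
    exact UB.closedBall_lt_top hU x0 _⟩
  -- radii
  have hrad : Tendsto (fun j : ℕ => D * θ * lam ^ (N0 + j) / 2) (hyperfilter ℕ : Filter ℕ)
      (𝓝 0) := by
    have h1 : Tendsto (fun j : ℕ => lam ^ (N0 + j)) atTop (𝓝 0) := by
      have := tendsto_pow_atTop_nhds_zero_of_lt_one hlam.le (by linarith : lam < 1)
      exact (tendsto_add_atTop_iff_nat (f := fun j => lam ^ j) N0).2 this |>.congr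
        (fun j => by rw [add_comm])
    have h2 : Tendsto (fun j : ℕ => D * θ * lam ^ (N0 + j) / 2) atTop (𝓝 0) := by
      have := (h1.const_mul (D * θ)).div_const 2
      simpa using this
    exact h2.mono_left Nat.hyperfilter_le_atTop
  -- the estimate for the neighbourhoods
  have key : ∀ δ > 0, ENNReal.ofReal (θ * c * (θ / 2) ^ n * D ^ n) ≤ ν (cthickening δ K) := by
    intro δ hδ
    have e1 := hf (R * D) (δ / 2) (half_pos hδ)
    have e2 : ∀ᶠ j in (hyperfilter ℕ : Filter ℕ),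
        D * θ * lam ^ (N0 + j) / 2 < min (δ / 2) (D / 8) :=
      hrad.eventually (gt_mem_nhds (lt_min (by positivity) (by positivity)))
    obtain ⟨j, hj1, hj2⟩ := (e1.and e2).exists
    set r : ℝ := D * θ * lam ^ (N0 + j) / 2 with hr
    have hr0 : 0 < r := by positivity
    have hr1 : r < δ / 2 := hj2.trans_le (min_le_left _ _)
    have hr2 : r < D / 8 := hj2.trans_le (min_le_right _ _)
    rw [hν, Measure.restrict_apply isClosed_cthickening.measurableSet]
    have h1 := measure_balls (n := n) hL hr0 (by linarith) (fun x hx => (hGs j x hx).1)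
      (fun x hx y hy hxy => by
        have := hGsep j x hx y hy hxy
        rw [hr]; linarith)
      (S := cthickening δ K ∩ closedBall x0 (3 * D / 4)) (by
        intro x hx y hy
        rw [mem_ball, dist_eq_norm] at hy
        refine ⟨?_, ?_⟩
        · obtain ⟨v, hv, hvx⟩ := hGg j hx
          have hv' := hv
          rw [mem_closedBall, dist_zero_right] at hv'
          have h2 := hj1 v hv'
          rw [hvx] at h2
          refine mem_cthickening_of_dist_le y (f v) δ K ⟨v, hv, rfl⟩ ?_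
          rw [dist_eq_norm]
          calc ‖y - f v‖ = ‖(y - x) + (x - f v)‖ := by congr 1; abel
            _ ≤ ‖y - x‖ + ‖x - f v‖ := norm_add_le _ _
            _ ≤ δ := by linarith
        · rw [mem_closedBall, dist_eq_norm]
          have h2 := (hGs j x hx).2
          calc ‖y - x0‖ = ‖(y - x) + (x - x0)‖ := by congr 1; abel
            _ ≤ ‖y - x‖ + ‖x - x0‖ := norm_add_le _ _
            _ ≤ 3 * D / 4 := by linarith)
    refine le_trans (ENNReal.ofReal_le_ofReal ?_) h1
    have h3 := hGcard j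
    have h4 : ((G j).card : ℝ) * (c * r ^ n) =
        (((G j).card : ℝ) * (lam ^ (N0 + j)) ^ n) * (c * (θ / 2) ^ n * D ^ n) := by
      rw [hr, show D * θ * lam ^ (N0 + j) / 2 = lam ^ (N0 + j) * (θ / 2) * D by ring, mul_pow,
        mul_pow]
      ring
    rw [h4]
    have h5 : 0 ≤ c * (θ / 2) ^ n * D ^ n := by positivity
    calc θ * c * (θ / 2) ^ n * D ^ n = θ * (c * (θ / 2) ^ n * D ^ n) := by ring
      _ ≤ _ := mul_le_mul_of_nonneg_right h3 h5
  -- the limit
  have hlim : Tendsto (fun r => ν (cthickening r K)) (𝓝[>] 0) (𝓝 (ν K)) :=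
    (tendsto_measure_cthickening_of_isCompact hKc).mono_left nhdsWithin_le_nhds
  have hνK : ENNReal.ofReal (θ * c * (θ / 2) ^ n * D ^ n) ≤ ν K := by
    refine ge_of_tendsto hlim ?_
    filter_upwards [self_mem_nhdsWithin] with δ hδ
    exact key δ hδ
  refine ⟨fun v => f ((R + 1) • v), ?_, ?_⟩
  · apply LipschitzWith.of_dist_le_mul
    intro u v
    have h1 := hfL.dist_le_mul ((R + 1) • u) ((R + 1) • v)
    rw [dist_smul₀, Real.norm_eq_abs, abs_of_pos (by linarith)] at h1
    rw [NNReal.coe_mul, Real.coe_toNNReal _ (by linarith), mul_assoc]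
    exact h1
  · refine hνK.trans ?_
    rw [hν, Measure.restrict_apply hKc.measurableSet]
    apply measure_mono
    rintro y ⟨⟨u, hu, rfl⟩, hy⟩
    rw [mem_closedBall] at hy
    rw [mem_closedBall, dist_zero_right] at hu
    refine ⟨?_, ⟨(R + 1)⁻¹ • u, ?_, ?_⟩⟩
    · rw [mem_ball]; linarith
    · rw [mem_ball, dist_zero_right, norm_smul, norm_inv, Real.norm_eq_abs,
        abs_of_pos (by linarith : (0 : ℝ) < R + 1), inv_mul_lt_iff₀ (by linarith)]
      linarith only [hD, hu]
    · change f ((R + 1) • (R + 1)⁻¹ • u) = f u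
      rw [smul_smul, mul_inv_cancel₀ (by linarith : (R + 1 : ℝ) ≠ 0), one_smul]

end Vale.Agent.P120
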