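import Vale.Agent.Lib.P120.Trunc
import Vale.Agent.Lib.P120.UR.Basic

/-!
Testing bound: `L²` boundedness of the Riesz transform implies `TB`.
-/

open MeasureTheory Filter Set Metric Module
open scoped Topology ENNReal NNReal RealInnerProductSpace

namespace Vale.Agent.P120

variable {d n : ℕ}

lemma Testing.tk_tendsto (x y : E d) :
    Tendsto (fun i : ℕ => tk n (1 / ((i : ℝ) + 1)) x y) atTop (𝓝 (rieszKernel n (x - y))) := by
  rcases eq_or_ne x y with rfl | hxy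
  · have h1 : ∀ i : ℕ, tk n (1 / ((i : ℝ) + 1)) x x = (rieszKernel n (x - x) : E d) := by
      intro i
      have h0 : ¬ (1 / ((i : ℝ) + 1)) < ‖x - x‖ := by
        rw [sub_self, norm_zero, not_lt]; positivity
      unfold tk
      rw [indicator_of_notMem (by exact h0)]
      simp [rieszKernel]
    simp only [h1]
    exact tendsto_const_nhds
  · have hpos : 0 < ‖x - y‖ := norm_pos_iff.mpr (sub_ne_zero.mpr hxy)
    have h2 : ∀ᶠ i : ℕ in atTop, (1 / ((i : ℝ) + 1)) < ‖x - y‖ :=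
      (tendsto_order.mp (tendsto_one_div_add_atTop_nhds_zero_nat (𝕜 := ℝ))).2 _ hpos
    refine tendsto_const_nhds.congr' ?_
    filter_upwards [h2] with i hi
    unfold tk
    rw [indicator_of_mem (by exact hi)]

lemma Testing.norm_tk_le_kernel {ε : ℝ} (x y : E d) :
    ‖tk n ε x y‖ ≤ ‖rieszKernel n (x - y)‖ := by
  unfold tk
  by_cases h : ε < ‖x - y‖
  · rw [indicator_of_mem (by exact h)]
  · rw [indicator_of_notMem (by exact h), norm_zero]
    exact norm_nonneg _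

/-- antisymmetrisation of the truncated form -/
lemma Testing.truncated_identity {ν : Measure (E d)} [IsFiniteMeasure ν] {ψ : E d → ℝ}
    (hψ : Continuous ψ) {B : ℝ} (hB : ∀ᵐ x ∂ν, ‖ψ x‖ ≤ B) {ε : ℝ} (hε : 0 < ε) :
    (1 / 2 : ℝ) • ∫ p : E d × E d, (ψ p.1 - ψ p.2) • tk n ε p.1 p.2 ∂(ν.prod ν) =
      ∫ x, ψ x • ∫ y, tk n ε x y ∂ν ∂ν := by
  have hm1 : AEStronglyMeasurable (fun p : E d × E d => ψ p.1 • tk n ε p.1 p.2) (ν.prod ν) :=
    ((hψ.comp continuous_fst).measurable.smul (measurable_tk ε)).aestronglyMeasurable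
  have hm2 : AEStronglyMeasurable (fun p : E d × E d => ψ p.2 • tk n ε p.1 p.2) (ν.prod ν) :=
    ((hψ.comp continuous_snd).measurable.smul (measurable_tk ε)).aestronglyMeasurable
  have hB1 : ∀ᵐ p ∂(ν.prod ν), ‖ψ p.1‖ ≤ B :=
    Measure.quasiMeasurePreserving_fst.ae hB
  have hB2 : ∀ᵐ p ∂(ν.prod ν), ‖ψ p.2‖ ≤ B :=
    Measure.quasiMeasurePreserving_snd.ae hB
  have hi1 : Integrable (fun p : E d × E d => ψ p.1 • tk n ε p.1 p.2) (ν.prod ν) := by
    refine Integrable.of_bound (C := |B| * (ε ^ n)⁻¹) hm1 ?_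
    filter_upwards [hB1] with p hp
    rw [norm_smul]
    exact mul_le_mul (hp.trans (le_abs_self B)) (norm_tk_le hε p.1 p.2) (norm_nonneg _)
      (abs_nonneg _)
  have hi2 : Integrable (fun p : E d × E d => ψ p.2 • tk n ε p.1 p.2) (ν.prod ν) := by
    refine Integrable.of_bound (C := |B| * (ε ^ n)⁻¹) hm2 ?_
    filter_upwards [hB2] with p hp
    rw [norm_smul]
    exact mul_le_mul (hp.trans (le_abs_self B)) (norm_tk_le hε p.1 p.2) (norm_nonneg _)
      (abs_nonneg _)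
  have e1 : ∫ p : E d × E d, ψ p.1 • tk n ε p.1 p.2 ∂(ν.prod ν) =
      ∫ x, ψ x • ∫ y, tk n ε x y ∂ν ∂ν := by
    rw [integral_prod _ hi1]
    congr 1
    ext1 x
    simp only
    rw [integral_smul]
  have e2 : ∫ p : E d × E d, ψ p.2 • tk n ε p.1 p.2 ∂(ν.prod ν) =
      - ∫ p : E d × E d, ψ p.1 • tk n ε p.1 p.2 ∂(ν.prod ν) := by
    have h := integral_prod_swap (μ := ν) (ν := ν)
      (fun p : E d × E d => ψ p.1 • tk n ε p.1 p.2)
    rw [← h, ← integral_neg]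
    congr 1
    ext1 p
    simp only [Prod.swap]
    rw [tk_swap ε p.1 p.2, smul_neg, neg_neg]
  have e3 : ∫ p : E d × E d, (ψ p.1 - ψ p.2) • tk n ε p.1 p.2 ∂(ν.prod ν) =
      ∫ p : E d × E d, ψ p.1 • tk n ε p.1 p.2 ∂(ν.prod ν) -
        ∫ p : E d × E d, ψ p.2 • tk n ε p.1 p.2 ∂(ν.prod ν) := by
    rw [← integral_sub hi1 hi2]
    congr 1
    ext1 p
    rw [sub_smul]
  rw [e3, e2, sub_neg_eq_add, e1, ← two_smul ℝ, smul_smul]
  norm_num

/-- Cauchy-Schwarz -/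
lemma Testing.cauchy {ν : Measure (E d)} [IsFiniteMeasure ν] {ψ : E d → ℝ} {F : E d → E d}
    (hψ : MemLp ψ 2 ν) (hF : AEStronglyMeasurable F ν) {K : ℝ} (hK : 0 ≤ K)
    (h : eLpNorm F 2 ν ≤ ENNReal.ofReal K) :
    ‖∫ x, ψ x • F x ∂ν‖ ^ 2 ≤ K ^ 2 * ∫ x, ψ x ^ 2 ∂ν := by
  have h0 : 0 ≤ ∫ x, ψ x ^ 2 ∂ν := integral_nonneg fun x => sq_nonneg _
  have hψ2 : eLpNorm ψ 2 ν = ENNReal.ofReal (Real.sqrt (∫ x, ψ x ^ 2 ∂ν)) := by
    rw [hψ.eLpNorm_eq_integral_rpow_norm (by norm_num) (by norm_num), Real.sqrt_eq_rpow]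
    congr 2
    · congr 1
      ext1 x
      simp
    · norm_num
  have h1 : ‖∫ x, ψ x • F x ∂ν‖ₑ ≤ ENNReal.ofReal (Real.sqrt (∫ x, ψ x ^ 2 ∂ν) * K) := by
    calc ‖∫ x, ψ x • F x ∂ν‖ₑ ≤ ∫⁻ x, ‖ψ x • F x‖ₑ ∂ν := enorm_integral_le_lintegral_enorm _
      _ = eLpNorm (ψ • F) 1 ν := (eLpNorm_one_eq_lintegral_enorm).symm
      _ ≤ eLpNorm ψ 2 ν * eLpNorm F 2 ν :=
          eLpNorm_smul_le_mul_eLpNorm hF hψ.1
      _ ≤ ENNReal.ofReal (Real.sqrt (∫ x, ψ x ^ 2 ∂ν)) * ENNReal.ofReal K := by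
          rw [hψ2]; gcongr
      _ = _ := (ENNReal.ofReal_mul (Real.sqrt_nonneg _)).symm
  have h2 := ENNReal.toReal_mono ENNReal.ofReal_ne_top h1
  rw [toReal_enorm, ENNReal.toReal_ofReal (by positivity)] at h2
  calc ‖∫ x, ψ x • F x ∂ν‖ ^ 2 ≤ (Real.sqrt (∫ x, ψ x ^ 2 ∂ν) * K) ^ 2 := by gcongr
    _ = K ^ 2 * ∫ x, ψ x ^ 2 ∂ν := by rw [mul_pow, Real.sq_sqrt h0, mul_comm]

theorem tb_of_rieszBounded {μ : Measure (E d)} [IsLocallyFiniteMeasure μ] {C : ℝ}
    (hU : UB n μ C) (hR : RieszBounded n μ) : ∃ CT, TB n μ CT := by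
  have hC := hU.1
  obtain ⟨CR0, hR0⟩ := hR
  set CR : ℝ := max CR0 0 with hCRdef
  have hCR : 0 ≤ CR := le_max_right _ _
  have hR : ∀ f : E d → ℝ, MemLp f 2 μ → ∀ ε : ℝ, 0 < ε →
      eLpNorm (rieszTrunc n μ ε f) 2 μ ≤ ENNReal.ofReal CR * eLpNorm f 2 μ := by
    intro f hf ε hε
    refine ((hR0 f hf ε hε).2).trans ?_
    gcongr
    exact le_max_left _ _
  refine ⟨CR ^ 2 * C, by positivity, fun z r hr ψ hψ => ?_⟩
  obtain ⟨L, hL⟩ := hψ
  have hψc : Continuous ψ := hL.continuous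
  set S : Set (E d) := closedBall z r with hSdef
  have hSm : MeasurableSet S := measurableSet_closedBall
  have hS : μ S < ∞ := hU.closedBall_lt_top z r
  set ν := μ.restrict S with hνdef
  have hfin : IsFiniteMeasure ν := ⟨by simpa [hνdef] using hS⟩
  -- `ψ` is bounded on `S`
  obtain ⟨B, hB⟩ : ∃ B, ∀ x ∈ S, ‖ψ x‖ ≤ B :=
    (isCompact_closedBall z r).exists_bound_of_continuousOn hψc.continuousOn
  have hBae : ∀ᵐ x ∂ν, ‖ψ x‖ ≤ B := by
    rw [hνdef, ae_restrict_iff' hSm]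
    exact Eventually.of_forall hB
  have hψ2 : MemLp ψ 2 ν := MemLp.of_bound hψc.aestronglyMeasurable B hBae
  have hI0 : 0 ≤ ∫ y in S, ψ y ^ 2 ∂μ := integral_nonneg fun x => sq_nonneg _
  have hrhs : 0 ≤ CR ^ 2 * C * r ^ n * ∫ y in S, ψ y ^ 2 ∂μ := by positivity
  -- bound of the truncated forms
  have hbound : ∀ i : ℕ, ‖(1 / 2 : ℝ) • ∫ p : E d × E d,
      (ψ p.1 - ψ p.2) • tk n (1 / ((i : ℝ) + 1)) p.1 p.2 ∂(ν.prod ν)‖ ^ 2 ≤
      CR ^ 2 * C * r ^ n * ∫ y in S, ψ y ^ 2 ∂μ := by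
    intro i
    have hε : (0 : ℝ) < 1 / ((i : ℝ) + 1) := by positivity
    rw [Testing.truncated_identity hψc hBae hε]
    have hTm : AEStronglyMeasurable (fun x => ∫ y, tk n (1 / ((i : ℝ) + 1)) x y ∂ν) ν :=
      (stronglyMeasurable_T (μ := μ) (n := n) S (1 / ((i : ℝ) + 1))).aestronglyMeasurable
    have hTb : eLpNorm (fun x => ∫ y, tk n (1 / ((i : ℝ) + 1)) x y ∂ν) 2 ν ≤
        ENNReal.ofReal (CR * Real.sqrt (C * r ^ n)) := by
      refine (eLpNorm_mono_measure _ Measure.restrict_le_self).trans ?_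
      refine (eLpNorm_T_le hR hSm hS hε).trans ?_
      rw [ENNReal.ofReal_mul hCR]
      gcongr
      rw [Real.sqrt_eq_rpow, ← ENNReal.ofReal_rpow_of_nonneg (by positivity) (by norm_num)]
      gcongr
      exact hU.2 z r hr
    refine (Testing.cauchy hψ2 hTm (by positivity) hTb).trans (le_of_eq ?_)
    rw [mul_pow, Real.sq_sqrt (by positivity)]
    ring
  by_cases hint : Integrable (fun p : E d × E d => (ψ p.1 - ψ p.2) •
      (rieszKernel n (p.1 - p.2) : E d)) (ν.prod ν)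
  · have hlim : Tendsto (fun i : ℕ => (1 / 2 : ℝ) • ∫ p : E d × E d,
        (ψ p.1 - ψ p.2) • tk n (1 / ((i : ℝ) + 1)) p.1 p.2 ∂(ν.prod ν)) atTop
        (𝓝 (BF n ν ψ)) := by
      unfold BF
      refine Tendsto.const_smul ?_ _
      refine tendsto_integral_of_dominated_convergence
        (fun p : E d × E d => ‖(ψ p.1 - ψ p.2) • (rieszKernel n (p.1 - p.2) : E d)‖)
        ?_ hint.norm ?_ ?_
      · intro i
        have h1 : Measurable (fun p : E d × E d => ψ p.1 - ψ p.2) := by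
          have := hψc.measurable
          fun_prop
        exact (h1.smul (measurable_tk _)).aestronglyMeasurable
      · intro i
        refine Eventually.of_forall fun p => ?_
        rw [norm_smul, norm_smul]
        gcongr
        exact Testing.norm_tk_le_kernel _ _
      · refine Eventually.of_forall fun p => ?_
        exact (Testing.tk_tendsto p.1 p.2).const_smul _
    exact le_of_tendsto (hlim.norm.pow 2) (Eventually.of_forall hbound)
  · have h0 : BF n ν ψ = 0 := by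
      unfold BF
      rw [integral_undef hint, smul_zero]
    rw [h0, norm_zero]
    simpa using hrhs

end Vale.Agent.P120
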