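import Vale.Agent.Lib.P120.UR.FiniteDepth
import Vale.Agent.Lib.P120.UR.LimitCover
import Vale.Agent.Lib.P120.UR.Testing

/-!
P120: the David-Semmes conjecture in all codimensions.
-/

open MeasureTheory Filter Set Metric Module
open scoped Topology ENNReal NNReal RealInnerProductSpace

namespace Vale.Agent.P120
variable {d n : ℕ}

/-- The David-Semmes conjecture in all codimensions. -/
theorem uniformlyRectifiable_of_rieszBounded {μ : Measure (E d)} [IsLocallyFiniteMeasure μ]
    (hn : 1 ≤ n) (hnd : n ≤ d) (hAD : ADRegular n μ) (hR : RieszBounded n μ) :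
    UniformlyRectifiable n μ := by
  by_cases hnt : μ.support.Nontrivial
  · obtain ⟨C, -, -, hU, -, -⟩ := exists_bounds hAD hnt
    have hC : 0 < C := hU.1
    obtain ⟨CA, hCA1, hCA⟩ := hAD
    set c : ℝ := CA⁻¹ with hc
    have hc0 : 0 < c := by positivity
    obtain ⟨CT, hT⟩ := tb_of_rieszBounded hU hR
    obtain ⟨θ, hθ, L, R, hR0, lam, hlam, hlam1, N0, hfd⟩ := finite_depth n d hn hnd C c CT hC hc0
    obtain ⟨θ', hθ', L', hlim⟩ := limit_cover n d hn C c θ lam R L hC hc0 hθ hlam hlam1 hR0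
    refine ⟨θ', hθ', L', ?_⟩
    intro x hx r hr hrd
    have hL : LB n μ c r := by
      refine ⟨hc0, hr, fun y hy ρ hρ hρr => ?_⟩
      exact (hCA y hy ρ hρ ((ENNReal.ofReal_le_ofReal hρr).trans hrd)).1
    obtain ⟨g, hg, hg2⟩ := hlim μ r hU hL x hx ⟨N0, fun N hN => hfd μ r hU hL hT x hx N hN⟩
    exact ⟨g, hg.lipschitzOnWith, hg2⟩
  · -- trivial support: nothing to prove
    refine ⟨1, one_pos, 0, ?_⟩
    intro x hx r hr hrd
    exfalso
    rw [Set.not_nontrivial_iff] at hnt
    unfold LeDiam at hrd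
    rw [Metric.ediam_subsingleton hnt] at hrd
    have : (0 : ℝ≥0∞) < ENNReal.ofReal r := ENNReal.ofReal_pos.mpr hr
    exact absurd hrd (not_le.mpr this)

end Vale.Agent.P120
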