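import Vale.Agent.Lib.P120.UR.Base

/-!
P120: maximal separated nets in compact sets.
-/

open MeasureTheory Filter Set Metric Module
open scoped Topology ENNReal NNReal RealInnerProductSpace

namespace Vale.Agent.P120

variable {d n : ℕ}

/-- Existence of a maximal `s`-separated finite subset of a compact set containing a given one. -/
theorem exists_sep_net {K : Set (E d)} (hK : IsCompact K) {s : ℝ} (hs : 0 < s)
    (A0 : Finset (E d)) (hA0 : (A0 : Set (E d)) ⊆ K)
    (hsep0 : ∀ p ∈ A0, ∀ q ∈ A0, p ≠ q → s ≤ ‖p - q‖) :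
    ∃ A : Finset (E d), A0 ⊆ A ∧ (A : Set (E d)) ⊆ K ∧
      (∀ p ∈ A, ∀ q ∈ A, p ≠ q → s ≤ ‖p - q‖) ∧ ∀ y ∈ K, ∃ p ∈ A, ‖y - p‖ < s := by
  classical
  obtain ⟨t, htfin, htcov⟩ := Metric.totallyBounded_iff.mp hK.totallyBounded (s / 2)
    (by positivity)
  set t' := htfin.toFinset with ht'
  -- bound on the cardinality
  have hcard : ∀ A : Finset (E d), (A : Set (E d)) ⊆ K →
      (∀ p ∈ A, ∀ q ∈ A, p ≠ q → s ≤ ‖p - q‖) → A.card ≤ t'.card := by
    intro A hAK hAs
    have h1 : ∀ p ∈ A, ∃ c ∈ t', p ∈ ball c (s / 2) := by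
      intro p hp
      have h2 := htcov (hAK hp)
      simp only [mem_iUnion] at h2
      obtain ⟨c, hc, hpc⟩ := h2
      exact ⟨c, htfin.mem_toFinset.mpr hc, hpc⟩
    choose! f hf hf2 using h1
    refine Finset.card_le_card_of_injOn f hf ?_
    intro p hp q hq hpq
    by_contra hne
    have h3 := hAs p hp q hq hne
    have h4 := hf2 p hp
    have h5 := hf2 q hq
    rw [hpq] at h4
    rw [mem_ball] at h4 h5
    have h6 := dist_triangle_right p q (f q)
    rw [dist_eq_norm p q] at h6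
    linarith
  -- maximal cardinality
  let P : ℕ → Prop := fun m => ∃ A : Finset (E d), A0 ⊆ A ∧ (A : Set (E d)) ⊆ K ∧
    (∀ p ∈ A, ∀ q ∈ A, p ≠ q → s ≤ ‖p - q‖) ∧ A.card = m
  have hP0 : P A0.card := ⟨A0, subset_rfl, hA0, hsep0, rfl⟩
  have hPb : ∀ m, P m → m ≤ t'.card := by
    rintro m ⟨A, _, hAK, hAs, rfl⟩
    exact hcard A hAK hAs
  obtain ⟨m, hm, hmax⟩ : ∃ m, P m ∧ ∀ k, P k → k ≤ m := by
    have h1 : (Nat.findGreatest P t'.card) = Nat.findGreatest P t'.card := rfl
    refine ⟨Nat.findGreatest P t'.card, Nat.findGreatest_spec (hPb _ hP0) hP0, fun k hk => ?_⟩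
    exact Nat.le_findGreatest (hPb k hk) hk
  obtain ⟨A, hA0A, hAK, hAs, hAc⟩ := hm
  refine ⟨A, hA0A, hAK, hAs, ?_⟩
  intro y hy
  by_contra hcon
  push Not at hcon
  have hyA : y ∉ A := by
    intro h
    have := hcon y h
    rw [sub_self, norm_zero] at this
    linarith
  have h1 : P (m + 1) := by
    refine ⟨insert y A, hA0A.trans (Finset.subset_insert _ _), ?_, ?_, ?_⟩
    · rw [Finset.coe_insert, insert_subset_iff]
      exact ⟨hy, hAK⟩
    · intro p hp q hq hpq
      rw [Finset.mem_insert] at hp hq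
      rcases hp with rfl | hp
      · rcases hq with rfl | hq
        · exact absurd rfl hpq
        · exact hcon q hq
      · rcases hq with rfl | hq
        · rw [norm_sub_rev]; exact hcon p hp
        · exact hAs p hp q hq hpq
    · rw [Finset.card_insert_of_notMem hyA, hAc]
  have := hmax _ h1
  omega

end Vale.Agent.P120
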