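import Vale.Agent.Lib.P120.UR.SmoothAvg
import Vale.Agent.Lib.P120.Bilateral
import Vale.Agent.Lib.P120.UR.BFcTail

/-!
P120: a reflectionless AD-regular measure has bounded truncated integrals; if its support lies in
an `n`-plane then it is the whole plane.
-/

open MeasureTheory Filter Set Metric Module
open scoped Topology ENNReal NNReal RealInnerProductSpace

namespace Vale.Agent.P120


variable {d n : ℕ}

lemma pf_integrable_bmp {C : ℝ} {μ : Measure (E d)} (hU : UB n μ C) (x : E d) {s : ℝ}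
    (hs : 0 < s) : Integrable (bmp x s) μ := by
  have h1 : IntegrableOn (bmp x s) (ball x s) μ := by
    refine Measure.integrableOn_of_bounded (M := 1) (hU.ball_lt_top x s).ne
      (lip_bmp x hs).continuous.aestronglyMeasurable (Eventually.of_forall fun y => ?_)
    rw [Real.norm_eq_abs, abs_of_nonneg (bmp_nonneg x s y)]
    exact bmp_le_one x hs y
  refine (integrableOn_iff_integrable_of_support_subset ?_).mp h1
  intro y hy
  rw [mem_ball, dist_eq_norm]
  by_contra hcon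
  exact hy (bmp_eq_zero x hs (not_lt.mp hcon))

lemma pf_bmp_pos {C : ℝ} {μ : Measure (E d)} (hU : UB n μ C) (x : E d) {s : ℝ}
    (hs : 0 < s) (hpos : 0 < μ (ball x (s / 2))) : 0 < ∫ y, bmp x s y ∂μ := by
  rw [integral_pos_iff_support_of_nonneg (bmp_nonneg x s) (pf_integrable_bmp hU x hs)]
  refine hpos.trans_le (measure_mono ?_)
  intro y hy
  rw [mem_ball, dist_eq_norm] at hy
  have h1 := bmp_ge_half x hs hy.le
  rw [Function.mem_support]
  linarith

theorem good_of_refl {C c : ℝ} {σ : Measure (E d)} (hU : UB n σ C) (hL : ∀ D > 0, LB n σ c D)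
    (hR : Refl n σ) : ∃ C4 : ℝ, ∀ δ > 0, ∀ x0 ∈ σ.support, ∀ r0 > 0, Good n σ C4 δ x0 r0 := by
  have hc : 0 < c := (hL 1 one_pos).1
  obtain ⟨CA, hCA, hSA⟩ := smooth_average n d C (c / 2 ^ n) hU.1 (by positivity)
  obtain ⟨Cb, hCb, hBT⟩ := bfc_tail n d C hU.1
  refine ⟨2 * CA, ?_⟩
  intro δ hδ x0 hx0 r0 hr0 x hx hxb s s' hs hss' hs'r
  have hs0 : 0 < s := (mul_pos hδ hr0).trans_le hs
  have hs'0 : 0 < s' := hs0.trans_le hss'
  have hlow : ∀ t : ℝ, 0 < t → ENNReal.ofReal (c / 2 ^ n * t ^ n) ≤ σ (ball x (t / 2)) := by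
    intro t ht
    have h1 := (hL (t / 2) (by positivity)).2.2 x hx (t / 2) (by positivity) le_rfl
    refine le_trans (ENNReal.ofReal_le_ofReal (le_of_eq ?_)) h1
    rw [div_pow]
    ring
  have hposm : ∀ t : ℝ, 0 < t → 0 < ∫ y, bmp x t y ∂σ := by
    intro t ht
    refine pf_bmp_pos hU x ht (lt_of_lt_of_le ?_ (hlow t ht))
    rw [ENNReal.ofReal_pos]
    positivity
  set m : ℝ := ∫ y, bmp x s y ∂σ with hm
  set m' : ℝ := ∫ y, bmp x s' y ∂σ with hm'
  have hm0 : 0 < m := hposm s hs0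
  have hm'0 : 0 < m' := hposm s' hs'0
  set ψ : E d → ℝ := fun y => m⁻¹ * bmp x s y + (-m'⁻¹) * bmp x s' y with hψdef
  have hL1 : Lip (fun y => m⁻¹ * bmp x s y) := (lip_bmp x hs0).const_mul _
  have hL2 : Lip (fun y => (-m'⁻¹) * bmp x s' y) := (lip_bmp x hs'0).const_mul _
  have hψL : Lip ψ := hL1.add hL2
  set r : ℝ := ‖x‖ + s' + 1 with hr
  have hr0' : 0 < r := by positivity
  have hψs : ∀ y, r < ‖y‖ → ψ y = 0 := by
    intro y hy
    have h1 : ‖y‖ ≤ ‖y - x‖ + ‖x‖ := by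
      calc ‖y‖ = ‖(y - x) + x‖ := by rw [sub_add_cancel]
        _ ≤ ‖y - x‖ + ‖x‖ := norm_add_le _ _
    have h2 : s' ≤ ‖y - x‖ := by linarith
    simp only [hψdef]
    rw [bmp_eq_zero x hs0 (hss'.trans h2), bmp_eq_zero x hs'0 h2]
    ring
  have hψc : HasCompactSupport ψ := by
    refine HasCompactSupport.intro (isCompact_closedBall (0 : E d) r) ?_
    intro y hy
    rw [mem_closedBall, dist_zero_right, not_le] at hy
    exact hψs y hy
  have hψ0 : ∫ y, ψ y ∂σ = 0 := by
    simp only [hψdef]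
    rw [integral_add ((pf_integrable_bmp hU x hs0).const_mul _)
      ((pf_integrable_bmp hU x hs'0).const_mul _), integral_const_mul, integral_const_mul,
      ← hm, ← hm', inv_mul_cancel₀ hm0.ne', neg_mul, inv_mul_cancel₀ hm'0.ne']
    ring
  have htend : Tendsto (fun R : ℝ => 2 * CA + (‖BFc n σ R ψ‖ + Cb * r / R * ∫ y, |ψ y| ∂σ))
      atTop (𝓝 (2 * CA + (0 + 0 * ∫ y, |ψ y| ∂σ))) := by
    refine tendsto_const_nhds.add (Tendsto.add ?_ (Tendsto.mul_const _ ?_))
    · have h1 := (hR ψ hψL hψc hψ0).norm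
      rwa [norm_zero] at h1
    · exact tendsto_const_nhds.div_atTop tendsto_id
  have hkey : ∀ᶠ R : ℝ in atTop, ‖∫ y in ball x s' \ ball x s, rieszKernel n (x - y) ∂σ‖ ≤
      2 * CA + (‖BFc n σ R ψ‖ + Cb * r / R * ∫ y, |ψ y| ∂σ) := by
    filter_upwards [eventually_ge_atTop (4 * r), eventually_ge_atTop (‖x‖ + 2 * s')]
      with R hR1 hR2
    set S : Set (E d) := closedBall 0 R with hS
    have hsub : ∀ t : ℝ, t ≤ 2 * s' → ball x t ⊆ S := by
      intro t ht y hy
      rw [mem_ball, dist_eq_norm] at hy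
      rw [hS, mem_closedBall, dist_zero_right]
      have h1 : ‖y‖ ≤ ‖y - x‖ + ‖x‖ := by
        calc ‖y‖ = ‖(y - x) + x‖ := by rw [sub_add_cancel]
          _ ≤ ‖y - x‖ + ‖x‖ := norm_add_le _ _
      linarith
    have hSm : MeasurableSet S := measurableSet_closedBall
    have hSfin : σ S < ∞ := hU.closedBall_lt_top 0 R
    have h1 := hSA σ hU x s hs0 (hlow s hs0) S hSm isBounded_closedBall
      (hsub (2 * s) (by linarith))
    have h2 := hSA σ hU x s' hs'0 (hlow s' hs'0) S hSm isBounded_closedBall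
      (hsub (2 * s') le_rfl)
    have hb : ∃ R0, (σ.restrict S) (closedBall 0 R0)ᶜ = 0 := by
      refine ⟨R, ?_⟩
      rw [Measure.restrict_apply measurableSet_closedBall.compl, hS, compl_inter_self,
        measure_empty]
    have h3 : BF n (σ.restrict S) ψ = m⁻¹ • BF n (σ.restrict S) (bmp x s) +
        (-m'⁻¹) • BF n (σ.restrict S) (bmp x s') := by
      rw [hψdef, BF_add (hU.restrict S) hb hL1 hL2, BF_smul, BF_smul]
    have h4 : ∫ y in S \ ball x s, rieszKernel n (x - y) ∂σ =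
        ∫ y in ball x s' \ ball x s, rieszKernel n (x - y) ∂σ +
        ∫ y in S \ ball x s', rieszKernel n (x - y) ∂σ := by
      rw [← setIntegral_union]
      · congr 2
        ext y
        constructor
        · rintro ⟨h5, h6⟩
          by_cases h7 : y ∈ ball x s'
          · exact Or.inl ⟨h7, h6⟩
          · exact Or.inr ⟨h5, h7⟩
        · rintro (⟨h5, h6⟩ | ⟨h5, h6⟩)
          · exact ⟨hsub s' (by linarith) h5, h6⟩
          · exact ⟨h5, fun h7 => h6 (ball_subset_ball hss' h7)⟩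
      · rw [Set.disjoint_left]
        rintro y ⟨h5, _⟩ ⟨_, h6⟩
        exact h6 h5
      · exact hSm.diff measurableSet_ball
      · exact integrableOn_kernel (hU.ball_lt_top x s') measurableSet_ball x hs0
      · exact integrableOn_kernel hSfin hSm x hs'0
    have h5 : ∫ y in ball x s' \ ball x s, rieszKernel n (x - y) ∂σ =
        BF n (σ.restrict S) ψ -
        (m⁻¹ • BF n (σ.restrict S) (bmp x s) - ∫ y in S \ ball x s, rieszKernel n (x - y) ∂σ) +
        (m'⁻¹ • BF n (σ.restrict S) (bmp x s') -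
          ∫ y in S \ ball x s', rieszKernel n (x - y) ∂σ) := by
      rw [h3, h4, neg_smul]
      abel
    have h6 : ‖BF n (σ.restrict S) ψ‖ ≤ ‖BFc n σ R ψ‖ + Cb * r / R * ∫ y, |ψ y| ∂σ := by
      have h7 := (hBT σ hU ψ hψL r hr0' hψs hψ0 R R hR1 le_rfl).1
      calc ‖BF n (σ.restrict S) ψ‖
          = ‖BFc n σ R ψ + (BF n (σ.restrict S) ψ - BFc n σ R ψ)‖ := by
            rw [add_sub_cancel]
        _ ≤ ‖BFc n σ R ψ‖ + ‖BF n (σ.restrict S) ψ - BFc n σ R ψ‖ := norm_add_le _ _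
        _ ≤ _ := by gcongr
    rw [h5]
    refine (norm_add_le _ _).trans ?_
    have h8 := norm_sub_le (BF n (σ.restrict S) ψ)
      (m⁻¹ • BF n (σ.restrict S) (bmp x s) - ∫ y in S \ ball x s, rieszKernel n (x - y) ∂σ)
    linarith
  have hfin := ge_of_tendsto htend hkey
  simpa using hfin

theorem support_eq_plane {C c : ℝ} (hn : 1 ≤ n) {σ : Measure (E d)} (hU : UB n σ C)
    (hL : ∀ D > 0, LB n σ c D) (hR : Refl n σ) (U : E n →ₗᵢ[ℝ] E d) (p : E d)
    (hne : σ.support.Nonempty) (hsupp : ∀ y ∈ σ.support, ∃ v, y = p + U v) :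
    ∀ v, p + U v ∈ σ.support := by
  intro v
  by_contra hv
  obtain ⟨C4, hgood⟩ := good_of_refl hU hL hR
  set V : Submodule ℝ (E d) := LinearMap.range U.toLinearMap with hV
  have hVn : finrank ℝ V = n := by
    rw [hV, LinearMap.finrank_range_of_inj U.injective]
    exact finrank_euclideanSpace_fin
  obtain ⟨x0, hx0⟩ := hne
  obtain ⟨v0, hv0⟩ := hsupp x0 hx0
  set q : E d := p + U v with hq
  set z : E d := q - x0 with hz
  have hzV : z ∈ V := by
    refine ⟨v - v0, ?_⟩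
    change U (v - v0) = z
    rw [hz, hq, hv0, map_sub]
    abel
  have hz0 : z ≠ 0 := by
    intro h
    apply hv
    have h1 : q = x0 := by rwa [hz, sub_eq_zero] at h
    rw [h1]
    exact hx0
  have hzn : 0 < ‖z‖ := norm_pos_iff.mpr hz0
  set r0 : ℝ := 4 * ‖z‖ with hr0
  have hr00 : 0 < r0 := by positivity
  set ρ : ℝ := infDist q σ.support with hρ
  have hρ0 : 0 < ρ := by
    rw [hρ]
    exact (Measure.isClosed_support (μ := σ)).notMem_iff_infDist_pos ⟨x0, hx0⟩ |>.mp hv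
  set c0 : ℝ := ρ / r0 with hc0
  have hc00 : 0 < c0 := by positivity
  obtain ⟨θs, hθs0, hθs1, hlow⟩ := not_flat_low hU (hL r0 hr00) hn
  obtain ⟨lam, hlam0, hlam1, hstep⟩ := reduce_step hU (hL r0 hr00) (C4 := C4) hc00 hθs0 hθs1
  have hflat : Flat σ V (θs * lam * c0 / 12) x0 r0 := by
    intro y hy _
    obtain ⟨w, hw⟩ := hsupp y hy
    refine ⟨y - x0, ⟨w - v0, ?_⟩, ?_⟩
    · change U (w - v0) = y - x0
      rw [hw, hv0, map_sub]
      abel
    · rw [sub_self, norm_zero]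
      positivity
  have hmin : 0 < min (1 : ℝ) 1 * lam * c0 := by
    rw [min_self]
    positivity
  obtain ⟨x1, hx1, t, ht0, htlow, hsub1, htr, hg1, V', hV'1, hV'2⟩ :=
    hstep 1 one_pos x0 hx0 r0 hr00 le_rfl V (hgood _ hmin x0 hx0 r0 hr00) hflat
      ⟨z, hzV, by rw [hr0]; linarith, fun y hy => by
        have h1 : x0 + z = q := by rw [hz]; abel
        rw [h1, hc0, div_mul_cancel₀ _ hr00.ne', hρ, ← dist_eq_norm, dist_comm]
        exact infDist_le_dist_of_mem hy⟩
  exact hlow x1 hx1 t ht0 htr V' (by omega) hV'2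

end Vale.Agent.P120
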