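import Vale.Agent.Lib.P120.UR.Base

/-!
P120: comparison of two planes with small heights (module Planes).
-/

open MeasureTheory Filter Set Metric Module
open scoped Topology ENNReal NNReal RealInnerProductSpace

namespace Vale.Agent.P120

/-- A set which lies over a thin slab of `ℝ^(n+1)` has small measure. -/
theorem planes_slab (n : ℕ) (C : ℝ) (hC : 0 < C) : ∃ C2 : ℝ, 0 < C2 ∧
    ∀ (d : ℕ) (ν : Measure (E d)), UB (n + 1) ν C → ∀ (π : E d → E (n + 1)) (G : Set (E d))
      (u : E (n + 1)) (α s τ : ℝ), ‖u‖ = 1 → 0 < s → 0 < τ → τ ≤ 1 → (∀ y ∈ G, ‖π y‖ ≤ s) →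
      (∀ y ∈ G, |⟪u, π y⟫ - α| ≤ τ * s) →
      (∀ y ∈ G, ∀ y' ∈ G, ‖y - y'‖ ≤ 2 * (τ * s) + 2 * ‖π y - π y'‖) →
      ν G ≤ ENNReal.ofReal (C2 * τ * s ^ (n + 1)) := by
  classical
  refine ⟨3 * 5 ^ n * C * (2 * n + 4) ^ (n + 1), by positivity, ?_⟩
  intro d ν hU π G u α s τ hu hs hτ hτ1 hG1 hG2 hG3
  have hτs : 0 < τ * s := mul_pos hτ hs
  -- orthonormal basis with first vector `u`
  obtain ⟨b, hb⟩ : ∃ b : OrthonormalBasis (Fin (n + 1)) ℝ (E (n + 1)), b 0 = u := by
    have h1 : Orthonormal ℝ (({0} : Set (Fin (n + 1))).domRestrict fun _ => u) := by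
      refine ⟨fun i => hu, ?_⟩
      intro i j hij
      exfalso
      apply hij
      have hi := i.2
      have hj := j.2
      rw [mem_singleton_iff] at hi hj
      exact Subtype.ext (hi.trans hj.symm)
    obtain ⟨b, hb⟩ := h1.exists_orthonormalBasis_extension_of_card_eq (by simp)
    exact ⟨b, hb 0 rfl⟩
  set K : ℤ := ⌈1 / τ⌉ with hK
  set m0 : ℤ := ⌊α / (τ * s)⌋ with hm0
  have hK0 : 0 ≤ K := Int.ceil_nonneg (by positivity)
  let t : E d → Fin (n + 1) → ℝ := fun y i => ⟪b i, π y⟫ / (τ * s)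
  let I : Fin (n + 1) → Finset ℤ := fun i => if i = 0 then Finset.Icc (m0 - 1) (m0 + 1) else
    Finset.Icc (-K) K
  let cells : Finset (Fin (n + 1) → ℤ) := Fintype.piFinset I
  let Gm : (Fin (n + 1) → ℤ) → Set (E d) := fun m => {y | y ∈ G ∧ ∀ i, ⌊t y i⌋ = m i}
  have hcov : G ⊆ ⋃ m ∈ cells, Gm m := by
    intro y hy
    refine mem_iUnion₂.mpr ⟨fun i => ⌊t y i⌋, ?_, hy, fun i => rfl⟩
    rw [Fintype.mem_piFinset]
    intro i
    by_cases hi : i = 0
    · subst hi
      simp only [I, if_true, Finset.mem_Icc]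
      have h1 := abs_le.mp (hG2 y hy)
      have h2 : t y 0 = ⟪u, π y⟫ / (τ * s) := by simp only [t, hb]
      have h3 : α / (τ * s) - 1 ≤ t y 0 := by
        rw [h2, div_sub_one hτs.ne', div_le_div_iff_of_pos_right hτs]
        linarith
      have h4 : t y 0 ≤ α / (τ * s) + 1 := by
        rw [h2, div_add_one hτs.ne', div_le_div_iff_of_pos_right hτs]
        linarith
      constructor
      · have := Int.floor_le_floor h3
        rwa [Int.floor_sub_one] at this
      · have := Int.floor_le_floor h4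
        rwa [Int.floor_add_one] at this
    · simp only [I, if_neg hi, Finset.mem_Icc]
      have h1 : |t y i| ≤ 1 / τ := by
        simp only [t]
        rw [abs_div, abs_of_pos hτs, div_le_div_iff₀ hτs hτ]
        have h2 : |⟪b i, π y⟫| ≤ ‖b i‖ * ‖π y‖ := abs_real_inner_le_norm _ _
        rw [b.norm_eq_one, one_mul] at h2
        have h3 := h2.trans (hG1 y hy)
        nlinarith only [hτ, h3]
      have h2 := abs_le.mp h1
      have h3 : 1 / τ ≤ K := Int.le_ceil _
      constructor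
      · rw [Int.le_floor]; push_cast; linarith
      · have h4 : (⌊t y i⌋ : ℝ) ≤ t y i := Int.floor_le _
        have h5 : (⌊t y i⌋ : ℝ) ≤ K := by linarith
        exact_mod_cast h5
  have hcard : (cells.card : ℝ) ≤ 3 * (5 / τ) ^ n := by
    have h1 : cells.card = 3 * (2 * K + 1).toNat ^ n := by
      simp only [cells, Fintype.card_piFinset, Fin.prod_univ_succ, I, if_true, Int.card_Icc]
      have h2 : (m0 + 1 + 1 - (m0 - 1)).toNat = 3 := by
        rw [show m0 + 1 + 1 - (m0 - 1) = 3 by ring]; rfl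
      have h3 : ∀ i : Fin n, (if i.succ = 0 then Finset.Icc (m0 - 1) (m0 + 1)
          else Finset.Icc (-K) K).card = (2 * K + 1).toNat := by
        intro i
        rw [if_neg (Fin.succ_ne_zero i), Int.card_Icc]
        congr 1
        ring
      rw [h2, Finset.prod_congr rfl (fun i _ => h3 i)]
      simp
    rw [h1]
    push_cast
    have h4 : (((2 * K + 1).toNat : ℕ) : ℝ) = 2 * K + 1 := by
      have h5 : (((2 * K + 1).toNat : ℕ) : ℤ) = 2 * K + 1 := Int.toNat_of_nonneg (by omega)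
      have h6 : ((((2 * K + 1).toNat : ℕ) : ℤ) : ℝ) = ((2 * K + 1 : ℤ) : ℝ) := by rw [h5]
      rw [Int.cast_natCast] at h6
      rw [h6]
      push_cast
      ring
    rw [h4]
    have h5 : (K : ℝ) ≤ 1 / τ + 1 := (Int.ceil_lt_add_one _).le
    have h6 : 1 ≤ 1 / τ := by rw [le_div_iff₀ hτ]; linarith
    have h7 : (2 * K + 1 : ℝ) ≤ 5 / τ := by
      have : 5 / τ = 5 * (1 / τ) := by ring
      rw [this]; linarith
    have h8 : (0 : ℝ) ≤ 2 * K + 1 := by
      have : (0 : ℝ) ≤ K := by exact_mod_cast hK0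
      linarith
    gcongr
  have hcell : ∀ m, ν (Gm m) ≤ ENNReal.ofReal (C * ((2 * n + 4) * (τ * s)) ^ (n + 1)) := by
    intro m
    by_cases hne : (Gm m).Nonempty
    · obtain ⟨y, hy⟩ := hne
      refine (measure_mono ?_).trans (hU.2 y ((2 * n + 4) * (τ * s)) (by positivity))
      intro y' hy'
      rw [mem_closedBall, dist_eq_norm]
      refine (hG3 y' hy'.1 y hy.1).trans ?_
      have h1 : ‖π y' - π y‖ ≤ (n + 1) * (τ * s) := by
        have h2 : ‖π y' - π y‖ ^ 2 ≤ ((n + 1) * (τ * s)) ^ 2 := by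
          rw [← b.sum_sq_norm_inner_right (π y' - π y)]
          have h3 : ∀ i ∈ (Finset.univ : Finset (Fin (n + 1))), ‖⟪b i, π y' - π y⟫‖ ^ 2 ≤
              (τ * s) ^ 2 := by
            intro i _
            have h4 : |t y' i - t y i| ≤ 1 := by
              have e1 := hy'.2 i
              have e2 := hy.2 i
              have f1 : (⌊t y' i⌋ : ℝ) ≤ t y' i := Int.floor_le _
              have f2 : t y' i < ⌊t y' i⌋ + 1 := Int.lt_floor_add_one _
              have f3 : (⌊t y i⌋ : ℝ) ≤ t y i := Int.floor_le _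
              have f4 : t y i < ⌊t y i⌋ + 1 := Int.lt_floor_add_one _
              rw [e1] at f1 f2
              rw [e2] at f3 f4
              rw [abs_le]
              constructor <;> linarith
            have h5 : ⟪b i, π y' - π y⟫ = (t y' i - t y i) * (τ * s) := by
              simp only [t]
              rw [inner_sub_right]
              field_simp
            rw [h5, norm_mul, Real.norm_eq_abs, Real.norm_eq_abs, abs_of_pos hτs]
            refine pow_le_pow_left₀ (by positivity) ?_ 2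
            nlinarith only [hτs, h4]
          refine (Finset.sum_le_sum h3).trans ?_
          simp only [Finset.sum_const, Finset.card_univ, Fintype.card_fin, nsmul_eq_mul]
          push_cast
          rw [mul_pow ((n : ℝ) + 1)]
          have h6 : ((n : ℝ) + 1) ≤ (n + 1) ^ 2 := by nlinarith only [Nat.cast_nonneg (α := ℝ) n]
          exact mul_le_mul_of_nonneg_right h6 (by positivity)
        exact le_of_sq_le_sq h2 (by positivity)
      linarith only [h1]
    · rw [not_nonempty_iff_eq_empty.mp hne, measure_empty]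
      exact zero_le
  calc ν G ≤ ν (⋃ m ∈ cells, Gm m) := measure_mono hcov
    _ ≤ ∑ m ∈ cells, ν (Gm m) := measure_biUnion_finset_le _ _
    _ ≤ ∑ m ∈ cells, ENNReal.ofReal (C * ((2 * n + 4) * (τ * s)) ^ (n + 1)) :=
        Finset.sum_le_sum fun m _ => hcell m
    _ = ENNReal.ofReal (cells.card * (C * ((2 * n + 4) * (τ * s)) ^ (n + 1))) := by
        rw [Finset.sum_const, nsmul_eq_mul, ENNReal.ofReal_mul (Nat.cast_nonneg _),
          ENNReal.ofReal_natCast]
    _ ≤ ENNReal.ofReal (3 * 5 ^ n * C * (2 * n + 4) ^ (n + 1) * τ * s ^ (n + 1)) := by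
        apply ENNReal.ofReal_le_ofReal
        calc (cells.card : ℝ) * (C * ((2 * n + 4) * (τ * s)) ^ (n + 1))
            ≤ (3 * (5 / τ) ^ n) * (C * ((2 * n + 4) * (τ * s)) ^ (n + 1)) := by gcongr
          _ = 3 * 5 ^ n * C * (2 * n + 4) ^ (n + 1) * τ * s ^ (n + 1) := by
              rw [mul_pow, mul_pow, div_pow, pow_succ τ n]
              field_simp

theorem planes_markov {d : ℕ} {ν : Measure (E d)} {B : Set (E d)} (hB : MeasurableSet B)
    {f : E d → ℝ} (hf0 : ∀ y, 0 ≤ f y) (hf : IntegrableOn f B ν) (t : ℝ) :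
    t * ν.real {y | y ∈ B ∧ t ≤ f y} ≤ ∫ y in B, f y ∂ν := by
  have h1 := mul_meas_ge_le_integral_of_nonneg (μ := ν.restrict B)
    (Eventually.of_forall hf0) hf t
  have h2 : (ν.restrict B).real {y | t ≤ f y} = ν.real {y | y ∈ B ∧ t ≤ f y} := by
    rw [measureReal_restrict_apply' hB]
    congr 1
    ext y
    exact and_comm
  rwa [h2] at h1

theorem planes_integrableOn {d n : ℕ} {ν : Measure (E d)} {C : ℝ} (hU : UB n ν C)
    {f : E d → ℝ} (hf : Continuous f) (x : E d) (s : ℝ) : IntegrableOn f (ball x s) ν := by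
  have := hU.isLocallyFinite
  have h1 : IntegrableOn f (closedBall x s) ν :=
    hf.locallyIntegrable.integrableOn_isCompact (isCompact_closedBall x s)
  exact h1.mono_set ball_subset_closedBall

/-- Non-degeneracy: the coordinates of a measure close to an `n`-plane are not concentrated near
a hyperplane. -/
theorem planes_scalar (n : ℕ) (hn : 1 ≤ n) (C c : ℝ) (hC : 0 < C) (hc : 0 < c) :
    ∃ θ : ℝ, 0 < θ ∧ ∃ ε3 : ℝ, 0 < ε3 ∧ ∀ (d : ℕ) (ν : Measure (E d)), UB n ν C →
      ∀ (x : E d) (s : ℝ), 0 < s → x ∈ ν.support → LBloc n ν c x s →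
      ∀ (U : E n →ₗᵢ[ℝ] E d) (M : E n →L[ℝ] E d) (b : E d) (ε : ℝ), ‖M‖ ≤ 1 → 0 ≤ ε → ε ≤ ε3 →
      ∫ y in ball x s, ‖hgt U M b y‖ ^ 2 ∂ν ≤ ε ^ 2 * s ^ (n + 2) →
      ∀ (g : E n) (a : ℝ), θ * s ^ n * (‖g‖ * s + |a|) ^ 2 ≤
        ∫ y in ball x s, (⟪g, adjU U (y - x)⟫ + a) ^ 2 ∂ν := by
  obtain ⟨m, rfl⟩ : ∃ m, n = m + 1 := ⟨n - 1, by omega⟩
  obtain ⟨C2, hC2, hslab⟩ := planes_slab m C hC
  set τ : ℝ := min 1 (c / (4 * C2)) with hτdef
  have hτ0 : 0 < τ := lt_min one_pos (by positivity)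
  have hτ1 : τ ≤ 1 := min_le_left _ _
  have hτ2 : C2 * τ ≤ c / 4 := by
    have h1 : τ ≤ c / (4 * C2) := min_le_right _ _
    calc C2 * τ ≤ C2 * (c / (4 * C2)) := by gcongr
      _ = c / 4 := by field_simp
  set e1 : ℝ := min 1 c with he1
  have he10 : 0 < e1 := lt_min one_pos hc
  have he11 : e1 ≤ 1 := min_le_left _ _
  have he1c : e1 ≤ c := min_le_right _ _
  refine ⟨(τ / 4) ^ 2 * (c / 2), by positivity, τ * e1 / 2, by positivity, ?_⟩
  intro d ν hU x s hs hx hL U M b ε hM hε0 hε hint g a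
  have hsn : 0 < s ^ (m + 1) := by positivity
  set Λ : ℝ := ‖g‖ * s + |a| with hΛdef
  have hg0 := norm_nonneg g
  have ha0 := abs_nonneg a
  have hΛ0 : 0 ≤ Λ := by positivity
  rcases hΛ0.eq_or_lt with hΛ | hΛ
  · rw [← hΛ]
    simp only [ne_eq, OfNat.ofNat_ne_zero, not_false_eq_true, zero_pow, mul_zero]
    exact integral_nonneg fun y => sq_nonneg _
  set ℓ : E d → ℝ := fun y => ⟪g, adjU U (y - x)⟫ + a with hℓ
  have hℓc : Continuous ℓ := by
    simp only [hℓ]
    fun_prop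
  have hhc := continuous_hgt U M b
  have hτs : 0 < τ * s := mul_pos hτ0 hs
  set G1 : Set (E d) := {y | y ∈ ball x s ∧ ‖hgt U M b y‖ ≤ τ * s ∧ |ℓ y| ≤ τ / 4 * Λ} with hG1
  set G2 : Set (E d) := {y | y ∈ ball x s ∧ (τ * s) ^ 2 ≤ ‖hgt U M b y‖ ^ 2} with hG2
  set G3 : Set (E d) := {y | y ∈ ball x s ∧ (τ / 4 * Λ) ^ 2 ≤ ℓ y ^ 2} with hG3
  have hcov : ball x s ⊆ G1 ∪ (G2 ∪ G3) := by
    intro y hy
    by_cases h2 : (τ * s) ^ 2 ≤ ‖hgt U M b y‖ ^ 2
    · exact Or.inr (Or.inl ⟨hy, h2⟩)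
    by_cases h3 : (τ / 4 * Λ) ^ 2 ≤ ℓ y ^ 2
    · exact Or.inr (Or.inr ⟨hy, h3⟩)
    refine Or.inl ⟨hy, ?_, ?_⟩
    · by_contra h
      push Not at h
      exact h2 (pow_le_pow_left₀ hτs.le h.le 2)
    · by_contra h
      push Not at h
      apply h3
      rw [← sq_abs (ℓ y)]
      exact pow_le_pow_left₀ (by positivity) h.le 2
  have hfin : ∀ S : Set (E d), S ⊆ ball x s → ν S ≠ ⊤ := fun S hS =>
    ((measure_mono hS).trans_lt (hU.ball_lt_top x s)).ne
  have hG1s : G1 ⊆ ball x s := fun y hy => hy.1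
  have hG2s : G2 ⊆ ball x s := fun y hy => hy.1
  have hG3s : G3 ⊆ ball x s := fun y hy => hy.1
  -- total mass
  have hB : c * s ^ (m + 1) ≤ ν.real (ball x s) := by
    have h1 := hL x hx (by rw [sub_self, norm_zero]; exact hs.le) s hs le_rfl
    rw [ENNReal.ofReal_le_iff_le_toReal (hfin _ subset_rfl)] at h1
    exact h1
  have hsum : ν.real (ball x s) ≤ ν.real G1 + (ν.real G2 + ν.real G3) := by
    have hf23 : ν (G2 ∪ G3) ≠ ⊤ := hfin _ (union_subset hG2s hG3s)
    have hf123 : ν (G1 ∪ (G2 ∪ G3)) ≠ ⊤ :=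
      hfin _ (union_subset hG1s (union_subset hG2s hG3s))
    calc ν.real (ball x s) ≤ ν.real (G1 ∪ (G2 ∪ G3)) := measureReal_mono hcov hf123
      _ ≤ ν.real G1 + ν.real (G2 ∪ G3) := measureReal_union_le _ _
      _ ≤ ν.real G1 + (ν.real G2 + ν.real G3) := by
          gcongr
          exact measureReal_union_le _ _
  -- the bad set of large heights
  have hb2 : ν.real G2 ≤ c / 4 * s ^ (m + 1) := by
    have h1 := planes_markov measurableSet_ball (fun y => sq_nonneg ‖hgt U M b y‖)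
      (planes_integrableOn hU (by fun_prop) x s) ((τ * s) ^ 2)
    have h2 : (τ * s) ^ 2 * ν.real G2 ≤ ε ^ 2 * s ^ (m + 1 + 2) := h1.trans hint
    have h3 : ε ^ 2 ≤ (τ * e1 / 2) ^ 2 := pow_le_pow_left₀ hε0 hε 2
    have h4 : (τ * e1 / 2) ^ 2 ≤ τ ^ 2 * (c / 4) := by
      have h5 : e1 ^ 2 ≤ c := by nlinarith only [he10, he11, he1c]
      nlinarith only [sq_nonneg τ, h5]
    have h6 : (τ * s) ^ 2 * ν.real G2 ≤ (τ * s) ^ 2 * (c / 4 * s ^ (m + 1)) := by
      calc (τ * s) ^ 2 * ν.real G2 ≤ ε ^ 2 * s ^ (m + 1 + 2) := h2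
        _ ≤ (τ ^ 2 * (c / 4)) * s ^ (m + 1 + 2) := by
            gcongr
            exact h3.trans h4
        _ = (τ * s) ^ 2 * (c / 4 * s ^ (m + 1)) := by ring
    exact le_of_mul_le_mul_left h6 (by positivity)
  -- the slab
  have hb1 : ν.real G1 ≤ c / 4 * s ^ (m + 1) := by
    by_cases hcase : ‖g‖ * s ≤ |a| / 2
    · -- empty
      have hempty : G1 = ∅ := by
        rw [eq_empty_iff_forall_notMem]
        rintro y ⟨hy, -, hy3⟩
        have h1 : |⟪g, adjU U (y - x)⟫| ≤ ‖g‖ * s := by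
          refine (abs_real_inner_le_norm _ _).trans ?_
          gcongr
          refine (norm_adjU_le U _).trans ?_
          rw [mem_ball, dist_eq_norm] at hy
          exact hy.le
        have h2 : |a| ≤ |ℓ y| + |⟪g, adjU U (y - x)⟫| := by
          have h3 : a = ℓ y - ⟪g, adjU U (y - x)⟫ := by simp only [hℓ]; ring
          calc |a| = |ℓ y - ⟪g, adjU U (y - x)⟫| := by rw [← h3]
            _ ≤ _ := abs_sub _ _
        have h4 : τ / 4 * Λ ≤ 1 / 4 * Λ := by
          refine mul_le_mul_of_nonneg_right ?_ hΛ0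
          linarith
        rw [hΛdef] at hΛ h4 hy3
        linarith
      rw [hempty, measureReal_empty]
      positivity
    · push Not at hcase
      have hgs : 0 < ‖g‖ * s := by linarith
      have hgpos : 0 < ‖g‖ := by
        by_contra h
        push Not at h
        have : ‖g‖ = 0 := le_antisymm h hg0
        rw [this, zero_mul] at hgs
        exact lt_irrefl _ hgs
      have h := hslab d ν hU (fun y => adjU U (y - x)) G1 (‖g‖⁻¹ • g) (-a / ‖g‖) s τ
        (by rw [norm_smul, norm_inv, norm_norm, inv_mul_cancel₀ hgpos.ne']) hs hτ0 hτ1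
        (by
          intro y hy
          refine (norm_adjU_le U _).trans ?_
          have := hy.1
          rw [mem_ball, dist_eq_norm] at this
          exact this.le)
        (by
          intro y hy
          have h1 : ⟪‖g‖⁻¹ • g, adjU U (y - x)⟫ - -a / ‖g‖ = ℓ y / ‖g‖ := by
            rw [real_inner_smul_left]
            simp only [hℓ]
            field_simp
            ring
          rw [h1, abs_div, abs_of_pos hgpos, div_le_iff₀ hgpos]
          refine hy.2.2.trans ?_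
          rw [hΛdef]
          nlinarith only [hs, hτs, hcase, hgs])
        (by
          intro y hy y' hy'
          have h1 := hgt_sub U M b y y'
          have h2 : y - y' = (hgt U M b y - hgt U M b y') + U (adjU U (y - y')) +
              M (adjU U (y - y')) := by rw [h1]; abel
          have h3 : adjU U (y - x) - adjU U (y' - x) = adjU U (y - y') := by
            rw [← map_sub]; congr 1; abel
          rw [h3]
          have h4 : ‖M (adjU U (y - y'))‖ ≤ ‖adjU U (y - y')‖ := by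
            calc ‖M (adjU U (y - y'))‖ ≤ ‖M‖ * ‖adjU U (y - y')‖ := M.le_opNorm _
              _ ≤ 1 * ‖adjU U (y - y')‖ := by gcongr
              _ = _ := one_mul _
          have h5 : ‖U (adjU U (y - y'))‖ = ‖adjU U (y - y')‖ := U.norm_map _
          calc ‖y - y'‖ = ‖(hgt U M b y - hgt U M b y') + U (adjU U (y - y')) +
              M (adjU U (y - y'))‖ := by rw [← h2]
            _ ≤ ‖hgt U M b y - hgt U M b y'‖ + ‖U (adjU U (y - y'))‖ +
              ‖M (adjU U (y - y'))‖ := norm_add₃_le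
            _ ≤ (‖hgt U M b y‖ + ‖hgt U M b y'‖) + ‖adjU U (y - y')‖ +
              ‖adjU U (y - y')‖ := by
                rw [h5]
                gcongr
                exact norm_sub_le _ _
            _ ≤ 2 * (τ * s) + 2 * ‖adjU U (y - y')‖ := by
                have h6 := hy.2.1
                have h7 := hy'.2.1
                linarith)
      have h1 : ν.real G1 ≤ C2 * τ * s ^ (m + 1) := by
        unfold Measure.real
        exact ENNReal.toReal_le_of_le_ofReal (by positivity) h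
      refine h1.trans ?_
      gcongr
  have hb3 : c / 2 * s ^ (m + 1) ≤ ν.real G3 := by linarith
  have h1 := planes_markov measurableSet_ball (fun y => sq_nonneg (ℓ y))
      (planes_integrableOn hU (by fun_prop) x s) ((τ / 4 * Λ) ^ 2)
  refine le_trans ?_ h1
  calc (τ / 4) ^ 2 * (c / 2) * s ^ (m + 1) * Λ ^ 2
      = (τ / 4 * Λ) ^ 2 * (c / 2 * s ^ (m + 1)) := by ring
    _ ≤ (τ / 4 * Λ) ^ 2 * ν.real G3 := by gcongr

theorem plane_comparison (n d : ℕ) (hn : 1 ≤ n) (C c : ℝ) (hC : 0 < C) (hc : 0 < c) (A : ℝ)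
    (hA : 1 ≤ A) :
    ∃ Cp : ℝ, 0 < Cp ∧ ∃ ε3 : ℝ, 0 < ε3 ∧ ∀ (ν : Measure (E d)), UB n ν C →
      ∀ (x x' : E d) (s : ℝ), 0 < s → ‖x - x'‖ ≤ A * s → x ∈ ν.support → LBloc n ν c x s →
      ∀ (U : E n →ₗᵢ[ℝ] E d) (M M' : E n →L[ℝ] E d) (b b' : E d) (ε ε' : ℝ), ‖M‖ ≤ 1 → ‖M'‖ ≤ 1 →
      Perp U M b → Perp U M' b' → 0 ≤ ε → ε ≤ ε3 → 0 ≤ ε' → ε' ≤ ε3 →
      Growth n ν x s U M b ε → Growth n ν x' s U M' b' ε' →
      ∀ v : E n, ‖v - adjU U x‖ ≤ A * s → ‖(M v + b) - (M' v + b')‖ ≤ Cp * (ε + ε') * s := by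
  obtain ⟨θ, hθ, ε3, hε3, hsc⟩ := planes_scalar n hn C c hC hc
  have hA0 : 0 < A := by linarith
  set Q : ℝ := 2 * (A + 1) ^ (n + 3) with hQ
  have hQ0 : 0 < Q := by positivity
  set T : ℝ := Real.sqrt (Q / θ) with hT
  have hT0 : 0 < T := Real.sqrt_pos.mpr (by positivity)
  have hT2 : T ^ 2 = Q / θ := Real.sq_sqrt (by positivity)
  refine ⟨A * T, by positivity, ε3, hε3, ?_⟩
  intro ν hU x x' s hs hxx hx hL U M M' b b' ε ε' hM hM' hP hP' hε0 hε hε0' hε' hG hG' v hv
  have hsn : 0 < s ^ n := by positivity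
  -- the integral of the heights over `ball x s`
  have hi1 : ∫ y in ball x s, ‖hgt U M b y‖ ^ 2 ∂ν ≤ ε ^ 2 * s ^ (n + 2) := by
    refine (hG s le_rfl).trans (le_of_eq ?_)
    rw [div_eq_iff hs.ne']
    ring
  have hi2 : ∫ y in ball x s, ‖hgt U M' b' y‖ ^ 2 ∂ν ≤
      ε' ^ 2 * (A + 1) ^ (n + 3) * s ^ (n + 2) := by
    have h1 := hG' ((A + 1) * s) (by nlinarith only [hA0, hs])
    have h2 : ball x s ⊆ ball x' ((A + 1) * s) := by
      intro y hy
      rw [mem_ball, dist_eq_norm] at hy ⊢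
      have h3 := norm_sub_le_norm_sub_add_norm_sub y x x'
      linarith
    have hc' := continuous_hgt U M' b'
    have h3 : ∫ y in ball x s, ‖hgt U M' b' y‖ ^ 2 ∂ν ≤
        ∫ y in ball x' ((A + 1) * s), ‖hgt U M' b' y‖ ^ 2 ∂ν :=
      setIntegral_mono_set (planes_integrableOn hU (by fun_prop) x' _)
        (Eventually.of_forall fun y => sq_nonneg _) (Eventually.of_forall h2)
    refine h3.trans (h1.trans (le_of_eq ?_))
    rw [div_eq_iff hs.ne', mul_pow]
    ring
  set L : E n → E d := fun w => (M w + b) - (M' w + b') with hLdef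
  have hLy : ∀ y, L (adjU U y) = hgt U M' b' y - hgt U M b y := by
    intro y
    simp only [hLdef, hgt]
    abel
  -- the scalar function
  set e : E d := L v with he
  by_cases he0 : e = 0
  · have : ‖e‖ = 0 := by rw [he0, norm_zero]
    rw [this]
    positivity
  have hepos : 0 < ‖e‖ := norm_pos_iff.mpr he0
  set g : E n := ContinuousLinearMap.adjoint (M - M') e with hg
  set a : ℝ := ⟪e, L (adjU U x)⟫ with ha
  have hgin : ∀ w, ⟪g, w⟫ = ⟪e, (M - M') w⟫ := fun w => by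
    rw [hg, ContinuousLinearMap.adjoint_inner_left]
  have hLaff : ∀ w, L w = (M - M') (w - adjU U x) + L (adjU U x) := by
    intro w
    simp only [hLdef, sub_apply, map_sub]
    abel
  have hscal : ∀ w, ⟪g, w - adjU U x⟫ + a = ⟪e, L w⟫ := by
    intro w
    rw [hgin, ha, ← inner_add_right, ← hLaff]
  have hkey := hsc d ν hU x s hs hx hL U M b ε hM hε0 hε hi1 g a
  have hc1 := continuous_hgt U M b
  have hc2 := continuous_hgt U M' b'
  have hub : ∫ y in ball x s, (⟪g, adjU U (y - x)⟫ + a) ^ 2 ∂ν ≤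
      ‖e‖ ^ 2 * (Q * (ε + ε') ^ 2 * s ^ (n + 2)) := by
    have hint1 : IntegrableOn (fun y => ‖hgt U M b y‖ ^ 2) (ball x s) ν :=
      planes_integrableOn hU (by fun_prop) x s
    have hint2 : IntegrableOn (fun y => ‖hgt U M' b' y‖ ^ 2) (ball x s) ν :=
      planes_integrableOn hU (by fun_prop) x s
    have h1 : ∫ y in ball x s, (⟪g, adjU U (y - x)⟫ + a) ^ 2 ∂ν ≤
        ∫ y in ball x s, ‖e‖ ^ 2 * (2 * ‖hgt U M' b' y‖ ^ 2 + 2 * ‖hgt U M b y‖ ^ 2) ∂ν := by
      refine setIntegral_mono (planes_integrableOn hU (by fun_prop) x s)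
        (((hint2.const_mul 2).add (hint1.const_mul 2)).const_mul _) fun y => ?_
      simp only
      rw [map_sub, hscal, hLy]
      have h2 : |⟪e, hgt U M' b' y - hgt U M b y⟫| ≤
          ‖e‖ * (‖hgt U M' b' y‖ + ‖hgt U M b y‖) :=
        (abs_real_inner_le_norm _ _).trans (by gcongr; exact norm_sub_le _ _)
      rw [← sq_abs]
      refine (pow_le_pow_left₀ (abs_nonneg _) h2 2).trans ?_
      rw [mul_pow]
      refine mul_le_mul_of_nonneg_left ?_ (sq_nonneg _)
      linarith only [sq_nonneg (‖hgt U M' b' y‖ - ‖hgt U M b y‖)]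
    refine h1.trans ?_
    rw [integral_const_mul, integral_add (hint2.const_mul 2) (hint1.const_mul 2),
      integral_const_mul, integral_const_mul]
    refine mul_le_mul_of_nonneg_left ?_ (sq_nonneg _)
    have h3 : (1 : ℝ) ≤ (A + 1) ^ (n + 3) := one_le_pow₀ (by linarith)
    have h4 : 0 < s ^ (n + 2) := by positivity
    have h5 : ε ^ 2 * s ^ (n + 2) ≤ ε ^ 2 * (A + 1) ^ (n + 3) * s ^ (n + 2) := by
      have : ε ^ 2 ≤ ε ^ 2 * (A + 1) ^ (n + 3) := le_mul_of_one_le_right (sq_nonneg _) h3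
      gcongr
    have h6 : ε ^ 2 + ε' ^ 2 ≤ (ε + ε') ^ 2 := by linarith only [mul_nonneg hε0 hε0']
    calc 2 * ∫ y in ball x s, ‖hgt U M' b' y‖ ^ 2 ∂ν + 2 * ∫ y in ball x s, ‖hgt U M b y‖ ^ 2 ∂ν
        ≤ 2 * (ε' ^ 2 * (A + 1) ^ (n + 3) * s ^ (n + 2)) +
          2 * (ε ^ 2 * (A + 1) ^ (n + 3) * s ^ (n + 2)) := by linarith
      _ = Q * (ε ^ 2 + ε' ^ 2) * s ^ (n + 2) := by rw [hQ]; ring
      _ ≤ Q * (ε + ε') ^ 2 * s ^ (n + 2) := by gcongr
  have hΛ : ‖g‖ * s + |a| ≤ ‖e‖ * (T * (ε + ε') * s) := by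
    have h1 := hkey.trans hub
    have h2 : (‖g‖ * s + |a|) ^ 2 ≤ (‖e‖ * (T * (ε + ε') * s)) ^ 2 := by
      have h3 : θ * s ^ n * (‖g‖ * s + |a|) ^ 2 ≤
          θ * s ^ n * (‖e‖ * (T * (ε + ε') * s)) ^ 2 := by
        refine h1.trans (le_of_eq ?_)
        rw [mul_pow, mul_pow, mul_pow, hT2]
        field_simp
        ring
      exact le_of_mul_le_mul_left h3 (by positivity)
    exact le_of_sq_le_sq h2 (by positivity)
  have hfin : ‖e‖ ^ 2 ≤ ‖e‖ * (A * T * (ε + ε') * s) := by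
    have h1 : ‖e‖ ^ 2 = ⟪g, v - adjU U x⟫ + a := by
      rw [hscal, ← he, real_inner_self_eq_norm_sq]
    have h2 : ⟪g, v - adjU U x⟫ ≤ ‖g‖ * (A * s) :=
      (real_inner_le_norm _ _).trans (by gcongr)
    have h3 : a ≤ A * |a| := (le_abs_self a).trans (le_mul_of_one_le_left (abs_nonneg a) hA)
    calc ‖e‖ ^ 2 ≤ A * (‖g‖ * s + |a|) := by rw [h1]; linarith
      _ ≤ A * (‖e‖ * (T * (ε + ε') * s)) := by gcongr
      _ = ‖e‖ * (A * T * (ε + ε') * s) := by ring
  have hfin' : ‖e‖ * ‖e‖ ≤ ‖e‖ * (A * T * (ε + ε') * s) := by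
    rw [← sq]; exact hfin
  exact le_of_mul_le_mul_left hfin' hepos

end Vale.Agent.P120
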