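import Vale.Agent.Lib.P120.UR.TiltCore
import Vale.Agent.Lib.P120.UR.RegimeGraph
import Vale.Agent.Lib.P120.UR.Planes

/-!
P120, module Tilt: packing of the nodes stopped because of the tilt.
-/

open MeasureTheory Filter Set Metric Module
open scoped Topology ENNReal NNReal RealInnerProductSpace

set_option linter.unusedSectionVars false
set_option linter.unusedVariables false

namespace Vale.Agent.P120

namespace TiltAux

variable {d n : ℕ}

/-! ### linear algebra -/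

theorem exists_dir {κ : ℝ} (hκ : 0 < κ) (L : E n →L[ℝ] E d) (hL : κ / 2 < ‖L‖) :
    ∃ i : Fin n, κ / (2 * √n) ≤ ‖L (EuclideanSpace.single i (1 : ℝ))‖ := by
  by_contra hcon
  push Not at hcon
  refine absurd hL (not_lt.2 ?_)
  refine L.opNorm_le_bound (by positivity) fun v => ?_
  have hn : 0 < n := by
    rcases Nat.eq_zero_or_pos n with h | h
    · exfalso
      subst h
      have hz : ‖L‖ ≤ 0 := L.opNorm_le_bound le_rfl fun v => by
        have : v = 0 := Subsingleton.elim _ _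
        rw [this, map_zero, norm_zero, norm_zero, mul_zero]
      linarith
    · exact h
  have hn' : (0 : ℝ) < n := by exact_mod_cast hn
  have hv : v = ∑ i, v i • EuclideanSpace.single i (1 : ℝ) := by
    ext j
    simp [Pi.single_apply]
  have h1 : ‖L v‖ ≤ ∑ i, |v i| * (κ / (2 * √n)) := by
    conv_lhs => rw [hv]
    rw [map_sum]
    refine (norm_sum_le _ _).trans (Finset.sum_le_sum fun i _ => ?_)
    rw [map_smul, norm_smul, Real.norm_eq_abs]
    exact mul_le_mul_of_nonneg_left (hcon i).le (abs_nonneg _)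
  have h2 : ∑ i, |v i| ≤ √n * ‖v‖ := by
    have h3 : (∑ i, |v i|) ^ 2 ≤ n * ∑ i, |v i| ^ 2 := by
      have := sq_sum_le_card_mul_sum_sq (s := (Finset.univ : Finset (Fin n))) (f := fun i => |v i|)
      simpa using this
    have h4 : ∑ i, |v i| ^ 2 = ‖v‖ ^ 2 := by
      rw [EuclideanSpace.norm_sq_eq]
      simp
    rw [h4] at h3
    refine Real.le_sqrt_of_sq_le h3 |>.trans ?_
    rw [Real.sqrt_mul (by positivity), Real.sqrt_sq (norm_nonneg _)]
  rw [← Finset.sum_mul] at h1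
  have hsn : 0 < √(n : ℝ) := Real.sqrt_pos.2 hn'
  calc ‖L v‖ ≤ (∑ i, |v i|) * (κ / (2 * √n)) := h1
    _ ≤ (√n * ‖v‖) * (κ / (2 * √n)) := mul_le_mul_of_nonneg_right h2 (by positivity)
    _ = κ / 2 * ‖v‖ := by field_simp

/-- a point over `v` as close as possible to `q` -/
theorem exists_lift (U : E n →ₗᵢ[ℝ] E d) (q : E d) (v : E n) :
    ∃ y : E d, adjU U y = v ∧ ‖y - q‖ = ‖v - adjU U q‖ := by
  refine ⟨q + U (v - adjU U q), ?_, ?_⟩
  · rw [map_add, adjU_U]
    abel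
  · rw [add_sub_cancel_left, U.norm_map]

theorem ell_sub_le (U : E n →ₗᵢ[ℝ] E d) (M M' : E n →L[ℝ] E d) (b b' q : E d) (v : E n)
    {B : ℝ → ℝ} (h : ∀ y, ‖hgt U M' b' y - hgt U M b y‖ ≤ B ‖y - q‖) :
    ‖(M' v + b') - (M v + b)‖ ≤ B ‖v - adjU U q‖ := by
  obtain ⟨y, hy1, hy2⟩ := exists_lift U q v
  have h1 := h y
  rw [hy2] at h1
  have e1 : hgt U M' b' y - hgt U M b y = -((M' v + b') - (M v + b)) := by
    unfold hgt
    rw [hy1]
    abel
  rwa [e1, norm_neg] at h1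

/-! ### the tree -/

section Tree

variable {C c lam C1 κ ε1 D s0 : ℝ} {μ : Measure (E d)} {x0 : E d} {N : ℕ}
  {T : Nets μ x0 s0 lam N} {k0 : ℕ} {p0 : E d}
  (G : Regime n (μ.restrict (closedBall x0 D)) T C1 ε1 κ k0 p0)

/-- the affine function of a node -/
noncomputable def ell (k : ℕ) (q : E d) (v : E n) : E d := G.M k q v + G.b k q

/-- active ancestors -/
theorem anc (hs0 : 0 < s0) (hlam : 0 < lam) (hlam1 : lam ≤ 1 / 64) (i : ℕ) :
    ∀ (j : ℕ) (q : E d), k0 ≤ j → G.Act (j + i) q →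
      ∃ p, G.Act j p ∧ ‖q - p‖ ≤ 64 / 63 * (s0 * lam ^ j - s0 * lam ^ (j + i)) := by
  induction i with
  | zero => intro j q _ hq; exact ⟨q, hq, by simp⟩
  | succ i ih =>
    intro j q hj hq
    have hlev := G.act_level _ _ hq
    have hpar := G.act_par (j + i) q (by omega) hq
    obtain ⟨p, hp, hqp⟩ := ih j _ hj hpar
    refine ⟨p, hp, ?_⟩
    have h1 : ‖q - T.par (j + i) q‖ < s0 * lam ^ (j + i) :=
      T.par_dist (j + i) (by omega) q hlev.2.2
    have h2 : ‖q - p‖ ≤ ‖q - T.par (j + i) q‖ + ‖T.par (j + i) q - p‖ := by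
      have := norm_add_le (q - T.par (j + i) q) (T.par (j + i) q - p)
      simpa using this
    have h3 : s0 * lam ^ (j + (i + 1)) ≤ 1 / 64 * (s0 * lam ^ (j + i)) := by
      have : 0 < s0 * lam ^ (j + i) := by positivity
      rw [← add_assoc, pow_succ]
      nlinarith only [hlam1, this]
    linarith

/-- distance to the root of the regime -/
theorem dist_root (hs0 : 0 < s0) (hlam : 0 < lam) (hlam1 : lam ≤ 1 / 64) {k : ℕ} {q : E d}
    (hq : G.Act k q) : ‖q - p0‖ ≤ 64 / 63 * (s0 * lam ^ k0 - s0 * lam ^ k) := by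
  obtain ⟨i, rfl⟩ := Nat.exists_eq_add_of_le (G.act_level _ _ hq).1
  obtain ⟨p, hp, h⟩ := anc G hs0 hlam hlam1 i k0 q le_rfl hq
  rw [G.act_top p hp] at h
  exact h

theorem up_act (i : ℕ) : ∀ (j : ℕ) (q : E d), k0 ≤ j → G.Act (j + i) q →
    G.Act j (up T.par j i q) := by
  induction i with
  | zero => intro j q _ hq; exact hq
  | succ i ih =>
    intro j q hj hq
    exact ih j _ hj (G.act_par (j + i) q (by omega) hq)

/-- telescoping along the ancestors -/
theorem chain (hs0 : 0 < s0) (hlam : 0 < lam) (hlam1 : lam ≤ 1 / 64) (hC1 : 1 ≤ C1) (v : E n)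
    (ev : ℕ → ℝ) (hev : ∀ t q, G.Act t q → ‖v - adjU G.U q‖ ≤ 3 * (s0 * lam ^ t) → G.ε t q ≤ ev t)
    (i : ℕ) : ∀ (j : ℕ) (q : E d), k0 ≤ j → G.Act (j + i) q →
      ‖v - adjU G.U q‖ ≤ 3 * (s0 * lam ^ (j + i)) →
      ∃ p, G.Act j p ∧ ‖v - adjU G.U p‖ ≤ 3 * (s0 * lam ^ j) ∧
        ‖ell G (j + i) q v - ell G j p v‖ ≤
          4 * C1 / lam * ∑ t ∈ Finset.Ico (j + 1) (j + 1 + i), s0 * lam ^ t * ev t := by
  induction i with
  | zero =>
    intro j q _ hq hv
    exact ⟨q, hq, hv, by simp⟩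
  | succ i ih =>
    intro j q hj hq hv
    have hlev := G.act_level _ _ hq
    have hpar := G.act_par (j + i) q (by omega) hq
    have h1 : ‖q - T.par (j + i) q‖ < s0 * lam ^ (j + i) :=
      T.par_dist (j + i) (by omega) q hlev.2.2
    have hpos : 0 < s0 * lam ^ (j + i) := by positivity
    have hpos' : 0 < s0 * lam ^ (j + (i + 1)) := by positivity
    have hsucc : s0 * lam ^ (j + (i + 1)) = lam * (s0 * lam ^ (j + i)) := by
      rw [← add_assoc, pow_succ]; ring
    have h3 : s0 * lam ^ (j + (i + 1)) ≤ 1 / 64 * (s0 * lam ^ (j + i)) := by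
      rw [hsucc]; nlinarith only [hlam1, hpos]
    have h2 : ‖v - adjU G.U (T.par (j + i) q)‖ ≤ 3 * (s0 * lam ^ (j + i)) := by
      have e1 : v - adjU G.U (T.par (j + i) q) =
          (v - adjU G.U q) + adjU G.U (q - T.par (j + i) q) := by
        rw [map_sub]; abel
      rw [e1]
      refine (norm_add_le _ _).trans ?_
      have := norm_adjU_le G.U (q - T.par (j + i) q)
      linarith
    obtain ⟨p, hp, hp2, hp3⟩ := ih j _ hj hpar h2
    refine ⟨p, hp, hp2, ?_⟩
    have hst := (G.step (j + i) (by omega) q hlev.2.2 hpar (G.small _ _ hq).1).2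
    have h4 := ell_sub_le G.U _ _ _ _ q v (B := fun t =>
      C1 * G.ε (j + i + 1) q * (s0 * lam ^ (j + i) + t)) hst
    have hε0 := G.ε_nonneg (j + i + 1) q
    have hεle : G.ε (j + i + 1) q ≤ ev (j + i + 1) := hev _ _ hq hv
    have h5 : ‖ell G (j + (i + 1)) q v - ell G (j + i) (T.par (j + i) q) v‖ ≤
        4 * C1 / lam * (s0 * lam ^ (j + 1 + i) * ev (j + 1 + i)) := by
      have e2 : j + 1 + i = j + (i + 1) := by ring
      rw [e2]
      refine h4.trans ?_
      have h6 : s0 * lam ^ (j + i) + ‖v - adjU G.U q‖ ≤ 4 / lam * (s0 * lam ^ (j + (i + 1))) := by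
        have h7 : 4 / lam * (s0 * lam ^ (j + (i + 1))) = 4 * (s0 * lam ^ (j + i)) := by
          rw [hsucc]; field_simp
        rw [h7]
        linarith
      calc C1 * G.ε (j + i + 1) q * (s0 * lam ^ (j + i) + ‖v - adjU G.U q‖)
          ≤ C1 * ev (j + i + 1) * (4 / lam * (s0 * lam ^ (j + (i + 1)))) := by
            refine mul_le_mul ?_ h6 (by positivity) ?_
            · exact mul_le_mul_of_nonneg_left hεle (by linarith)
            · exact mul_nonneg (by linarith) (hε0.trans hεle)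
        _ = 4 * C1 / lam * (s0 * lam ^ (j + (i + 1)) * ev (j + (i + 1))) := by
            rw [← add_assoc]; ring
    have e3 : ell G (j + (i + 1)) q v - ell G j p v =
        (ell G (j + (i + 1)) q v - ell G (j + i) (T.par (j + i) q) v) +
          (ell G (j + i) (T.par (j + i) q) v - ell G j p v) := by abel
    rw [e3, ← add_assoc (j + 1) i 1, Finset.sum_Ico_succ_top (by omega), mul_add]
    refine (norm_add_le _ _).trans ?_
    linarith


/-- constants hypotheses: everything the regime needs -/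
theorem mem_ball_nodes (hs0 : 0 < s0) {k : ℕ} {q : E d}
    (hk : k ≤ N) (hq : q ∈ T.pts k) : q ∈ μ.support ∧ ‖q - x0‖ ≤ 8 * s0 := T.mem_supp k hk q hq

/-- two active nodes (or an active node and a point of the support) which project nearby -/
theorem near_nodes (hs0 : 0 < s0) (hlam : 0 < lam) (hlam1 : lam ≤ 1 / 64)
    (hgraph : ∀ (k : ℕ) (p : E d), G.Act k p → ∀ x ∈ μ.support, ∀ y ∈ μ.support,
      ‖x - p‖ ≤ 4 * (s0 * lam ^ k) → lam / 4 * (s0 * lam ^ k) ≤ ‖x - y‖ →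
      ‖x - y‖ ≤ 8 * (s0 * lam ^ k0) → ‖x - y‖ ≤ 2 * ‖adjU G.U (x - y)‖)
    {j : ℕ} {q q' : E d} (hq : G.Act j q) (hq' : G.Act j q') (v : E n)
    (hv : ‖v - adjU G.U q‖ ≤ 3 * (s0 * lam ^ j)) (hv' : ‖v - adjU G.U q'‖ ≤ 3 * (s0 * lam ^ j)) :
    ‖q - q'‖ ≤ 12 * (s0 * lam ^ j) := by
  have hpos : 0 < s0 * lam ^ j := by positivity
  have hposk : 0 < s0 * lam ^ k0 := by positivity
  rcases le_or_gt (lam / 4 * (s0 * lam ^ j)) ‖q - q'‖ with h | h
  · have hm := G.act_level _ _ hq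
    have hm' := G.act_level _ _ hq'
    have h1 := dist_root G hs0 hlam hlam1 hq
    have h2 := dist_root G hs0 hlam hlam1 hq'
    have h3 : ‖q - q'‖ ≤ ‖q - p0‖ + ‖q' - p0‖ := by
      have : q - q' = (q - p0) - (q' - p0) := by abel
      rw [this]
      exact norm_sub_le _ _
    have h4 := hgraph j q hq q (T.mem_supp j hm.2.1 q hm.2.2).1 q'
      (T.mem_supp j hm'.2.1 q' hm'.2.2).1 (by rw [sub_self, norm_zero]; positivity) h (by linarith)
    have h5 : ‖adjU G.U (q - q')‖ ≤ 6 * (s0 * lam ^ j) := by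
      have e1 : adjU G.U (q - q') = (v - adjU G.U q') - (v - adjU G.U q) := by
        rw [map_sub]; abel
      rw [e1]
      refine (norm_sub_le _ _).trans ?_
      linarith
    linarith
  · have : lam / 4 * (s0 * lam ^ j) ≤ 12 * (s0 * lam ^ j) := by nlinarith only [hlam1, hpos]
    linarith

/-- the statement of `plane_comparison` for two active nodes of the same level -/
def PC (Cp : ℝ) : Prop := ∀ (j : ℕ) (q q' : E d), G.Act j q → G.Act j q' → ∀ v : E n,
  ‖v - adjU G.U q‖ ≤ 3 * (s0 * lam ^ j) → ‖v - adjU G.U q'‖ ≤ 3 * (s0 * lam ^ j) →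
  ‖ell G j q v - ell G j q' v‖ ≤ Cp * (G.ε j q + G.ε j q') * (s0 * lam ^ j)

open Classical in
/-- the maximum of the `ε` of the active nodes of level `t` near `v` -/
noncomputable def ev (t : ℕ) (v : E n) : ℝ :=
  (((T.pts t).filter (fun q => G.Act t q ∧ ‖v - adjU G.U q‖ ≤ 3 * (s0 * lam ^ t))).sup
    (fun q => Real.toNNReal (G.ε t q)) : ℝ≥0)

theorem ev_nonneg (t : ℕ) (v : E n) : 0 ≤ ev G t v := NNReal.coe_nonneg _

theorem le_ev (t : ℕ) (v : E n) (q : E d) (hq : G.Act t q)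
    (hv : ‖v - adjU G.U q‖ ≤ 3 * (s0 * lam ^ t)) : G.ε t q ≤ ev G t v := by
  classical
  unfold ev
  have h1 : Real.toNNReal (G.ε t q) ≤
      ((T.pts t).filter (fun q => G.Act t q ∧ ‖v - adjU G.U q‖ ≤ 3 * (s0 * lam ^ t))).sup
      (fun q => Real.toNNReal (G.ε t q)) :=
    Finset.le_sup (f := fun q => Real.toNNReal (G.ε t q))
      (Finset.mem_filter.2 ⟨(G.act_level _ _ hq).2.2, hq, hv⟩)
  refine (Real.le_coe_toNNReal _).trans ?_
  convert NNReal.coe_le_coe.2 h1

theorem ev_le (hε1 : 0 ≤ ε1) (t : ℕ) (v : E n) : ev G t v ≤ ε1 := by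
  classical
  unfold ev
  have h1 : ((T.pts t).filter (fun q => G.Act t q ∧ ‖v - adjU G.U q‖ ≤ 3 * (s0 * lam ^ t))).sup
      (fun q => Real.toNNReal (G.ε t q)) ≤ Real.toNNReal ε1 := by
    refine Finset.sup_le fun q hq => ?_
    rw [Finset.mem_filter] at hq
    exact Real.toNNReal_le_toNNReal (G.small t q hq.2.1).1
  have h2 := NNReal.coe_le_coe.2 h1
  rw [Real.coe_toNNReal _ hε1] at h2
  convert h2

open Classical in
theorem ev_sq_le (t : ℕ) (v : E n) : ev G t v ^ 2 ≤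
    ∑ q ∈ (T.pts t).filter (fun q => G.Act t q ∧ ‖v - adjU G.U q‖ ≤ 3 * (s0 * lam ^ t)),
      G.ε t q ^ 2 := by
  unfold ev
  set F := (T.pts t).filter (fun q => G.Act t q ∧ ‖v - adjU G.U q‖ ≤ 3 * (s0 * lam ^ t))
  rcases F.eq_empty_or_nonempty with h | h
  · rw [h]
    simp
  · obtain ⟨q, hq, hq2⟩ := F.exists_mem_eq_sup h (fun q => Real.toNNReal (G.ε t q))
    rw [hq2, Real.coe_toNNReal _ (G.ε_nonneg t q)]
    exact Finset.single_le_sum (f := fun q => G.ε t q ^ 2) (fun q _ => sq_nonneg _) hq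

theorem ev_eq_zero (t : ℕ) (v : E n)
    (h : ∀ q, G.Act t q → ¬ ‖v - adjU G.U q‖ ≤ 3 * (s0 * lam ^ t)) : ev G t v = 0 := by
  classical
  unfold ev
  rw [Finset.filter_false_of_mem]
  · simp
  · intro q _ hq
    exact h q hq.1 hq.2

open Classical in
/-- the function on `E n` glued from the affine functions of the finest nodes -/
noncomputable def hh (v : E n) : E d :=
  if h : ∃ q, G.Act (Nat.findGreatest (fun l => ∃ q, G.Act l q ∧
      ‖v - adjU G.U q‖ ≤ 2 * (s0 * lam ^ l)) N) q ∧ ‖v - adjU G.U q‖ ≤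
      2 * (s0 * lam ^ (Nat.findGreatest (fun l => ∃ q, G.Act l q ∧
      ‖v - adjU G.U q‖ ≤ 2 * (s0 * lam ^ l)) N)) then
    ell G (Nat.findGreatest (fun l => ∃ q, G.Act l q ∧
      ‖v - adjU G.U q‖ ≤ 2 * (s0 * lam ^ l)) N) (Classical.choose h) v
  else 0

theorem hh_spec {v : E n} {j : ℕ} {q : E d} (hq : G.Act j q)
    (hv : ‖v - adjU G.U q‖ ≤ 2 * (s0 * lam ^ j)) :
    ∃ (J : ℕ) (q' : E d), j ≤ J ∧ G.Act J q' ∧ ‖v - adjU G.U q'‖ ≤ 2 * (s0 * lam ^ J) ∧
      hh G v = ell G J q' v := by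
  classical
  have hP : ∃ q, G.Act j q ∧ ‖v - adjU G.U q‖ ≤ 2 * (s0 * lam ^ j) := ⟨q, hq, hv⟩
  have hjN := (G.act_level _ _ hq).2.1
  have hspec := Nat.findGreatest_spec (P := fun l => ∃ q, G.Act l q ∧
      ‖v - adjU G.U q‖ ≤ 2 * (s0 * lam ^ l)) hjN hP
  have hle := Nat.le_findGreatest (P := fun l => ∃ q, G.Act l q ∧
      ‖v - adjU G.U q‖ ≤ 2 * (s0 * lam ^ l)) hjN hP
  refine ⟨_, Classical.choose hspec, hle, (Classical.choose_spec hspec).1,
    (Classical.choose_spec hspec).2, ?_⟩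
  unfold hh
  rw [dif_pos hspec]

/-- the main comparison: near an active node the glued function is close to its affine function -/
theorem hh_near (hs0 : 0 < s0) (hlam : 0 < lam) (hlam1 : lam ≤ 1 / 64) (hC1 : 1 ≤ C1)
    {Cp : ℝ} (hCp : 0 ≤ Cp) (hPC : PC G Cp) {v : E n} {j : ℕ} {q : E d} (hq : G.Act j q)
    (hv : ‖v - adjU G.U q‖ ≤ 2 * (s0 * lam ^ j)) :
    ‖hh G v - ell G j q v‖ ≤
      (4 * C1 / lam + 2 * Cp) * ∑ t ∈ Finset.Icc j N, s0 * lam ^ t * ev G t v := by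
  obtain ⟨J, q', hjJ, hq', hv', he⟩ := hh_spec G hq hv
  obtain ⟨i, rfl⟩ := Nat.exists_eq_add_of_le hjJ
  have hjN := (G.act_level _ _ hq').2.1
  have hposj : 0 < s0 * lam ^ j := by positivity
  have hposJ : 0 < s0 * lam ^ (j + i) := by positivity
  obtain ⟨p, hp, hp2, hp3⟩ := chain G hs0 hlam hlam1 hC1 v (fun t => ev G t v)
    (fun t q hq hv => le_ev G t v q hq hv) i j q' (G.act_level _ _ hq).1 hq' (by linarith)
  have h1 := hPC j p q hp hq v hp2 (by linarith)
  have h2 : ‖hh G v - ell G j q v‖ ≤ ‖ell G (j + i) q' v - ell G j p v‖ +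
      ‖ell G j p v - ell G j q v‖ := by
    rw [he]
    have : ell G (j + i) q' v - ell G j q v = (ell G (j + i) q' v - ell G j p v) +
      (ell G j p v - ell G j q v) := by abel
    rw [this]
    exact norm_add_le _ _
  have h3 : G.ε j p + G.ε j q ≤ 2 * ev G j v := by
    have := le_ev G j v p hp hp2
    have := le_ev G j v q hq (by linarith)
    linarith
  have hevn : ∀ t, 0 ≤ s0 * lam ^ t * ev G t v := fun t => by
    have := ev_nonneg G t v
    positivity
  have h4 : ∑ t ∈ Finset.Ico (j + 1) (j + 1 + i), s0 * lam ^ t * ev G t v ≤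
      ∑ t ∈ Finset.Icc j N, s0 * lam ^ t * ev G t v := by
    refine Finset.sum_le_sum_of_subset_of_nonneg ?_ fun t _ _ => hevn t
    intro t ht
    rw [Finset.mem_Ico] at ht
    rw [Finset.mem_Icc]
    omega
  have h5 : s0 * lam ^ j * ev G j v ≤ ∑ t ∈ Finset.Icc j N, s0 * lam ^ t * ev G t v := by
    refine Finset.single_le_sum (f := fun t => s0 * lam ^ t * ev G t v) (fun t _ => hevn t) ?_
    rw [Finset.mem_Icc]
    omega
  have h6 : 0 ≤ 4 * C1 / lam := by positivity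
  calc ‖hh G v - ell G j q v‖ ≤ 4 * C1 / lam * ∑ t ∈ Finset.Ico (j + 1) (j + 1 + i),
        s0 * lam ^ t * ev G t v + Cp * (G.ε j p + G.ε j q) * (s0 * lam ^ j) := by linarith
    _ ≤ 4 * C1 / lam * ∑ t ∈ Finset.Icc j N, s0 * lam ^ t * ev G t v +
        2 * Cp * (s0 * lam ^ j * ev G j v) := by
        refine add_le_add (mul_le_mul_of_nonneg_left h4 h6) ?_
        have : Cp * (G.ε j p + G.ε j q) * (s0 * lam ^ j) ≤ Cp * (2 * ev G j v) * (s0 * lam ^ j) :=
          mul_le_mul_of_nonneg_right (mul_le_mul_of_nonneg_left h3 hCp) hposj.le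
        linarith
    _ ≤ _ := by
        rw [add_mul]
        have := mul_le_mul_of_nonneg_left h5 (by positivity : 0 ≤ 2 * Cp)
        linarith


open Classical in
theorem sum_ev_le (hs0 : 0 < s0) (hlam : 0 < lam) {g : ℝ} (hg : 0 < g) (t : ℕ)
    (hgt : g ≤ 3 * (s0 * lam ^ t)) (W : Finset (Fin n → ℤ)) :
    ∑ w ∈ W, ev G t (gr g w) ^ 2 ≤
      ∑ q ∈ (T.pts t).filter (fun q => G.Act t q),
        G.ε t q ^ 2 * (9 * (s0 * lam ^ t) / g) ^ n := by
  have hpos : 0 < s0 * lam ^ t := by positivity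
  calc ∑ w ∈ W, ev G t (gr g w) ^ 2
      ≤ ∑ w ∈ W, ∑ q ∈ (T.pts t).filter
        (fun q => G.Act t q ∧ ‖gr g w - adjU G.U q‖ ≤ 3 * (s0 * lam ^ t)), G.ε t q ^ 2 :=
        Finset.sum_le_sum fun w _ => ev_sq_le G t _
    _ = ∑ q ∈ (T.pts t).filter (fun q => G.Act t q),
        ∑ w ∈ W.filter (fun w => ‖gr g w - adjU G.U q‖ ≤ 3 * (s0 * lam ^ t)), G.ε t q ^ 2 := by
        refine Finset.sum_comm' fun w q => ?_
        simp only [Finset.mem_filter]
        tauto
    _ ≤ _ := by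
        refine Finset.sum_le_sum fun q _ => ?_
        rw [Finset.sum_const, nsmul_eq_mul, mul_comm]
        refine mul_le_mul_of_nonneg_left ?_ (sq_nonneg _)
        have h1 : W.filter (fun w => ‖gr g w - adjU G.U q‖ ≤ 3 * (s0 * lam ^ t)) ⊆
            cube g (adjU G.U q) (3 * (s0 * lam ^ t)) := by
          intro w hw
          rw [Finset.mem_filter] at hw
          rw [mem_cube hg]
          intro i
          have := (abs_coord_le (gr g w - adjU G.U q) i).trans hw.2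
          simpa using this
        calc ((W.filter (fun w => ‖gr g w - adjU G.U q‖ ≤ 3 * (s0 * lam ^ t))).card : ℝ)
            ≤ ((cube g (adjU G.U q) (3 * (s0 * lam ^ t))).card : ℝ) := by
              exact_mod_cast Finset.card_le_card h1
          _ ≤ (3 * (3 * (s0 * lam ^ t)) / g) ^ n := card_cube_le hg _ hgt
          _ = _ := by
              congr 1
              ring

/-- the stop nodes -/
def IsStop (k : ℕ) (q : E d) : Prop :=
  k < N ∧ q ∈ T.pts (k + 1) ∧ k0 ≤ k ∧ G.Act k (T.par k q) ∧ G.ε (k + 1) q ≤ ε1 ∧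
    κ < ‖G.M (k + 1) q‖

theorem norm_sub_of_cube (hn : 1 ≤ n) {g : ℝ} (hg : 0 < g) {x : E n} {ρ : ℝ} (hρ : 0 ≤ ρ)
    {w : Fin n → ℤ} (hw : w ∈ cube g x (ρ / (16 * √n))) : ‖gr g w - x‖ ≤ ρ / 16 := by
  rw [mem_cube hg] at hw
  have hn' : (0 : ℝ) < √(n : ℝ) := Real.sqrt_pos.2 (by exact_mod_cast hn)
  have h1 := norm_le_of_coord (v := gr g w - x) (ρ := ρ / (16 * √n)) (by positivity)
    (fun i => by simpa using hw i)
  refine h1.trans (le_of_eq ?_)
  field_simp

theorem stop_disj (hn : 1 ≤ n) (hs0 : 0 < s0) (hlam : 0 < lam) (hlam1 : lam ≤ 1 / 64)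
    (hgraph : ∀ (k : ℕ) (p : E d), G.Act k p → ∀ x ∈ μ.support, ∀ y ∈ μ.support,
      ‖x - p‖ ≤ 4 * (s0 * lam ^ k) → lam / 4 * (s0 * lam ^ k) ≤ ‖x - y‖ →
      ‖x - y‖ ≤ 8 * (s0 * lam ^ k0) → ‖x - y‖ ≤ 2 * ‖adjU G.U (x - y)‖)
    {g : ℝ} (hg : 0 < g) {k i : ℕ} {q q' : E d} (h : IsStop G k q)
    (h' : IsStop G (k + i) q') (hne : ¬ (i = 0 ∧ q = q')) {w : Fin n → ℤ}
    (hw : w ∈ cube g (adjU G.U q) (s0 * lam ^ (k + 1) / (16 * √n)))
    (hw' : w ∈ cube g (adjU G.U q') (s0 * lam ^ (k + i + 1) / (16 * √n))) : False := by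
  obtain ⟨hkN, hq, hk0, hact, hε, hM⟩ := h
  obtain ⟨hkN', hq', hk0', hact', hε', hM'⟩ := h'
  have hposk : 0 < s0 * lam ^ k := by positivity
  have hpos : 0 < s0 * lam ^ (k + 1) := by positivity
  have hposk0 : 0 < s0 * lam ^ k0 := by positivity
  have e1 := norm_sub_of_cube hn hg (x := adjU G.U q) hpos.le hw
  have e2 := norm_sub_of_cube hn hg (x := adjU G.U q')
    (by positivity : 0 ≤ s0 * lam ^ (k + i + 1)) hw'
  have hle : s0 * lam ^ (k + i + 1) ≤ s0 * lam ^ (k + 1) := by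
    refine mul_le_mul_of_nonneg_left ?_ hs0.le
    exact pow_le_pow_of_le_one hlam.le (by linarith) (by omega)
  have hsucc : s0 * lam ^ (k + 1) = lam * (s0 * lam ^ k) := by rw [pow_succ]; ring
  have h3 : ‖adjU G.U (q - q')‖ ≤ s0 * lam ^ (k + 1) / 8 := by
    have : adjU G.U (q - q') = (gr g w - adjU G.U q') - (gr g w - adjU G.U q) := by
      rw [map_sub]; abel
    rw [this]
    refine (norm_sub_le _ _).trans ?_
    linarith
  -- distances to the root
  have hd : ‖q - p0‖ ≤ 3 * (s0 * lam ^ k0) := by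
    have f1 := dist_root G hs0 hlam hlam1 hact
    have f2 := T.par_dist k hkN q hq
    have f3 : s0 * lam ^ k ≤ s0 * lam ^ k0 :=
      mul_le_mul_of_nonneg_left (pow_le_pow_of_le_one hlam.le (by linarith) hk0) hs0.le
    have f4 : ‖q - p0‖ ≤ ‖q - T.par k q‖ + ‖T.par k q - p0‖ := by
      have := norm_add_le (q - T.par k q) (T.par k q - p0)
      simpa using this
    linarith
  have hd' : ‖q' - p0‖ ≤ 3 * (s0 * lam ^ k0) := by
    have f1 := dist_root G hs0 hlam hlam1 hact'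
    have f2 := T.par_dist (k + i) hkN' q' hq'
    have f3 : s0 * lam ^ (k + i) ≤ s0 * lam ^ k0 :=
      mul_le_mul_of_nonneg_left (pow_le_pow_of_le_one hlam.le (by linarith) hk0') hs0.le
    have f5 : 0 < s0 * lam ^ (k + i) := by positivity
    have f4 : ‖q' - p0‖ ≤ ‖q' - T.par (k + i) q'‖ + ‖T.par (k + i) q' - p0‖ := by
      have := norm_add_le (q' - T.par (k + i) q') (T.par (k + i) q' - p0)
      simpa using this
    linarith
  have hdd : ‖q - q'‖ ≤ 8 * (s0 * lam ^ k0) := by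
    have : q - q' = (q - p0) - (q' - p0) := by abel
    rw [this]
    refine (norm_sub_le _ _).trans ?_
    linarith
  have hsup := (T.mem_supp (k + 1) (by omega) q hq).1
  have hsup' := (T.mem_supp (k + i + 1) (by omega) q' hq').1
  rcases lt_or_ge ‖q' - q‖ (3 / 8 * (s0 * lam ^ (k + 1))) with hlt | hge
  · -- then `q` is an ancestor of `q'`
    have hq'' : q' ∈ T.pts (k + 1 + i) := by
      rw [show k + 1 + i = k + i + 1 by omega]; exact hq'
    have hup := Nets.up_near hs0 hlam hlam1 T (j := k + 1) (i := i) (by omega) hq'' hq hlt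
    rcases Nat.eq_zero_or_pos i with rfl | hi
    · exact hne ⟨rfl, hup.symm⟩
    · obtain ⟨i', rfl⟩ : ∃ i', i = i' + 1 := ⟨i - 1, by omega⟩
      have hact2 : G.Act (k + 1 + i') (T.par (k + 1 + i') q') := by
        rw [show k + 1 + i' = k + (i' + 1) by omega]; exact hact'
      have h4 := up_act G i' (k + 1) _ (by omega) hact2
      have h5 : up T.par (k + 1) (i' + 1) q' = up T.par (k + 1) i' (T.par (k + 1 + i') q') := rfl
      rw [← h5, hup] at h4
      exact absurd (G.small _ _ h4).2 (not_le.2 hM)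
  · rw [norm_sub_rev] at hge
    have h6 := hgraph k _ hact q hsup q' hsup' (by
      have := T.par_dist k hkN q hq
      linarith) (by
      rw [hsucc] at hge
      linarith only [hpos, hsucc, hge]) hdd
    linarith


/-- shift of a grid point -/
theorem gr_shift (g : ℝ) (i0 : Fin n) (w : Fin n → ℤ) (t : ℤ) :
    gr g (w + t • (Pi.single i0 1 : Fin n → ℤ)) =
      gr g w + (g * t) • EuclideanSpace.single i0 (1 : ℝ) := gr_add_single g w t i0

theorem norm_gr_shift (g : ℝ) (i0 : Fin n) (w : Fin n → ℤ) (t : ℤ) (hg : 0 < g) {B : ℝ}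
    (ht : |(t : ℝ)| * g ≤ B) (x : E n) {A : ℝ} (hx : ‖gr g w - x‖ ≤ A) :
    ‖gr g (w + t • (Pi.single i0 1 : Fin n → ℤ)) - x‖ ≤ A + B := by
  rw [gr_shift]
  have e1 : gr g w + (g * (t : ℝ)) • EuclideanSpace.single i0 (1 : ℝ) - x =
      (gr g w - x) + (g * (t : ℝ)) • EuclideanSpace.single i0 (1 : ℝ) := by abel
  rw [e1]
  refine (norm_add_le _ _).trans (add_le_add hx ?_)
  rw [norm_smul, PiLp.norm_single, norm_one, mul_one, Real.norm_eq_abs, abs_mul,
    abs_of_pos hg, mul_comm]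
  exact ht

theorem ell_add (k : ℕ) (q : E d) (v : E n) (c : ℝ) (u : E n) :
    ell G k q (v + c • u) = ell G k q v + c • G.M k q u := by
  unfold ell
  rw [map_add, map_smul]
  abel

open Classical in
theorem dir_packing (hn : 1 ≤ n) (hs0 : 0 < s0) (hlam : 0 < lam) (hlam1 : lam ≤ 1 / 64)
    (hC1 : 1 ≤ C1) (hκ : 0 < κ) (hε1 : 0 < ε1) {Cp : ℝ} (hCp : 0 ≤ Cp) (hPC : PC G Cp)
    (hgraph : ∀ (k : ℕ) (p : E d), G.Act k p → ∀ x ∈ μ.support, ∀ y ∈ μ.support,
      ‖x - p‖ ≤ 4 * (s0 * lam ^ k) → lam / 4 * (s0 * lam ^ k) ≤ ‖x - y‖ →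
      ‖x - y‖ ≤ 8 * (s0 * lam ^ k0) → ‖x - y‖ ≤ 2 * ‖adjU G.U (x - y)‖)
    (hε2 : 128 * (4 * C1 / lam + 2 * Cp) * ε1 ≤ κ / (4 * √n))
    {g : ℝ} (hg : 0 < g) (hgN : g ≤ s0 * lam ^ N / (64 * √n)) (i0 : Fin n)
    (SP : Finset (Σ _ : ℕ, E d)) (hSP : ∀ x ∈ SP, IsStop G x.1 x.2 ∧
      κ / (2 * √n) ≤ ‖G.M x.1 (T.par x.1 x.2) (EuclideanSpace.single i0 (1 : ℝ))‖) :
    (g * κ / (4 * √n)) ^ 2 * ∑ x ∈ SP, (s0 * lam ^ (x.1 + 1) / (16 * √n) / g) ^ n ≤
      coreC lam (4 * C1 / lam + 2 * Cp) * g ^ 2 * ∑ t ∈ Finset.range (N + 1),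
        ∑ q ∈ (T.pts t).filter (fun q => G.Act t q),
          G.ε t q ^ 2 * (9 * (s0 * lam ^ t) / g) ^ n := by
  have hn' : (1 : ℝ) ≤ √(n : ℝ) := by
    rw [Real.one_le_sqrt]
    exact_mod_cast hn
  have hk0N : k0 ≤ N := (G.act_level _ _ G.act_root).2.1
  have hposN : 0 < s0 * lam ^ N := by positivity
  have hpos : ∀ k, 0 < s0 * lam ^ k := fun k => by positivity
  have hmono : ∀ k l, k ≤ l → s0 * lam ^ l ≤ s0 * lam ^ k := fun k l h =>
    mul_le_mul_of_nonneg_left (pow_le_pow_of_le_one hlam.le (by linarith) h) hs0.le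
  have hsucc : ∀ k, s0 * lam ^ (k + 1) = lam * (s0 * lam ^ k) := fun k => by rw [pow_succ]; ring
  have hsucc' : ∀ k, s0 * lam ^ (k + 1) ≤ 1 / 64 * (s0 * lam ^ k) := fun k => by
    rw [hsucc]; have := hpos k; nlinarith only [hlam1, this]
  have hgN' : ∀ k ≤ N, 64 * √n * g ≤ s0 * lam ^ k := fun k hk => by
    rw [le_div_iff₀ (by positivity)] at hgN
    have := hmono k N hk
    linarith
  have hgN2 : ∀ k ≤ N, 64 * g ≤ s0 * lam ^ k := fun k hk => by
    have := hgN' k hk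
    nlinarith only [hg, hn', this]
  -- the dyadic scale of a level
  have hmm : ∀ k : ℕ, ∃ m : ℕ, k ≤ N → 2 ^ m * g ≤ s0 * lam ^ k / 16 ∧
      s0 * lam ^ k / 16 < 2 ^ (m + 1) * g := fun k => by
    by_cases hk : k ≤ N
    · obtain ⟨m, hm⟩ := exists_dyadic hg (t := s0 * lam ^ k / 16) (by have := hgN2 k hk; linarith)
      exact ⟨m, fun _ => hm⟩
    · exact ⟨0, fun h => absurd h hk⟩
  choose mm hmm using hmm
  set Ca : ℝ := 4 * C1 / lam + 2 * Cp with hCa
  have hCa0 : 0 ≤ Ca := by positivity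
  set e : Fin n → ℤ := Pi.single i0 1 with he
  set h : (Fin n → ℤ) → E d := fun w => hh G (gr g w) with hh'
  set ew : ℕ → (Fin n → ℤ) → ℝ := fun t w => ev G t (gr g w) with hew
  set cb : (Σ _ : ℕ, E d) → Finset (Fin n → ℤ) := fun x =>
    cube g (adjU G.U x.2) (s0 * lam ^ (x.1 + 1) / (16 * √n)) with hcb
  set Z : Finset (Fin n → ℤ) := SP.biUnion cb with hZ
  set W : Finset (Fin n → ℤ) := (Finset.range (N + 1)).biUnion fun t =>
    ((T.pts t).filter (fun q => G.Act t q)).biUnion fun q =>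
      cube g (adjU G.U q) (3 * (s0 * lam ^ t)) with hW
  have hex : ∀ z, ∃ x : Σ _ : ℕ, E d, z ∈ Z → x ∈ SP ∧ z ∈ cb x := fun z => by
    by_cases hz : z ∈ Z
    · obtain ⟨x, hx, hzx⟩ := Finset.mem_biUnion.1 hz
      exact ⟨x, fun _ => ⟨hx, hzx⟩⟩
    · exact ⟨⟨0, 0⟩, fun h => absurd h hz⟩
  choose xz hxz using hex
  set mz : (Fin n → ℤ) → ℕ := fun z => mm (xz z).1 with hmz
  have hvan : ∀ t w, w ∉ W → ew t w = 0 := by
    intro t w hw
    refine ev_eq_zero G t _ fun q hq hv => hw ?_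
    have hlev := G.act_level _ _ hq
    rw [hW, Finset.mem_biUnion]
    refine ⟨t, Finset.mem_range.2 (by omega), ?_⟩
    rw [Finset.mem_biUnion]
    refine ⟨q, Finset.mem_filter.2 ⟨hlev.2.2, hq⟩, ?_⟩
    rw [mem_cube hg]
    intro i
    have := (abs_coord_le (gr g w - adjU G.U q) i).trans hv
    simpa using this
  -- facts on a stop node and a point of its cube
  have hfact : ∀ z ∈ Z, (xz z).1 < N ∧ k0 ≤ (xz z).1 ∧ G.Act (xz z).1 (T.par (xz z).1 (xz z).2) ∧
      ‖gr g z - adjU G.U (T.par (xz z).1 (xz z).2)‖ ≤ 11 / 10 * (s0 * lam ^ (xz z).1) ∧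
      κ / (2 * √n) ≤ ‖G.M (xz z).1 (T.par (xz z).1 (xz z).2)
        (EuclideanSpace.single i0 (1 : ℝ))‖ := by
    intro z hz
    obtain ⟨hx, hzx⟩ := hxz z hz
    obtain ⟨hst, hdir⟩ := hSP _ hx
    obtain ⟨hkN, hq, hk0, hact, hε, hM⟩ := hst
    refine ⟨hkN, hk0, hact, ?_, hdir⟩
    have h1 := norm_sub_of_cube hn hg (x := adjU G.U (xz z).2) (hpos _).le hzx
    have h2 := T.par_dist _ hkN _ hq
    have h3 := norm_adjU_le G.U ((xz z).2 - T.par (xz z).1 (xz z).2)
    have h4 := hsucc' (xz z).1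
    have h5 := hpos (xz z).1
    have e1 : gr g z - adjU G.U (T.par (xz z).1 (xz z).2) = (gr g z - adjU G.U (xz z).2) +
        adjU G.U ((xz z).2 - T.par (xz z).1 (xz z).2) := by
      rw [map_sub]; abel
    rw [e1]
    refine (norm_add_le _ _).trans ?_
    linarith
  -- dyadic facts
  have hdy : ∀ z ∈ Z, 2 ^ mz z * g ≤ s0 * lam ^ (xz z).1 / 16 ∧
      s0 * lam ^ (xz z).1 < 32 * (2 ^ mz z * g) := by
    intro z hz
    have h1 := hmm (xz z).1 (hfact z hz).1.le
    refine ⟨h1.1, ?_⟩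
    have h2 := h1.2
    rw [pow_succ] at h2
    linarith
  have hdy0 := hmm k0 hk0N
  have hdy0' : s0 * lam ^ k0 ≤ 32 * (2 ^ mm k0 * g) := by
    have h2 := hdy0.2
    rw [pow_succ] at h2
    linarith
  have hmzle : ∀ z ∈ Z, mz z ≤ mm k0 := by
    intro z hz
    have h1 := (hdy z hz).1
    have h2 := hmono k0 (xz z).1 (hfact z hz).2.1
    have h3 : (2 : ℝ) ^ mz z * g < 2 ^ (mm k0 + 1) * g := by linarith [hdy0.2]
    have h4 : (2 : ℝ) ^ mz z < 2 ^ (mm k0 + 1) := lt_of_mul_lt_mul_right h3 hg.le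
    have h5 := (pow_lt_pow_iff_right₀ (by norm_num : (1 : ℝ) < 2)).1 h4
    omega
  have hjz : ∀ (m : ℕ) (j : ℕ) (B : ℝ), j < 2 ^ m → 2 ^ m * g ≤ B →
      |((-(j : ℤ) : ℤ) : ℝ)| * g ≤ B ∧ |((-(j : ℤ) + 2 ^ m : ℤ) : ℝ)| * g ≤ B := by
    intro m j B hj hB
    have h1 : (j : ℝ) < 2 ^ m := by exact_mod_cast hj
    have h0 : (0 : ℝ) ≤ j := Nat.cast_nonneg _
    constructor
    · push_cast
      rw [abs_neg, abs_of_nonneg h0]
      nlinarith only [hg, hB, h1]
    · push_cast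
      rw [abs_of_nonneg (by linarith)]
      nlinarith only [hg, hB]
  have esub : ∀ (z : Fin n → ℤ) (j : ℕ), z - (j : ℤ) • e = z + (-(j : ℤ)) • e := by
    intro z j
    rw [neg_smul, sub_eq_add_neg]
  have esub2 : ∀ (z : Fin n → ℤ) (j : ℕ) (m : ℕ), z - (j : ℤ) • e + (2 ^ m : ℤ) • e =
      z + (-(j : ℤ) + 2 ^ m) • e := by
    intro z j m
    rw [add_smul, neg_smul, sub_eq_add_neg, add_assoc]
  -- bound of the tail sums
  have htail : ∀ k w, tsum' s0 lam N ew k w ≤ 2 * ε1 * (s0 * lam ^ k) := by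
    intro k w
    unfold tsum'
    calc ∑ t ∈ Finset.Icc k N, s0 * lam ^ t * ew t w
        ≤ ∑ t ∈ Finset.Icc k N, s0 * lam ^ t * ε1 := by
          refine Finset.sum_le_sum fun t _ => ?_
          exact mul_le_mul_of_nonneg_left (ev_le G hε1.le t _) (hpos t).le
      _ = (∑ t ∈ Finset.Icc k N, s0 * lam ^ t) * ε1 := by rw [Finset.sum_mul]
      _ ≤ 64 / 63 * (s0 * lam ^ k) * ε1 :=
          mul_le_mul_of_nonneg_right (geom_tail hlam hlam1 hs0 k N) hε1.le
      _ ≤ _ := by have := hpos k; linarith only [mul_pos this hε1]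
  have hhn : ∀ (w : Fin n → ℤ) (j : ℕ) (q : E d), G.Act j q →
      ‖gr g w - adjU G.U q‖ ≤ 2 * (s0 * lam ^ j) →
      ‖h w - ell G j q (gr g w)‖ ≤ Ca * tsum' s0 lam N ew j w := fun w j q hq hv =>
    hh_near G hs0 hlam hlam1 hC1 hCp hPC hq hv
  have hcore := core e h (κ' := g * κ / (4 * √n)) hlam hlam1 hs0 hg (by positivity) hCa0 hk0N ew
    (fun t w => ev_nonneg G t _) W hvan Z mz hmzle hdy0'
    (fun l w => ∃ p, G.Act l p ∧ ‖gr g w - adjU G.U p‖ ≤ 3 / 2 * (s0 * lam ^ l))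
    (by
      -- hZ
      intro z hz j hj
      obtain ⟨hkN, hk0, hact, hnear, hdir⟩ := hfact z hz
      obtain ⟨hd1, hd2⟩ := hdy z hz
      have hp := hpos (xz z).1
      obtain ⟨hj1, hj2⟩ := hjz _ j _ hj hd1
      have hv1 : ‖gr g (z - (j : ℤ) • e) - adjU G.U (T.par (xz z).1 (xz z).2)‖ ≤
          2 * (s0 * lam ^ (xz z).1) := by
        rw [esub]
        refine (norm_gr_shift g i0 z _ hg hj1 _ hnear).trans ?_
        linarith
      have hv2 : ‖gr g (z - (j : ℤ) • e + (2 ^ mz z : ℤ) • e) -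
          adjU G.U (T.par (xz z).1 (xz z).2)‖ ≤ 2 * (s0 * lam ^ (xz z).1) := by
        rw [esub2]
        refine (norm_gr_shift g i0 z _ hg hj2 _ hnear).trans ?_
        linarith
      have a1 := hhn _ _ _ hact hv1
      have a2 := hhn _ _ _ hact hv2
      have b1 := htail (xz z).1 (z - (j : ℤ) • e)
      have b2 := htail (xz z).1 (z - (j : ℤ) • e + (2 ^ mz z : ℤ) • e)
      have c1 : ell G (xz z).1 (T.par (xz z).1 (xz z).2)
          (gr g (z - (j : ℤ) • e + (2 ^ mz z : ℤ) • e)) =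
          ell G (xz z).1 (T.par (xz z).1 (xz z).2) (gr g (z - (j : ℤ) • e)) +
          (g * 2 ^ mz z) • G.M (xz z).1 (T.par (xz z).1 (xz z).2)
            (EuclideanSpace.single i0 (1 : ℝ)) := by
        rw [he, gr_shift, ell_add]
        push_cast
        rfl
      set v1 := z - (j : ℤ) • e with hv1def
      set v2 := z - (j : ℤ) • e + (2 ^ mz z : ℤ) • e with hv2def
      have c2 : (g * 2 ^ mz z) • G.M (xz z).1 (T.par (xz z).1 (xz z).2)
            (EuclideanSpace.single i0 (1 : ℝ)) =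
          (h v2 - h v1) - (h v2 - ell G (xz z).1 (T.par (xz z).1 (xz z).2) (gr g v2)) +
            (h v1 - ell G (xz z).1 (T.par (xz z).1 (xz z).2) (gr g v1)) := by
        rw [c1]; abel
      have c3 : g * 2 ^ mz z * (κ / (2 * √n)) ≤ ‖h v2 - h v1‖ + Ca * (2 * ε1 *
          (s0 * lam ^ (xz z).1)) + Ca * (2 * ε1 * (s0 * lam ^ (xz z).1)) := by
        calc g * 2 ^ mz z * (κ / (2 * √n)) ≤ g * 2 ^ mz z * ‖G.M (xz z).1
              (T.par (xz z).1 (xz z).2) (EuclideanSpace.single i0 (1 : ℝ))‖ :=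
              mul_le_mul_of_nonneg_left hdir (by positivity)
          _ = ‖(g * 2 ^ mz z) • G.M (xz z).1 (T.par (xz z).1 (xz z).2)
                (EuclideanSpace.single i0 (1 : ℝ))‖ := by
              rw [norm_smul, Real.norm_of_nonneg (by positivity)]
          _ ≤ ‖h v2 - h v1‖ + ‖h v2 - ell G (xz z).1 (T.par (xz z).1 (xz z).2) (gr g v2)‖ +
              ‖h v1 - ell G (xz z).1 (T.par (xz z).1 (xz z).2) (gr g v1)‖ := by
              rw [c2]
              refine (norm_add_le _ _).trans (add_le_add_left (norm_sub_le _ _) _)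
          _ ≤ _ := by
              have := mul_le_mul_of_nonneg_left b1 hCa0
              have := mul_le_mul_of_nonneg_left b2 hCa0
              linarith
      have c4 : Ca * (2 * ε1 * (s0 * lam ^ (xz z).1)) ≤ g * 2 ^ mz z * (κ / (8 * √n)) := by
        have f1 : Ca * (2 * ε1 * (s0 * lam ^ (xz z).1)) ≤
            Ca * (2 * ε1 * (32 * (2 ^ mz z * g))) :=
          mul_le_mul_of_nonneg_left (mul_le_mul_of_nonneg_left hd2.le (by positivity)) hCa0
        have f2 : Ca * (2 * ε1 * (32 * (2 ^ mz z * g))) =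
            (128 * Ca * ε1) * (2 ^ mz z * g / 2) := by ring
        have f3 : (128 * Ca * ε1) * (2 ^ mz z * g / 2) ≤
            κ / (4 * √n) * (2 ^ mz z * g / 2) :=
          mul_le_mul_of_nonneg_right hε2 (by positivity)
        have f4 : κ / (4 * √n) * (2 ^ mz z * g / 2) = g * 2 ^ mz z * (κ / (8 * √n)) := by
          field_simp
          norm_num
        linarith
      have c5 : g * 2 ^ mz z * (κ / (2 * √n)) = g * 2 ^ mz z * (κ / (8 * √n)) * 4 := by
        field_simp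
        norm_num
      have c6 : g * κ / (4 * √n) * 2 ^ mz z = g * 2 ^ mz z * (κ / (8 * √n)) * 2 := by
        field_simp
        norm_num
      rw [c6]
      linarith)
    (by
      -- hAct
      intro z hz m hm1 hm2 j hj
      obtain ⟨hkN, hk0, hact, hnear, hdir⟩ := hfact z hz
      obtain ⟨hd1, hd2⟩ := hdy z hz
      have hPk0 : 16 * (2 ^ m * g) ≤ s0 * lam ^ k0 := by
        have h1 : (2 : ℝ) ^ m ≤ 2 ^ mm k0 := pow_le_pow_right₀ (by norm_num) hm2
        have h2 : (2 : ℝ) ^ m * g ≤ 2 ^ mm k0 * g := mul_le_mul_of_nonneg_right h1 hg.le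
        linarith [hdy0.1]
      set l := Nat.findGreatest (fun l => 16 * (2 ^ m * g) ≤ s0 * lam ^ l) (xz z).1 with hl
      have hlP : 16 * (2 ^ m * g) ≤ s0 * lam ^ l :=
        Nat.findGreatest_spec (P := fun l => 16 * (2 ^ m * g) ≤ s0 * lam ^ l) hk0 hPk0
      have hlk : l ≤ (xz z).1 := Nat.findGreatest_le _
      have hlk0 : k0 ≤ l :=
        Nat.le_findGreatest (P := fun l => 16 * (2 ^ m * g) ≤ s0 * lam ^ l) hk0 hPk0
      have hadm2 : lam * (s0 * lam ^ l) ≤ 32 * (2 ^ m * g) := by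
        rcases hlk.lt_or_eq with hlt | heq
        · have h1 := Nat.findGreatest_is_greatest (P := fun l => 16 * (2 ^ m * g) ≤ s0 * lam ^ l)
            (n := (xz z).1) (k := l + 1) (by rw [← hl]; omega) (by omega)
          simp only [not_le] at h1
          rw [← hsucc]
          have : 0 < (2 : ℝ) ^ m * g := by positivity
          linarith
        · rw [heq]
          have h1 : (2 : ℝ) ^ mz z ≤ 2 ^ m := pow_le_pow_right₀ (by norm_num) hm1
          have h2 : (2 : ℝ) ^ mz z * g ≤ 2 ^ m * g := mul_le_mul_of_nonneg_right h1 hg.le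
          have h3 := hpos (xz z).1
          nlinarith only [hlam1, hd1, hd2, h2]
      refine ⟨l, by omega, ⟨hlP, hadm2⟩, ?_⟩
      obtain ⟨i, hi⟩ := Nat.exists_eq_add_of_le hlk
      have hact' : G.Act (l + i) (T.par (xz z).1 (xz z).2) := by rw [← hi]; exact hact
      obtain ⟨p, hp, hpd⟩ := anc G hs0 hlam hlam1 i l _ hlk0 hact'
      refine ⟨p, hp, ?_⟩
      rw [← hi] at hpd
      have hnear' : ‖gr g z - adjU G.U p‖ ≤ 11 / 10 * (s0 * lam ^ (xz z).1) +
          64 / 63 * (s0 * lam ^ l - s0 * lam ^ (xz z).1) := by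
        have e1 : gr g z - adjU G.U p = (gr g z - adjU G.U (T.par (xz z).1 (xz z).2)) +
            adjU G.U (T.par (xz z).1 (xz z).2 - p) := by rw [map_sub]; abel
        rw [e1]
        refine (norm_add_le _ _).trans (add_le_add hnear ?_)
        exact (norm_adjU_le _ _).trans hpd
      have hj1 := (hjz m j (s0 * lam ^ l / 16) hj (by linarith)).1
      rw [esub]
      refine (norm_gr_shift g i0 z _ hg hj1 _ hnear').trans ?_
      have h1 := hmono l _ hlk
      have h2 := hpos l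
      linarith)
    (by
      -- hNear
      rintro l hl m hadm v ⟨p, hp, hpv⟩
      have h0 : ‖gr g v - adjU G.U p‖ ≤ 2 * (s0 * lam ^ l) := by
        have := hpos l
        linarith
      have hB : (2 : ℝ) ^ (m + 1) * g ≤ s0 * lam ^ l / 16 := by
        have := hadm.1
        linarith
      have h1 : ‖gr g (v + (2 ^ (m + 1) : ℤ) • e) - adjU G.U p‖ ≤ 2 * (s0 * lam ^ l) := by
        refine (norm_gr_shift g i0 v _ hg (B := s0 * lam ^ l / 16) ?_ _ hpv).trans ?_
        · push_cast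
          rw [abs_of_pos (by positivity)]
          exact hB
        · have := hpos l
          linarith
      have h2 : ‖gr g (v + (2 ^ m : ℤ) • e) - adjU G.U p‖ ≤ 2 * (s0 * lam ^ l) := by
        refine (norm_gr_shift g i0 v _ hg (B := s0 * lam ^ l / 16) ?_ _ hpv).trans ?_
        · push_cast
          rw [abs_of_pos (by positivity)]
          have : (2 : ℝ) ^ m * g ≤ 2 ^ (m + 1) * g := by
            rw [pow_succ]
            have : 0 < (2 : ℝ) ^ m * g := by positivity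
            linarith
          linarith
        · have := hpos l
          linarith
      have a0 := hhn _ _ _ hp h0
      have a1 := hhn _ _ _ hp h1
      have a2 := hhn _ _ _ hp h2
      have c1 : ell G l p (gr g (v + (2 ^ (m + 1) : ℤ) • e)) = ell G l p (gr g v) +
          (g * 2 ^ (m + 1)) • G.M l p (EuclideanSpace.single i0 (1 : ℝ)) := by
        rw [he, gr_shift, ell_add]
        push_cast
        rfl
      have c2 : ell G l p (gr g (v + (2 ^ m : ℤ) • e)) = ell G l p (gr g v) +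
          (g * 2 ^ m) • G.M l p (EuclideanSpace.single i0 (1 : ℝ)) := by
        rw [he, gr_shift, ell_add]
        push_cast
        rfl
      have c3 : h v + h (v + (2 ^ (m + 1) : ℤ) • e) - (2 : ℝ) • h (v + (2 ^ m : ℤ) • e) =
          (h v - ell G l p (gr g v)) + (h (v + (2 ^ (m + 1) : ℤ) • e) -
            ell G l p (gr g (v + (2 ^ (m + 1) : ℤ) • e))) - (2 : ℝ) •
            (h (v + (2 ^ m : ℤ) • e) - ell G l p (gr g (v + (2 ^ m : ℤ) • e))) := by
        rw [c1, c2]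
        module
      rw [c3]
      refine (norm_sub_le _ _).trans ?_
      rw [norm_smul, Real.norm_of_nonneg (by norm_num : (0 : ℝ) ≤ 2)]
      have := norm_add_le (h v - ell G l p (gr g v)) (h (v + (2 ^ (m + 1) : ℤ) • e) -
            ell G l p (gr g (v + (2 ^ (m + 1) : ℤ) • e)))
      linarith)
    (by
      -- hroot
      intro z hz j hj
      obtain ⟨hkN, hk0, hact, hnear, hdir⟩ := hfact z hz
      have hd := dist_root G hs0 hlam hlam1 hact
      have h1 := hmono k0 _ hk0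
      have h2 := hpos k0
      have hnear' : ‖gr g z - adjU G.U p0‖ ≤ 11 / 10 * (s0 * lam ^ (xz z).1) +
          64 / 63 * (s0 * lam ^ k0 - s0 * lam ^ (xz z).1) := by
        have e1 : gr g z - adjU G.U p0 = (gr g z - adjU G.U (T.par (xz z).1 (xz z).2)) +
            adjU G.U (T.par (xz z).1 (xz z).2 - p0) := by rw [map_sub]; abel
        rw [e1]
        refine (norm_add_le _ _).trans (add_le_add hnear ?_)
        exact (norm_adjU_le _ _).trans hd
      obtain ⟨hj1, hj2⟩ := hjz (mm k0) j (s0 * lam ^ k0 / 16) hj hdy0.1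
      have hv1 : ‖gr g (z - (j : ℤ) • e) - adjU G.U p0‖ ≤ 2 * (s0 * lam ^ k0) := by
        rw [esub]
        refine (norm_gr_shift g i0 z _ hg hj1 _ hnear').trans ?_
        linarith
      have hv2 : ‖gr g (z - (j : ℤ) • e + (2 ^ mm k0 : ℤ) • e) - adjU G.U p0‖ ≤
          2 * (s0 * lam ^ k0) := by
        rw [esub2]
        refine (norm_gr_shift g i0 z _ hg hj2 _ hnear').trans ?_
        linarith
      have a1 := hhn _ _ _ G.act_root hv1
      have a2 := hhn _ _ _ G.act_root hv2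
      have c1 : ell G k0 p0 (gr g (z - (j : ℤ) • e + (2 ^ mm k0 : ℤ) • e)) =
          ell G k0 p0 (gr g (z - (j : ℤ) • e)) := by
        unfold ell
        rw [G.M_root]
        simp
      have c2 : h (z - (j : ℤ) • e + (2 ^ mm k0 : ℤ) • e) - h (z - (j : ℤ) • e) =
          (h (z - (j : ℤ) • e + (2 ^ mm k0 : ℤ) • e) -
            ell G k0 p0 (gr g (z - (j : ℤ) • e + (2 ^ mm k0 : ℤ) • e))) -
          (h (z - (j : ℤ) • e) - ell G k0 p0 (gr g (z - (j : ℤ) • e))) := by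
        rw [c1]; abel
      rw [c2]
      refine (norm_sub_le _ _).trans ?_
      linarith)
  -- conclusion
  have hcard : ∑ x ∈ SP, (s0 * lam ^ (x.1 + 1) / (16 * √n) / g) ^ n ≤ (Z.card : ℝ) := by
    have hdisj : (SP : Set (Σ _ : ℕ, E d)).PairwiseDisjoint cb := by
      intro x hx y hy hxy
      rw [Function.onFun, Finset.disjoint_left]
      intro w hw hw'
      have key : ∀ (k i : ℕ) (q q' : E d), (⟨k, q⟩ : Σ _ : ℕ, E d) ∈ SP →
          (⟨k + i, q'⟩ : Σ _ : ℕ, E d) ∈ SP → ¬ (i = 0 ∧ q = q') →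
          w ∈ cb ⟨k, q⟩ → w ∈ cb ⟨k + i, q'⟩ → False := by
        intro k i q q' h1 h2 h3 h4 h5
        exact stop_disj G hn hs0 hlam hlam1 hgraph hg (hSP _ h1).1 (hSP _ h2).1 h3 h4 h5
      obtain ⟨k, q⟩ := x
      obtain ⟨k', q'⟩ := y
      rcases le_total k k' with hle | hle
      · obtain ⟨i, rfl⟩ := Nat.exists_eq_add_of_le hle
        refine key k i q q' hx hy ?_ hw hw'
        rintro ⟨rfl, rfl⟩
        exact hxy rfl
      · obtain ⟨i, rfl⟩ := Nat.exists_eq_add_of_le hle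
        refine key k' i q' q hy hx ?_ hw' hw
        rintro ⟨rfl, rfl⟩
        exact hxy rfl
    rw [hZ, Finset.card_biUnion hdisj]
    push_cast
    refine Finset.sum_le_sum fun x hx => ?_
    refine card_cube_ge hg _ ?_
    have h1 := (hSP x hx).1.1
    rw [le_div_iff₀ (by positivity)]
    have := hgN' (x.1 + 1) (by omega)
    have h2 : 0 < √(n : ℝ) * g := by positivity
    linarith
  calc (g * κ / (4 * √n)) ^ 2 * ∑ x ∈ SP, (s0 * lam ^ (x.1 + 1) / (16 * √n) / g) ^ n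
      ≤ (g * κ / (4 * √n)) ^ 2 * (Z.card : ℝ) :=
        mul_le_mul_of_nonneg_left hcard (sq_nonneg _)
    _ ≤ coreC lam Ca * g ^ 2 * ∑ t ∈ Finset.range (N + 1), ∑ w ∈ W, ew t w ^ 2 := hcore
    _ ≤ _ := by
        refine mul_le_mul_of_nonneg_left ?_ ?_
        · refine Finset.sum_le_sum fun t ht => ?_
          rw [Finset.mem_range] at ht
          refine sum_ev_le G hs0 hlam hg t ?_ W
          have := hgN2 t (by omega)
          have := hpos t
          linarith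
        · unfold coreC
          positivity

end Tree

end TiltAux

open TiltAux


open Classical in
/-- `UR/Tilt.lean` : packing of the nodes stopped because of the tilt
(uses grid_tilt, regime_graph, plane_comparison). -/
theorem tilt_packing (n d : ℕ) (hn : 1 ≤ n) (C c lam C1 κ : ℝ) (hC : 0 < C) (hc : 0 < c)
    (hlam : 0 < lam) (hlam1 : lam ≤ 1 / 64) (hC1 : 1 ≤ C1) (hκ : 0 < κ) (hκ1 : κ ≤ 1 / 10) :
    ∃ ε1m : ℝ, 0 < ε1m ∧ ∃ Ct : ℝ, 0 < Ct ∧ ∀ ε1 : ℝ, 0 < ε1 → ε1 ≤ ε1m →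
      ∀ (μ : Measure (E d)) (x0 : E d) (D s0 : ℝ) (N : ℕ), UB n μ C → LB n μ c D → 0 < s0 →
      100 * s0 ≤ D → ∀ (T : Nets μ x0 s0 lam N) (k0 : ℕ) (p0 : E d), ‖p0 - x0‖ ≤ 2 * s0 →
      ∀ (G : Regime n (μ.restrict (closedBall x0 D)) T C1 ε1 κ k0 p0),
      ∑ k ∈ Finset.range N, ∑ q ∈ (T.pts (k + 1)).filter (fun q => k0 ≤ k ∧
          G.Act k (T.par k q) ∧ G.ε (k + 1) q ≤ ε1 ∧ κ < ‖G.M (k + 1) q‖), (s0 * lam ^ (k + 1)) ^ n ≤
        Ct * ∑ k ∈ Finset.range (N + 1), ∑ p ∈ (T.pts k).filter (fun p => k0 ≤ k ∧ G.Act k p),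
          G.ε k p ^ 2 * (s0 * lam ^ k) ^ n := by
  obtain ⟨ε1a, hε1a, hgr⟩ := regime_graph n d C c lam κ (lam / 4) hC hc hlam hlam1 hκ hκ1
    (by positivity)
  obtain ⟨Cp, hCp, ε3, hε3, hpc⟩ := plane_comparison n d hn C c hC hc 12 (by norm_num)
  have hn0 : (0 : ℝ) < n := by exact_mod_cast hn
  have hsn : (0 : ℝ) < √(n : ℝ) := Real.sqrt_pos.2 hn0
  have hCa : 0 < 4 * C1 / lam + 2 * Cp := by positivity
  set Ca : ℝ := 4 * C1 / lam + 2 * Cp with hCadef
  have hcC : 0 < coreC lam Ca := by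
    unfold coreC
    positivity
  refine ⟨min (min ε1a ε3) (min (κ / (4 * √n) / (128 * Ca)) (κ / (2 * C1))), by positivity,
    n * (coreC lam Ca * (16 * n / κ ^ 2) * (144 * √n) ^ n), by positivity, ?_⟩
  intro ε1 hε1 hε1m μ x0 D s0 N hU hL hs0 hD T k0 p0 _ G
  have hε1a' : ε1 ≤ ε1a := hε1m.trans ((min_le_left _ _).trans (min_le_left _ _))
  have hε13 : ε1 ≤ ε3 := hε1m.trans ((min_le_left _ _).trans (min_le_right _ _))
  have hε1b : ε1 ≤ κ / (4 * √n) / (128 * Ca) :=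
    hε1m.trans ((min_le_right _ _).trans (min_le_left _ _))
  have hε1c : ε1 ≤ κ / (2 * C1) := hε1m.trans ((min_le_right _ _).trans (min_le_right _ _))
  have hε2 : 128 * Ca * ε1 ≤ κ / (4 * √n) := by
    rw [le_div_iff₀ (by positivity)] at hε1b
    linarith
  have hε2' : C1 * ε1 ≤ κ / 2 := by
    rw [le_div_iff₀ (by positivity)] at hε1c
    linarith
  have hpos : ∀ k, 0 < s0 * lam ^ k := fun k => by positivity
  have hle0 : ∀ k, s0 * lam ^ k ≤ s0 := fun k => by
    have := pow_le_one₀ (n := k) hlam.le (by linarith : lam ≤ 1)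
    nlinarith only [hs0, this]
  have hgraph : ∀ (k : ℕ) (p : E d), G.Act k p → ∀ x ∈ μ.support, ∀ y ∈ μ.support,
      ‖x - p‖ ≤ 4 * (s0 * lam ^ k) → lam / 4 * (s0 * lam ^ k) ≤ ‖x - y‖ →
      ‖x - y‖ ≤ 8 * (s0 * lam ^ k0) → ‖x - y‖ ≤ 2 * ‖adjU G.U (x - y)‖ :=
    fun k p hp => hgr ε1 hε1 hε1a' C1 μ x0 D s0 N hU hL hs0 hD T k0 p0 G k p hp
  have hPC : PC G Cp := by
    intro j q q' hq hq' v hv hv'
    have hm := G.act_level _ _ hq
    have hs := T.mem_supp j hm.2.1 q hm.2.2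
    have hsm := G.small _ _ hq
    have hsm' := G.small _ _ hq'
    exact hpc _ (UB.restrict hU _) q q' (s0 * lam ^ j) (hpos j)
      (near_nodes G hs0 hlam hlam1 hgraph hq hq' v hv hv')
      (mem_support_restrict hs.1 (by linarith [hs.2]))
      (LBloc.of_LB hL (by linarith [hs.2, hle0 j])) G.U _ _ _ _ _ _
      (by linarith [hsm.2]) (by linarith [hsm'.2]) (G.perp _ _ hq) (G.perp _ _ hq')
      (G.ε_nonneg _ _) (hsm.1.trans hε13) (G.ε_nonneg _ _) (hsm'.1.trans hε13)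
      (G.growth _ _ hq) (G.growth _ _ hq') v (by linarith [hpos j])
  -- all the stop nodes
  set SP : Finset (Σ _ : ℕ, E d) := (Finset.range N).sigma fun k =>
    (T.pts (k + 1)).filter (fun q => k0 ≤ k ∧
          G.Act k (T.par k q) ∧ G.ε (k + 1) q ≤ ε1 ∧ κ < ‖G.M (k + 1) q‖) with hSPdef
  have hSP : ∀ x ∈ SP, IsStop G x.1 x.2 := by
    rintro ⟨k, q⟩ hx
    rw [hSPdef, Finset.mem_sigma, Finset.mem_range, Finset.mem_filter] at hx
    exact ⟨hx.1, hx.2.1, hx.2.2⟩
  have hdir : ∀ x : Σ _ : ℕ, E d, ∃ i : Fin n, x ∈ SP →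
      κ / (2 * √n) ≤ ‖G.M x.1 (T.par x.1 x.2) (EuclideanSpace.single i (1 : ℝ))‖ := by
    intro x
    by_cases hx : x ∈ SP
    · obtain ⟨hkN, hq, hk0, hact, hε, hM⟩ := hSP x hx
      have hst := (G.step x.1 hkN x.2 hq hact hε).1
      have h1 : ‖G.M (x.1 + 1) x.2‖ ≤ ‖G.M x.1 (T.par x.1 x.2)‖ + C1 * ε1 := by
        have h2 : ‖G.M (x.1 + 1) x.2‖ ≤ ‖G.M x.1 (T.par x.1 x.2)‖ +
            ‖G.M (x.1 + 1) x.2 - G.M x.1 (T.par x.1 x.2)‖ := by
          have := norm_add_le (G.M x.1 (T.par x.1 x.2)) (G.M (x.1 + 1) x.2 - G.M x.1 (T.par x.1 x.2))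
          simpa using this
        have h3 : C1 * G.ε (x.1 + 1) x.2 ≤ C1 * ε1 :=
          mul_le_mul_of_nonneg_left hε (by linarith)
        linarith
      obtain ⟨i, hi⟩ := exists_dir hκ (G.M x.1 (T.par x.1 x.2)) (by linarith)
      exact ⟨i, fun _ => hi⟩
    · exact ⟨⟨0, hn⟩, fun h => absurd h hx⟩
  choose dir hdir using hdir
  set B : ℝ := ∑ k ∈ Finset.range (N + 1), ∑ p ∈ (T.pts k).filter (fun p => k0 ≤ k ∧ G.Act k p),
          G.ε k p ^ 2 * (s0 * lam ^ k) ^ n with hB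
  set g : ℝ := s0 * lam ^ N / (64 * √n) with hg
  have hg0 : 0 < g := by have := hpos N; positivity
  have hone : ∀ i0 : Fin n, ∑ x ∈ SP.filter (fun x => dir x = i0), (s0 * lam ^ (x.1 + 1)) ^ n ≤
      coreC lam Ca * (16 * n / κ ^ 2) * (144 * √n) ^ n * B := by
    intro i0
    have h1 := dir_packing G hn hs0 hlam hlam1 hC1 hκ hε1 hCp.le hPC hgraph hε2 hg0 le_rfl i0
      (SP.filter (fun x => dir x = i0)) (fun x hx => by
        rw [Finset.mem_filter] at hx
        refine ⟨hSP x hx.1, ?_⟩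
        rw [← hx.2]
        exact hdir x hx.1)
    have h2 : ∑ t ∈ Finset.range (N + 1), ∑ q ∈ (T.pts t).filter (fun q => G.Act t q),
          G.ε t q ^ 2 * (9 * (s0 * lam ^ t) / g) ^ n = (9 / g) ^ n * B := by
      rw [hB, Finset.mul_sum]
      refine Finset.sum_congr rfl fun t _ => ?_
      rw [Finset.mul_sum]
      have h3 : (T.pts t).filter (fun q => G.Act t q) =
          (T.pts t).filter (fun p => k0 ≤ t ∧ G.Act t p) := by
        refine Finset.filter_congr fun q _ => ?_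
        exact ⟨fun h => ⟨(G.act_level _ _ h).1, h⟩, fun h => h.2⟩
      rw [h3]
      refine Finset.sum_congr rfl fun q _ => ?_
      rw [show 9 * (s0 * lam ^ t) / g = 9 / g * (s0 * lam ^ t) by ring, mul_pow]
      ring
    have h4 : ∑ x ∈ SP.filter (fun x => dir x = i0), (s0 * lam ^ (x.1 + 1) / (16 * √n) / g) ^ n =
        (1 / (16 * √n * g)) ^ n *
          ∑ x ∈ SP.filter (fun x => dir x = i0), (s0 * lam ^ (x.1 + 1)) ^ n := by
      rw [Finset.mul_sum]
      refine Finset.sum_congr rfl fun x _ => ?_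
      rw [← mul_pow]
      congr 1
      field_simp
    rw [h2, h4] at h1
    set A := ∑ x ∈ SP.filter (fun x => dir x = i0), (s0 * lam ^ (x.1 + 1)) ^ n with hA
    have h5 : (g * κ / (4 * √n)) ^ 2 = g ^ 2 * κ ^ 2 / (16 * n) := by
      rw [div_pow, mul_pow, mul_pow, Real.sq_sqrt hn0.le]
      norm_num
    rw [h5, ← hCadef] at h1
    have h6 : A = (16 * √n * g) ^ n * ((1 / (16 * √n * g)) ^ n * A) := by
      rw [← mul_assoc, ← mul_pow]
      rw [mul_one_div_cancel (by positivity), one_pow, one_mul]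
    have h7 : (1 / (16 * √n * g)) ^ n * A ≤ (16 * n / κ ^ 2) * (coreC lam Ca * ((9 / g) ^ n * B)) := by
      have h8 : g ^ 2 * κ ^ 2 / (16 * n) * ((1 / (16 * √n * g)) ^ n * A) ≤
          g ^ 2 * κ ^ 2 / (16 * n) *
            ((16 * n / κ ^ 2) * (coreC lam Ca * ((9 / g) ^ n * B))) := by
        refine h1.trans (le_of_eq ?_)
        field_simp
      exact le_of_mul_le_mul_left h8 (by positivity)
    calc A = (16 * √n * g) ^ n * ((1 / (16 * √n * g)) ^ n * A) := h6
      _ ≤ (16 * √n * g) ^ n * ((16 * n / κ ^ 2) * (coreC lam Ca * ((9 / g) ^ n * B))) :=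
          mul_le_mul_of_nonneg_left h7 (by positivity)
      _ = coreC lam Ca * (16 * n / κ ^ 2) * (((16 * √n * g) * (9 / g)) ^ n) * B := by
          rw [mul_pow (16 * √(n : ℝ) * g) (9 / g)]; ring
      _ = _ := by
          rw [show (16 * √(n : ℝ) * g) * (9 / g) = 144 * √n by field_simp; norm_num]
  have hLHS : ∑ k ∈ Finset.range N, ∑ q ∈ (T.pts (k + 1)).filter (fun q => k0 ≤ k ∧
          G.Act k (T.par k q) ∧ G.ε (k + 1) q ≤ ε1 ∧ κ < ‖G.M (k + 1) q‖),
          (s0 * lam ^ (k + 1)) ^ n = ∑ x ∈ SP, (s0 * lam ^ (x.1 + 1)) ^ n := by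
    rw [hSPdef, Finset.sum_sigma]
  rw [hLHS, ← Finset.sum_fiberwise SP dir]
  calc ∑ i0 : Fin n, ∑ x ∈ SP.filter (fun x => dir x = i0), (s0 * lam ^ (x.1 + 1)) ^ n
      ≤ ∑ _i0 : Fin n, coreC lam Ca * (16 * n / κ ^ 2) * (144 * √n) ^ n * B :=
        Finset.sum_le_sum fun i0 _ => hone i0
    _ = _ := by
        rw [Finset.sum_const, Finset.card_univ, Fintype.card_fin, nsmul_eq_mul]
        ring

end Vale.Agent.P120
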