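import Vale.Agent.Lib.P120.Imp

/-!
P120, auxiliary facts for `UR/Tilt.lean`: counting grid points, summation over scales.
-/

open Finset

namespace Vale.Agent.P120.TiltAux

/-! ### grid points -/

variable {n : ℕ}

/-- grid point -/
noncomputable def gr (g : ℝ) (w : Fin n → ℤ) : EuclideanSpace ℝ (Fin n) :=
  WithLp.toLp 2 (fun i => g * (w i : ℝ))

@[simp] theorem gr_apply (g : ℝ) (w : Fin n → ℤ) (i : Fin n) : gr g w i = g * (w i : ℝ) := rfl

/-- grid points in a cube -/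
noncomputable def cube (g : ℝ) (x : EuclideanSpace ℝ (Fin n)) (ρ : ℝ) : Finset (Fin n → ℤ) :=
  Fintype.piFinset fun i => Icc ⌈(x i - ρ) / g⌉ ⌊(x i + ρ) / g⌋

theorem mem_cube {g : ℝ} (hg : 0 < g) {x : EuclideanSpace ℝ (Fin n)} {ρ : ℝ}
    {w : Fin n → ℤ} : w ∈ cube g x ρ ↔ ∀ i, |g * w i - x i| ≤ ρ := by
  unfold cube
  rw [Fintype.mem_piFinset]
  refine forall_congr' fun i => ?_
  rw [mem_Icc, Int.ceil_le, Int.le_floor, div_le_iff₀ hg, le_div_iff₀ hg, abs_le]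
  constructor
  · rintro ⟨h1, h2⟩
    constructor <;> nlinarith
  · rintro ⟨h1, h2⟩
    constructor <;> nlinarith

theorem card_cube_ge {g : ℝ} (hg : 0 < g) (x : EuclideanSpace ℝ (Fin n)) {ρ : ℝ} (hρ : g ≤ ρ) :
    (ρ / g) ^ n ≤ ((cube g x ρ).card : ℝ) := by
  unfold cube
  rw [Fintype.card_piFinset]
  push_cast
  have h : (ρ / g) ^ n = ∏ _i : Fin n, (ρ / g) := by
    rw [prod_const, card_univ, Fintype.card_fin]
  rw [h]
  have hρ0 : 0 < ρ := hg.trans_le hρ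
  refine prod_le_prod (fun i _ => by positivity) fun i _ => ?_
  rw [Int.card_Icc]
  have h1 : (⌊(x i + ρ) / g⌋ : ℝ) > (x i + ρ) / g - 1 := Int.sub_one_lt_floor _
  have h2 : (⌈(x i - ρ) / g⌉ : ℝ) < (x i - ρ) / g + 1 := Int.ceil_lt_add_one _
  have h3 : 1 ≤ ρ / g := (one_le_div hg).2 hρ
  have h4 : (x i + ρ) / g - (x i - ρ) / g = 2 * (ρ / g) := by ring
  have h5 : ((⌊(x i + ρ) / g⌋ + 1 - ⌈(x i - ρ) / g⌉ : ℤ) : ℝ) ≤
      (((⌊(x i + ρ) / g⌋ + 1 - ⌈(x i - ρ) / g⌉).toNat : ℤ) : ℝ) := by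
    exact_mod_cast Int.self_le_toNat _
  push_cast at h5 ⊢
  linarith

theorem card_cube_le {g : ℝ} (hg : 0 < g) (x : EuclideanSpace ℝ (Fin n)) {ρ : ℝ} (hρ : g ≤ ρ) :
    ((cube g x ρ).card : ℝ) ≤ (3 * ρ / g) ^ n := by
  unfold cube
  rw [Fintype.card_piFinset]
  push_cast
  have h : (3 * ρ / g) ^ n = ∏ _i : Fin n, (3 * ρ / g) := by
    rw [prod_const, card_univ, Fintype.card_fin]
  rw [h]
  refine prod_le_prod (fun i _ => by positivity) fun i _ => ?_
  rw [Int.card_Icc]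
  have h1 : (⌊(x i + ρ) / g⌋ : ℝ) ≤ (x i + ρ) / g := Int.floor_le _
  have h2 : (⌈(x i - ρ) / g⌉ : ℝ) ≥ (x i - ρ) / g := Int.le_ceil _
  have h3 : 1 ≤ ρ / g := (one_le_div hg).2 hρ
  have h4 : (x i + ρ) / g - (x i - ρ) / g = 2 * (ρ / g) := by ring
  have h6 : 3 * ρ / g = 3 * (ρ / g) := by ring
  rcases le_total 0 (⌊(x i + ρ) / g⌋ + 1 - ⌈(x i - ρ) / g⌉) with h0 | h0
  · have h5 : (((⌊(x i + ρ) / g⌋ + 1 - ⌈(x i - ρ) / g⌉).toNat : ℤ) : ℝ) =
        ((⌊(x i + ρ) / g⌋ + 1 - ⌈(x i - ρ) / g⌉ : ℤ) : ℝ) := by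
      rw [Int.toNat_of_nonneg h0]
    push_cast at h5 ⊢
    rw [h5, h6]
    linarith
  · rw [Int.toNat_of_nonpos h0]
    push_cast
    rw [h6]
    linarith

theorem norm_le_of_coord {v : EuclideanSpace ℝ (Fin n)} {ρ : ℝ} (hρ : 0 ≤ ρ)
    (h : ∀ i, |v i| ≤ ρ) : ‖v‖ ≤ √n * ρ := by
  rw [EuclideanSpace.norm_eq]
  have h1 : ∑ i, ‖v i‖ ^ 2 ≤ n * ρ ^ 2 := by
    calc ∑ i, ‖v i‖ ^ 2 ≤ ∑ _i : Fin n, ρ ^ 2 := by
          refine sum_le_sum fun i _ => ?_
          rw [Real.norm_eq_abs]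
          exact pow_le_pow_left₀ (abs_nonneg _) (h i) 2
      _ = n * ρ ^ 2 := by simp
  calc √(∑ i, ‖v i‖ ^ 2) ≤ √(n * ρ ^ 2) := Real.sqrt_le_sqrt h1
    _ = √n * ρ := by rw [Real.sqrt_mul (by positivity), Real.sqrt_sq hρ]

theorem abs_coord_le (v : EuclideanSpace ℝ (Fin n)) (i : Fin n) : |v i| ≤ ‖v‖ := by
  rw [← Real.norm_eq_abs]
  exact PiLp.norm_apply_le v i

theorem gr_add_single (g : ℝ) (w : Fin n → ℤ) (k : ℤ) (i : Fin n) :
    gr g (w + k • (Pi.single i 1 : Fin n → ℤ)) =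
      gr g w + (g * k) • EuclideanSpace.single i (1 : ℝ) := by
  ext j
  simp only [gr_apply, PiLp.add_apply, PiLp.smul_apply, Pi.add_apply, Pi.smul_apply, smul_eq_mul,
    PiLp.single_apply]
  by_cases h : j = i
  · subst h
    simp
    ring
  · simp [h]

/-! ### summation over scales -/

section Sums

variable {s0 lam g : ℝ} {N : ℕ}

/-- the tail sum -/
noncomputable def tsum' {ι : Type*} (s0 lam : ℝ) (N : ℕ) (ew : ℕ → ι → ℝ) (j : ℕ) (w : ι) : ℝ :=
  ∑ i ∈ Icc j N, s0 * lam ^ i * ew i w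

theorem geom_tail (hlam : 0 < lam) (hlam1 : lam ≤ 1 / 64) (hs0 : 0 < s0) (j N : ℕ) :
    ∑ i ∈ Icc j N, s0 * lam ^ i ≤ 64 / 63 * (s0 * lam ^ j) := by
  have key : ∀ M : ℕ, ∑ i ∈ Ico j (j + M), s0 * lam ^ i ≤
      64 / 63 * (s0 * lam ^ j - s0 * lam ^ (j + M)) := by
    intro M
    induction M with
    | zero => simp
    | succ M ih =>
      rw [← add_assoc, sum_Ico_succ_top (by omega)]
      have h1 : 0 < s0 * lam ^ (j + M) := by positivity
      have h2 : s0 * lam ^ (j + M + 1) ≤ 1 / 64 * (s0 * lam ^ (j + M)) := by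
        rw [pow_succ]
        nlinarith only [hlam1, h1]
      linarith
  rcases le_or_gt j N with h | h
  · have e1 : Icc j N = Ico j (j + (N + 1 - j)) := by
      ext i
      simp only [mem_Icc, mem_Ico]
      omega
    rw [e1]
    refine (key _).trans ?_
    have : 0 < s0 * lam ^ (j + (N + 1 - j)) := by positivity
    linarith
  · rw [Icc_eq_empty (by omega)]
    simp
    positivity

theorem sum_ratio (hlam : 0 < lam) (hlam1 : lam ≤ 1 / 64) (i : ℕ) :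
    ∑ j ∈ range (i + 1), lam ^ (i - j) ≤ 64 / 63 := by
  have h1 : ∑ j ∈ range (i + 1), lam ^ (i - j) = ∑ j ∈ range (i + 1), lam ^ j := by
    rw [← sum_range_reflect]
    refine sum_congr rfl fun j hj => ?_
    rw [mem_range] at hj
    congr 1
    omega
  rw [h1]
  have h2 := geom_tail hlam hlam1 (s0 := 1) one_pos 0 i
  simp only [one_mul, pow_zero, mul_one] at h2
  have e1 : range (i + 1) = Icc 0 i := by
    ext k
    simp only [mem_range, mem_Icc]
    omega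
  rw [e1]
  exact h2

theorem tsum'_sq_le {ι : Type*} (hlam : 0 < lam) (hlam1 : lam ≤ 1 / 64) (hs0 : 0 < s0)
    (ew : ℕ → ι → ℝ) (j : ℕ) (w : ι) :
    tsum' s0 lam N ew j w ^ 2 ≤ 2 * (s0 * lam ^ j) * ∑ i ∈ Icc j N, s0 * lam ^ i * ew i w ^ 2 := by
  have h1 : tsum' s0 lam N ew j w ^ 2 ≤
      (∑ i ∈ Icc j N, s0 * lam ^ i) * ∑ i ∈ Icc j N, s0 * lam ^ i * ew i w ^ 2 := by
    unfold tsum'
    refine sum_sq_le_sum_mul_sum_of_sq_le_mul _ (fun i _ => by positivity)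
      (fun i _ => by positivity) fun i _ => le_of_eq (by ring)
  refine h1.trans ?_
  have h2 := geom_tail hlam hlam1 hs0 j N
  have h3 : 0 ≤ ∑ i ∈ Icc j N, s0 * lam ^ i * ew i w ^ 2 := sum_nonneg fun i _ => by positivity
  have h4 : 0 < s0 * lam ^ j := by positivity
  refine mul_le_mul_of_nonneg_right (h2.trans ?_) h3
  linarith

/-- the sum over all levels of the normalised squares -/
theorem sum_Q_le {ι : Type*} (hlam : 0 < lam) (hlam1 : lam ≤ 1 / 64) (hs0 : 0 < s0)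
    (ew : ℕ → ι → ℝ) (W : Finset ι) :
    ∑ j ∈ range (N + 1), (∑ w ∈ W, tsum' s0 lam N ew j w ^ 2) / (s0 * lam ^ j) ^ 2 ≤
      4 * ∑ i ∈ range (N + 1), ∑ w ∈ W, ew i w ^ 2 := by
  set P : ℕ → ℝ := fun i => ∑ w ∈ W, ew i w ^ 2 with hP
  have hP0 : ∀ i, 0 ≤ P i := fun i => sum_nonneg fun w _ => sq_nonneg _
  have h1 : ∀ j, (∑ w ∈ W, tsum' s0 lam N ew j w ^ 2) / (s0 * lam ^ j) ^ 2 ≤
      2 * ∑ i ∈ Icc j N, lam ^ (i - j) * P i := by
    intro j
    have hj : 0 < s0 * lam ^ j := by positivity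
    rw [div_le_iff₀ (by positivity)]
    calc ∑ w ∈ W, tsum' s0 lam N ew j w ^ 2
        ≤ ∑ w ∈ W, 2 * (s0 * lam ^ j) * ∑ i ∈ Icc j N, s0 * lam ^ i * ew i w ^ 2 :=
          sum_le_sum fun w _ => tsum'_sq_le hlam hlam1 hs0 ew j w
      _ = 2 * (s0 * lam ^ j) * ∑ i ∈ Icc j N, s0 * lam ^ i * P i := by
          rw [← mul_sum, sum_comm]
          congr 1
          refine sum_congr rfl fun i _ => ?_
          rw [hP, mul_sum]
      _ = 2 * (∑ i ∈ Icc j N, lam ^ (i - j) * P i) * (s0 * lam ^ j) ^ 2 := by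
          rw [mul_sum, mul_sum, sum_mul]
          refine sum_congr rfl fun i hi => ?_
          rw [mem_Icc] at hi
          have : lam ^ i = lam ^ (i - j) * lam ^ j := by
            rw [← pow_add]; congr 1; omega
          rw [this]
          ring
  calc ∑ j ∈ range (N + 1), (∑ w ∈ W, tsum' s0 lam N ew j w ^ 2) / (s0 * lam ^ j) ^ 2
      ≤ ∑ j ∈ range (N + 1), 2 * ∑ i ∈ Icc j N, lam ^ (i - j) * P i :=
        sum_le_sum fun j _ => h1 j
    _ = 2 * ∑ i ∈ range (N + 1), ∑ j ∈ range (i + 1), lam ^ (i - j) * P i := by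
        rw [← mul_sum]
        congr 1
        refine sum_comm' fun j i => ?_
        simp only [mem_range, mem_Icc]
        omega
    _ ≤ 2 * ∑ i ∈ range (N + 1), 64 / 63 * P i := by
        refine mul_le_mul_of_nonneg_left (sum_le_sum fun i _ => ?_) (by norm_num)
        rw [← sum_mul]
        exact mul_le_mul_of_nonneg_right (sum_ratio hlam hlam1 i) (hP0 i)
    _ ≤ 4 * ∑ i ∈ range (N + 1), P i := by
        rw [← mul_sum]
        have : 0 ≤ ∑ i ∈ range (N + 1), P i := sum_nonneg fun i _ => hP0 i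
        linarith

/-- shifting a sum of a nonnegative function supported in `W` -/
theorem sum_shift_le {G : Type*} [AddCommGroup G] [DecidableEq G] (V W : Finset G) (f : G → ℝ)
    (hf : ∀ w, 0 ≤ f w) (hW : ∀ w, w ∉ W → f w = 0) (a : G) :
    ∑ v ∈ V, f (v + a) ≤ ∑ w ∈ W, f w := by
  have h1 : ∑ v ∈ V, f (v + a) = ∑ w ∈ V.image (· + a), f w := by
    rw [sum_image]
    intro x _ y _ h
    exact add_right_cancel h
  rw [h1]
  calc ∑ w ∈ V.image (· + a), f w = ∑ w ∈ (V.image (· + a)).filter (· ∈ W), f w := by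
        rw [sum_filter]
        refine sum_congr rfl fun w _ => ?_
        by_cases h : w ∈ W
        · simp [h]
        · simp [h, hW w h]
    _ ≤ ∑ w ∈ W, f w := by
        refine sum_le_sum_of_subset_of_nonneg ?_ fun w _ _ => hf w
        intro w hw
        rw [mem_filter] at hw
        exact hw.2

/-- number of dyadic scales in a bounded window -/
theorem card_dyadic {X K : ℝ} (hX : 0 < X) (hK : 1 ≤ K) (F : Finset ℕ)
    (h : ∀ m ∈ F, X ≤ 2 ^ m ∧ (2 : ℝ) ^ m ≤ K * X) : (F.card : ℝ) ≤ K + 1 := by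
  rcases F.eq_empty_or_nonempty with rfl | hne
  · simp; linarith
  set a := F.min' hne with ha
  have hsub : F ⊆ Icc a (a + ⌊K⌋₊) := by
    intro m hm
    rw [mem_Icc]
    have h1 : a ≤ m := F.min'_le m hm
    refine ⟨h1, ?_⟩
    obtain ⟨t, rfl⟩ := Nat.exists_eq_add_of_le h1
    have h2 := (h a (F.min'_mem hne)).1
    have h3 := (h _ hm).2
    have h4 : (2 : ℝ) ^ t ≤ K := by
      rw [pow_add] at h3
      have h5 : X * 2 ^ t ≤ 2 ^ a * 2 ^ t := mul_le_mul_of_nonneg_right h2 (by positivity)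
      have h6 : X * 2 ^ t ≤ X * K := by linarith
      exact le_of_mul_le_mul_left h6 hX
    have h5 : (t : ℝ) ≤ K := by
      have : (t : ℝ) < 2 ^ t := by exact_mod_cast Nat.lt_two_pow_self
      linarith
    have h6 : t ≤ ⌊K⌋₊ := Nat.le_floor h5
    omega
  calc (F.card : ℝ) ≤ ((Icc a (a + ⌊K⌋₊)).card : ℝ) := by exact_mod_cast card_le_card hsub
    _ = (⌊K⌋₊ : ℝ) + 1 := by
        rw [Nat.card_Icc]
        push_cast [show a + ⌊K⌋₊ + 1 - a = ⌊K⌋₊ + 1 by omega]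
        ring
    _ ≤ K + 1 := by
        have := Nat.floor_le (by linarith : (0 : ℝ) ≤ K)
        linarith

/-- `Adm m j`: the dyadic scale `2^m g` belongs to the level `j`. -/
def Adm (s0 lam g : ℝ) (m j : ℕ) : Prop :=
  16 * (2 ^ m * g) ≤ s0 * lam ^ j ∧ lam * (s0 * lam ^ j) ≤ 32 * (2 ^ m * g)

open Classical in
/-- the main summation -/
theorem sum_adm_le (hlam : 0 < lam) (hlam1 : lam ≤ 1 / 64) (hs0 : 0 < s0) (hg : 0 < g)
    (Q : ℕ → ℝ) (hQ : ∀ j, 0 ≤ Q j) (m0 : ℕ) :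
    ∑ m ∈ range m0, ∑ j ∈ (range (N + 1)).filter (fun j => Adm s0 lam g (m + 1) j),
      Q j / 4 ^ (m + 1) ≤
      (2 / lam + 1) * (32 / lam) ^ 2 * g ^ 2 *
        ∑ j ∈ range (N + 1), Q j / (s0 * lam ^ j) ^ 2 := by
  have h1 : ∑ m ∈ range m0, ∑ j ∈ (range (N + 1)).filter (fun j => Adm s0 lam g (m + 1) j),
      Q j / 4 ^ (m + 1) = ∑ j ∈ range (N + 1), ∑ m ∈ (range m0).filter
        (fun m => Adm s0 lam g (m + 1) j), Q j / 4 ^ (m + 1) := by
    refine sum_comm' fun m j => ?_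
    simp only [mem_range, mem_filter]
    tauto
  rw [h1, mul_sum]
  refine sum_le_sum fun j _ => ?_
  have hsj : 0 < s0 * lam ^ j := by positivity
  set F := (range m0).filter (fun m => Adm s0 lam g (m + 1) j) with hF
  have hterm : ∀ m ∈ F, Q j / 4 ^ (m + 1) ≤ (32 / lam) ^ 2 * g ^ 2 * (Q j / (s0 * lam ^ j) ^ 2) := by
    intro m hm
    rw [hF, mem_filter] at hm
    have h2 := hm.2.2
    rw [div_le_iff₀ (by positivity)]
    have h3 : (lam * (s0 * lam ^ j)) ^ 2 ≤ (32 * (2 ^ (m + 1) * g)) ^ 2 :=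
      pow_le_pow_left₀ (by positivity) h2 2
    have h4 : (32 * (2 ^ (m + 1) * g)) ^ 2 = 32 ^ 2 * g ^ 2 * 4 ^ (m + 1) := by
      rw [show (4 : ℝ) = 2 ^ 2 by norm_num, ← pow_mul, mul_comm 2 (m + 1), pow_mul]
      ring
    rw [h4] at h3
    have h5 : (32 / lam) ^ 2 * g ^ 2 * (Q j / (s0 * lam ^ j) ^ 2) * 4 ^ (m + 1) =
        Q j * ((32 ^ 2 * g ^ 2 * 4 ^ (m + 1)) / (lam * (s0 * lam ^ j)) ^ 2) := by
      field_simp
    rw [h5]
    have h6 : 1 ≤ (32 ^ 2 * g ^ 2 * 4 ^ (m + 1)) / (lam * (s0 * lam ^ j)) ^ 2 := by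
      rw [one_le_div (by positivity)]
      exact h3
    nlinarith only [hQ j, h6]
  have hcard : (F.card : ℝ) ≤ 2 / lam + 1 := by
    have h2 : ((F.image (· + 1)).card : ℝ) ≤ 2 / lam + 1 := by
      refine card_dyadic (X := lam * (s0 * lam ^ j) / (32 * g)) (by positivity) ?_ _ ?_
      · rw [le_div_iff₀ hlam]
        linarith
      · intro m hm
        rw [mem_image] at hm
        obtain ⟨m', hm', rfl⟩ := hm
        rw [hF, mem_filter] at hm'
        obtain ⟨h3, h4⟩ := hm'.2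
        constructor
        · rw [div_le_iff₀ (by positivity)]
          linarith
        · have : 2 / lam * (lam * (s0 * lam ^ j) / (32 * g)) = (s0 * lam ^ j) / (16 * g) := by
            field_simp
            norm_num
          rw [this, le_div_iff₀ (by positivity)]
          linarith
    rwa [card_image_of_injective _ (fun a b h => Nat.succ_injective h)] at h2
  calc ∑ m ∈ F, Q j / 4 ^ (m + 1) ≤ ∑ _m ∈ F, (32 / lam) ^ 2 * g ^ 2 * (Q j / (s0 * lam ^ j) ^ 2) :=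
        sum_le_sum hterm
    _ = F.card * ((32 / lam) ^ 2 * g ^ 2 * (Q j / (s0 * lam ^ j) ^ 2)) := by
        rw [sum_const, nsmul_eq_mul]
    _ ≤ (2 / lam + 1) * ((32 / lam) ^ 2 * g ^ 2 * (Q j / (s0 * lam ^ j) ^ 2)) :=
        mul_le_mul_of_nonneg_right hcard (by have := hQ j; positivity)
    _ = _ := by ring

/-- existence of the dyadic scale -/
theorem exists_dyadic {g t : ℝ} (hg : 0 < g) (h : g ≤ t) :
    ∃ m : ℕ, 2 ^ m * g ≤ t ∧ t < 2 ^ (m + 1) * g := by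
  have hex : ∃ m : ℕ, t < 2 ^ (m + 1) * g := by
    obtain ⟨m, hm⟩ := pow_unbounded_of_one_lt (t / g) (one_lt_two : (1 : ℝ) < 2)
    refine ⟨m, ?_⟩
    rw [div_lt_iff₀ hg] at hm
    have : (2 : ℝ) ^ m * g ≤ 2 ^ (m + 1) * g := by
      rw [pow_succ]
      have : 0 < (2 : ℝ) ^ m * g := by positivity
      nlinarith
    linarith
  classical
  refine ⟨Nat.find hex, ?_, Nat.find_spec hex⟩
  rcases Nat.eq_zero_or_pos (Nat.find hex) with h0 | h0
  · rw [h0]; simpa using h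
  · have h1 := Nat.find_min hex (Nat.sub_lt h0 one_pos)
    rw [not_lt, show Nat.find hex - 1 + 1 = Nat.find hex by omega] at h1
    exact h1

end Sums

end Vale.Agent.P120.TiltAux
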