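import Vale.Agent.Lib.P120.Imp

/-!
# P120: abstract square function estimate on the grid (module TiltGrid)

For an interval `J = (v, m)` of the direction `e` put `s_J = (h (v + 2^m e) - h v) / 2^m`.
With the two halves `l`, `r` of `J` one has `s_J = (s_l + s_r) / 2` and
`(|s_l|^2 + |s_r|^2) / 2 = |s_J|^2 + |s_l - s_J|^2`.
-/

namespace Vale.Agent.P120

open Finset

namespace TiltGrid

variable {n : ℕ} (e : Fin n → ℤ) (Z V : Finset (Fin n → ℤ)) (mz : (Fin n → ℤ) → ℕ)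
  (r : (Fin n → ℤ) → ℕ → ℝ)

open Classical in
/-- number of the points `v + j e`, `j < 2^m`, in `Z` with `mz ≤ m` -/
noncomputable def cnt (v : Fin n → ℤ) (m : ℕ) : ℝ :=
  ∑ j ∈ range (2 ^ m), if v + (j : ℤ) • e ∈ Z ∧ mz (v + (j : ℤ) • e) ≤ m then 1 else 0

open Classical in
/-- `r^2` on `V` -/
noncomputable def RR (v : Fin n → ℤ) (m : ℕ) : ℝ := if v ∈ V then r v m ^ 2 else 0

/-- sum over the dyadic subintervals -/
noncomputable def SS : ℕ → (Fin n → ℤ) → ℝ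
  | 0, _ => 0
  | (m + 1), v => 2 ^ (m + 1) * RR V r v (m + 1) + SS m v + SS m (v + (2 ^ m : ℤ) • e)

theorem RR_nonneg (v : Fin n → ℤ) (m : ℕ) : 0 ≤ RR V r v m := by
  unfold RR
  split
  · positivity
  · exact le_rfl

theorem SS_nonneg (m : ℕ) (v : Fin n → ℤ) : 0 ≤ SS e V r m v := by
  induction m generalizing v with
  | zero => exact le_rfl
  | succ m ih =>
    rw [SS]
    have h1 := RR_nonneg V r v (m + 1)
    have h2 := ih v
    have h3 := ih (v + (2 ^ m : ℤ) • e)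
    positivity

theorem sum_RR_le (w : Fin n → ℤ) (m : ℕ) :
    ∑ v ∈ V, RR V r (v + w) m ≤ ∑ v ∈ V, r v m ^ 2 := by
  classical
  have h1 : ∑ v ∈ V, RR V r (v + w) m = ∑ u ∈ V.map (addRightEmbedding w), RR V r u m := by
    rw [sum_map]
    rfl
  rw [h1]
  have h2 : ∑ u ∈ V.map (addRightEmbedding w), RR V r u m =
      ∑ u ∈ (V.map (addRightEmbedding w)).filter (fun u => u ∈ V), r u m ^ 2 := by
    rw [sum_filter]
    rfl
  rw [h2]
  refine sum_le_sum_of_subset_of_nonneg ?_ (fun _ _ _ => by positivity)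
  intro u hu
  exact (mem_filter.1 hu).2

theorem sum_SS_le (m : ℕ) (w : Fin n → ℤ) :
    ∑ v ∈ V, SS e V r m (v + w) ≤
      2 ^ m * ∑ i ∈ range m, ∑ v ∈ V, r v (i + 1) ^ 2 := by
  induction m generalizing w with
  | zero =>
    simp [SS]
  | succ m ih =>
    have h1 := sum_RR_le V r w (m + 1)
    have h2 := ih w
    have h3 := ih (w + (2 ^ m : ℤ) • e)
    rw [sum_range_succ]
    have e1 : ∑ v ∈ V, SS e V r (m + 1) (v + w) =
        2 ^ (m + 1) * ∑ v ∈ V, RR V r (v + w) (m + 1) + ∑ v ∈ V, SS e V r m (v + w) +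
          ∑ v ∈ V, SS e V r m (v + (w + (2 ^ m : ℤ) • e)) := by
      rw [mul_sum, ← sum_add_distrib, ← sum_add_distrib]
      refine sum_congr rfl fun v _ => ?_
      rw [SS, add_assoc v]
    rw [e1]
    have h4 : (2 : ℝ) ^ (m + 1) * ∑ v ∈ V, RR V r (v + w) (m + 1) ≤
        2 ^ (m + 1) * ∑ v ∈ V, r v (m + 1) ^ 2 := mul_le_mul_of_nonneg_left h1 (by positivity)
    have e2 : (2 : ℝ) ^ (m + 1) * (∑ i ∈ range m, ∑ v ∈ V, r v (i + 1) ^ 2 +
        ∑ v ∈ V, r v (m + 1) ^ 2) = 2 ^ (m + 1) * ∑ v ∈ V, r v (m + 1) ^ 2 +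
        2 ^ m * ∑ i ∈ range m, ∑ v ∈ V, r v (i + 1) ^ 2 +
        2 ^ m * ∑ i ∈ range m, ∑ v ∈ V, r v (i + 1) ^ 2 := by
      rw [pow_succ]
      ring
    rw [e2]
    linarith

theorem cnt_le (v : Fin n → ℤ) (m : ℕ) : cnt e Z mz v m ≤ 2 ^ m := by
  unfold cnt
  calc _ ≤ ∑ j ∈ range (2 ^ m), (1 : ℝ) := by
        refine sum_le_sum fun j _ => ?_
        split <;> norm_num
    _ = 2 ^ m := by simp

theorem card_le_sum_cnt (m0 : ℕ) (hmz : ∀ z ∈ Z, mz z ≤ m0)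
    (hV : ∀ z ∈ Z, ∀ j : ℕ, j < 2 ^ m0 → z - (j : ℤ) • e ∈ V) :
    2 ^ m0 * (Z.card : ℝ) ≤ ∑ v ∈ V, cnt e Z mz v m0 := by
  classical
  unfold cnt
  rw [sum_comm]
  have h : ∀ j ∈ range (2 ^ m0), (Z.card : ℝ) ≤ ∑ v ∈ V,
      (if v + (j : ℤ) • e ∈ Z ∧ mz (v + (j : ℤ) • e) ≤ m0 then (1 : ℝ) else 0) := by
    intro j hj
    rw [mem_range] at hj
    rw [← sum_filter, sum_const, nsmul_eq_mul, mul_one]
    refine Nat.cast_le.2 (card_le_card_of_injOn (fun z => z - (j : ℤ) • e) ?_ ?_)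
    · intro z hz
      have hz' : z ∈ Z := hz
      show z - (j : ℤ) • e ∈ (_ : Finset _)
      rw [mem_filter, sub_add_cancel]
      exact ⟨hV z hz' j hj, hz', hmz z hz'⟩
    · intro a _ b _ hab
      exact sub_left_injective hab
  calc 2 ^ m0 * (Z.card : ℝ) = ∑ j ∈ range (2 ^ m0), (Z.card : ℝ) := by
        rw [sum_const, card_range, nsmul_eq_mul]
        push_cast
        ring
    _ ≤ _ := sum_le_sum h

theorem cnt_succ (v : Fin n → ℤ) (m : ℕ)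
    (h : ∀ j : ℕ, j < 2 ^ (m + 1) → v + (j : ℤ) • e ∈ Z → mz (v + (j : ℤ) • e) ≠ m + 1) :
    cnt e Z mz v (m + 1) = cnt e Z mz v m + cnt e Z mz (v + (2 ^ m : ℤ) • e) m := by
  classical
  unfold cnt
  have e0 : 2 ^ (m + 1) = 2 ^ m + 2 ^ m := by ring
  have h' : ∀ j : ℕ, j < 2 ^ m + 2 ^ m → ((v + (j : ℤ) • e ∈ Z ∧
      mz (v + (j : ℤ) • e) ≤ m + 1) ↔ (v + (j : ℤ) • e ∈ Z ∧ mz (v + (j : ℤ) • e) ≤ m)) := by
    intro j hj
    constructor
    · rintro ⟨h1, h2⟩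
      have h3 := h j (by rw [e0]; exact hj) h1
      exact ⟨h1, by omega⟩
    · rintro ⟨h1, h2⟩
      exact ⟨h1, by omega⟩
  rw [e0, sum_range_add]
  congr 1
  · refine sum_congr rfl fun j hj => ?_
    rw [mem_range] at hj
    simp only [h' j (by omega)]
  · refine sum_congr rfl fun j hj => ?_
    rw [mem_range] at hj
    have e1 : v + ((2 ^ m + j : ℕ) : ℤ) • e = v + (2 ^ m : ℤ) • e + (j : ℤ) • e := by
      push_cast
      rw [add_smul, add_assoc]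
    have h2 := h' (2 ^ m + j) (by omega)
    rw [e1] at h2
    rw [e1]
    simp only [h2]

end TiltGrid

open TiltGrid in
theorem grid_tilt {F : Type*} [NormedAddCommGroup F] [InnerProductSpace ℝ F] {n : ℕ}
    (e : Fin n → ℤ) (h : (Fin n → ℤ) → F) (m0 : ℕ) (Act : (Fin n → ℤ) → ℕ → Prop)
    (r : (Fin n → ℤ) → ℕ → ℝ) (κ : ℝ) (hκ : 0 ≤ κ) (Z V : Finset (Fin n → ℤ))
    (mz : (Fin n → ℤ) → ℕ) (hmz : ∀ z ∈ Z, mz z ≤ m0)
    (hV : ∀ z ∈ Z, ∀ j : ℕ, j < 2 ^ m0 → z - (j : ℤ) • e ∈ V)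
    (hZ : ∀ z ∈ Z, ∀ j : ℕ, j < 2 ^ mz z →
      κ * 2 ^ mz z ≤ ‖h (z - (j : ℤ) • e + (2 ^ mz z : ℤ) • e) - h (z - (j : ℤ) • e)‖)
    (hAct : ∀ z ∈ Z, ∀ m, mz z ≤ m → m ≤ m0 → ∀ j : ℕ, j < 2 ^ m → Act (z - (j : ℤ) • e) m)
    (hr : ∀ v ∈ V, ∀ m, m < m0 → Act v (m + 1) →
      ‖h v + h (v + (2 ^ (m + 1) : ℤ) • e) - (2 : ℝ) • h (v + (2 ^ m : ℤ) • e)‖ ≤
        2 ^ (m + 1) * r v (m + 1)) :
    κ ^ 2 * (Z.card : ℝ) ≤ ∑ v ∈ V, (‖h (v + (2 ^ m0 : ℤ) • e) - h v‖ / 2 ^ m0) ^ 2 +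
      ∑ m ∈ Finset.range m0, ∑ v ∈ V, r v (m + 1) ^ 2 := by
  -- the main claim
  have key : ∀ m : ℕ, m ≤ m0 → ∀ v : Fin n → ℤ, κ ^ 2 * cnt e Z mz v m ≤
      ‖h (v + (2 ^ m : ℤ) • e) - h v‖ ^ 2 / 2 ^ m + SS e V r m v := by
    -- if some point has `mz = m`
    have caseA : ∀ m : ℕ, ∀ v : Fin n → ℤ, (∃ j : ℕ, j < 2 ^ m ∧ v + (j : ℤ) • e ∈ Z ∧
        mz (v + (j : ℤ) • e) = m) → κ ^ 2 * cnt e Z mz v m ≤
        ‖h (v + (2 ^ m : ℤ) • e) - h v‖ ^ 2 / 2 ^ m + SS e V r m v := by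
      rintro m v ⟨j, hj, hjZ, hjm⟩
      have h1 := hZ _ hjZ j (by rw [hjm]; exact hj)
      rw [hjm, add_sub_cancel_right] at h1
      have h2 := cnt_le e Z mz v m
      have h3 := SS_nonneg e V r m v
      have h4 : (κ * 2 ^ m) ^ 2 ≤ ‖h (v + (2 ^ m : ℤ) • e) - h v‖ ^ 2 :=
        pow_le_pow_left₀ (by positivity) h1 2
      have h5 : κ ^ 2 * 2 ^ m ≤ ‖h (v + (2 ^ m : ℤ) • e) - h v‖ ^ 2 / 2 ^ m := by
        rw [le_div_iff₀ (by positivity)]
        calc κ ^ 2 * 2 ^ m * 2 ^ m = (κ * 2 ^ m) ^ 2 := by ring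
          _ ≤ _ := h4
      have h6 : κ ^ 2 * cnt e Z mz v m ≤ κ ^ 2 * 2 ^ m :=
        mul_le_mul_of_nonneg_left h2 (by positivity)
      linarith
    intro m
    induction m with
    | zero =>
      intro _ v
      by_cases hex : ∃ j : ℕ, j < 2 ^ 0 ∧ v + (j : ℤ) • e ∈ Z ∧ mz (v + (j : ℤ) • e) = 0
      · exact caseA 0 v hex
      · have hc : cnt e Z mz v 0 = 0 := by
          unfold cnt
          rw [pow_zero, range_one, sum_singleton, if_neg]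
          rintro ⟨h1, h2⟩
          exact hex ⟨0, by norm_num, h1, by omega⟩
        rw [hc, mul_zero]
        have h3 := SS_nonneg e V r 0 v
        positivity
    | succ m ih =>
      intro hm v
      by_cases hex : ∃ j : ℕ, j < 2 ^ (m + 1) ∧ v + (j : ℤ) • e ∈ Z ∧
          mz (v + (j : ℤ) • e) = m + 1
      · exact caseA (m + 1) v hex
      · have hS := SS_nonneg e V r (m + 1) v
        by_cases hany : ∃ j : ℕ, j < 2 ^ (m + 1) ∧ v + (j : ℤ) • e ∈ Z ∧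
            mz (v + (j : ℤ) • e) ≤ m + 1
        · obtain ⟨j, hj, hjZ, hjm⟩ := hany
          have hA := hAct _ hjZ (m + 1) hjm hm j hj
          rw [add_sub_cancel_right] at hA
          have hvV := hV _ hjZ j (hj.trans_le (Nat.pow_le_pow_right (by norm_num) hm))
          rw [add_sub_cancel_right] at hvV
          have hrv := hr v hvV m (by omega) hA
          have h1 := ih (by omega) v
          have h2 := ih (by omega) (v + (2 ^ m : ℤ) • e)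
          have hsplit := cnt_succ e Z mz v m (fun j hj hjZ hjm => hex ⟨j, hj, hjZ, hjm⟩)
          have e1 : v + (2 ^ m : ℤ) • e + (2 ^ m : ℤ) • e = v + (2 ^ (m + 1) : ℤ) • e := by
            rw [add_assoc, ← add_smul, pow_succ, mul_two]
          rw [e1] at h2
          set a := h (v + (2 ^ m : ℤ) • e) - h v with ha
          set b := h (v + (2 ^ (m + 1) : ℤ) • e) - h (v + (2 ^ m : ℤ) • e) with hb
          have hab : a + b = h (v + (2 ^ (m + 1) : ℤ) • e) - h v := by rw [ha, hb]; abel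
          have hamb : ‖a - b‖ ≤ 2 ^ (m + 1) * r v (m + 1) := by
            have e2 : a - b = -(h v + h (v + (2 ^ (m + 1) : ℤ) • e) -
                (2 : ℝ) • h (v + (2 ^ m : ℤ) • e)) := by
              rw [ha, hb, two_smul]; abel
            rw [e2, norm_neg]
            exact hrv
          have hpar : ‖a + b‖ ^ 2 + ‖a - b‖ ^ 2 = 2 * (‖a‖ ^ 2 + ‖b‖ ^ 2) := by
            have := parallelogram_law_with_norm ℝ a b
            linarith only [this]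
          have hsq : ‖a - b‖ ^ 2 ≤ (2 ^ (m + 1) * r v (m + 1)) ^ 2 :=
            pow_le_pow_left₀ (norm_nonneg _) hamb 2
          have hRR : RR V r v (m + 1) = r v (m + 1) ^ 2 := by
            unfold RR
            rw [if_pos hvV]
          rw [hsplit, ← hab, SS, hRR]
          have h2m : (0 : ℝ) < 2 ^ m := by positivity
          have e3 : ‖a‖ ^ 2 / 2 ^ m + ‖b‖ ^ 2 / 2 ^ m =
              ‖a + b‖ ^ 2 / 2 ^ (m + 1) + ‖a - b‖ ^ 2 / 2 ^ (m + 1) := by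
            have e6 : (2 : ℝ) ^ (m + 1) = 2 ^ m * 2 := pow_succ 2 m
            rw [e6, ← add_div, ← add_div, hpar]
            field_simp
          have e4 : ‖a - b‖ ^ 2 / 2 ^ (m + 1) ≤ 2 ^ (m + 1) * r v (m + 1) ^ 2 := by
            rw [div_le_iff₀ (by positivity)]
            calc ‖a - b‖ ^ 2 ≤ (2 ^ (m + 1) * r v (m + 1)) ^ 2 := hsq
              _ = _ := by ring
          rw [mul_add]
          linarith
        · have hc : cnt e Z mz v (m + 1) = 0 := by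
            unfold cnt
            refine sum_eq_zero fun j hj => ?_
            rw [mem_range] at hj
            rw [if_neg]
            rintro ⟨h1, h2⟩
            exact hany ⟨j, hj, h1, h2⟩
          rw [hc, mul_zero]
          positivity
  -- sum over the roots
  have h1 : κ ^ 2 * (2 ^ m0 * (Z.card : ℝ)) ≤ κ ^ 2 * ∑ v ∈ V, cnt e Z mz v m0 :=
    mul_le_mul_of_nonneg_left (card_le_sum_cnt e Z V mz m0 hmz hV) (by positivity)
  have h2 : κ ^ 2 * ∑ v ∈ V, cnt e Z mz v m0 ≤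
      ∑ v ∈ V, (‖h (v + (2 ^ m0 : ℤ) • e) - h v‖ ^ 2 / 2 ^ m0 + SS e V r m0 v) := by
    rw [mul_sum]
    exact sum_le_sum fun v _ => key m0 le_rfl v
  rw [sum_add_distrib] at h2
  have h3 := sum_SS_le e V r m0 0
  simp only [add_zero] at h3
  have h4 : 2 ^ m0 * (κ ^ 2 * (Z.card : ℝ)) ≤ 2 ^ m0 *
      (∑ v ∈ V, (‖h (v + (2 ^ m0 : ℤ) • e) - h v‖ / 2 ^ m0) ^ 2 +
      ∑ m ∈ Finset.range m0, ∑ v ∈ V, r v (m + 1) ^ 2) := by
    have e5 : (2 : ℝ) ^ m0 * ∑ v ∈ V, (‖h (v + (2 ^ m0 : ℤ) • e) - h v‖ / 2 ^ m0) ^ 2 =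
        ∑ v ∈ V, ‖h (v + (2 ^ m0 : ℤ) • e) - h v‖ ^ 2 / 2 ^ m0 := by
      rw [mul_sum]
      refine sum_congr rfl fun v _ => ?_
      field_simp
    rw [mul_add, e5]
    calc 2 ^ m0 * (κ ^ 2 * (Z.card : ℝ)) = κ ^ 2 * (2 ^ m0 * (Z.card : ℝ)) := by ring
      _ ≤ _ := h1.trans (h2.trans (by linarith))
  exact le_of_mul_le_mul_left h4 (by positivity)

end Vale.Agent.P120
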