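import Vale.Agent.Lib.P120.UR.TiltAux
import Vale.Agent.Lib.P120.UR.TiltGrid

/-!
P120, `UR/Tilt.lean`: the abstract core (consequence of `grid_tilt`).
-/

open Finset

namespace Vale.Agent.P120.TiltAux

/-- the final constant of `core` -/
noncomputable def coreC (lam Ca : ℝ) : ℝ :=
  64 * Ca ^ 2 * ((2 / lam + 1) * (32 / lam) ^ 2) + 16384 * Ca ^ 2

open Classical in
theorem core {F : Type*} [NormedAddCommGroup F] [InnerProductSpace ℝ F] {n : ℕ}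
    (e : Fin n → ℤ) (h : (Fin n → ℤ) → F) {s0 lam g κ' Ca : ℝ} (hlam : 0 < lam)
    (hlam1 : lam ≤ 1 / 64) (hs0 : 0 < s0) (hg : 0 < g) (hκ' : 0 ≤ κ') (_hCa : 0 ≤ Ca)
    {N k0 m0 : ℕ} (hk0 : k0 ≤ N) (ew : ℕ → (Fin n → ℤ) → ℝ) (hew0 : ∀ i w, 0 ≤ ew i w)
    (W : Finset (Fin n → ℤ)) (hW : ∀ i w, w ∉ W → ew i w = 0)
    (Z : Finset (Fin n → ℤ)) (mz : (Fin n → ℤ) → ℕ) (hmz : ∀ z ∈ Z, mz z ≤ m0)
    (hm0 : s0 * lam ^ k0 ≤ 32 * (2 ^ m0 * g)) (Near : ℕ → (Fin n → ℤ) → Prop)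
    (hZ : ∀ z ∈ Z, ∀ j : ℕ, j < 2 ^ mz z →
      κ' * 2 ^ mz z ≤ ‖h (z - (j : ℤ) • e + (2 ^ mz z : ℤ) • e) - h (z - (j : ℤ) • e)‖)
    (hAct : ∀ z ∈ Z, ∀ m, mz z ≤ m → m ≤ m0 → ∀ j : ℕ, j < 2 ^ m →
      ∃ l ≤ N, Adm s0 lam g m l ∧ Near l (z - (j : ℤ) • e))
    (hNear : ∀ l ≤ N, ∀ m, Adm s0 lam g (m + 1) l → ∀ v, Near l v →
      ‖h v + h (v + (2 ^ (m + 1) : ℤ) • e) - (2 : ℝ) • h (v + (2 ^ m : ℤ) • e)‖ ≤
        Ca * (tsum' s0 lam N ew l v + tsum' s0 lam N ew l (v + (2 ^ (m + 1) : ℤ) • e) +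
          2 * tsum' s0 lam N ew l (v + (2 ^ m : ℤ) • e)))
    (hroot : ∀ z ∈ Z, ∀ j : ℕ, j < 2 ^ m0 →
      ‖h (z - (j : ℤ) • e + (2 ^ m0 : ℤ) • e) - h (z - (j : ℤ) • e)‖ ≤
        Ca * (tsum' s0 lam N ew k0 (z - (j : ℤ) • e) +
          tsum' s0 lam N ew k0 (z - (j : ℤ) • e + (2 ^ m0 : ℤ) • e))) :
    κ' ^ 2 * (Z.card : ℝ) ≤
      coreC lam Ca * g ^ 2 * ∑ i ∈ range (N + 1), ∑ w ∈ W, ew i w ^ 2 := by
  set S := tsum' s0 lam N ew with hS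
  have hS0 : ∀ j w, 0 ≤ S j w := fun j w => sum_nonneg fun i _ => by
    have := hew0 i w
    positivity
  have hSW : ∀ j w, w ∉ W → S j w = 0 := fun j w hw => by
    rw [hS]
    exact sum_eq_zero fun i _ => by rw [hW i w hw, mul_zero]
  set V : Finset (Fin n → ℤ) := (Z ×ˢ range (2 ^ m0)).image fun x => x.1 - (x.2 : ℤ) • e with hV
  set Q : ℕ → ℝ := fun j => ∑ w ∈ W, S j w ^ 2 with hQ
  have hQ0 : ∀ j, 0 ≤ Q j := fun j => sum_nonneg fun w _ => sq_nonneg _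
  have hshift : ∀ j (a : Fin n → ℤ), ∑ v ∈ V, S j (v + a) ^ 2 ≤ Q j := fun j a =>
    sum_shift_le V W (fun w => S j w ^ 2) (fun w => sq_nonneg _)
      (fun w hw => by simp [hSW j w hw]) a
  have hshift0 : ∀ j, ∑ v ∈ V, S j v ^ 2 ≤ Q j := fun j => by
    have := hshift j 0
    simpa using this
  set r : (Fin n → ℤ) → ℕ → ℝ := fun v m =>
    √(∑ l ∈ (range (N + 1)).filter (fun l => Adm s0 lam g m l),
      (Ca * (S l v + S l (v + (2 ^ m : ℤ) • e) + 2 * S l (v + (2 ^ (m - 1) : ℤ) • e)) / 2 ^ m) ^ 2)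
    with hr
  have hgt := grid_tilt e h m0 (fun v m => ∃ l ≤ N, Adm s0 lam g m l ∧ Near l v) r κ' hκ' Z V mz
    hmz (fun z hz j hj => by
      rw [hV, mem_image]
      exact ⟨(z, j), by simp [hz, hj], rfl⟩) hZ hAct (fun v _ m _ hA => by
      obtain ⟨l, hl, hadm, hnear⟩ := hA
      refine (hNear l hl m hadm v hnear).trans ?_
      have h1 : Ca * (S l v + S l (v + (2 ^ (m + 1) : ℤ) • e) +
          2 * S l (v + (2 ^ (m + 1 - 1) : ℤ) • e)) / 2 ^ (m + 1) ≤ r v (m + 1) := by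
        rw [hr]
        refine Real.le_sqrt_of_sq_le ?_
        refine single_le_sum (f := fun l => (Ca * (S l v + S l (v + (2 ^ (m + 1) : ℤ) • e) +
          2 * S l (v + (2 ^ (m + 1 - 1) : ℤ) • e)) / 2 ^ (m + 1)) ^ 2)
          (fun l _ => sq_nonneg _) ?_
        rw [mem_filter, mem_range]
        exact ⟨by omega, hadm⟩
      rw [div_le_iff₀ (by positivity)] at h1
      simp only [Nat.add_sub_cancel] at h1
      rw [mul_comm (2 ^ (m + 1) : ℝ)]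
      exact h1)
  refine hgt.trans ?_
  have hP := sum_Q_le (N := N) hlam hlam1 hs0 ew W
  set P : ℝ := ∑ i ∈ range (N + 1), ∑ w ∈ W, ew i w ^ 2 with hPdef
  -- the root term
  have hroot' : ∑ v ∈ V, (‖h (v + (2 ^ m0 : ℤ) • e) - h v‖ / 2 ^ m0) ^ 2 ≤
      16384 * Ca ^ 2 * g ^ 2 * P := by
    have hs : 0 < s0 * lam ^ k0 := by positivity
    have h1 : ∀ v ∈ V, (‖h (v + (2 ^ m0 : ℤ) • e) - h v‖ / 2 ^ m0) ^ 2 ≤
        2 * Ca ^ 2 / 4 ^ m0 * (S k0 v ^ 2 + S k0 (v + (2 ^ m0 : ℤ) • e) ^ 2) := by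
      intro v hv
      rw [hV, mem_image] at hv
      obtain ⟨⟨z, j⟩, hzj, rfl⟩ := hv
      rw [mem_product, mem_range] at hzj
      have h2 := hroot z hzj.1 j hzj.2
      have h3 := hS0 k0 (z - (j : ℤ) • e)
      have h4 := hS0 k0 (z - (j : ℤ) • e + (2 ^ m0 : ℤ) • e)
      have h5 := pow_le_pow_left₀ (norm_nonneg _) h2 2
      have h6 : (4 : ℝ) ^ m0 = (2 ^ m0) ^ 2 := by
        rw [show (4 : ℝ) = 2 ^ 2 by norm_num, ← pow_mul, ← pow_mul, mul_comm]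
      rw [h6, div_pow, div_mul_eq_mul_div]
      refine div_le_div_of_nonneg_right (h5.trans ?_) (by positivity)
      change (Ca * (S k0 (z - (j : ℤ) • e) + S k0 (z - (j : ℤ) • e + (2 ^ m0 : ℤ) • e))) ^ 2 ≤ _
      rw [mul_pow]
      have h7 : (S k0 (z - (j : ℤ) • e) + S k0 (z - (j : ℤ) • e + (2 ^ m0 : ℤ) • e)) ^ 2 ≤
          2 * (S k0 (z - (j : ℤ) • e) ^ 2 + S k0 (z - (j : ℤ) • e + (2 ^ m0 : ℤ) • e) ^ 2) := by
        linarith only [sq_nonneg (S k0 (z - (j : ℤ) • e) - S k0 (z - (j : ℤ) • e + (2 ^ m0 : ℤ) • e))]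
      calc Ca ^ 2 * (S k0 (z - (j : ℤ) • e) + S k0 (z - (j : ℤ) • e + (2 ^ m0 : ℤ) • e)) ^ 2
          ≤ Ca ^ 2 * (2 * (S k0 (z - (j : ℤ) • e) ^ 2 +
            S k0 (z - (j : ℤ) • e + (2 ^ m0 : ℤ) • e) ^ 2)) :=
            mul_le_mul_of_nonneg_left h7 (sq_nonneg _)
        _ = _ := by ring
    have h2 : Q k0 / (s0 * lam ^ k0) ^ 2 ≤ 4 * P := by
      refine le_trans ?_ hP
      refine single_le_sum (f := fun j => Q j / (s0 * lam ^ j) ^ 2) (fun j _ => ?_) ?_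
      · have := hQ0 j
        positivity
      · rw [mem_range]; omega
    have h3 : (s0 * lam ^ k0) ^ 2 ≤ 1024 * g ^ 2 * 4 ^ m0 := by
      have h4 := pow_le_pow_left₀ hs.le hm0 2
      have h6 : (4 : ℝ) ^ m0 = (2 ^ m0) ^ 2 := by
        rw [show (4 : ℝ) = 2 ^ 2 by norm_num, ← pow_mul, ← pow_mul, mul_comm]
      rw [h6]
      calc (s0 * lam ^ k0) ^ 2 ≤ (32 * (2 ^ m0 * g)) ^ 2 := h4
        _ = _ := by ring
    calc ∑ v ∈ V, (‖h (v + (2 ^ m0 : ℤ) • e) - h v‖ / 2 ^ m0) ^ 2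
        ≤ ∑ v ∈ V, 2 * Ca ^ 2 / 4 ^ m0 * (S k0 v ^ 2 + S k0 (v + (2 ^ m0 : ℤ) • e) ^ 2) :=
          sum_le_sum h1
      _ = 2 * Ca ^ 2 / 4 ^ m0 * (∑ v ∈ V, S k0 v ^ 2 +
          ∑ v ∈ V, S k0 (v + (2 ^ m0 : ℤ) • e) ^ 2) := by
          rw [← mul_sum, sum_add_distrib]
      _ ≤ 2 * Ca ^ 2 / 4 ^ m0 * (Q k0 + Q k0) := by
          refine mul_le_mul_of_nonneg_left (add_le_add (hshift0 k0) (hshift k0 _)) (by positivity)
      _ = 4 * Ca ^ 2 * Q k0 / 4 ^ m0 := by ring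
      _ ≤ 4 * Ca ^ 2 * (4 * P * (s0 * lam ^ k0) ^ 2) / 4 ^ m0 := by
          rw [div_le_iff₀ (by positivity)] at h2
          refine div_le_div_of_nonneg_right ?_ (by positivity)
          exact mul_le_mul_of_nonneg_left h2 (by positivity)
      _ ≤ 4 * Ca ^ 2 * (4 * P * (1024 * g ^ 2 * 4 ^ m0)) / 4 ^ m0 := by
          have hP0 : 0 ≤ P := sum_nonneg fun i _ => sum_nonneg fun w _ => sq_nonneg _
          refine div_le_div_of_nonneg_right ?_ (by positivity)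
          refine mul_le_mul_of_nonneg_left ?_ (by positivity)
          exact mul_le_mul_of_nonneg_left h3 (by positivity)
      _ = 16384 * Ca ^ 2 * g ^ 2 * P := by
          field_simp
          ring
  -- the other terms
  have hother : ∑ m ∈ range m0, ∑ v ∈ V, r v (m + 1) ^ 2 ≤
      64 * Ca ^ 2 * ((2 / lam + 1) * (32 / lam) ^ 2) * g ^ 2 * P := by
    have h1 : ∀ m, ∑ v ∈ V, r v (m + 1) ^ 2 ≤
        ∑ l ∈ (range (N + 1)).filter (fun l => Adm s0 lam g (m + 1) l),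
          (16 * Ca ^ 2 * Q l) / 4 ^ (m + 1) := by
      intro m
      have h2 : ∀ v, r v (m + 1) ^ 2 =
          ∑ l ∈ (range (N + 1)).filter (fun l => Adm s0 lam g (m + 1) l),
            (Ca * (S l v + S l (v + (2 ^ (m + 1) : ℤ) • e) + 2 * S l (v + (2 ^ m : ℤ) • e)) /
              2 ^ (m + 1)) ^ 2 := by
        intro v
        rw [hr]
        simp only [Nat.add_sub_cancel]
        rw [Real.sq_sqrt (sum_nonneg fun l _ => sq_nonneg _)]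
      simp_rw [h2]
      rw [sum_comm]
      refine sum_le_sum fun l _ => ?_
      have h6 : (4 : ℝ) ^ (m + 1) = (2 ^ (m + 1)) ^ 2 := by
        rw [show (4 : ℝ) = 2 ^ 2 by norm_num, ← pow_mul, ← pow_mul, mul_comm]
      have h7 : ∀ v, (Ca * (S l v + S l (v + (2 ^ (m + 1) : ℤ) • e) +
          2 * S l (v + (2 ^ m : ℤ) • e)) / 2 ^ (m + 1)) ^ 2 ≤
          4 * Ca ^ 2 / 4 ^ (m + 1) * (S l v ^ 2 + S l (v + (2 ^ (m + 1) : ℤ) • e) ^ 2 +
            2 * S l (v + (2 ^ m : ℤ) • e) ^ 2) := by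
        intro v
        rw [h6, div_pow, mul_pow, div_mul_eq_mul_div]
        refine div_le_div_of_nonneg_right ?_ (by positivity)
        have h8 : (S l v + S l (v + (2 ^ (m + 1) : ℤ) • e) +
            2 * S l (v + (2 ^ m : ℤ) • e)) ^ 2 ≤ 4 * (S l v ^ 2 +
            S l (v + (2 ^ (m + 1) : ℤ) • e) ^ 2 + 2 * S l (v + (2 ^ m : ℤ) • e) ^ 2) := by
          nlinarith [sq_nonneg (S l v - S l (v + (2 ^ (m + 1) : ℤ) • e)),
            sq_nonneg (S l v - S l (v + (2 ^ m : ℤ) • e)),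
            sq_nonneg (S l (v + (2 ^ (m + 1) : ℤ) • e) - S l (v + (2 ^ m : ℤ) • e))]
        calc Ca ^ 2 * (S l v + S l (v + (2 ^ (m + 1) : ℤ) • e) +
            2 * S l (v + (2 ^ m : ℤ) • e)) ^ 2 ≤ Ca ^ 2 * (4 * (S l v ^ 2 +
            S l (v + (2 ^ (m + 1) : ℤ) • e) ^ 2 + 2 * S l (v + (2 ^ m : ℤ) • e) ^ 2)) :=
              mul_le_mul_of_nonneg_left h8 (sq_nonneg _)
          _ = _ := by ring
      calc ∑ v ∈ V, (Ca * (S l v + S l (v + (2 ^ (m + 1) : ℤ) • e) +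
          2 * S l (v + (2 ^ m : ℤ) • e)) / 2 ^ (m + 1)) ^ 2
          ≤ ∑ v ∈ V, 4 * Ca ^ 2 / 4 ^ (m + 1) * (S l v ^ 2 +
            S l (v + (2 ^ (m + 1) : ℤ) • e) ^ 2 + 2 * S l (v + (2 ^ m : ℤ) • e) ^ 2) :=
            sum_le_sum fun v _ => h7 v
        _ = 4 * Ca ^ 2 / 4 ^ (m + 1) * (∑ v ∈ V, S l v ^ 2 +
            ∑ v ∈ V, S l (v + (2 ^ (m + 1) : ℤ) • e) ^ 2 +
              2 * ∑ v ∈ V, S l (v + (2 ^ m : ℤ) • e) ^ 2) := by
            rw [← mul_sum, sum_add_distrib, sum_add_distrib, mul_sum]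
        _ ≤ 4 * Ca ^ 2 / 4 ^ (m + 1) * (Q l + Q l + 2 * Q l) := by
            refine mul_le_mul_of_nonneg_left ?_ (by positivity)
            have e1 := hshift0 l
            have e2 := hshift l ((2 ^ (m + 1) : ℤ) • e)
            have e3 := hshift l ((2 ^ m : ℤ) • e)
            linarith
        _ = (16 * Ca ^ 2 * Q l) / 4 ^ (m + 1) := by ring
    calc ∑ m ∈ range m0, ∑ v ∈ V, r v (m + 1) ^ 2
        ≤ ∑ m ∈ range m0, ∑ l ∈ (range (N + 1)).filter (fun l => Adm s0 lam g (m + 1) l),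
          (16 * Ca ^ 2 * Q l) / 4 ^ (m + 1) := sum_le_sum fun m _ => h1 m
      _ ≤ (2 / lam + 1) * (32 / lam) ^ 2 * g ^ 2 *
          ∑ j ∈ range (N + 1), (16 * Ca ^ 2 * Q j) / (s0 * lam ^ j) ^ 2 :=
          sum_adm_le hlam hlam1 hs0 hg (fun l => 16 * Ca ^ 2 * Q l)
            (fun l => by have := hQ0 l; positivity) m0
      _ = (2 / lam + 1) * (32 / lam) ^ 2 * g ^ 2 * (16 * Ca ^ 2) *
          ∑ j ∈ range (N + 1), Q j / (s0 * lam ^ j) ^ 2 := by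
          rw [mul_sum, mul_sum]
          refine sum_congr rfl fun j _ => ?_
          ring
      _ ≤ (2 / lam + 1) * (32 / lam) ^ 2 * g ^ 2 * (16 * Ca ^ 2) * (4 * P) := by
          refine mul_le_mul_of_nonneg_left hP (by positivity)
      _ = _ := by ring
  unfold coreC
  linarith

end Vale.Agent.P120.TiltAux
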