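import Vale.Agent.Lib.P120.UR.Base

/-!
# P120: comparison of the volume with an AD-regular measure of full support (module VolComp)
-/

open MeasureTheory Filter Set Metric Module
open scoped Topology ENNReal NNReal

namespace Vale.Agent.P120

variable {n : ℕ}

/-- The volume is bounded by a multiple of `σ`. -/
theorem volComp_le {C c : ℝ} {σ : Measure (E n)} (hU : UB n σ C) (hc : 0 < c)
    (hL : ∀ (v : E n) (r : ℝ), 0 < r → ENNReal.ofReal (c * r ^ n) ≤ σ (ball v r)) :
    ∃ B : ℝ≥0, ∀ s : Set (E n), (volume : Measure (E n)) s ≤ (B • σ) s := by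
  have hlf := UB.isLocallyFinite hU
  set ω : ℝ := (volume : Measure (E n)).real (ball (0 : E n) 1) with hω
  have hω0 : 0 ≤ ω := measureReal_nonneg
  refine ⟨Real.toNNReal (ω / c), fun s => ?_⟩
  refine (Besicovitch.vitaliFamily (volume : Measure (E n))).measure_le_of_frequently_le
    (Real.toNNReal (ω / c) • σ) Measure.AbsolutelyContinuous.rfl s fun x _ => ?_
  refine (Besicovitch.tendsto_filterAt (volume : Measure (E n)) x).frequently ?_
  apply Eventually.frequently
  filter_upwards [self_mem_nhdsWithin] with r hr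
  have hr0 : 0 < r := hr
  have h1 : (volume : Measure (E n)) (closedBall x r) = ENNReal.ofReal (ω / c * (c * r ^ n)) := by
    rw [Measure.addHaar_closedBall _ _ hr0.le, finrank_euclideanSpace_fin]
    have h2 : (volume : Measure (E n)) (ball 0 1) = ENNReal.ofReal ω :=
      (ofReal_measureReal measure_ball_lt_top.ne).symm
    rw [h2, ← ENNReal.ofReal_mul (by positivity)]
    congr 1
    field_simp
  rw [h1, Measure.smul_apply, ENNReal.smul_def, smul_eq_mul, ENNReal.ofReal_mul (by positivity)]
  exact mul_le_mul_right ((hL x r hr0).trans (measure_mono ball_subset_closedBall)) _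

/-- `UR/VolComp.lean` -/
theorem vol_comparison {C c : ℝ} (hn : 1 ≤ n) {σ : Measure (E n)} (hU : UB n σ C) (hc : 0 < c)
    (hL : ∀ (v : E n) (r : ℝ), 0 < r → ENNReal.ofReal (c * r ^ n) ≤ σ (ball v r)) :
    ∃ f : E n → ℝ≥0, Measurable f ∧ (∃ B : ℝ≥0, ∀ v, f v ≤ B) ∧
      (volume : Measure (E n)) = σ.withDensity (fun v => (f v : ℝ≥0∞)) := by
  have hlf := UB.isLocallyFinite hU
  have hsf := UB.sigmaFinite hU
  obtain ⟨B, hB⟩ := volComp_le hU hc hL
  have hac : (volume : Measure (E n)) ≪ σ := by
    intro s hs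
    have := hB s
    rw [Measure.smul_apply, hs, smul_zero] at this
    exact le_antisymm this bot_le
  set g : E n → ℝ≥0∞ := (volume : Measure (E n)).rnDeriv σ with hg
  have hgm : Measurable g := Measure.measurable_rnDeriv _ _
  have hgv : σ.withDensity g = volume := Measure.withDensity_rnDeriv_eq _ _ hac
  have hgB : g ≤ᵐ[σ] fun _ => (B : ℝ≥0∞) := by
    apply ae_le_of_forall_setLIntegral_le_of_sigmaFinite hgm
    intro s hs _
    rw [← withDensity_apply _ hs, hgv, setLIntegral_const]
    have := hB s
    rwa [Measure.smul_apply, ENNReal.smul_def, smul_eq_mul] at this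
  refine ⟨fun v => min (g v).toNNReal B, (hgm.ennreal_toNNReal).min measurable_const,
    ⟨B, fun v => min_le_right _ _⟩, ?_⟩
  rw [← hgv]
  apply withDensity_congr_ae
  filter_upwards [hgB] with v hv
  have hne : g v ≠ ∞ := (hv.trans_lt ENNReal.coe_lt_top).ne
  have h1 : (g v).toNNReal ≤ B := by
    rw [← ENNReal.coe_le_coe, ENNReal.coe_toNNReal hne]
    exact hv
  rw [min_eq_left h1, ENNReal.coe_toNNReal hne]

end Vale.Agent.P120
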