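import Vale.Agent.Lib.P120.LemmaA
import Vale.Agent.Lib.P120.UR.Base
import Vale.Agent.Lib.P120.UR.SmoothAvg
import Vale.Agent.Lib.P120.UR.BFcTail
import Vale.Agent.Lib.P120.UR.VolComp

/-!
# Truncated transforms of a reflectionless measure on `ℝ^n`
-/

open MeasureTheory Filter Set Metric Module
open scoped Topology ENNReal NNReal RealInnerProductSpace

namespace Vale.Agent.P120


variable {d n : ℕ} {C c : ℝ} {σ : Measure (E d)}

/-! ### The regularised kernel -/

/-- `K(x-y) 1_{|x-y|>ε} - K(-y) 1_{|y|>ε}`. -/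
noncomputable def truncDk (n : ℕ) (ε : ℝ) (x y : E d) : E d := tk n ε x y - tk n ε 0 y

lemma truncBdd_dk_eq (ε : ℝ) (x y : E d) :
    truncDk n ε x y = {y | ε < ‖x - y‖}.indicator (fun y => rieszKernel n (x - y)) y -
        {y | ε < ‖y‖}.indicator (fun y => rieszKernel n (-y)) y := by
  unfold truncDk tk
  congr 1
  by_cases h : ε < ‖y‖
  · rw [indicator_of_mem, indicator_of_mem]
    · rw [zero_sub]
    · exact h
    · rw [mem_ofPred_eq, zero_sub, norm_neg]
      exact h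
  · rw [indicator_of_notMem, indicator_of_notMem]
    · exact h
    · rw [mem_ofPred_eq, zero_sub, norm_neg]
      exact h

lemma truncBdd_measurable_dk (ε : ℝ) :
    Measurable (fun p : E d × E d => truncDk n ε p.1 p.2) := by
  unfold truncDk
  refine (measurable_tk ε).sub ?_
  exact (measurable_tk_right ε 0).comp measurable_snd

lemma truncBdd_measurable_dk_right (ε : ℝ) (x : E d) :
    Measurable (fun y : E d => truncDk n ε x y) :=
  (measurable_tk_right ε x).sub (measurable_tk_right ε 0)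

lemma truncBdd_dk_le {ε : ℝ} (hε : 0 < ε) {x y : E d} {T : ℝ} (hT : 2 * ‖x‖ + 2 * ε ≤ T)
    (hy : T ≤ ‖y‖) :
    ‖truncDk n ε x y‖ ≤ ((n + 2) * 4 ^ (n + 1)) * ‖x‖ * wt n 0 y := by
  have hx := norm_nonneg x
  have h1 : ε < ‖0 - y‖ := by
    rw [zero_sub, norm_neg]
    linarith
  have h2 : ε < ‖x - y‖ := by
    have := norm_sub_norm_le y x
    rw [norm_sub_rev]
    linarith
  unfold truncDk tk
  rw [indicator_of_mem (by exact h2), indicator_of_mem (by exact h1), norm_sub_rev]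
  have hy0 : (0 : E d) - y ≠ 0 := by
    intro h
    rw [h, norm_zero] at h1
    linarith
  have h3 : (0 : E d) - y - (x - y) = -x := by abel
  refine (rieszKernel_lipschitz (n := n) (0 - y) (x - y) hy0 ?_).trans ?_
  · rw [h3, norm_neg, zero_sub, norm_neg]
    linarith
  · rw [h3, norm_neg]
    unfold wt
    exact le_rfl

/-- `B(ε, x)`. -/
lemma truncBdd_integrable (hU : UB n σ C) {ε : ℝ} (hε : 0 < ε) (x : E d) :
    Integrable (fun y => truncDk n ε x y) σ := by
  set T : ℝ := 2 * ‖x‖ + 2 * ε with hT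
  have hT0 : 0 < T := by
    have := norm_nonneg x
    linarith
  have h1 : IntegrableOn (fun y => truncDk n ε x y) (ball 0 T) σ := by
    have := (integrableOn_tk (n := n) hε x (hU.ball_lt_top 0 T)).sub
      (integrableOn_tk (n := n) hε 0 (hU.ball_lt_top 0 T))
    exact this
  have h2 : IntegrableOn (fun y => truncDk n ε x y) (ball 0 T)ᶜ σ := by
    refine Integrable.mono' ((UB.tail hU 0 hT0).1.const_mul (((n + 2) * 4 ^ (n + 1)) * ‖x‖))
      (truncBdd_measurable_dk_right ε x).aestronglyMeasurable ?_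
    rw [ae_restrict_iff' measurableSet_ball.compl]
    refine Eventually.of_forall fun y hy => ?_
    refine truncBdd_dk_le hε hT.ge ?_
    rw [mem_compl_iff, mem_ball, dist_zero_right, not_lt] at hy
    exact hy
  have h3 := h1.union h2
  rw [union_compl_self] at h3
  exact integrableOn_univ.1 h3

/-- The regularised truncated transform. -/
noncomputable def truncF (n : ℕ) (σ : Measure (E d)) (ε : ℝ) (x : E d) : E d :=
  ∫ y, truncDk n ε x y ∂σ

/-- Comparison with the transform of a ball. -/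
lemma truncBdd_F_sub (hU : UB n σ C) {ε : ℝ} (hε : 0 < ε) (x : E d) {R : ℝ}
    (hR : 2 * ‖x‖ + 2 * ε ≤ R) :
    ‖truncF n σ ε x - (T n σ (closedBall 0 R) ε x - T n σ (closedBall 0 R) ε 0)‖ ≤
      ((n + 2) * 4 ^ (n + 1)) * (2 ^ (n + 1) * C) * ‖x‖ / R := by
  have hx := norm_nonneg x
  have hR0 : 0 < R := by linarith
  have h1 := integral_add_compl (μ := σ) (measurableSet_closedBall (x := (0 : E d)) (ε := R))
    (truncBdd_integrable (n := n) hU hε x)
  have h2 : ∫ y in closedBall 0 R, truncDk n ε x y ∂σ =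
      T n σ (closedBall 0 R) ε x - T n σ (closedBall 0 R) ε 0 := by
    rw [T_eq, T_eq]
    exact integral_sub (integrableOn_tk hε x (hU.closedBall_lt_top 0 R))
      (integrableOn_tk hε 0 (hU.closedBall_lt_top 0 R))
  have h3 : truncF n σ ε x - (T n σ (closedBall 0 R) ε x - T n σ (closedBall 0 R) ε 0) =
      ∫ y in (closedBall 0 R)ᶜ, truncDk n ε x y ∂σ := by
    unfold truncF
    rw [← h1, h2]
    abel
  rw [h3]
  have ht := UB.tail hU 0 hR0
  have hsub : (closedBall (0 : E d) R)ᶜ ⊆ (ball 0 R)ᶜ := compl_subset_compl.2 ball_subset_closedBall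
  have h4 : IntegrableOn (fun y => wt n 0 y) (closedBall (0 : E d) R)ᶜ σ := ht.1.mono_set hsub
  calc ‖∫ y in (closedBall 0 R)ᶜ, truncDk n ε x y ∂σ‖
      ≤ ∫ y in (closedBall 0 R)ᶜ, (((n + 2) * 4 ^ (n + 1)) * ‖x‖) * wt n 0 y ∂σ := by
        refine norm_integral_le_of_norm_le (h4.const_mul _) ?_
        rw [ae_restrict_iff' measurableSet_closedBall.compl]
        refine Eventually.of_forall fun y hy => ?_
        refine truncBdd_dk_le hε hR ?_
        rw [mem_compl_iff, mem_closedBall, dist_zero_right, not_le] at hy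
        exact hy.le
    _ = (((n + 2) * 4 ^ (n + 1)) * ‖x‖) * ∫ y in (closedBall 0 R)ᶜ, wt n 0 y ∂σ := by
        rw [integral_const_mul]
    _ ≤ (((n + 2) * 4 ^ (n + 1)) * ‖x‖) * (2 ^ (n + 1) * C / R) := by
        refine mul_le_mul_of_nonneg_left ?_ (by positivity)
        refine le_trans ?_ ht.2
        exact setIntegral_mono_set ht.1 (Eventually.of_forall fun y => wt_nonneg 0 y)
          hsub.eventuallyLE
    _ = _ := by ring

/-- Comparison of the two truncations. -/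
lemma truncBdd_T_sub (hU : UB n σ C) {ε : ℝ} (hε : 0 < ε) (x : E d) {S : Set (E d)}
    (hS : MeasurableSet S) (hSf : σ S < ∞) :
    ‖T n σ S ε x - ∫ y in S \ ball x ε, rieszKernel n (x - y) ∂σ‖ ≤ C := by
  have h1 : T n σ S ε x = ∫ y in S ∩ {y | ε < ‖x - y‖}, rieszKernel n (x - y) ∂σ := by
    unfold T
    rw [setIntegral_indicator (measurableSet_far x ε)]
  have hsub : S ∩ {y | ε < ‖x - y‖} ⊆ S \ ball x ε := by
    rintro y ⟨hy1, hy2⟩
    refine ⟨hy1, ?_⟩
    rw [mem_ball, dist_comm, dist_eq_norm, not_lt]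
    exact le_of_lt hy2
  have hmeas : MeasurableSet (S ∩ {y | ε < ‖x - y‖}) := hS.inter (measurableSet_far x ε)
  have hint : IntegrableOn (fun y => rieszKernel n (x - y)) (S \ ball x ε) σ :=
    integrableOn_kernel hSf hS x hε
  have h2 : (∫ y in S \ ball x ε, rieszKernel n (x - y) ∂σ) - T n σ S ε x =
      ∫ y in (S \ ball x ε) \ (S ∩ {y | ε < ‖x - y‖}), rieszKernel n (x - y) ∂σ := by
    rw [h1, setIntegral_sdiff hmeas hint hsub]
  rw [norm_sub_rev, h2]
  have hsub2 : (S \ ball x ε) \ (S ∩ {y | ε < ‖x - y‖}) ⊆ closedBall x ε := by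
    rintro y ⟨⟨hy1, _⟩, hy3⟩
    rw [mem_closedBall, dist_comm, dist_eq_norm]
    by_contra hcon
    exact hy3 ⟨hy1, not_le.1 hcon⟩
  have hC := hU.1
  calc _ ≤ (ε ^ n)⁻¹ * σ.real ((S \ ball x ε) \ (S ∩ {y | ε < ‖x - y‖})) := by
        refine norm_setIntegral_le_of_norm_le_const
          ((measure_mono hsub2).trans_lt (hU.closedBall_lt_top x ε)) ?_
        rintro y ⟨⟨_, hy2⟩, _⟩
        refine norm_rieszKernel_le_of_le hε ?_
        rw [mem_ball, dist_comm, dist_eq_norm, not_lt] at hy2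
        exact hy2
    _ ≤ (ε ^ n)⁻¹ * (C * ε ^ n) := by
        refine mul_le_mul_of_nonneg_left ?_ (by positivity)
        refine (measureReal_mono hsub2 (hU.closedBall_lt_top x ε).ne).trans ?_
        exact ENNReal.toReal_le_of_le_ofReal (by positivity) (hU.2 x ε hε)
    _ = C := by
        have : ε ^ n ≠ 0 := by positivity
        field_simp

/-! ### Bumps -/

lemma truncBdd_bmp_lipschitz (x : E d) {s : ℝ} (hs : 0 < s) :
    LipschitzWith (Real.toNNReal s⁻¹) (bmp x s) := by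
  refine LipschitzWith.of_dist_le_mul fun y z => ?_
  rw [Real.coe_toNNReal _ (by positivity), Real.dist_eq, dist_eq_norm]
  unfold bmp
  rw [max_comm 0, max_comm 0]
  refine (abs_max_sub_max_le_abs _ _ _).trans ?_
  have h1 : 1 - ‖y - x‖ / s - (1 - ‖z - x‖ / s) = s⁻¹ * (‖z - x‖ - ‖y - x‖) := by
    field_simp
    ring
  rw [h1, abs_mul, abs_of_pos (by positivity : (0 : ℝ) < s⁻¹)]
  refine mul_le_mul_of_nonneg_left ?_ (by positivity)
  refine (abs_norm_sub_norm_le _ _).trans (le_of_eq ?_)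
  rw [norm_sub_rev]
  congr 1
  abel

lemma truncBdd_bmp_lip (x : E d) {s : ℝ} (hs : 0 < s) : Lip (bmp x s) :=
  ⟨_, truncBdd_bmp_lipschitz x hs⟩

lemma truncBdd_bmp_nonneg (x : E d) (s : ℝ) (y : E d) : 0 ≤ bmp x s y := le_max_left _ _

lemma truncBdd_bmp_zero (x : E d) {s : ℝ} (hs : 0 < s) {y : E d} (hy : s ≤ ‖y - x‖) :
    bmp x s y = 0 := by
  unfold bmp
  apply max_eq_left
  have : 1 ≤ ‖y - x‖ / s := by rwa [one_le_div hs]
  linarith

lemma truncBdd_bmp_pos (x : E d) {s : ℝ} (hs : 0 < s) {y : E d} (hy : ‖y - x‖ < s) :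
    0 < bmp x s y := by
  unfold bmp
  apply lt_max_of_lt_right
  have : ‖y - x‖ / s < 1 := by rwa [div_lt_one hs]
  linarith

lemma truncBdd_bmp_compact (x : E d) {s : ℝ} (hs : 0 < s) : HasCompactSupport (bmp x s) := by
  refine HasCompactSupport.intro (isCompact_closedBall x s) fun y hy => ?_
  rw [mem_closedBall, dist_eq_norm, not_le] at hy
  exact truncBdd_bmp_zero x hs hy.le

lemma truncBdd_bmp_integrable (hU : UB n σ C) (x : E d) {s : ℝ} (hs : 0 < s) :
    Integrable (bmp x s) σ := by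
  have := UB.isLocallyFinite hU
  exact (truncBdd_bmp_lipschitz x hs).continuous.integrable_of_hasCompactSupport
    (truncBdd_bmp_compact x hs)

lemma truncBdd_bmp_integral_pos (hU : UB n σ C) (x : E d) {s : ℝ} (hs : 0 < s)
    (hpos : 0 < σ (ball x s)) : 0 < ∫ y, bmp x s y ∂σ := by
  rw [integral_pos_iff_support_of_nonneg (truncBdd_bmp_nonneg x s)
    (truncBdd_bmp_integrable hU x hs)]
  refine hpos.trans_le (measure_mono fun y hy => ?_)
  rw [mem_ball, dist_eq_norm] at hy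
  exact (truncBdd_bmp_pos x hs hy).ne'

/-! ### The form of large balls -/

lemma truncBdd_exists_radius {F : Type*} [Zero F] {ψ : E d → F} (hc : HasCompactSupport ψ) :
    ∃ r : ℝ, 0 < r ∧ ∀ y, r < ‖y‖ → ψ y = 0 := by
  obtain ⟨r, hr⟩ := hc.isCompact.isBounded.subset_closedBall 0
  refine ⟨max r 1, lt_of_lt_of_le one_pos (le_max_right _ _), fun y hy => ?_⟩
  by_contra hcon
  have h1 := hr (subset_tsupport ψ (Function.mem_support.2 hcon))
  rw [mem_closedBall, dist_zero_right] at h1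
  exact absurd hy (not_lt.2 (h1.trans (le_max_left _ _)))

lemma truncBdd_BF_tendsto (hU : UB n σ C) (hR : Refl n σ) {ψ : E d → ℝ} (hψ : Lip ψ)
    (hc : HasCompactSupport ψ) (h0 : ∫ y, ψ y ∂σ = 0) :
    Tendsto (fun R : ℝ => BF n (σ.restrict (closedBall 0 R)) ψ) atTop (𝓝 0) := by
  obtain ⟨Cb, hCb, hb⟩ := bfc_tail n d C hU.1
  obtain ⟨r, hr, hψr⟩ := truncBdd_exists_radius hc
  have h1 : Tendsto (fun R : ℝ => BF n (σ.restrict (closedBall 0 R)) ψ - BFc n σ R ψ) atTop
      (𝓝 0) := by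
    refine squeeze_zero_norm' (a := fun R : ℝ => Cb * r / R * ∫ y, |ψ y| ∂σ) ?_ ?_
    · filter_upwards [eventually_ge_atTop (4 * r)] with R hR4
      exact (hb σ hU ψ hψ r hr hψr h0 R R hR4 le_rfl).1
    · have : Tendsto (fun R : ℝ => Cb * r / R * ∫ y, |ψ y| ∂σ) atTop
          (𝓝 (0 * ∫ y, |ψ y| ∂σ)) :=
        (tendsto_const_nhds.div_atTop tendsto_id).mul_const _
      rwa [zero_mul] at this
  have h2 := h1.add (hR ψ hψ hc h0)
  simpa using h2

lemma truncBdd_norm_aux {V : Type*} [NormedAddCommGroup V] {F TX T0 GX G0 BX B0 BP : V}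
    {k C CA : ℝ} (h1 : ‖F - (TX - T0)‖ ≤ k) (h2 : ‖TX - GX‖ ≤ C) (h3 : ‖T0 - G0‖ ≤ C)
    (h4 : ‖BX - GX‖ ≤ CA) (h5 : ‖B0 - G0‖ ≤ CA) (h6 : BP = BX - B0) :
    ‖F‖ ≤ k + (2 * C + 2 * CA) + ‖BP‖ := by
  have e7 : F = (F - (TX - T0)) + (TX - GX) - (T0 - G0) - (BX - GX) + (B0 - G0) + BP := by
    rw [h6]
    abel
  have e8 : ‖F‖ ≤ ‖F - (TX - T0)‖ + ‖TX - GX‖ + ‖T0 - G0‖ + ‖BX - GX‖ + ‖B0 - G0‖ + ‖BP‖ := by
    conv_lhs => rw [e7]
    refine (norm_add_le _ _).trans (add_le_add ?_ le_rfl)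
    refine (norm_add_le _ _).trans (add_le_add ?_ le_rfl)
    refine (norm_sub_le _ _).trans (add_le_add ?_ le_rfl)
    refine (norm_sub_le _ _).trans (add_le_add ?_ le_rfl)
    exact norm_add_le _ _
  linarith

/-- The mean zero combination of two bumps. -/
noncomputable def truncPsi (σ : Measure (E d)) (ε : ℝ) (x y : E d) : ℝ :=
  (∫ y, bmp x ε y ∂σ)⁻¹ * bmp x ε y + (-(∫ y, bmp (0 : E d) ε y ∂σ)⁻¹) * bmp 0 ε y

lemma truncBdd_psi_lip {ε : ℝ} (hε : 0 < ε) (x : E d) : Lip (truncPsi σ ε x) :=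
  Lip.add (Lip.const_mul _ (truncBdd_bmp_lip x hε)) (Lip.const_mul _ (truncBdd_bmp_lip 0 hε))

lemma truncBdd_psi_compact {ε : ℝ} (hε : 0 < ε) (x : E d) :
    HasCompactSupport (truncPsi σ ε x) := by
  refine HasCompactSupport.intro (isCompact_closedBall 0 (‖x‖ + ε)) fun y hy => ?_
  rw [mem_closedBall, dist_zero_right, not_le] at hy
  have hx := norm_nonneg x
  have h1 : ε ≤ ‖y - x‖ := by
    have := norm_sub_norm_le y x
    linarith
  have h2 : ε ≤ ‖y - 0‖ := by
    rw [sub_zero]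
    linarith
  unfold truncPsi
  rw [truncBdd_bmp_zero x hε h1, truncBdd_bmp_zero 0 hε h2]
  ring

lemma truncBdd_psi_mean (hU : UB n σ C) {ε : ℝ} (hε : 0 < ε) (x : E d)
    (hpos : ∀ v : E d, 0 < ∫ y, bmp v ε y ∂σ) : ∫ y, truncPsi σ ε x y ∂σ = 0 := by
  unfold truncPsi
  rw [integral_add ((truncBdd_bmp_integrable hU x hε).const_mul _)
      ((truncBdd_bmp_integrable hU 0 hε).const_mul _), integral_const_mul, integral_const_mul,
      neg_mul, inv_mul_cancel₀ (hpos x).ne', inv_mul_cancel₀ (hpos 0).ne']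
  ring

lemma truncBdd_psi_BF (hU : UB n σ C) {ε : ℝ} (hε : 0 < ε) (x : E d) (R : ℝ) :
    BF n (σ.restrict (closedBall 0 R)) (truncPsi σ ε x) =
      (∫ y, bmp x ε y ∂σ)⁻¹ • BF n (σ.restrict (closedBall 0 R)) (bmp x ε) -
        (∫ y, bmp (0 : E d) ε y ∂σ)⁻¹ • BF n (σ.restrict (closedBall 0 R)) (bmp 0 ε) := by
  have hb : ∃ R0, (σ.restrict (closedBall (0 : E d) R)) (closedBall 0 R0)ᶜ = 0 := by
    refine ⟨R, ?_⟩
    rw [Measure.restrict_apply measurableSet_closedBall.compl, compl_inter_self, measure_empty]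
  have h := BF_add (n := n) (UB.restrict hU (closedBall 0 R)) hb
    (Lip.const_mul (∫ y, bmp x ε y ∂σ)⁻¹ (truncBdd_bmp_lip x hε))
    (Lip.const_mul (-(∫ y, bmp (0 : E d) ε y ∂σ)⁻¹) (truncBdd_bmp_lip 0 hε))
  unfold truncPsi
  rw [h, BF_smul, BF_smul, neg_smul, sub_eq_add_neg]

/-- Uniform bound. -/
theorem truncBdd_bound (hU : UB n σ C) (hc : 0 < c)
    (hL : ∀ (v : E d) (r : ℝ), 0 < r → ENNReal.ofReal (c * r ^ n) ≤ σ (ball v r))
    (hR : Refl n σ) : ∃ CF : ℝ, 0 ≤ CF ∧ ∀ ε > 0, ∀ x, ‖truncF n σ ε x‖ ≤ CF := by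
  have hC := hU.1
  obtain ⟨CA, hCA, hA⟩ := smooth_average n d C (c / 2 ^ n) hC (by positivity)
  refine ⟨2 * C + 2 * CA, by positivity, ?_⟩
  intro ε hε x
  have hlow : ∀ v : E d, ENNReal.ofReal (c / 2 ^ n * ε ^ n) ≤ σ (ball v (ε / 2)) := by
    intro v
    refine le_trans (le_of_eq ?_) (hL v (ε / 2) (by positivity))
    congr 1
    rw [div_pow]
    ring
  have hpos : ∀ v : E d, 0 < ∫ y, bmp v ε y ∂σ := by
    intro v
    refine truncBdd_bmp_integral_pos hU v hε ?_
    refine lt_of_lt_of_le ?_ (hL v ε hε)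
    rw [ENNReal.ofReal_pos]
    positivity
  have hBF := truncBdd_BF_tendsto hU hR (truncBdd_psi_lip hε x) (truncBdd_psi_compact hε x)
    (truncBdd_psi_mean hU hε x hpos)
  have hlim : Tendsto (fun R : ℝ => ((n + 2) * 4 ^ (n + 1)) * (2 ^ (n + 1) * C) * ‖x‖ / R +
      (2 * C + 2 * CA) + ‖BF n (σ.restrict (closedBall 0 R)) (truncPsi σ ε x)‖) atTop
      (𝓝 (0 + (2 * C + 2 * CA) + ‖(0 : E d)‖)) :=
    ((tendsto_const_nhds.div_atTop tendsto_id).add tendsto_const_nhds).add hBF.norm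
  rw [norm_zero, zero_add, add_zero] at hlim
  refine ge_of_tendsto hlim ?_
  filter_upwards [eventually_ge_atTop (2 * ‖x‖ + 2 * ε)] with R hRx
  have hx := norm_nonneg x
  have hSm : MeasurableSet (closedBall (0 : E d) R) := measurableSet_closedBall
  have hSf := hU.closedBall_lt_top (0 : E d) R
  have hsub1 : ball x (2 * ε) ⊆ closedBall 0 R := by
    intro y hy
    rw [mem_ball, dist_eq_norm] at hy
    rw [mem_closedBall, dist_zero_right]
    have := norm_add_le (y - x) x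
    rw [sub_add_cancel] at this
    linarith
  have hsub2 : ball (0 : E d) (2 * ε) ⊆ closedBall 0 R := by
    intro y hy
    rw [mem_ball, dist_zero_right] at hy
    rw [mem_closedBall, dist_zero_right]
    linarith
  exact truncBdd_norm_aux (truncBdd_F_sub (n := n) hU hε x hRx)
    (truncBdd_T_sub (n := n) hU hε x hSm hSf) (truncBdd_T_sub (n := n) hU hε 0 hSm hSf)
    (hA σ hU x ε hε (hlow x) (closedBall 0 R) hSm isBounded_closedBall hsub1)
    (hA σ hU 0 ε hε (hlow 0) (closedBall 0 R) hSm isBounded_closedBall hsub2)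
    (truncBdd_psi_BF hU hε x R)

/-! ### The truncated form -/

/-- near kernel -/
noncomputable def truncNear (n : ℕ) (ρ : ℝ) (x y : E d) : ℝ≥0∞ :=
  {w | 0 < ‖x - w‖ ∧ ‖x - w‖ < ρ}.indicator
    (fun w => ENNReal.ofReal (‖x - w‖ ^ 2 * (‖x - w‖ ^ (n + 1))⁻¹)) y

lemma truncBdd_near_comm (ρ : ℝ) (x y : E d) : truncNear n ρ x y = truncNear n ρ y x := by
  unfold truncNear
  by_cases h : 0 < ‖x - y‖ ∧ ‖x - y‖ < ρ
  · rw [indicator_of_mem (by exact h), indicator_of_mem (by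
      rw [mem_ofPred_eq, norm_sub_rev]; exact h), norm_sub_rev]
  · rw [indicator_of_notMem (by exact h), indicator_of_notMem (by
      rw [mem_ofPred_eq, norm_sub_rev]; exact h)]

lemma truncBdd_near_measurable (ρ : ℝ) :
    Measurable (fun p : E d × E d => truncNear n ρ p.1 p.2) := by
  have h1a : MeasurableSet {p : E d × E d | 0 < ‖p.1 - p.2‖} :=
    measurableSet_lt measurable_const (by fun_prop)
  have h1b : MeasurableSet {p : E d × E d | ‖p.1 - p.2‖ < ρ} :=
    measurableSet_lt (by fun_prop) measurable_const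
  have h1 : MeasurableSet {p : E d × E d | 0 < ‖p.1 - p.2‖ ∧ ‖p.1 - p.2‖ < ρ} := h1a.inter h1b
  have h2 : Measurable (fun p : E d × E d =>
      ENNReal.ofReal (‖p.1 - p.2‖ ^ 2 * (‖p.1 - p.2‖ ^ (n + 1))⁻¹)) := by
    fun_prop
  have : (fun p : E d × E d => truncNear n ρ p.1 p.2) =
      {p : E d × E d | 0 < ‖p.1 - p.2‖ ∧ ‖p.1 - p.2‖ < ρ}.indicator (fun p : E d × E d =>
        ENNReal.ofReal (‖p.1 - p.2‖ ^ 2 * (‖p.1 - p.2‖ ^ (n + 1))⁻¹)) := by
    ext1 p
    unfold truncNear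
    by_cases h : 0 < ‖p.1 - p.2‖ ∧ ‖p.1 - p.2‖ < ρ
    · rw [indicator_of_mem (by exact h), indicator_of_mem (by exact h)]
    · rw [indicator_of_notMem (by exact h), indicator_of_notMem (by exact h)]
  rw [this]
  exact h2.indicator h1

lemma truncBdd_near_lintegral {ν : Measure (E d)} (hU : UB n ν C) (x : E d) {ρ : ℝ}
    (hρ : 0 < ρ) :
    ∫⁻ y, truncNear n ρ x y ∂ν ≤ ENNReal.ofReal (2 * (C * 2 ^ (n + 1) * ρ)) := by
  unfold truncNear
  have h1a : MeasurableSet {w : E d | 0 < ‖x - w‖} :=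
    measurableSet_lt measurable_const (by fun_prop)
  have h1b : MeasurableSet {w : E d | ‖x - w‖ < ρ} :=
    measurableSet_lt (by fun_prop) measurable_const
  have h1 : MeasurableSet {w : E d | 0 < ‖x - w‖ ∧ ‖x - w‖ < ρ} := h1a.inter h1b
  rw [lintegral_indicator h1]
  exact lintegral_near_le hU x hρ

lemma truncBdd_near_measurable2 (r ρ : ℝ) :
    Measurable (fun p : E d × E d => (closedBall (0 : E d) r).indicator (1 : E d → ℝ≥0∞) p.1 *
      truncNear n ρ p.1 p.2) := by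
  have hm1 : Measurable (fun p : E d × E d => (closedBall (0 : E d) r).indicator
      (1 : E d → ℝ≥0∞) p.1) :=
    (measurable_one.indicator measurableSet_closedBall).comp measurable_fst
  exact hm1.mul (truncBdd_near_measurable ρ)

lemma truncBdd_near_prod {ν : Measure (E d)} [SFinite ν] (hU : UB n ν C) {r ρ : ℝ}
    (hr : 0 < r) (hρ : 0 < ρ) :
    ∫⁻ p : E d × E d, ((closedBall (0 : E d) r).indicator 1 p.1 * truncNear n ρ p.1 p.2)
      ∂(ν.prod ν) ≤ ENNReal.ofReal (2 * (C * 2 ^ (n + 1) * ρ)) * ENNReal.ofReal (C * r ^ n) := by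
  rw [lintegral_prod _ (truncBdd_near_measurable2 r ρ).aemeasurable]
  calc _ ≤ ∫⁻ x, (closedBall (0 : E d) r).indicator
        (fun _ => ENNReal.ofReal (2 * (C * 2 ^ (n + 1) * ρ))) x ∂ν := by
        refine lintegral_mono fun x => ?_
        by_cases hx : x ∈ closedBall (0 : E d) r
        · simp only [indicator_of_mem hx, Pi.one_apply, one_mul]
          exact truncBdd_near_lintegral hU x hρ
        · simp only [indicator_of_notMem hx, zero_mul, lintegral_zero]
          exact le_rfl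
    _ = ENNReal.ofReal (2 * (C * 2 ^ (n + 1) * ρ)) * ν (closedBall 0 r) := by
        rw [lintegral_indicator measurableSet_closedBall, setLIntegral_const]
    _ ≤ _ := by
        gcongr
        exact hU.2 0 r hr

lemma truncBdd_swap_aux {ν : Measure (E d)} [IsFiniteMeasure ν] {ψ : E d → ℝ} (hψ : Lip ψ)
    {B : ℝ} (hB : ∀ y, |ψ y| ≤ B) {ε : ℝ} (hε : 0 < ε) :
    ∫ x, ψ x • ∫ y, tk n ε x y ∂ν ∂ν =
      (1 / 2 : ℝ) • ∫ p : E d × E d, (ψ p.1 - ψ p.2) • tk n ε p.1 p.2 ∂(ν.prod ν) := by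
  have hcont : Continuous ψ := Lip.continuous hψ
  have hint1 : Integrable (fun p : E d × E d => ψ p.1 • tk n ε p.1 p.2) (ν.prod ν) := by
    refine Integrable.of_bound (C := B * (ε ^ n)⁻¹)
      (((hcont.measurable.comp measurable_fst).smul (measurable_tk ε)).aestronglyMeasurable) ?_
    refine Eventually.of_forall fun p => ?_
    rw [norm_smul]
    have := norm_tk_le (n := n) hε p.1 p.2
    have h2 : ‖ψ p.1‖ ≤ B := hB p.1
    have h3 : 0 ≤ B := (abs_nonneg _).trans (hB p.1)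
    gcongr
  have hint2 : Integrable (fun p : E d × E d => ψ p.2 • tk n ε p.1 p.2) (ν.prod ν) := by
    refine Integrable.of_bound (C := B * (ε ^ n)⁻¹)
      (((hcont.measurable.comp measurable_snd).smul (measurable_tk ε)).aestronglyMeasurable) ?_
    refine Eventually.of_forall fun p => ?_
    rw [norm_smul]
    have := norm_tk_le (n := n) hε p.1 p.2
    have h2 : ‖ψ p.2‖ ≤ B := hB p.2
    have h3 : 0 ≤ B := (abs_nonneg _).trans (hB p.2)
    gcongr
  have h1 : ∫ x, ψ x • ∫ y, tk n ε x y ∂ν ∂ν =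
      ∫ p : E d × E d, ψ p.1 • tk n ε p.1 p.2 ∂(ν.prod ν) := by
    rw [integral_prod _ hint1]
    refine integral_congr_ae (Eventually.of_forall fun x => ?_)
    simp only []
    rw [integral_smul]
  have h2 : ∫ p : E d × E d, ψ p.1 • tk n ε p.1 p.2 ∂(ν.prod ν) =
      -∫ p : E d × E d, ψ p.2 • tk n ε p.1 p.2 ∂(ν.prod ν) := by
    rw [← integral_prod_swap, ← integral_neg]
    refine integral_congr_ae (Eventually.of_forall fun p => ?_)
    simp only [Prod.fst_swap, Prod.snd_swap]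
    rw [tk_swap, smul_neg]
  have h3 : ∫ p : E d × E d, (ψ p.1 - ψ p.2) • tk n ε p.1 p.2 ∂(ν.prod ν) =
      ∫ p : E d × E d, ψ p.1 • tk n ε p.1 p.2 ∂(ν.prod ν) -
        ∫ p : E d × E d, ψ p.2 • tk n ε p.1 p.2 ∂(ν.prod ν) := by
    rw [← integral_sub hint1 hint2]
    refine integral_congr_ae (Eventually.of_forall fun p => ?_)
    simp only []
    rw [sub_smul]
  rw [h1, h3, h2, sub_eq_add_neg, ← two_smul ℝ, smul_smul]
  norm_num

lemma truncBdd_near_pointwise {ψ : E d → ℝ} {L : ℝ≥0} (hψ : LipschitzWith L ψ) {r : ℝ}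
    (hψr : ∀ y, r < ‖y‖ → ψ y = 0) {ε : ℝ} (hε : 0 < ε) (p : E d × E d) :
    ‖(ψ p.1 - ψ p.2) • tk n ε p.1 p.2 - (ψ p.1 - ψ p.2) • rieszKernel n (p.1 - p.2)‖ₑ ≤
      (L : ℝ≥0∞) * ((closedBall (0 : E d) r).indicator 1 p.1 * truncNear n (2 * ε) p.1 p.2) +
      (L : ℝ≥0∞) * ((closedBall (0 : E d) r).indicator 1 p.2 * truncNear n (2 * ε) p.2 p.1) := by
  obtain ⟨x, y⟩ := p
  simp only
  by_cases h1 : ε < ‖x - y‖
  · have : tk n ε x y = rieszKernel n (x - y) := by
      unfold tk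
      rw [indicator_of_mem (by exact h1)]
    rw [this, sub_self, enorm_zero]
    exact zero_le
  · have h2 : tk n ε x y = 0 := by
      unfold tk
      rw [indicator_of_notMem (by exact h1)]
    rw [h2, smul_zero, zero_sub, enorm_neg]
    rcases eq_or_ne x y with rfl | hxy
    · rw [sub_self, zero_smul, enorm_zero]
      exact zero_le
    have hpos : 0 < ‖x - y‖ := norm_pos_iff.2 (sub_ne_zero.2 hxy)
    push Not at h1
    have hlt : ‖x - y‖ < 2 * ε := by linarith
    have hk : truncNear n (2 * ε) x y =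
        ENNReal.ofReal (‖x - y‖ ^ 2 * (‖x - y‖ ^ (n + 1))⁻¹) := by
      unfold truncNear
      rw [indicator_of_mem (by exact ⟨hpos, hlt⟩)]
    have hbound : ‖(ψ x - ψ y) • rieszKernel n (x - y)‖ₑ ≤
        (L : ℝ≥0∞) * truncNear n (2 * ε) x y := by
      rw [hk, ← ofReal_norm, ← ENNReal.ofReal_coe_nnreal, ← ENNReal.ofReal_mul L.coe_nonneg]
      apply ENNReal.ofReal_le_ofReal
      rw [norm_smul]
      have h3 : ‖ψ x - ψ y‖ ≤ L * ‖x - y‖ := by
        have := hψ.dist_le_mul x y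
        rwa [dist_eq_norm, dist_eq_norm] at this
      have h4 := norm_rieszKernel_le (n := n) (x - y)
      calc ‖ψ x - ψ y‖ * ‖rieszKernel n (x - y)‖ ≤ (L * ‖x - y‖) * (‖x - y‖ ^ n)⁻¹ := by gcongr
        _ = L * (‖x - y‖ ^ 2 * (‖x - y‖ ^ (n + 1))⁻¹) := by
            have : ‖x - y‖ ≠ 0 := hpos.ne'
            field_simp
            ring
    by_cases hx : x ∈ closedBall (0 : E d) r
    · rw [indicator_of_mem hx, Pi.one_apply, one_mul]
      exact hbound.trans le_self_add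
    by_cases hy : y ∈ closedBall (0 : E d) r
    · rw [indicator_of_mem hy, Pi.one_apply, one_mul, truncBdd_near_comm (2 * ε) y x]
      exact hbound.trans le_add_self
    · rw [mem_closedBall, dist_zero_right, not_le] at hx hy
      rw [hψr x hx, hψr y hy, sub_self, zero_smul, enorm_zero]
      exact zero_le

lemma truncBdd_lint_aux {α : Type*} [MeasurableSpace α] {ν : Measure α} [SFinite ν]
    {f g : α × α → ℝ≥0∞} {L K : ℝ≥0∞} (hg : Measurable g)
    (h : ∀ p, f p ≤ L * g p + L * g p.swap) (hK : ∫⁻ p, g p ∂(ν.prod ν) ≤ K) :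
    ∫⁻ p, f p ∂(ν.prod ν) ≤ L * K + L * K := by
  have hg2 : Measurable (fun p : α × α => g p.swap) := hg.comp measurable_swap
  have h6 : ∫⁻ p, g p.swap ∂(ν.prod ν) = ∫⁻ p, g p ∂(ν.prod ν) :=
    lintegral_prod_swap (μ := ν) (ν := ν) g
  calc ∫⁻ p, f p ∂(ν.prod ν) ≤ ∫⁻ p, (L * g p + L * g p.swap) ∂(ν.prod ν) := lintegral_mono h
    _ = L * ∫⁻ p, g p ∂(ν.prod ν) + L * ∫⁻ p, g p.swap ∂(ν.prod ν) := by
      rw [lintegral_add_left (hg.const_mul L), lintegral_const_mul L hg,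
        lintegral_const_mul L hg2]
    _ ≤ _ := by
      rw [h6]
      gcongr

lemma truncBdd_near_total {ν : Measure (E d)} [SFinite ν] (hU : UB n ν C) {ψ : E d → ℝ}
    {L : ℝ≥0} (hψ : LipschitzWith L ψ) {r : ℝ} (hr : 0 < r) (hψr : ∀ y, r < ‖y‖ → ψ y = 0)
    {ε : ℝ} (hε : 0 < ε) :
    ∫⁻ p : E d × E d, ‖(ψ p.1 - ψ p.2) • tk n ε p.1 p.2 -
      (ψ p.1 - ψ p.2) • rieszKernel n (p.1 - p.2)‖ₑ ∂(ν.prod ν) ≤
      ENNReal.ofReal (2 * (L * ((2 * (C * 2 ^ (n + 1) * (2 * ε))) * (C * r ^ n)))) := by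
  have hC := hU.1
  have h7 := truncBdd_near_prod (ν := ν) hU hr (by positivity : 0 < 2 * ε)
  rw [← ENNReal.ofReal_mul (by positivity)] at h7
  refine (truncBdd_lint_aux (truncBdd_near_measurable2 (d := d) (n := n) r (2 * ε))
    (fun p => truncBdd_near_pointwise hψ hψr hε p) h7).trans (le_of_eq ?_)
  rw [← ENNReal.ofReal_coe_nnreal, ← ENNReal.ofReal_mul L.coe_nonneg,
    ← ENNReal.ofReal_add (by positivity) (by positivity)]
  congr 1
  ring

lemma truncBdd_tk_integrable {ν : Measure (E d)} [IsFiniteMeasure ν] {ψ : E d → ℝ}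
    (hψ : Continuous ψ) {B : ℝ} (hB : ∀ y, ‖ψ y‖ ≤ B) {ε : ℝ} (hε : 0 < ε) :
    Integrable (fun p : E d × E d => (ψ p.1 - ψ p.2) • tk n ε p.1 p.2) (ν.prod ν) := by
  have hm : Measurable (fun p : E d × E d => ψ p.1 - ψ p.2) :=
    (hψ.measurable.comp measurable_fst).sub (hψ.measurable.comp measurable_snd)
  refine Integrable.of_bound (C := (B + B) * (ε ^ n)⁻¹)
    (hm.smul (measurable_tk ε)).aestronglyMeasurable ?_
  refine Eventually.of_forall fun p => ?_
  rw [norm_smul]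
  have h2 := norm_tk_le (n := n) hε p.1 p.2
  have h3 : ‖ψ p.1 - ψ p.2‖ ≤ B + B := (norm_sub_le _ _).trans (add_le_add (hB _) (hB _))
  have h4 : 0 ≤ B + B := (norm_nonneg _).trans h3
  gcongr

lemma truncBdd_form_sub_aux {ν : Measure (E d)} [IsFiniteMeasure ν] (hU : UB n ν C)
    (hb : ∃ R0, ν (closedBall 0 R0)ᶜ = 0) {ψ : E d → ℝ} {L : ℝ≥0} (hψ : LipschitzWith L ψ) {r : ℝ}
    (hr : 0 < r) (hψr : ∀ y, r < ‖y‖ → ψ y = 0) {ε : ℝ} (hε : 0 < ε) {B : ℝ}
    (hB : ∀ y, ‖ψ y‖ ≤ B) :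
    ‖(1 / 2 : ℝ) • (∫ p : E d × E d, (ψ p.1 - ψ p.2) • tk n ε p.1 p.2 ∂(ν.prod ν)) -
      BF n ν ψ‖ ≤ L * ((2 * (C * 2 ^ (n + 1) * (2 * ε))) * (C * r ^ n)) := by
  have hC := hU.1
  have hL : Lip ψ := ⟨L, hψ⟩
  have hint1 := truncBdd_tk_integrable (n := n) (ν := ν) hψ.continuous hB hε
  have hint2 := BF_integrable hU hb hL
  have h5 := (enorm_integral_le_lintegral_enorm _).trans
    (truncBdd_near_total (ν := ν) hU hψ hr hψr hε)
  rw [← ofReal_norm] at h5
  have h8 := (ENNReal.ofReal_le_ofReal_iff (by positivity)).1 h5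
  unfold BF
  rw [← smul_sub, ← integral_sub hint1 hint2, norm_smul, Real.norm_of_nonneg (by norm_num)]
  linarith

lemma truncBdd_form_sub (hU : UB n σ C) {ψ : E d → ℝ} {L : ℝ≥0} (hψ : LipschitzWith L ψ) {r : ℝ}
    (hr : 0 < r) (hψr : ∀ y, r < ‖y‖ → ψ y = 0) {ε : ℝ} (hε : 0 < ε) (R : ℝ) :
    ‖(∫ x in closedBall 0 R, ψ x • T n σ (closedBall 0 R) ε x ∂σ) -
      BF n (σ.restrict (closedBall 0 R)) ψ‖ ≤
      L * ((2 * (C * 2 ^ (n + 1) * (2 * ε))) * (C * r ^ n)) := by
  have hfin : IsFiniteMeasure (σ.restrict (closedBall (0 : E d) R)) := ⟨by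
    rw [Measure.restrict_apply_univ]; exact hU.closedBall_lt_top 0 R⟩
  have hb : ∃ R0, (σ.restrict (closedBall (0 : E d) R)) (closedBall 0 R0)ᶜ = 0 := by
    refine ⟨R, ?_⟩
    rw [Measure.restrict_apply measurableSet_closedBall.compl, compl_inter_self,
      measure_empty]
  have hcs : HasCompactSupport ψ := by
    refine HasCompactSupport.intro (isCompact_closedBall 0 r) fun y hy => ?_
    rw [mem_closedBall, dist_zero_right, not_le] at hy
    exact hψr y hy
  obtain ⟨B, hB⟩ := hcs.exists_bound_of_continuous hψ.continuous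
  have hL : Lip ψ := ⟨L, hψ⟩
  have h1 : ∫ x in closedBall 0 R, ψ x • T n σ (closedBall 0 R) ε x ∂σ =
      (1 / 2 : ℝ) • ∫ p : E d × E d, (ψ p.1 - ψ p.2) • tk n ε p.1 p.2
        ∂((σ.restrict (closedBall (0 : E d) R)).prod (σ.restrict (closedBall (0 : E d) R))) :=
    truncBdd_swap_aux hL hB hε
  rw [h1]
  exact truncBdd_form_sub_aux (UB.restrict hU _) hb hψ hr hψr hε hB

/-! ### Testing against Lipschitz functions -/

lemma truncBdd_F_measurable (hU : UB n σ C) (ε : ℝ) : StronglyMeasurable (truncF n σ ε) := by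
  have := UB.sigmaFinite hU
  exact StronglyMeasurable.integral_prod_right' (ν := σ)
    (truncBdd_measurable_dk (d := d) (n := n) ε).stronglyMeasurable

lemma truncBdd_smul_integrable {μ : Measure (E d)} {ψ : E d → ℝ} (hψ : Integrable ψ μ)
    {G : E d → E d} (hG : StronglyMeasurable G) {B : ℝ} (hB : ∀ x, ‖G x‖ ≤ B) :
    Integrable (fun x => ψ x • G x) μ := by
  refine (hψ.norm.mul_const B).mono' (hψ.aestronglyMeasurable.smul hG.aestronglyMeasurable) ?_
  refine Eventually.of_forall fun x => ?_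
  rw [norm_smul]
  exact mul_le_mul_of_nonneg_left (hB x) (norm_nonneg _)

lemma truncBdd_weak_step (hU : UB n σ C) {ψ : E d → ℝ} (hψi : Integrable ψ σ)
    {r : ℝ} (hψr : ∀ y, r < ‖y‖ → ψ y = 0) (h0 : ∫ y, ψ y ∂σ = 0) {CF : ℝ} {ε : ℝ} (hε : 0 < ε)
    (hF : ∀ x, ‖truncF n σ ε x‖ ≤ CF) {R : ℝ} (hr : 0 < r) (hR : 2 * r + 2 * ε ≤ R) :
    ‖(∫ x, ψ x • truncF n σ ε x ∂σ) -
      ∫ x in closedBall 0 R, ψ x • T n σ (closedBall 0 R) ε x ∂σ‖ ≤
      ((n + 2) * 4 ^ (n + 1)) * (2 ^ (n + 1) * C) * r / R * ∫ y, |ψ y| ∂σ := by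
  have hσ := UB.sigmaFinite hU
  have hC := hU.1
  set S : Set (E d) := closedBall 0 R with hS
  have hSf : σ S < ∞ := hU.closedBall_lt_top 0 R
  have hR0 : 0 < R := by linarith
  have hcompl : ∀ x, x ∉ S → ψ x = 0 := by
    intro x hx
    rw [hS, mem_closedBall, dist_zero_right, not_le] at hx
    exact hψr x (by linarith)
  have hT : StronglyMeasurable (T n σ S ε) := stronglyMeasurable_T S ε
  have hTb : ∀ x, ‖T n σ S ε x‖ ≤ (ε ^ n)⁻¹ * σ.real S := fun x => norm_T_le hε x hSf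
  have i1 : IntegrableOn (fun x => ψ x • truncF n σ ε x) S σ :=
    (truncBdd_smul_integrable hψi (truncBdd_F_measurable hU ε) hF).integrableOn
  have i2 : IntegrableOn (fun x => ψ x • T n σ S ε x) S σ :=
    (truncBdd_smul_integrable hψi hT hTb).integrableOn
  have i3 : IntegrableOn (fun x => ψ x • T n σ S ε 0) S σ :=
    (hψi.smul_const _).integrableOn
  have e1 : ∫ x, ψ x • truncF n σ ε x ∂σ = ∫ x in S, ψ x • truncF n σ ε x ∂σ := by
    symm
    refine setIntegral_eq_integral_of_forall_compl_eq_zero fun x hx => ?_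
    rw [hcompl x hx, zero_smul]
  have e2 : ∫ x in S, ψ x • T n σ S ε 0 ∂σ = 0 := by
    rw [integral_smul_const, setIntegral_eq_integral_of_forall_compl_eq_zero hcompl, h0, zero_smul]
  have e3 : (∫ x, ψ x • truncF n σ ε x ∂σ) - ∫ x in S, ψ x • T n σ S ε x ∂σ =
      ∫ x in S, ψ x • (truncF n σ ε x - (T n σ S ε x - T n σ S ε 0)) ∂σ := by
    have e4 : ∀ x, ψ x • (truncF n σ ε x - (T n σ S ε x - T n σ S ε 0)) =
        (ψ x • truncF n σ ε x - ψ x • T n σ S ε x) + ψ x • T n σ S ε 0 := by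
      intro x
      rw [smul_sub, smul_sub]
      abel
    have i5 : IntegrableOn (fun x => ψ x • truncF n σ ε x - ψ x • T n σ S ε x) S σ := i1.sub i2
    simp_rw [e4]
    rw [integral_add i5 i3, integral_sub i1 i2, e2, add_zero, e1]
  rw [e3]
  have i4 : IntegrableOn (fun y => |ψ y|) S σ := hψi.abs.integrableOn
  set k : ℝ := ((n + 2) * 4 ^ (n + 1)) * (2 ^ (n + 1) * C) * r / R with hk
  have hk0 : 0 ≤ k := by positivity
  calc ‖∫ x in S, ψ x • (truncF n σ ε x - (T n σ S ε x - T n σ S ε 0)) ∂σ‖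
      ≤ ∫ x in S, |ψ x| * k ∂σ := by
        refine norm_integral_le_of_norm_le (i4.mul_const k) ?_
        refine Eventually.of_forall fun x => ?_
        rw [norm_smul, Real.norm_eq_abs]
        by_cases hx : r < ‖x‖
        · rw [hψr x hx, abs_zero, zero_mul, zero_mul]
        · push Not at hx
          refine mul_le_mul_of_nonneg_left ?_ (abs_nonneg _)
          refine (truncBdd_F_sub hU hε x (by linarith)).trans ?_
          rw [hk]
          gcongr
    _ = (∫ x in S, |ψ x| ∂σ) * k := by rw [integral_mul_const]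
    _ ≤ (∫ x, |ψ x| ∂σ) * k := by
        refine mul_le_mul_of_nonneg_right ?_ hk0
        exact setIntegral_le_integral hψi.abs (Eventually.of_forall fun x => abs_nonneg _)
    _ = _ := mul_comm _ _

theorem truncBdd_weak_lip (hU : UB n σ C) (hR : Refl n σ) {ψ : E d → ℝ} (hψ : Lip ψ)
    (hc : HasCompactSupport ψ) (h0 : ∫ y, ψ y ∂σ = 0) {CF : ℝ}
    (hF : ∀ ε > 0, ∀ x, ‖truncF n σ ε x‖ ≤ CF) :
    ∃ Cp : ℝ, 0 ≤ Cp ∧ ∀ ε > 0, ‖∫ x, ψ x • truncF n σ ε x ∂σ‖ ≤ Cp * ε := by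
  have hC := hU.1
  have hlf := UB.isLocallyFinite hU
  obtain ⟨r, hr, hψr⟩ := truncBdd_exists_radius hc
  obtain ⟨L, hL⟩ := id hψ
  have hψi : Integrable ψ σ := hL.continuous.integrable_of_hasCompactSupport hc
  refine ⟨L * ((2 * (C * 2 ^ (n + 1) * 2)) * (C * r ^ n)), by positivity, ?_⟩
  intro ε hε
  have hBF := truncBdd_BF_tendsto hU hR hψ hc h0
  have hlim : Tendsto (fun R : ℝ => ((n + 2) * 4 ^ (n + 1)) * (2 ^ (n + 1) * C) * r / R *
      (∫ y, |ψ y| ∂σ) + L * ((2 * (C * 2 ^ (n + 1) * (2 * ε))) * (C * r ^ n)) +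
        ‖BF n (σ.restrict (closedBall 0 R)) ψ‖) atTop
      (𝓝 (0 * (∫ y, |ψ y| ∂σ) + L * ((2 * (C * 2 ^ (n + 1) * (2 * ε))) * (C * r ^ n)) +
        ‖(0 : E d)‖)) :=
    (((tendsto_const_nhds.div_atTop tendsto_id).mul_const _).add tendsto_const_nhds).add hBF.norm
  have e0 : 0 * (∫ y, |ψ y| ∂σ) + L * ((2 * (C * 2 ^ (n + 1) * (2 * ε))) * (C * r ^ n)) +
      ‖(0 : E d)‖ = L * ((2 * (C * 2 ^ (n + 1) * 2)) * (C * r ^ n)) * ε := by
    rw [norm_zero]
    ring
  rw [e0] at hlim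
  refine ge_of_tendsto hlim ?_
  filter_upwards [eventually_ge_atTop (2 * r + 2 * ε)] with R hRr
  have h1 := truncBdd_weak_step (n := n) hU hψi hψr h0 hε (hF ε hε) hr hRr
  have h2 := truncBdd_form_sub (n := n) hU hL hr hψr hε R
  set A := ∫ x, ψ x • truncF n σ ε x ∂σ
  set B := ∫ x in closedBall 0 R, ψ x • T n σ (closedBall 0 R) ε x ∂σ
  set D := BF n (σ.restrict (closedBall 0 R)) ψ
  have e5 : A = (A - B) + (B - D) + D := by abel
  calc ‖A‖ = ‖(A - B) + (B - D) + D‖ := by rw [← e5]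
    _ ≤ ‖A - B‖ + ‖B - D‖ + ‖D‖ :=
      (norm_add_le _ _).trans (add_le_add (norm_add_le _ _) le_rfl)
    _ ≤ _ := by
      gcongr

/-! ### Density of Lipschitz functions -/

/-- uniform approximation by Lipschitz functions with compact support -/
lemma truncBdd_approx_unif {f : E d → ℝ} (hf : Continuous f) {r : ℝ}
    (hfr : ∀ y, r < ‖y‖ → f y = 0) {η : ℝ} (hη : 0 < η) :
    ∃ g : E d → ℝ, Lip g ∧ (∀ y, r + 1 < ‖y‖ → g y = 0) ∧ ∀ y, |g y - f y| ≤ η := by
  have hcs : HasCompactSupport f := by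
    refine HasCompactSupport.intro (isCompact_closedBall 0 r) fun y hy => ?_
    rw [mem_closedBall, dist_zero_right, not_le] at hy
    exact hfr y hy
  have huc : UniformContinuous f := hcs.uniformContinuous_of_continuous hf
  obtain ⟨δ, hδ, hδf⟩ := Metric.uniformContinuous_iff.1 huc η hη
  obtain ⟨g, hg, hgf⟩ := hf.exists_contDiff_dist_le_of_forall_mem_ball_dist_le
    (lt_min hδ one_pos)
  have hgz : ∀ y, r + 1 < ‖y‖ → g y = 0 := by
    intro y hy
    have hfy : f y = 0 := hfr y (by linarith)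
    have h1 : dist (g y) (f y) ≤ 0 := by
      refine hgf y 0 fun x hx => ?_
      rw [mem_ball, dist_eq_norm] at hx
      have h2 : ‖x - y‖ < 1 := lt_of_lt_of_le hx (min_le_right _ _)
      have h3 : r < ‖x‖ := by
        have := norm_sub_norm_le y x
        rw [norm_sub_rev] at this
        linarith
      rw [hfr x h3, hfy, dist_self]
    have h2 := dist_le_zero.1 h1
    rw [h2, hfy]
  have hgc : HasCompactSupport g := by
    refine HasCompactSupport.intro (isCompact_closedBall 0 (r + 1)) fun y hy => ?_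
    rw [mem_closedBall, dist_zero_right, not_le] at hy
    exact hgz y hy
  obtain ⟨K, hK⟩ := ContDiff.lipschitzWith_of_hasCompactSupport hgc hg (by simp)
  refine ⟨g, ⟨K, hK⟩, hgz, fun y => ?_⟩
  have h1 : dist (g y) (f y) ≤ η := by
    refine hgf y η fun x hx => ?_
    rw [mem_ball] at hx
    exact (hδf (lt_of_lt_of_le hx (min_le_left _ _))).le
  rwa [Real.dist_eq] at h1

lemma truncBdd_approx (hU : UB n σ C) (hpos : 0 < σ (ball (0 : E d) 1)) {g : E d → ℝ}
    (hg : Integrable g σ) (h0 : ∫ y, g y ∂σ = 0) {τ : ℝ} (hτ : 0 < τ) :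
    ∃ ψ : E d → ℝ, Lip ψ ∧ HasCompactSupport ψ ∧ ∫ y, ψ y ∂σ = 0 ∧
      ∫ y, |g y - ψ y| ∂σ ≤ τ := by
  have hlf := UB.isLocallyFinite hU
  obtain ⟨f, hfc, hf1, hf2, hf3⟩ := hg.exists_hasCompactSupport_integral_sub_le
    (by positivity : 0 < τ / 4)
  obtain ⟨r, hr, hfr⟩ := truncBdd_exists_radius hfc
  have hm := hU.closedBall_lt_top (0 : E d) (r + 1)
  set m : ℝ := σ.real (closedBall (0 : E d) (r + 1)) with hmdef
  have hm0 : 0 ≤ m := measureReal_nonneg
  obtain ⟨g1, hg1L, hg1r, hg1f⟩ := truncBdd_approx_unif hf2 hfr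
    (by positivity : 0 < τ / (4 * (m + 1)))
  have hg1c : HasCompactSupport g1 := by
    refine HasCompactSupport.intro (isCompact_closedBall 0 (r + 1)) fun y hy => ?_
    rw [mem_closedBall, dist_zero_right, not_le] at hy
    exact hg1r y hy
  have hg1i : Integrable g1 σ :=
    (Lip.continuous hg1L).integrable_of_hasCompactSupport hg1c
  have h1 : ∫ y, |f y - g1 y| ∂σ ≤ τ / 4 := by
    have h2 : ∫ y, |f y - g1 y| ∂σ = ∫ y in closedBall (0 : E d) (r + 1), |f y - g1 y| ∂σ := by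
      symm
      refine setIntegral_eq_integral_of_forall_compl_eq_zero fun x hx => ?_
      rw [mem_closedBall, dist_zero_right, not_le] at hx
      rw [hg1r x hx, hfr x (by linarith), sub_zero, abs_zero]
    rw [h2]
    calc _ ≤ ∫ y in closedBall (0 : E d) (r + 1), τ / (4 * (m + 1)) ∂σ := by
          refine setIntegral_mono ((hf3.sub hg1i).abs.integrableOn)
            (integrableOn_const hm.ne) fun y => ?_
          simp only
          rw [abs_sub_comm]
          exact hg1f y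
      _ = m * (τ / (4 * (m + 1))) := by
          rw [setIntegral_const, smul_eq_mul]
      _ ≤ τ / 4 := by
          rw [mul_div_assoc', div_le_div_iff₀ (by positivity) (by norm_num)]
          linarith only [hτ]
  have j1 : Integrable (fun y => |g y - g1 y|) σ := (hg.sub hg1i).abs
  have j2 : Integrable (fun y => ‖g y - f y‖) σ := (hg.sub hf3).norm
  have j3 : Integrable (fun y => |f y - g1 y|) σ := (hf3.sub hg1i).abs
  have h3 : ∫ y, |g y - g1 y| ∂σ ≤ τ / 2 := by
    have h4 : ∫ y, |g y - g1 y| ∂σ ≤ ∫ y, (‖g y - f y‖ + |f y - g1 y|) ∂σ := by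
      refine integral_mono j1 (j2.add j3) fun y => ?_
      simp only
      rw [Real.norm_eq_abs]
      have := abs_add_le (g y - f y) (f y - g1 y)
      rwa [sub_add_sub_cancel] at this
    rw [integral_add j2 j3] at h4
    linarith
  -- correction of the mean
  set b : E d → ℝ := bmp 0 1 with hb
  have hbi : Integrable b σ := truncBdd_bmp_integrable hU 0 one_pos
  have hbpos : 0 < ∫ y, b y ∂σ := truncBdd_bmp_integral_pos hU 0 one_pos hpos
  set a : ℝ := (∫ y, g1 y ∂σ) / ∫ y, b y ∂σ with ha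
  refine ⟨fun y => g1 y + (-a) * b y, Lip.add hg1L (Lip.const_mul _ (truncBdd_bmp_lip 0 one_pos)),
    ?_, ?_, ?_⟩
  · refine HasCompactSupport.intro (isCompact_closedBall 0 (r + 1)) fun y hy => ?_
    rw [mem_closedBall, dist_zero_right, not_le] at hy
    rw [hg1r y hy, hb, truncBdd_bmp_zero 0 one_pos (by rw [sub_zero]; linarith)]
    ring
  · rw [integral_add hg1i (hbi.const_mul _), integral_const_mul, ha]
    field_simp
    ring
  · have h5 : |∫ y, g1 y ∂σ| ≤ τ / 2 := by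
      have h6 : ∫ y, g1 y ∂σ = -∫ y, (g y - g1 y) ∂σ := by
        rw [integral_sub hg hg1i, h0]
        ring
      rw [h6, abs_neg]
      exact (abs_integral_le_integral_abs).trans h3
    have h7 : ∫ y, |g y - (g1 y + (-a) * b y)| ∂σ ≤ ∫ y, (|g y - g1 y| + |a| * b y) ∂σ := by
      refine integral_mono (hg.sub (hg1i.add (hbi.const_mul _))).abs
        (j1.add (hbi.const_mul _)) fun y => ?_
      simp only
      have h8 : g y - (g1 y + (-a) * b y) = (g y - g1 y) + a * b y := by ring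
      rw [h8]
      refine (abs_add_le _ _).trans ?_
      rw [abs_mul, abs_of_nonneg (truncBdd_bmp_nonneg 0 1 y)]
    have h9 : ∫ y, (|g y - g1 y| + |a| * b y) ∂σ = ∫ y, |g y - g1 y| ∂σ + |∫ y, g1 y ∂σ| := by
      rw [integral_add j1 (hbi.const_mul _), integral_const_mul, ha, abs_div,
        abs_of_pos hbpos]
      field_simp
    rw [h9] at h7
    linarith

/-- The truncated transforms (normalised at 0) are bounded uniformly and
converge weakly to a constant. -/
theorem trunc_weak {C c : ℝ} (hn : 1 ≤ n) {σ : Measure (E n)} (hU : UB n σ C) (hc : 0 < c)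
    (hL : ∀ (v : E n) (r : ℝ), 0 < r → ENNReal.ofReal (c * r ^ n) ≤ σ (ball v r))
    (hR : Refl n σ) : ∃ CF : ℝ, ∃ F : ℝ → E n → E n, (∀ ε > 0, Measurable (F ε)) ∧
      (∀ ε > 0, ∀ x, F ε x = ∫ y, ({y | ε < ‖x - y‖}.indicator (fun y => rieszKernel n (x - y)) y -
        {y | ε < ‖y‖}.indicator (fun y => rieszKernel n (-y)) y) ∂σ) ∧
      (∀ ε > 0, ∀ x, Integrable (fun y => {y | ε < ‖x - y‖}.indicator
        (fun y => rieszKernel n (x - y)) y - {y | ε < ‖y‖}.indicator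
        (fun y => rieszKernel n (-y)) y) σ) ∧
      (∀ ε > 0, ∀ x, ‖F ε x‖ ≤ CF) ∧
      ∀ φ : E n → ℝ, Continuous φ → HasCompactSupport φ → ∫ x, φ x = 0 →
        Tendsto (fun ε => ∫ x, φ x • F ε x) (𝓝[>] 0) (𝓝 0) := by
  obtain ⟨CF, hCF, hF⟩ := truncBdd_bound hU hc hL hR
  refine ⟨CF, truncF n σ, fun ε _ => (truncBdd_F_measurable hU ε).measurable, ?_, ?_, hF, ?_⟩
  · intro ε _ x
    unfold truncF
    simp_rw [truncBdd_dk_eq]
  · intro ε hε x
    have h := truncBdd_integrable (n := n) hU hε x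
    simp_rw [truncBdd_dk_eq] at h
    exact h
  · intro φ hφ hφc hφ0
    have hlf := UB.isLocallyFinite hU
    obtain ⟨f, hfm, ⟨B, hB⟩, hvol⟩ := vol_comparison hn hU hc hL
    have hφi : Integrable φ σ := hφ.integrable_of_hasCompactSupport hφc
    have hgi : Integrable (fun x => (f x : ℝ) * φ x) σ := by
      refine hφi.bdd_mul (c := (B : ℝ)) ?_ ?_
      · exact (measurable_coe_nnreal_real.comp hfm).aestronglyMeasurable
      · refine Eventually.of_forall fun x => ?_
        rw [Real.norm_of_nonneg (f x).coe_nonneg]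
        exact_mod_cast hB x
    have hg0 : ∫ x, (f x : ℝ) * φ x ∂σ = 0 := by
      rw [← hφ0, hvol, integral_withDensity_eq_integral_smul hfm]
      refine integral_congr_ae (Eventually.of_forall fun x => ?_)
      simp only
      rw [NNReal.smul_def, smul_eq_mul]
    have hkey : ∀ ε, ∫ x, φ x • truncF n σ ε x = ∫ x, ((f x : ℝ) * φ x) • truncF n σ ε x ∂σ := by
      intro ε
      rw [hvol, integral_withDensity_eq_integral_smul hfm]
      refine integral_congr_ae (Eventually.of_forall fun x => ?_)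
      simp only
      rw [NNReal.smul_def, smul_smul]
    simp_rw [hkey]
    have hpos : 0 < σ (ball (0 : E n) 1) := by
      refine lt_of_lt_of_le ?_ (hL 0 1 one_pos)
      rw [ENNReal.ofReal_pos]
      positivity
    rw [Metric.tendsto_nhds]
    intro η hη
    obtain ⟨ψ, hψL, hψc, hψ0, hψg⟩ := truncBdd_approx hU hpos hgi hg0
      (by positivity : 0 < η / (2 * (CF + 1)))
    have hψi : Integrable ψ σ := (Lip.continuous hψL).integrable_of_hasCompactSupport hψc
    obtain ⟨Cp, hCp, hp⟩ := truncBdd_weak_lip hU hR hψL hψc hψ0 hF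
    have hev : ∀ᶠ ε : ℝ in 𝓝[>] 0, ε < η / (2 * (Cp + 1)) :=
      (eventually_lt_nhds (by positivity)).filter_mono nhdsWithin_le_nhds
    filter_upwards [hev, self_mem_nhdsWithin] with ε hε1 hε0
    rw [mem_Ioi] at hε0
    rw [dist_zero_right]
    have i1 : Integrable (fun x => ψ x • truncF n σ ε x) σ :=
      truncBdd_smul_integrable hψi (truncBdd_F_measurable hU ε) (hF ε hε0)
    have i2 : Integrable (fun x => ((f x : ℝ) * φ x - ψ x) • truncF n σ ε x) σ :=
      truncBdd_smul_integrable (hgi.sub hψi) (truncBdd_F_measurable hU ε) (hF ε hε0)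
    have e1 : ∫ x, ((f x : ℝ) * φ x) • truncF n σ ε x ∂σ =
        ∫ x, ψ x • truncF n σ ε x ∂σ + ∫ x, ((f x : ℝ) * φ x - ψ x) • truncF n σ ε x ∂σ := by
      rw [← integral_add i1 i2]
      refine integral_congr_ae (Eventually.of_forall fun x => ?_)
      simp only
      rw [← add_smul]
      congr 1
      ring
    have e2 : ‖∫ x, ((f x : ℝ) * φ x - ψ x) • truncF n σ ε x ∂σ‖ ≤
        (η / (2 * (CF + 1))) * CF := by
      have i3 : Integrable (fun x => |(f x : ℝ) * φ x - ψ x|) σ := (hgi.sub hψi).abs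
      calc _ ≤ ∫ x, |(f x : ℝ) * φ x - ψ x| * CF ∂σ := by
            refine norm_integral_le_of_norm_le (i3.mul_const CF) ?_
            refine Eventually.of_forall fun x => ?_
            rw [norm_smul, Real.norm_eq_abs]
            exact mul_le_mul_of_nonneg_left (hF ε hε0 x) (abs_nonneg _)
        _ = (∫ x, |(f x : ℝ) * φ x - ψ x| ∂σ) * CF := integral_mul_const _ _
        _ ≤ _ := mul_le_mul_of_nonneg_right hψg hCF
    have e3 : (η / (2 * (CF + 1))) * CF ≤ η / 2 := by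
      rw [div_mul_eq_mul_div, div_le_div_iff₀ (by positivity) (by norm_num)]
      linarith only [hη]
    have e4 : Cp * ε < η / 2 := by
      have h1 : (Cp + 1) * ε < η / 2 := by
        rw [lt_div_iff₀ (by positivity)] at hε1
        linarith
      linarith only [hε0, h1]
    rw [e1]
    calc _ ≤ ‖∫ x, ψ x • truncF n σ ε x ∂σ‖ +
          ‖∫ x, ((f x : ℝ) * φ x - ψ x) • truncF n σ ε x ∂σ‖ := norm_add_le _ _
      _ ≤ Cp * ε + (η / (2 * (CF + 1))) * CF := add_le_add (hp ε hε0) e2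
      _ < η := by linarith

end Vale.Agent.P120
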