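import Vale.Agent.Lib.P120.UR.Base
import Mathlib.MeasureTheory.Integral.RieszMarkovKakutani.Real

/-!
P120: existence of weak limits along the hyperfilter (module Ultra).
-/

open MeasureTheory Filter Set Metric Module CompactlySupported
open scoped Topology ENNReal NNReal RealInnerProductSpace

namespace Vale.Agent.P120

variable {d n : ℕ}

/-- Integrals of a function supported in a ball are bounded. -/
theorem UB.abs_integral_le {C : ℝ} {ν : Measure (E d)} (hU : UB n ν C) {f : E d → ℝ} {x : E d}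
    {R M : ℝ} (hR : 0 < R) (hM : 0 ≤ M) (hf : ∀ y, |f y| ≤ M) (hs : ∀ y, y ∉ closedBall x R → f y = 0) :
    |∫ y, f y ∂ν| ≤ M * (C * R ^ n) := by
  have hC := hU.1
  rw [← setIntegral_eq_integral_of_forall_compl_eq_zero (s := closedBall x R) (fun y hy => hs y hy)]
  have h1 := norm_setIntegral_le_of_norm_le_const (μ := ν) (s := closedBall x R) (f := f) (C := M)
    (hU.closedBall_lt_top x R) (fun y _ => by rw [Real.norm_eq_abs]; exact hf y)
  rw [Real.norm_eq_abs] at h1
  refine h1.trans ?_
  refine mul_le_mul_of_nonneg_left ?_ hM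
  exact ENNReal.toReal_le_of_le_ofReal (by positivity) (hU.2 x R hR)

theorem exists_lim_integral {C : ℝ} (ν : ℕ → Measure (E d)) (hU : ∀ k, UB n (ν k) C)
    (f : C_c(E d, ℝ)) :
    ∃ L : ℝ, Tendsto (fun k => ∫ y, f y ∂(ν k)) (hyperfilter ℕ : Filter ℕ) (𝓝 L) := by
  have hC := (hU 0).1
  obtain ⟨R0, hR0⟩ := f.hasCompactSupport.isCompact.isBounded.subset_closedBall (0 : E d)
  obtain ⟨M, hM⟩ := f.continuous.bounded_above_of_compact_support f.hasCompactSupport
  set R := max R0 1 with hR
  have hR1 : 0 < R := lt_of_lt_of_le one_pos (le_max_right _ _)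
  have hM0 : 0 ≤ M := (norm_nonneg _).trans (hM 0)
  have hs : ∀ y, y ∉ closedBall (0 : E d) R → f y = 0 := by
    intro y hy
    apply image_eq_zero_of_notMem_tsupport
    intro hy2
    exact hy ((closedBall_subset_closedBall (le_max_left _ _)) (hR0 hy2))
  have hmem : ∀ k, ∫ y, f y ∂(ν k) ∈ Icc (-(M * (C * R ^ n))) (M * (C * R ^ n)) := by
    intro k
    rw [mem_Icc, ← abs_le]
    exact (hU k).abs_integral_le hR1 hM0 (fun y => by rw [← Real.norm_eq_abs]; exact hM y) hs
  have hc : IsCompact (Icc (-(M * (C * R ^ n))) (M * (C * R ^ n))) := isCompact_Icc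
  obtain ⟨L, _, hLim⟩ := hc.ultrafilter_le_nhds
    ((hyperfilter ℕ).map (fun k => ∫ y, f y ∂(ν k))) (by
    rw [Ultrafilter.coe_map, le_principal_iff, mem_map]
    exact Filter.Eventually.of_forall hmem)
  exact ⟨L, hLim⟩

/-- The cutoff equal to `1` on `closedBall x r` and supported in `closedBall x (r+η)`. -/
theorem exists_ball_cutoff (x : E d) {r η : ℝ} (hη : 0 < η) :
    ∃ f : C_c(E d, ℝ), (∀ y, 0 ≤ f y) ∧ (∀ y, f y ≤ 1) ∧ (∀ y ∈ closedBall x r, f y = 1) ∧
      ∀ y, y ∉ closedBall x (r + η) → f y = 0 := by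
  have hc : Continuous (fun y : E d => max 0 (min 1 ((r + η - dist y x) / η))) := by fun_prop
  have hz : ∀ y : E d, y ∉ closedBall x (r + η) → max 0 (min 1 ((r + η - dist y x) / η)) = 0 := by
    intro y hy
    rw [mem_closedBall, not_le] at hy
    apply max_eq_left
    apply (min_le_right _ _).trans
    apply div_nonpos_of_nonpos_of_nonneg _ hη.le
    linarith
  refine ⟨⟨⟨fun y => max 0 (min 1 ((r + η - dist y x) / η)), hc⟩,
    HasCompactSupport.intro (isCompact_closedBall x (r + η)) hz⟩, ?_, ?_, ?_, ?_⟩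
  · intro y
    exact le_max_left _ _
  · intro y
    exact max_le zero_le_one (min_le_left _ _)
  · intro y hy
    rw [mem_closedBall] at hy
    change max 0 (min 1 ((r + η - dist y x) / η)) = 1
    have h1 : 1 ≤ (r + η - dist y x) / η := by
      rw [le_div_iff₀ hη]; linarith
    rw [min_eq_left h1]
    exact max_eq_right zero_le_one
  · exact hz

theorem exists_ultralimit {C : ℝ} (ν : ℕ → Measure (E d)) (hU : ∀ k, UB n (ν k) C) :
    ∃ σ : Measure (E d), UB n σ C ∧ IsUL ν σ := by
  have hC := (hU 0).1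
  have hlf : ∀ k, IsLocallyFiniteMeasure (ν k) := fun k => (hU k).isLocallyFinite
  have hint : ∀ k (f : C_c(E d, ℝ)), Integrable f (ν k) := fun k f => f.integrable
  choose L hL using exists_lim_integral ν hU
  let Λ0 : C_c(E d, ℝ) →ₗ[ℝ] ℝ :=
    { toFun := L
      map_add' := by
        intro f g
        have h1 := (hL f).add (hL g)
        have h2 := hL (f + g)
        refine tendsto_nhds_unique h2 (h1.congr fun k => ?_)
        rw [← integral_add (hint k f) (hint k g)]
        rfl
      map_smul' := by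
        intro a f
        have h1 := (hL f).const_mul a
        have h2 := hL (a • f)
        refine tendsto_nhds_unique h2 (h1.congr fun k => ?_)
        rw [← integral_const_mul]
        rfl }
  have hpos : ∀ f : C_c(E d, ℝ), 0 ≤ f → 0 ≤ Λ0 f := by
    intro f hf
    refine ge_of_tendsto' (hL f) fun k => ?_
    exact integral_nonneg fun y => hf y
  let Λ : C_c(E d, ℝ) →ₚ[ℝ] ℝ := PositiveLinearMap.mk₀ Λ0 hpos
  have hΛ : ∀ f, Λ f = L f := fun f => rfl
  refine ⟨RealRMK.rieszMeasure Λ, ⟨hC, ?_⟩, ?_⟩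
  · intro x r hr
    have key : ∀ η : ℝ, 0 < η → RealRMK.rieszMeasure Λ (closedBall x r) ≤
        ENNReal.ofReal (C * (r + η) ^ n) := by
      intro η hη
      obtain ⟨f, hf0, hf1, hfr, hfη⟩ := exists_ball_cutoff x (r := r) hη
      refine (RealRMK.rieszMeasure_le_of_eq_one Λ hf0 (isCompact_closedBall x r) hfr).trans ?_
      apply ENNReal.ofReal_le_ofReal
      rw [hΛ]
      refine le_of_tendsto' (hL f) fun k => ?_
      have h1 := (hU k).abs_integral_le (f := f) (x := x) (R := r + η) (M := 1) (by linarith)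
        zero_le_one (fun y => by rw [abs_of_nonneg (hf0 y)]; exact hf1 y) hfη
      rw [one_mul] at h1
      exact (le_abs_self _).trans h1
    have ht : Tendsto (fun η : ℝ => ENNReal.ofReal (C * (r + η) ^ n)) (𝓝[>] 0)
        (𝓝 (ENNReal.ofReal (C * (r + 0) ^ n))) := by
      have hc : Continuous fun η : ℝ => ENNReal.ofReal (C * (r + η) ^ n) := by
        refine ENNReal.continuous_ofReal.comp ?_
        fun_prop
      exact (hc.tendsto 0).mono_left nhdsWithin_le_nhds
    rw [add_zero] at ht
    refine ge_of_tendsto ht ?_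
    filter_upwards [self_mem_nhdsWithin] with η hη
    exact key η hη
  · intro f hf hs
    have h1 := hL ⟨⟨f, hf⟩, hs⟩
    have h2 := RealRMK.integral_rieszMeasure Λ ⟨⟨f, hf⟩, hs⟩
    rw [hΛ] at h2
    rw [← h2] at h1
    exact h1

end Vale.Agent.P120
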