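import Vale.Agent.Lib.P120.UR.WeakEqKer

/-!
Estimates for one finite measure, for the module WeakEq.
-/

open MeasureTheory Filter Set Metric Module
open scoped Topology ENNReal NNReal RealInnerProductSpace

namespace Vale.Agent.P120



variable {d n : ℕ}

lemma we_cut_nonneg (R : ℝ) (y : E d) : 0 ≤ cut R y := le_max_left _ _

lemma we_cut_le_one (R : ℝ) (y : E d) : cut R y ≤ 1 :=
  max_le zero_le_one (min_le_left _ _)

lemma we_cut_eq_one {R : ℝ} (hR : 0 < R) {y : E d} (h : ‖y‖ ≤ R) : cut R y = 1 := by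
  unfold cut
  have h1 : ‖y‖ / R ≤ 1 := (div_le_one hR).mpr h
  rw [min_eq_left (by linarith), max_eq_right zero_le_one]

lemma we_cut_eq_zero {R : ℝ} (hR : 0 < R) {y : E d} (h : 2 * R ≤ ‖y‖) : cut R y = 0 := by
  unfold cut
  have h1 : 2 ≤ ‖y‖ / R := (le_div_iff₀ hR).mpr h
  rw [max_eq_left]
  exact (min_le_right _ _).trans (by linarith)

lemma we_cut_continuous (R : ℝ) : Continuous (cut R : E d → ℝ) := by
  unfold cut
  fun_prop

lemma we_cut_lip {R : ℝ} (hR : 0 < R) (x y : E d) : |cut R x - cut R y| ≤ R⁻¹ * ‖x - y‖ := by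
  unfold cut
  have h1 : |max 0 (min 1 (2 - ‖x‖ / R)) - max 0 (min 1 (2 - ‖y‖ / R))| ≤
      |min 1 (2 - ‖x‖ / R) - min 1 (2 - ‖y‖ / R)| := by
    have := abs_max_sub_max_le_max 0 (min 1 (2 - ‖x‖ / R)) 0 (min 1 (2 - ‖y‖ / R))
    simpa using this
  have h2 : |min 1 (2 - ‖x‖ / R) - min 1 (2 - ‖y‖ / R)| ≤ |(2 - ‖x‖ / R) - (2 - ‖y‖ / R)| := by
    have := abs_min_sub_min_le_max 1 (2 - ‖x‖ / R) 1 (2 - ‖y‖ / R)
    simpa using this
  refine h1.trans (h2.trans ?_)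
  have e : (2 - ‖x‖ / R) - (2 - ‖y‖ / R) = R⁻¹ * (‖y‖ - ‖x‖) := by
    field_simp
    ring
  rw [e, abs_mul, abs_of_pos (by positivity : 0 < R⁻¹), norm_sub_rev]
  gcongr
  exact abs_norm_sub_norm_le y x

lemma we_cut_hcs {R : ℝ} (hR : 0 < R) : HasCompactSupport (cut R : E d → ℝ) := by
  refine HasCompactSupport.intro (isCompact_closedBall (0 : E d) (2 * R)) fun y hy => ?_
  rw [mem_closedBall, dist_zero_right, not_le] at hy
  exact we_cut_eq_zero hR hy.le

section Fin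

variable {ν : Measure (E d)} {C : ℝ}

/-- The tail of the heights. -/
lemma we_tail (hU : UB n ν C) (hb : ∃ R0, ν (closedBall 0 R0)ᶜ = 0) {u : E d → E d}
    (hu : Continuous u) (hg : ∀ t : ℝ, 1 ≤ t → ∫ y in ball 0 t, ‖u y‖ ^ 2 ∂ν ≤ t ^ (n + 3))
    {R : ℝ} (hR : 1 ≤ R) :
    IntegrableOn (fun y => ‖u y‖ * (‖y‖ ^ (n + 2))⁻¹) {y | R ≤ ‖y‖} ν ∧
    ∫ y in {y | R ≤ ‖y‖}, ‖u y‖ * (‖y‖ ^ (n + 2))⁻¹ ∂ν ≤
      (4 ^ (n + 3) + C * 4 ^ n) / √R := by
  have hC := hU.1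
  have := UB.isFiniteMeasure hU hb
  have hR0 : 0 < R := by linarith
  have hsR : 0 < √R := Real.sqrt_pos.mpr hR0
  set S : Set (E d) := {y | R ≤ ‖y‖} with hS
  have hSm : MeasurableSet S := measurableSet_le measurable_const measurable_norm
  set f : E d → ℝ := fun y => ‖u y‖ * (‖y‖ ^ (n + 2))⁻¹ with hf
  have hfm : Measurable f := by
    have := hu.measurable
    fun_prop
  have hf0 : ∀ y, 0 ≤ f y := fun y => by positivity
  set A : ℕ → Set (E d) := fun j => {y | 4 ^ j * R ≤ ‖y‖ ∧ ‖y‖ < 4 ^ (j + 1) * R} with hA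
  have hAm : ∀ j, MeasurableSet (A j) := fun j =>
    (measurableSet_le measurable_const measurable_norm).inter
      (measurableSet_lt measurable_norm measurable_const)
  have hSA : S ⊆ ⋃ j, A j := by
    intro w hw
    have h1 : 1 ≤ ‖w‖ / R := by rwa [one_le_div hR0]
    obtain ⟨j, hj1, hj2⟩ := exists_nat_pow_near h1 (by norm_num : (1 : ℝ) < 4)
    rw [mem_iUnion]
    refine ⟨j, ?_, ?_⟩
    · rwa [le_div_iff₀ hR0] at hj1
    · rwa [div_lt_iff₀ hR0] at hj2
  set q0 : ℝ := (1 / 2) * (4 ^ (n + 3) + C * 4 ^ n) / √R with hq0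
  have hq00 : 0 ≤ q0 := by positivity
  have hj : ∀ j, ∫⁻ y in A j, ENNReal.ofReal (f y) ∂ν ≤ ENNReal.ofReal (q0 * (1 / 2) ^ j) := by
    intro j
    set q : ℝ := 2 ^ j * √R with hq
    have hq1 : 0 < q := by positivity
    have hqt : 4 ^ j * R = q ^ 2 := by
      rw [hq, mul_pow, Real.sq_sqrt hR0.le, ← pow_mul, mul_comm j 2, pow_mul]
      norm_num
    have hqt2 : 4 ^ (j + 1) * R = 4 * q ^ 2 := by rw [← hqt]; ring
    set g : E d → ℝ := fun y => (1 / 2) * ((q ^ 2) ^ (n + 2))⁻¹ * ((q ^ 3)⁻¹ * ‖u y‖ ^ 2 + q ^ 3)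
      with hgdef
    have hgc : Continuous g := by
      rw [hgdef]
      fun_prop
    have hg0 : ∀ y, 0 ≤ g y := fun y => by positivity
    have hfg : ∀ y ∈ A j, f y ≤ g y := by
      intro y hy
      have hy1 : q ^ 2 ≤ ‖y‖ := by
        rw [← hqt]
        exact hy.1
      have h1 : (‖y‖ ^ (n + 2))⁻¹ ≤ ((q ^ 2) ^ (n + 2))⁻¹ := by gcongr
      have h2 : ‖u y‖ ≤ (1 / 2) * ((q ^ 3)⁻¹ * ‖u y‖ ^ 2 + q ^ 3) := by
        have h3 : 0 ≤ (q ^ 3)⁻¹ * (‖u y‖ - q ^ 3) ^ 2 := by positivity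
        have h4 : (q ^ 3)⁻¹ * (‖u y‖ - q ^ 3) ^ 2 =
            (q ^ 3)⁻¹ * ‖u y‖ ^ 2 + q ^ 3 - 2 * ‖u y‖ := by
          field_simp
          ring
        rw [h4] at h3
        linarith
      calc f y ≤ ((1 / 2) * ((q ^ 3)⁻¹ * ‖u y‖ ^ 2 + q ^ 3)) * ((q ^ 2) ^ (n + 2))⁻¹ := by
            simp only [hf]
            gcongr
        _ = g y := by simp only [hgdef]; ring
    have hgi : Integrable g ν := we_int_cont hb hgc
    have hball : A j ⊆ ball 0 (4 * q ^ 2) := by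
      intro y hy
      rw [mem_ball, dist_zero_right, ← hqt2]
      exact hy.2
    calc ∫⁻ y in A j, ENNReal.ofReal (f y) ∂ν
        ≤ ∫⁻ y in A j, ENNReal.ofReal (g y) ∂ν :=
          setLIntegral_mono' (hAm j) fun y hy => ENNReal.ofReal_le_ofReal (hfg y hy)
      _ ≤ ∫⁻ y in ball 0 (4 * q ^ 2), ENNReal.ofReal (g y) ∂ν := lintegral_mono_set hball
      _ = ENNReal.ofReal (∫ y in ball 0 (4 * q ^ 2), g y ∂ν) :=
          (ofReal_integral_eq_lintegral_ofReal hgi.integrableOn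
            (Eventually.of_forall hg0)).symm
      _ ≤ ENNReal.ofReal (q0 * (1 / 2) ^ j) := by
          apply ENNReal.ofReal_le_ofReal
          have ht1 : 1 ≤ 4 * q ^ 2 := by
            rw [← hqt2]
            have : (1 : ℝ) ≤ 4 ^ (j + 1) := one_le_pow₀ (by norm_num)
            nlinarith only [hR, this]
          have hu2 : Integrable (fun y => ‖u y‖ ^ 2) ν := we_int_cont hb (by fun_prop)
          have e1 : ∫ y in ball 0 (4 * q ^ 2), g y ∂ν = (1 / 2) * ((q ^ 2) ^ (n + 2))⁻¹ *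
              ((q ^ 3)⁻¹ * ∫ y in ball 0 (4 * q ^ 2), ‖u y‖ ^ 2 ∂ν
                + q ^ 3 * ν.real (ball 0 (4 * q ^ 2))) := by
            simp only [hgdef]
            rw [integral_const_mul, integral_add (hu2.integrableOn.const_mul _)
              (integrable_const _), integral_const_mul, integral_const, smul_eq_mul,
              measureReal_restrict_apply_univ]
            ring
          rw [e1]
          have h5 := hg _ ht1
          have h6 : ν.real (ball (0 : E d) (4 * q ^ 2)) ≤ C * (4 * q ^ 2) ^ n := by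
            rw [measureReal_def]
            exact ENNReal.toReal_le_of_le_ofReal (by positivity) (hU.ball _ (by positivity))
          have e2 : q0 * (1 / 2) ^ j = (1 / 2) * (4 ^ (n + 3) + C * 4 ^ n) * q⁻¹ := by
            rw [hq0, hq, one_div_pow]
            field_simp
          rw [e2]
          calc (1 / 2) * ((q ^ 2) ^ (n + 2))⁻¹ *
              ((q ^ 3)⁻¹ * ∫ y in ball 0 (4 * q ^ 2), ‖u y‖ ^ 2 ∂ν
                + q ^ 3 * ν.real (ball 0 (4 * q ^ 2)))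
              ≤ (1 / 2) * ((q ^ 2) ^ (n + 2))⁻¹ *
              ((q ^ 3)⁻¹ * (4 * q ^ 2) ^ (n + 3) + q ^ 3 * (C * (4 * q ^ 2) ^ n)) := by gcongr
            _ = (1 / 2) * (4 ^ (n + 3) + C * 4 ^ n) * q⁻¹ := by
                field_simp
                ring
  have hfin : ∫⁻ y in S, ENNReal.ofReal (f y) ∂ν ≤ ENNReal.ofReal (2 * q0) := by
    calc ∫⁻ y in S, ENNReal.ofReal (f y) ∂ν ≤ ∫⁻ y in ⋃ j, A j, ENNReal.ofReal (f y) ∂ν :=
          lintegral_mono_set hSA
      _ ≤ ∑' j, ∫⁻ y in A j, ENNReal.ofReal (f y) ∂ν := lintegral_iUnion_le _ _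
      _ ≤ ∑' j, ENNReal.ofReal (q0 * (1 / 2) ^ j) := ENNReal.tsum_le_tsum hj
      _ = ENNReal.ofReal (∑' j : ℕ, q0 * (1 / 2) ^ j) := by
          rw [ENNReal.ofReal_tsum_of_nonneg]
          · intro j; positivity
          · exact (summable_geometric_of_lt_one (by norm_num) (by norm_num)).mul_left q0
      _ = ENNReal.ofReal (2 * q0) := by
          rw [tsum_mul_left, tsum_geometric_of_lt_one (by norm_num) (by norm_num)]
          congr 1; norm_num; ring
  have hint : IntegrableOn f S ν := by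
    refine ⟨hfm.aestronglyMeasurable, ?_⟩
    rw [hasFiniteIntegral_iff_ofReal (Eventually.of_forall hf0)]
    exact hfin.trans_lt ENNReal.ofReal_lt_top
  refine ⟨hint, ?_⟩
  rw [integral_eq_lintegral_of_nonneg_ae (Eventually.of_forall hf0) hint.aestronglyMeasurable]
  refine (ENNReal.toReal_le_of_le_ofReal (by positivity) hfin).trans (le_of_eq ?_)
  rw [hq0]
  ring

/-- The near part. -/
lemma we_near (hU : UB n ν C) (hb : ∃ R0, ν (closedBall 0 R0)ᶜ = 0) {ψ : E d → ℝ} {K : ℝ}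
    (hK : 0 ≤ K) (hψ : ∀ x y, |ψ x - ψ y| ≤ K * ‖x - y‖) {r2 : ℝ}
    (hs : ∀ y, r2 < ‖y‖ → ψ y = 0) {u : E d → E d} {R1 : ℝ} (hR1 : r2 + 1 < R1) (hR10 : 0 < R1)
    {A1 : ℝ}
    (hcI : IntegrableOn (fun p : E d × E d => ‖u p.1 - u p.2‖ ^ 2 * wt n p.1 p.2)
        (ball (0 : E d) R1 ×ˢ ball (0 : E d) R1) (ν.prod ν))
    (hc : ∫ p in ball (0 : E d) R1 ×ˢ ball (0 : E d) R1,
        ‖u p.1 - u p.2‖ ^ 2 * wt n p.1 p.2 ∂(ν.prod ν) ≤ A1) {ρ : ℝ} (hρ : 0 < ρ) (hρ1 : ρ ≤ 1) :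
    ‖∫ p : E d × E d, ((ψ p.1 - ψ p.2) * (wt n p.1 p.2 - weF n ρ (p.1 - p.2))) •
      (u p.1 - u p.2) ∂(ν.prod ν)‖ ≤
      √ρ * (K ^ 2 * (C * R1 ^ n * (2 ^ (n + 3) * C)) / 2 + A1 / 2) := by
  have hC := hU.1
  have := UB.isFiniteMeasure hU hb
  have hsρ : 0 < √ρ := Real.sqrt_pos.mpr hρ
  set S1 : Set (E d × E d) := {p | p.1 ∈ ball (0 : E d) R1 ∧ ‖p.1 - p.2‖ < ρ} with hS1
  have hS1m : MeasurableSet S1 := by
    have h1 : MeasurableSet {p : E d × E d | p.1 ∈ ball (0 : E d) R1} :=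
      measurable_fst measurableSet_ball
    have h2 : MeasurableSet {p : E d × E d | ‖p.1 - p.2‖ < ρ} :=
      measurableSet_lt (by fun_prop) measurable_const
    exact h1.inter h2
  set S2 : Set (E d × E d) := ball (0 : E d) R1 ×ˢ ball (0 : E d) R1 with hS2
  have hS2m : MeasurableSet S2 := measurableSet_ball.prod measurableSet_ball
  set h1f : E d × E d → ℝ := S1.indicator (fun p => ‖p.1 - p.2‖ ^ 2 * wt n p.1 p.2) with hh1
  set h2f : E d × E d → ℝ := S2.indicator (fun p => ‖u p.1 - u p.2‖ ^ 2 * wt n p.1 p.2) with hh2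
  have hi1 : Integrable h1f (ν.prod ν) := (we_int_sq hU hb).indicator hS1m
  have hi2 : Integrable h2f (ν.prod ν) := hcI.integrable_indicator hS2m
  have hpt : ∀ p : E d × E d, ‖((ψ p.1 - ψ p.2) * (wt n p.1 p.2 - weF n ρ (p.1 - p.2))) •
      (u p.1 - u p.2)‖ ≤ (K ^ 2 / (2 * √ρ)) * h1f p + (√ρ / 2) * h2f p := by
    intro p
    have h1nn : 0 ≤ h1f p := indicator_nonneg (fun p _ => mul_nonneg (sq_nonneg _) (wt_nonneg _ _)) p
    have h2nn : 0 ≤ h2f p := indicator_nonneg (fun p _ => mul_nonneg (sq_nonneg _) (wt_nonneg _ _)) p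
    have hRHS : 0 ≤ (K ^ 2 / (2 * √ρ)) * h1f p + (√ρ / 2) * h2f p := by positivity
    rcases le_or_gt ρ ‖p.1 - p.2‖ with hfar | hnear
    · rw [weF_eq hfar, wt, sub_self, mul_zero, zero_smul, norm_zero]
      exact hRHS
    rcases eq_or_ne p.1 p.2 with heq | hne
    · rw [heq, sub_self, zero_mul, zero_smul, norm_zero]
      exact hRHS
    by_cases hz : ψ p.1 = 0 ∧ ψ p.2 = 0
    · rw [hz.1, hz.2, sub_self, zero_mul, zero_smul, norm_zero]
      exact hRHS
    have hmem : p.1 ∈ ball (0 : E d) R1 ∧ p.2 ∈ ball (0 : E d) R1 := by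
      rw [mem_ball, mem_ball, dist_zero_right, dist_zero_right]
      have t1 : ‖p.1‖ ≤ ‖p.2‖ + ‖p.1 - p.2‖ := by
        have := norm_add_le p.2 (p.1 - p.2)
        simpa using this
      have t2 : ‖p.2‖ ≤ ‖p.1‖ + ‖p.1 - p.2‖ := by
        have := norm_sub_le p.1 (p.1 - p.2)
        simpa using this
      have hor : ‖p.1‖ ≤ r2 ∨ ‖p.2‖ ≤ r2 := by
        by_contra hcon
        push Not at hcon
        exact hz ⟨hs _ hcon.1, hs _ hcon.2⟩
      rcases hor with h | h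
      · exact ⟨by linarith, by linarith⟩
      · exact ⟨by linarith, by linarith⟩
    have e1 : h1f p = ‖p.1 - p.2‖ ^ 2 * wt n p.1 p.2 :=
      indicator_of_mem (show p ∈ S1 from ⟨hmem.1, hnear⟩) _
    have e2 : h2f p = ‖u p.1 - u p.2‖ ^ 2 * wt n p.1 p.2 :=
      indicator_of_mem (show p ∈ S2 from ⟨hmem.1, hmem.2⟩) _
    have hw := wt_nonneg (n := n) p.1 p.2
    have hF := weF_nonneg (n := n) hρ (p.1 - p.2)
    have hFw : weF n ρ (p.1 - p.2) ≤ wt n p.1 p.2 := weF_le_ker (sub_ne_zero.mpr hne)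
    rw [e1, e2, norm_smul, norm_mul, Real.norm_eq_abs, Real.norm_eq_abs,
      abs_of_nonneg (by linarith : 0 ≤ wt n p.1 p.2 - weF n ρ (p.1 - p.2))]
    have b1 := hψ p.1 p.2
    have hn1 := norm_nonneg (u p.1 - u p.2)
    calc |ψ p.1 - ψ p.2| * (wt n p.1 p.2 - weF n ρ (p.1 - p.2)) * ‖u p.1 - u p.2‖
        ≤ (K * ‖p.1 - p.2‖) * wt n p.1 p.2 * ‖u p.1 - u p.2‖ := by
          have : wt n p.1 p.2 - weF n ρ (p.1 - p.2) ≤ wt n p.1 p.2 := by linarith
          have h0 : 0 ≤ wt n p.1 p.2 - weF n ρ (p.1 - p.2) := by linarith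
          gcongr
      _ ≤ (K ^ 2 / (2 * √ρ)) * (‖p.1 - p.2‖ ^ 2 * wt n p.1 p.2)
            + (√ρ / 2) * (‖u p.1 - u p.2‖ ^ 2 * wt n p.1 p.2) := by
          have key : (K * ‖p.1 - p.2‖) * ‖u p.1 - u p.2‖ ≤
              (K ^ 2 / (2 * √ρ)) * ‖p.1 - p.2‖ ^ 2 + (√ρ / 2) * ‖u p.1 - u p.2‖ ^ 2 := by
            have h3 : 0 ≤ (1 / (2 * √ρ)) * (K * ‖p.1 - p.2‖ - √ρ * ‖u p.1 - u p.2‖) ^ 2 := by
              positivity
            have h4 : (1 / (2 * √ρ)) * (K * ‖p.1 - p.2‖ - √ρ * ‖u p.1 - u p.2‖) ^ 2 =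
                (K ^ 2 / (2 * √ρ)) * ‖p.1 - p.2‖ ^ 2 + (√ρ / 2) * ‖u p.1 - u p.2‖ ^ 2
                  - (K * ‖p.1 - p.2‖) * ‖u p.1 - u p.2‖ := by
              field_simp
              ring
            linarith
          have := mul_le_mul_of_nonneg_right key hw
          linarith
  have hI := norm_integral_le_of_norm_le ((hi1.const_mul (K ^ 2 / (2 * √ρ))).add
    (hi2.const_mul (√ρ / 2))) (Eventually.of_forall hpt)
  refine hI.trans ?_
  have e3 : ∫ p, ((K ^ 2 / (2 * √ρ)) * h1f p + (√ρ / 2) * h2f p) ∂(ν.prod ν) =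
      (K ^ 2 / (2 * √ρ)) * ∫ p, h1f p ∂(ν.prod ν) + (√ρ / 2) * ∫ p, h2f p ∂(ν.prod ν) := by
    rw [integral_add (hi1.const_mul _) (hi2.const_mul _), integral_const_mul, integral_const_mul]
  refine (le_of_eq e3).trans ?_
  have b2 : ∫ p, h2f p ∂(ν.prod ν) ≤ A1 := by
    rw [hh2, integral_indicator hS2m]
    exact hc
  have b1 : ∫ p, h1f p ∂(ν.prod ν) ≤ C * R1 ^ n * (2 ^ (n + 3) * C) * ρ := by
    rw [integral_prod _ hi1]
    have hx : ∀ x : E d, ∫ y, h1f (x, y) ∂ν ≤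
        (ball (0 : E d) R1).indicator (fun _ => 2 ^ (n + 3) * C * ρ) x := by
      intro x
      by_cases hxm : x ∈ ball (0 : E d) R1
      · rw [indicator_of_mem hxm]
        obtain ⟨hni, hnb⟩ := UB.near hU x hρ
        have e4 : (fun y => h1f (x, y)) =
            {y | ‖x - y‖ < ρ}.indicator (fun y => ‖x - y‖ ^ 2 * wt n x y) := by
          funext y
          by_cases hy : ‖x - y‖ < ρ
          · rw [indicator_of_mem (show y ∈ {y | ‖x - y‖ < ρ} from hy)]
            exact indicator_of_mem (show (x, y) ∈ S1 from ⟨hxm, hy⟩) _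
          · rw [indicator_of_notMem (show y ∉ {y | ‖x - y‖ < ρ} from hy)]
            exact indicator_of_notMem (show (x, y) ∉ S1 from fun h => hy h.2) _
        rw [e4, integral_indicator (measurableSet_lt (by fun_prop) measurable_const)]
        refine (setIntegral_mono_set hni (Eventually.of_forall fun y =>
          mul_nonneg (sq_nonneg _) (wt_nonneg _ _)) (Eventually.of_forall ?_)).trans hnb
        intro y hy
        show y ∈ closedBall x ρ
        rw [mem_closedBall, dist_comm, dist_eq_norm]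
        exact (le_of_lt hy)
      · rw [indicator_of_notMem hxm]
        have e4 : (fun y => h1f (x, y)) = fun _ => 0 := by
          funext y
          exact indicator_of_notMem (show (x, y) ∉ S1 from fun h => hxm h.1) _
        rw [e4, integral_zero]
    refine (integral_mono hi1.integral_prod_left
      ((integrable_const _).indicator measurableSet_ball) hx).trans ?_
    rw [integral_indicator measurableSet_ball, integral_const, smul_eq_mul,
      measureReal_restrict_apply_univ]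
    have h6 : ν.real (ball (0 : E d) R1) ≤ C * R1 ^ n := by
      rw [measureReal_def]
      exact ENNReal.toReal_le_of_le_ofReal (by positivity) (hU.ball _ hR10)
    calc ν.real (ball (0 : E d) R1) * (2 ^ (n + 3) * C * ρ)
        ≤ C * R1 ^ n * (2 ^ (n + 3) * C * ρ) := by gcongr
      _ = _ := by ring
  have hsq : √ρ * √ρ = ρ := Real.mul_self_sqrt hρ.le
  calc (K ^ 2 / (2 * √ρ)) * ∫ p, h1f p ∂(ν.prod ν) + (√ρ / 2) * ∫ p, h2f p ∂(ν.prod ν)
      ≤ (K ^ 2 / (2 * √ρ)) * (C * R1 ^ n * (2 ^ (n + 3) * C) * ρ) + (√ρ / 2) * A1 := by gcongr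
    _ = _ := by
        have e5 : ρ = √ρ * √ρ := hsq.symm
        have e6 : (K ^ 2 / (2 * √ρ)) * (C * R1 ^ n * (2 ^ (n + 3) * C) * ρ) =
            (K ^ 2 / (2 * √ρ)) * (C * R1 ^ n * (2 ^ (n + 3) * C) * (√ρ * √ρ)) := by
          rw [hsq]
        rw [e6]
        field_simp

end Fin

end Vale.Agent.P120
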