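import Vale.Agent.Lib.P120.UR.WeakEqLim

/-!
The bound for `ell (weT σ ψ)`, for the module WeakEq.
-/

open MeasureTheory Filter Set Metric Module
open scoped Topology ENNReal NNReal RealInnerProductSpace

namespace Vale.Agent.P120



variable {d n : ℕ} {C c cl cu : ℝ}

lemma we_int_sigma {S : BSeq n d C c} (hcl : 0 < cl) (L : BLim S cl cu) {f : E d → ℝ}
    (hf : Continuous f) : ∫ y, f y ∂L.σ = L.c0 * ∫ v, f (L.V v) := by
  have h0 : 0 ≤ L.c0 := hcl.le.trans L.hcl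
  rw [L.hσ, integral_smul_measure, ENNReal.toReal_ofReal h0, smul_eq_mul]
  congr 1
  exact integral_map L.V.continuous.measurable.aemeasurable hf.aestronglyMeasurable

lemma we_cut_V {S : BSeq n d C c} (L : BLim S cl cu) (R : ℝ) (v : E n) :
    cut R (L.V v) = cut R v := by
  unfold cut
  rw [L.V.norm_map]

lemma we_cut_sigma_pos {S : BSeq n d C c} (hcl : 0 < cl) (L : BLim S cl cu) :
    0 < ∫ y, cut 1 y ∂L.σ := by
  rw [we_int_sigma hcl L (we_cut_continuous 1)]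
  have h0 : 0 < L.c0 := hcl.trans_le L.hcl
  refine mul_pos h0 ?_
  simp only [we_cut_V]
  refine Continuous.integral_pos_of_hasCompactSupport_nonneg_nonzero (x := 0)
    (we_cut_continuous 1) (we_cut_hcs one_pos) (fun v => we_cut_nonneg 1 v) ?_
  rw [we_cut_eq_one one_pos (by simp)]
  exact one_ne_zero

lemma weT_sub {ν : Measure (E d)} (hU : UB n ν C) {R ρ : ℝ} (hR : 0 < R) (hρ : 0 < ρ)
    {ψ φ : E d → ℝ} (hψ : Continuous ψ) (hφ : Continuous φ) (m : ℝ) (x : E d) :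
    weT n ν R ρ (fun y => ψ y - m * φ y) x = weT n ν R ρ ψ x - m * weT n ν R ρ φ x := by
  rw [weT_eq, weT_eq, weT_eq, ← integral_const_mul,
    ← integral_sub (weG_int hU hR hρ hψ x) ((weG_int hU hR hρ hφ x).const_mul m)]
  refine integral_congr_ae (Eventually.of_forall fun y => ?_)
  simp only [weG]
  ring

/-- The heights `u k`: Lipschitz. -/
lemma we_u_lip (S : BSeq n d C c) (k : ℕ) (x y : E d) :
    ‖S.u k x - S.u k y‖ ≤ ((S.ε k)⁻¹ * 2) * ‖x - y‖ := by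
  have h0 := S.hε0 k
  unfold BSeq.u
  rw [← smul_sub, norm_smul, norm_inv, Real.norm_eq_abs, abs_of_pos h0, mul_assoc]
  have := norm_hgt_sub_le (S.U k) (S.hM k) (S.b k) x y
  gcongr

lemma we_u_growth (S : BSeq n d C c) (k : ℕ) (t : ℝ) (ht : 1 ≤ t) :
    ∫ y in ball 0 t, ‖S.u k y‖ ^ 2 ∂(S.ν k) ≤ t ^ (n + 3) := by
  have h0 := S.hε0 k
  have h1 := S.hG k t ht
  have e : ∀ y, ‖S.u k y‖ ^ 2 = ((S.ε k)⁻¹) ^ 2 * ‖hgt (S.U k) (S.M k) (S.b k) y‖ ^ 2 := by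
    intro y
    unfold BSeq.u
    rw [norm_smul, norm_inv, Real.norm_eq_abs, abs_of_pos h0, mul_pow]
  simp only [e]
  rw [integral_const_mul]
  calc ((S.ε k)⁻¹) ^ 2 * ∫ y in ball 0 t, ‖hgt (S.U k) (S.M k) (S.b k) y‖ ^ 2 ∂(S.ν k)
      ≤ ((S.ε k)⁻¹) ^ 2 * ((S.ε k) ^ 2 * t ^ (n + 3) / 1) := by gcongr
    _ = t ^ (n + 3) := by field_simp

lemma we_u_cacc (hC : 0 < C) (hc : 0 < c) {R1 : ℝ} (hR1 : 1 ≤ R1) :
    ∃ A1 : ℝ, 0 < A1 ∧ ∀ (S : BSeq n d C c) (k : ℕ), 4 * R1 ≤ (k : ℝ) + 1 →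
      IntegrableOn (fun p : E d × E d => ‖S.u k p.1 - S.u k p.2‖ ^ 2 * wt n p.1 p.2)
        (ball (0 : E d) R1 ×ˢ ball (0 : E d) R1) ((S.ν k).prod (S.ν k)) ∧
      ∫ p in ball (0 : E d) R1 ×ˢ ball (0 : E d) R1,
        ‖S.u k p.1 - S.u k p.2‖ ^ 2 * wt n p.1 p.2 ∂((S.ν k).prod (S.ν k)) ≤ A1 := by
  obtain ⟨CR, hCR, hcac⟩ := caccioppoli n d C c hC hc R1 hR1
  refine ⟨CR, hCR, fun S k hk => ?_⟩
  have h0 := S.hε0 k
  have hk1 : (0 : ℝ) < (k : ℝ) + 1 := by positivity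
  have hε1 : S.ε k ≤ 1 := by
    refine (S.hε k).trans ?_
    rw [div_le_one hk1]
    have : (0 : ℝ) ≤ k := by positivity
    linarith
  have hmass : ENNReal.ofReal c ≤ S.ν k (ball 0 1) := by
    have h := S.hL k 0 (S.h0 k) (by
      rw [sub_zero, norm_zero]
      positivity) 1 one_pos (by
      rw [le_div_iff₀ (by positivity)]
      nlinarith only [h0, hε1])
    simpa using h
  have hEn : EnLe n (S.ν k) (4 * R1) 0 1 ((S.ε k) ^ 2) := by
    refine EnLe.mono (S.hE k) ?_ ?_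
    · linarith
    · simp only [one_pow, mul_one]
      have h3 : S.ε k / ((k : ℝ) + 1) ≤ S.ε k := by
        rw [div_le_iff₀ hk1]
        have : (0 : ℝ) ≤ k := by positivity
        nlinarith only [h0]
      have h4 : 0 ≤ S.ε k / ((k : ℝ) + 1) := by positivity
      gcongr
  obtain ⟨h1, h2⟩ := hcac (S.ν k) (S.hU k) (S.hb k) hmass (S.U k) (S.M k) (S.b k) (S.ε k) h0
    (S.hM k) (S.hP k) (S.hG k) hEn
  have e : (fun p : E d × E d => ‖S.u k p.1 - S.u k p.2‖ ^ 2 * wt n p.1 p.2) = fun p =>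
      ((S.ε k)⁻¹) ^ 2 * (‖hgt (S.U k) (S.M k) (S.b k) p.1 -
        hgt (S.U k) (S.M k) (S.b k) p.2‖ ^ 2 * wt n p.1 p.2) := by
    funext p
    unfold BSeq.u
    rw [← smul_sub, norm_smul, norm_inv, Real.norm_eq_abs, abs_of_pos h0, mul_pow]
    ring
  rw [e]
  refine ⟨h1.const_mul _, ?_⟩
  rw [integral_const_mul]
  calc _ ≤ ((S.ε k)⁻¹) ^ 2 * (CR * (S.ε k) ^ 2) := by gcongr
    _ = CR := by field_simp

/-- The full form tends to zero. -/
lemma we_form_small (S : BSeq n d C c) (k : ℕ) {ψ : E d → ℝ} {K : ℝ} (hK : 0 ≤ K)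
    (hψ : ∀ x y, |ψ x - ψ y| ≤ K * ‖x - y‖) {r2 : ℝ} (hr2 : 0 < r2)
    (hs : ∀ y, r2 < ‖y‖ → ψ y = 0) (h0 : ∫ y, ψ y ∂(S.ν k) = 0) (hk : r2 ≤ (k : ℝ) + 1) :
    ‖(1 / 2 : ℝ) • ∫ p : E d × E d, ((ψ p.1 - ψ p.2) * wt n p.1 p.2) •
      (S.u k p.1 - S.u k p.2) ∂((S.ν k).prod (S.ν k))‖ ≤
      2 * √(4 ^ (n + 6) * C ^ 2 * K ^ 2 * r2 ^ (n + 1)) / ((k : ℝ) + 1) := by
  have hε := S.hε0 k
  have hk1 : (0 : ℝ) < (k : ℝ) + 1 := by positivity
  have hlip : LipschitzWith (Real.toNNReal K) ψ := LipschitzWith.of_dist_le_mul fun x y => by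
    rw [Real.coe_toNNReal _ hK, Real.dist_eq, dist_eq_norm]
    exact hψ x y
  have hL : Lip ψ := ⟨_, hlip⟩
  have h1 := S.hE k ψ hL (fun y hy => by
    rw [mul_one, sub_zero] at hy
    exact hs y (hk.trans_lt hy)) h0
  have h2 := En_le_of_lipschitz (S.hU k) (S.hb k) hlip hr2 (x := 0) (fun y hy => by
    rw [sub_zero] at hy
    exact hs y hy)
  rw [Real.coe_toNNReal _ hK] at h2
  set E0 : ℝ := 4 ^ (n + 6) * C ^ 2 * K ^ 2 * r2 ^ (n + 1) with hE0
  have h3 : ‖BF n (S.ν k) ψ‖ ≤ (S.ε k / ((k : ℝ) + 1)) * √E0 := by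
    have hE00 : 0 ≤ E0 := by rw [hE0]; positivity
    have h4 : ‖BF n (S.ν k) ψ‖ ^ 2 ≤ ((S.ε k / ((k : ℝ) + 1)) * √E0) ^ 2 := by
      refine h1.trans ?_
      rw [mul_pow, Real.sq_sqrt hE00, one_pow, mul_one]
      gcongr
    exact le_of_sq_le_sq h4 (by positivity)
  have h5 := key_identity (S.hU k) (S.hb k) (S.U k) (S.M k) (S.b k) hL
  have h6 : (1 / 2 : ℝ) • ∫ p : E d × E d, ((ψ p.1 - ψ p.2) * wt n p.1 p.2) •
      (S.u k p.1 - S.u k p.2) ∂((S.ν k).prod (S.ν k)) = (S.ε k)⁻¹ •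
      (BF n (S.ν k) ψ - (S.U k) (adjU (S.U k) (BF n (S.ν k) ψ)) -
        (S.M k) (adjU (S.U k) (BF n (S.ν k) ψ))) := by
    have e : (fun p : E d × E d => ((ψ p.1 - ψ p.2) * wt n p.1 p.2) •
        (S.u k p.1 - S.u k p.2)) = fun p => (S.ε k)⁻¹ • (((ψ p.1 - ψ p.2) * wt n p.1 p.2) •
        (hgt (S.U k) (S.M k) (S.b k) p.1 - hgt (S.U k) (S.M k) (S.b k) p.2)) := by
      funext p
      simp only [BSeq.u]
      rw [← smul_sub, smul_comm]
    rw [← h5, e, integral_smul, smul_comm]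
  rw [h6, norm_smul, norm_inv, Real.norm_eq_abs, abs_of_pos hε]
  have h7 := key_norm (S.U k) (S.hM k) (BF n (S.ν k) ψ)
  calc (S.ε k)⁻¹ * ‖BF n (S.ν k) ψ - (S.U k) (adjU (S.U k) (BF n (S.ν k) ψ)) -
        (S.M k) (adjU (S.U k) (BF n (S.ν k) ψ))‖
      ≤ (S.ε k)⁻¹ * (2 * ((S.ε k / ((k : ℝ) + 1)) * √E0)) := by
        have := h7.trans (mul_le_mul_of_nonneg_left h3 zero_le_two)
        gcongr
    _ = _ := by field_simp

/-- The bound for the limit functional at the regularised kernel average. -/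
lemma we_ell_bound (hC : 0 < C) (hc : 0 < c) (hcl : 0 < cl) {S : BSeq n d C c}
    (L : BLim S cl cu) {ψ : E d → ℝ} {K : ℝ} (hK : 0 ≤ K)
    (hψ : ∀ x y, |ψ x - ψ y| ≤ K * ‖x - y‖) {B : ℝ} (hB : ∀ y, |ψ y| ≤ B) {r2 : ℝ}
    (hr2 : 2 ≤ r2) (hs : ∀ y, r2 < ‖y‖ → ψ y = 0) (h0 : ∫ y, ψ y ∂L.σ = 0) :
    ∃ A : ℝ, 0 ≤ A ∧ ∀ R ρ : ℝ, 4 * r2 ≤ R → 0 < ρ → ρ ≤ 1 →
      Continuous (weT n L.σ R ρ ψ) ∧ ‖S.ell (weT n L.σ R ρ ψ)‖ ≤ A * √ρ + A / √R := by
  set R1 : ℝ := r2 + 2 with hR1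
  obtain ⟨A1, hA1, hcacc⟩ := we_u_cacc (n := n) (d := d) hC hc (R1 := R1) (by linarith)
  have hB0 : 0 ≤ B := (abs_nonneg _).trans (hB 0)
  have hR10 : 0 < R1 := by linarith
  have hr20 : 0 < r2 := by linarith
  set An : ℝ := (K + 1) ^ 2 * (C * R1 ^ n * (2 ^ (n + 3) * C)) / 2 + A1 / 2 with hAn
  set Af : ℝ := (((B + 1) ^ 2 * (C * R1 ^ n) + R1 ^ (n + 3)) * (2 ^ (n + 1) * C)
        + (n + 1) * 2 ^ (n + 2) * r2 * ((B + 1) * (C * R1 ^ n)) * (4 ^ (n + 3) + C * 4 ^ n))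
    with hAf
  have hAn0 : 0 ≤ An := by rw [hAn]; positivity
  have hAf0 : 0 ≤ Af := by rw [hAf]; positivity
  refine ⟨An + Af, by positivity, fun R ρ hR hρ hρ1 => ?_⟩
  have hR0 : 0 < R := by linarith
  have hsR : 0 < √R := Real.sqrt_pos.mpr hR0
  have hψc : Continuous ψ := by
    have : LipschitzWith (Real.toNNReal K) ψ := LipschitzWith.of_dist_le_mul fun x y => by
      rw [Real.coe_toNNReal _ hK, Real.dist_eq, dist_eq_norm]
      exact hψ x y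
    exact this.continuous
  have hψs : HasCompactSupport ψ := by
    refine HasCompactSupport.intro (isCompact_closedBall (0 : E d) r2) fun y hy => ?_
    rw [mem_closedBall, dist_zero_right, not_le] at hy
    exact hs y hy
  have hcutc := we_cut_continuous (d := d) 1
  have hcuts := we_cut_hcs (d := d) one_pos
  obtain ⟨hTc, hTu⟩ := weT_unif S.hU L.hUL hR0 hρ hK hψ hB
  refine ⟨hTc, ?_⟩
  -- the correction
  set m : ℕ → ℝ := fun k => (∫ y, ψ y ∂(S.ν k)) / (∫ y, cut 1 y ∂(S.ν k)) with hm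
  have hDpos := we_cut_sigma_pos hcl L
  have hDlim : Tendsto (fun k => ∫ y, cut 1 y ∂(S.ν k)) (hyperfilter ℕ : Filter ℕ)
      (𝓝 (∫ y, cut 1 y ∂L.σ)) := L.hUL _ hcutc hcuts
  have hNlim : Tendsto (fun k => ∫ y, ψ y ∂(S.ν k)) (hyperfilter ℕ : Filter ℕ) (𝓝 0) := by
    rw [← h0]
    exact L.hUL _ hψc hψs
  have hmlim : Tendsto m (hyperfilter ℕ : Filter ℕ) (𝓝 0) := by
    have := hNlim.div hDlim hDpos.ne'
    rwa [zero_div] at this
  set φ : ℕ → E d → ℝ := fun k y => ψ y - m k * cut 1 y with hφ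
  have hφlip : ∀ k x y, |φ k x - φ k y| ≤ (K + |m k|) * ‖x - y‖ := by
    intro k x y
    have e : φ k x - φ k y = (ψ x - ψ y) - m k * (cut 1 x - cut 1 y) := by
      simp only [hφ]
      ring
    rw [e]
    refine (abs_sub _ _).trans ?_
    rw [abs_mul, add_mul]
    have h1 := hψ x y
    have h2 := we_cut_lip (d := d) one_pos x y
    rw [inv_one, one_mul] at h2
    gcongr
  have hφB : ∀ k y, |φ k y| ≤ B + |m k| := by
    intro k y
    simp only [hφ]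
    refine (abs_sub _ _).trans ?_
    rw [abs_mul, abs_of_nonneg (we_cut_nonneg 1 y)]
    have h1 := hB y
    have h2 := we_cut_le_one 1 y
    have h3 := abs_nonneg (m k)
    nlinarith only [h1, h2, h3]
  have hφs : ∀ k y, r2 < ‖y‖ → φ k y = 0 := by
    intro k y hy
    simp only [hφ]
    rw [hs y hy, we_cut_eq_zero one_pos (by linarith)]
    ring
  -- eventually
  have ev1 : ∀ᶠ k in (hyperfilter ℕ : Filter ℕ), |m k| ≤ 1 := by
    have := (hmlim.abs).eventually (gt_mem_nhds (show |(0 : ℝ)| < 1 by simp))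
    filter_upwards [this] with k hk using hk.le
  have ev2 : ∀ᶠ k in (hyperfilter ℕ : Filter ℕ), 0 < ∫ y, cut 1 y ∂(S.ν k) :=
    hDlim.eventually (lt_mem_nhds hDpos)
  have ev3 : ∀ᶠ k : ℕ in (hyperfilter ℕ : Filter ℕ), 4 * R1 ≤ (k : ℝ) + 1 := by
    refine Filter.Eventually.filter_mono Nat.hyperfilter_le_atTop ?_
    filter_upwards [eventually_ge_atTop ⌈4 * R1⌉₊] with k hk
    have h1 := Nat.le_ceil (4 * R1)
    have h2 : ((⌈4 * R1⌉₊ : ℕ) : ℝ) ≤ k := by exact_mod_cast hk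
    linarith
  set E0 : ℝ := 4 ^ (n + 6) * C ^ 2 * (K + 1) ^ 2 * r2 ^ (n + 1) with hE0
  have hbound : ∀ᶠ k in (hyperfilter ℕ : Filter ℕ),
      ‖∫ x, weT n (S.ν k) R ρ (φ k) x • S.u k x ∂(S.ν k)‖ ≤
        2 * √E0 / ((k : ℝ) + 1) + (√ρ * An + Af / √R) := by
    filter_upwards [ev1, ev2, ev3] with k h1 h2 h3
    have hmean : ∫ y, φ k y ∂(S.ν k) = 0 := by
      have := UB.isFiniteMeasure (S.hU k) (S.hb k)
      simp only [hφ]
      rw [integral_sub (we_int_cont (S.hb k) hψc) ((we_int_cont (S.hb k) hcutc).const_mul _),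
        integral_const_mul]
      simp only [hm]
      field_simp
      ring
    have hlip1 : ∀ x y, |φ k x - φ k y| ≤ (K + 1) * ‖x - y‖ := fun x y =>
      (hφlip k x y).trans (by gcongr)
    have hB1 : ∀ y, |φ k y| ≤ B + 1 := fun y => (hφB k y).trans (by gcongr)
    have hsmall := we_form_small S k (by positivity : 0 ≤ K + 1) hlip1 hr20 (hφs k) hmean
      (by linarith)
    obtain ⟨hI, hA⟩ := hcacc S k h3
    have hcore := we_core (S.hU k) (S.hb k) (by positivity : 0 ≤ K + 1) hlip1 hB1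
      (by linarith : 1 ≤ r2) (hφs k) hmean (we_u_lip S k) (we_u_growth S k)
      (by linarith : r2 + 1 < R1) hI hA hR hρ hρ1
    rw [← hAn, ← hAf] at hcore
    rw [← hE0] at hsmall
    set X := (1 / 2 : ℝ) • ∫ p : E d × E d, ((φ k p.1 - φ k p.2) * wt n p.1 p.2) •
      (S.u k p.1 - S.u k p.2) ∂((S.ν k).prod (S.ν k)) with hX
    set Y := ∫ x, weT n (S.ν k) R ρ (φ k) x • S.u k x ∂(S.ν k) with hY
    have : Y = X - (X - Y) := by abel
    rw [this]
    exact (norm_sub_le _ _).trans (add_le_add hsmall hcore)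
  -- the limit
  have hlim : Tendsto (fun k => ∫ x, weT n (S.ν k) R ρ (φ k) x • S.u k x ∂(S.ν k))
      (hyperfilter ℕ : Filter ℕ) (𝓝 (S.ell (weT n L.σ R ρ ψ))) := by
    refine ell_moving S (fun k => weT n (S.ν k) R ρ (φ k)) _ (fun k => ?_) hTc (2 * R)
      (fun k y hy => weT_zero hR0 _ hy) ?_
    · exact (weT_lip (S.hU k) hR0 hρ (by positivity : 0 ≤ K + |m k|) (hφlip k) (hφB k)).continuous
    · intro ε hε
      set A2 : ℝ := (2 * 1 * (ρ ^ (n + 1))⁻¹) * (C * (2 * R) ^ n) with hA2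
      have hA20 : 0 ≤ A2 := by rw [hA2]; positivity
      have ev4 : ∀ᶠ k in (hyperfilter ℕ : Filter ℕ), |m k| < ε / (2 * (A2 + 1)) := by
        have h5 : |(0 : ℝ)| < ε / (2 * (A2 + 1)) := by
          rw [abs_zero]
          positivity
        exact (hmlim.abs).eventually (gt_mem_nhds h5)
      filter_upwards [hTu (ε / 2) (by positivity), ev4] with k h5 h6 y
      have e : weT n (S.ν k) R ρ (φ k) y =
          weT n (S.ν k) R ρ ψ y - m k * weT n (S.ν k) R ρ (cut 1) y :=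
        weT_sub (S.hU k) hR0 hρ hψc hcutc (m k) y
      have h7 : |weT n (S.ν k) R ρ (cut 1) y| ≤ A2 :=
        weT_bound (S.hU k) hR0 hρ (fun y => by
          rw [abs_of_nonneg (we_cut_nonneg 1 y)]
          exact we_cut_le_one 1 y) y
      simp only [e]
      have e2 : weT n (S.ν k) R ρ ψ y - m k * weT n (S.ν k) R ρ (cut 1) y - weT n L.σ R ρ ψ y =
          (weT n (S.ν k) R ρ ψ y - weT n L.σ R ρ ψ y) - m k * weT n (S.ν k) R ρ (cut 1) y := by
        ring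
      rw [e2]
      refine (abs_sub _ _).trans ?_
      rw [abs_mul]
      have h8 : |m k| * |weT n (S.ν k) R ρ (cut 1) y| ≤ ε / 2 := by
        calc |m k| * |weT n (S.ν k) R ρ (cut 1) y| ≤ (ε / (2 * (A2 + 1))) * (A2 + 1) := by
              have h9 : |weT n (S.ν k) R ρ (cut 1) y| ≤ A2 + 1 := by linarith
              gcongr
          _ = ε / 2 := by field_simp
      have := h5 y
      linarith
  have hr1 : Tendsto (fun k : ℕ => 2 * √E0 / ((k : ℝ) + 1) + (√ρ * An + Af / √R))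
      (hyperfilter ℕ : Filter ℕ) (𝓝 (0 + (√ρ * An + Af / √R))) := by
    refine Tendsto.mono_left ?_ Nat.hyperfilter_le_atTop
    refine Tendsto.add ?_ tendsto_const_nhds
    refine Tendsto.div_atTop tendsto_const_nhds ?_
    exact tendsto_atTop_add_const_right _ _ tendsto_natCast_atTop_atTop
  have hfin := le_of_tendsto_of_tendsto hlim.norm hr1 hbound
  refine hfin.trans ?_
  rw [zero_add]
  have h10 : 0 ≤ √ρ := Real.sqrt_nonneg _
  have h11 : Af / √R ≤ (An + Af) / √R := by gcongr; linarith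
  nlinarith only [hAf0, h10, h11]

end Vale.Agent.P120
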