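import Vale.Agent.Lib.P120.UR.WeakEqMid

/-!
The combination of the estimates for one finite measure, for the module WeakEq.
-/

open MeasureTheory Filter Set Metric Module
open scoped Topology ENNReal NNReal RealInnerProductSpace

namespace Vale.Agent.P120



variable {d n : ℕ}

/-- The kernel average `x ↦ χ_R(x) ∫ χ_R(y) (ψ x - ψ y) F(x - y) dν(y)`. -/
noncomputable def weT (n : ℕ) (ν : Measure (E d)) (R ρ : ℝ) (ψ : E d → ℝ) (x : E d) : ℝ :=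
  cut R x * ∫ y, cut R y * (ψ x - ψ y) * weF n ρ (x - y) ∂ν

section Fin

variable {ν : Measure (E d)} {C : ℝ}

/-- The error between the full form and the regularised form. -/
lemma we_core (hU : UB n ν C) (hb : ∃ R0, ν (closedBall 0 R0)ᶜ = 0) {ψ : E d → ℝ} {K : ℝ}
    (hK : 0 ≤ K) (hψ : ∀ x y, |ψ x - ψ y| ≤ K * ‖x - y‖) {B : ℝ} (hB : ∀ y, |ψ y| ≤ B) {r2 : ℝ}
    (hr2 : 1 ≤ r2) (hs : ∀ y, r2 < ‖y‖ → ψ y = 0) (h0 : ∫ y, ψ y ∂ν = 0) {u : E d → E d}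
    {Lu : ℝ} (hu : ∀ x y, ‖u x - u y‖ ≤ Lu * ‖x - y‖)
    (hg : ∀ t : ℝ, 1 ≤ t → ∫ y in ball 0 t, ‖u y‖ ^ 2 ∂ν ≤ t ^ (n + 3)) {R1 : ℝ}
    (hR1 : r2 + 1 < R1) {A1 : ℝ}
    (hcI : IntegrableOn (fun p : E d × E d => ‖u p.1 - u p.2‖ ^ 2 * wt n p.1 p.2)
        (ball (0 : E d) R1 ×ˢ ball (0 : E d) R1) (ν.prod ν))
    (hc : ∫ p in ball (0 : E d) R1 ×ˢ ball (0 : E d) R1,
        ‖u p.1 - u p.2‖ ^ 2 * wt n p.1 p.2 ∂(ν.prod ν) ≤ A1)
    {R ρ : ℝ} (hR : 4 * r2 ≤ R) (hρ : 0 < ρ) (hρ1 : ρ ≤ 1) :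
    ‖(1 / 2 : ℝ) • ∫ p : E d × E d, ((ψ p.1 - ψ p.2) * wt n p.1 p.2) • (u p.1 - u p.2)
      ∂(ν.prod ν) - ∫ x, weT n ν R ρ ψ x • u x ∂ν‖ ≤
      √ρ * (K ^ 2 * (C * R1 ^ n * (2 ^ (n + 3) * C)) / 2 + A1 / 2) +
      ((B ^ 2 * (C * R1 ^ n) + R1 ^ (n + 3)) * (2 ^ (n + 1) * C)
        + (n + 1) * 2 ^ (n + 2) * r2 * (B * (C * R1 ^ n)) * (4 ^ (n + 3) + C * 4 ^ n)) / √R := by
  have hC := hU.1
  have := UB.isFiniteMeasure hU hb
  have hψc : Continuous ψ := by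
    have : LipschitzWith (Real.toNNReal K) ψ := LipschitzWith.of_dist_le_mul fun x y => by
      rw [Real.coe_toNNReal _ hK, Real.dist_eq, dist_eq_norm]
      exact hψ x y
    exact this.continuous
  have huc : Continuous u := by
    have : LipschitzWith (Real.toNNReal Lu) u := LipschitzWith.of_dist_le_mul fun x y => by
      rw [dist_eq_norm, dist_eq_norm]
      refine (hu x y).trans ?_
      gcongr
      exact Real.le_coe_toNNReal Lu
    exact this.continuous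
  have hχc := we_cut_continuous (d := d) R
  have hFc := weF_continuous (n := n) (d := d) hρ
  set J : E d × E d → E d := fun p => ((ψ p.1 - ψ p.2) * wt n p.1 p.2) • (u p.1 - u p.2) with hJ
  set J1 : E d × E d → E d := fun p => ((ψ p.1 - ψ p.2) *
    (wt n p.1 p.2 - weF n ρ (p.1 - p.2))) • (u p.1 - u p.2) with hJ1
  set J2 : E d × E d → E d := fun p => (cut R p.1 * cut R p.2 * (ψ p.1 - ψ p.2) *
    weF n ρ (p.1 - p.2)) • (u p.1 - u p.2) with hJ2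
  set J3 : E d × E d → E d := fun p => ((1 - cut R p.1 * cut R p.2) * (ψ p.1 - ψ p.2) *
    weF n ρ (p.1 - p.2)) • (u p.1 - u p.2) with hJ3
  have hJm : Measurable J := by
    have h1 := measurable_wt (n := n) (d := d)
    have h2 := hψc.measurable
    have h3 := huc.measurable
    rw [hJ]
    exact (((h2.comp measurable_fst).sub (h2.comp measurable_snd)).mul h1).smul
      ((h3.comp measurable_fst).sub (h3.comp measurable_snd))
  have hJi : Integrable J (ν.prod ν) := by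
    refine ((we_int_sq hU hb).const_mul (K * Lu)).mono' hJm.aestronglyMeasurable
      (Eventually.of_forall fun p => ?_)
    have hw := wt_nonneg (n := n) p.1 p.2
    simp only [hJ]
    rw [norm_smul, norm_mul, Real.norm_eq_abs, Real.norm_eq_abs, abs_of_nonneg hw]
    have h1 := hψ p.1 p.2
    have h2 := hu p.1 p.2
    calc |ψ p.1 - ψ p.2| * wt n p.1 p.2 * ‖u p.1 - u p.2‖
        ≤ (K * ‖p.1 - p.2‖) * wt n p.1 p.2 * (Lu * ‖p.1 - p.2‖) := by gcongr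
      _ = _ := by ring
  have hJ2i : Integrable J2 (ν.prod ν) := we_int_cont2 hb (by rw [hJ2]; fun_prop)
  have hJ3i : Integrable J3 (ν.prod ν) := we_int_cont2 hb (by rw [hJ3]; fun_prop)
  have hsum : J1 = fun p => J p - (J2 p + J3 p) := by
    funext p
    simp only [hJ, hJ1, hJ2, hJ3]
    rw [← add_smul, ← sub_smul]
    congr 1
    ring
  have h23 : Integrable (fun p => J2 p + J3 p) (ν.prod ν) := hJ2i.add hJ3i
  have hJ1i : Integrable J1 (ν.prod ν) := by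
    rw [hsum]
    exact hJi.sub h23
  have e0 : ∫ p, J p ∂(ν.prod ν) = ∫ p, J1 p ∂(ν.prod ν) + (∫ p, J2 p ∂(ν.prod ν) +
      ∫ p, J3 p ∂(ν.prod ν)) := by
    rw [hsum]
    simp only
    rw [integral_sub hJi h23, integral_add hJ2i hJ3i]
    abel
  have e1 : (1 / 2 : ℝ) • ∫ p, J2 p ∂(ν.prod ν) = ∫ x, weT n ν R ρ ψ x • u x ∂ν :=
    we_middle hb hψc hχc hFc huc (weF_neg ρ)
  have e2 : (1 / 2 : ℝ) • ∫ p, J p ∂(ν.prod ν) - ∫ x, weT n ν R ρ ψ x • u x ∂ν =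
      (1 / 2 : ℝ) • ∫ p, J1 p ∂(ν.prod ν) + (1 / 2 : ℝ) • ∫ p, J3 p ∂(ν.prod ν) := by
    rw [e0, ← e1, smul_add, smul_add]
    abel
  rw [e2]
  have hR10 : 0 < R1 := by linarith
  have b1 := we_near hU hb hK hψ hs hR1 hR10 hcI hc hρ hρ1
  have b3 := we_far hU hb hψc hB hr2 hs h0 huc hg (R1 := R1) (by linarith) hR hρ hρ1
  refine (norm_add_le _ _).trans (add_le_add ?_ b3)
  rw [norm_smul]
  have hn : ‖(1 / 2 : ℝ)‖ = 1 / 2 := by norm_num
  rw [hn]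
  have h5 := norm_nonneg (∫ p, J1 p ∂(ν.prod ν))
  calc 1 / 2 * ‖∫ p, J1 p ∂(ν.prod ν)‖ ≤ ‖∫ p, J1 p ∂(ν.prod ν)‖ := by linarith
    _ ≤ _ := b1

end Fin

end Vale.Agent.P120
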