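import Vale.Agent.Lib.P120.UR.Base
import Vale.Agent.Lib.P120.UR.Cacc
import Vale.Agent.Lib.P120.UR.Ell
import Vale.Agent.Lib.P120.UR.LopFacts
import Vale.Agent.Lib.P120.UR.UltraProps

/-!
Kernel lemmas and finite measure lemmas for the module WeakEq.
-/

open MeasureTheory Filter Set Metric Module
open scoped Topology ENNReal NNReal RealInnerProductSpace

namespace Vale.Agent.P120



variable {d n : ℕ}

/-- The regularised kernel. -/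
noncomputable def weF (n : ℕ) (ρ : ℝ) (z : E d) : ℝ := ((max ‖z‖ ρ) ^ (n + 1))⁻¹

lemma weF_nonneg {ρ : ℝ} (hρ : 0 < ρ) (z : E d) : 0 ≤ weF n ρ z := by
  unfold weF
  have : 0 < max ‖z‖ ρ := lt_max_of_lt_right hρ
  positivity

lemma weF_le {ρ : ℝ} (hρ : 0 < ρ) (z : E d) : weF n ρ z ≤ (ρ ^ (n + 1))⁻¹ := by
  unfold weF
  gcongr
  exact le_max_right _ _

lemma weF_eq {ρ : ℝ} {z : E d} (h : ρ ≤ ‖z‖) : weF n ρ z = (‖z‖ ^ (n + 1))⁻¹ := by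
  unfold weF
  rw [max_eq_left h]

lemma weF_le_ker {ρ : ℝ} {z : E d} (hz : z ≠ 0) : weF n ρ z ≤ (‖z‖ ^ (n + 1))⁻¹ := by
  unfold weF
  have : 0 < ‖z‖ := norm_pos_iff.mpr hz
  gcongr
  exact le_max_left _ _

lemma weF_neg (ρ : ℝ) (z : E d) : weF n ρ (-z) = weF n ρ z := by simp [weF]

lemma weF_sub_comm (ρ : ℝ) (x y : E d) : weF n ρ (x - y) = weF n ρ (y - x) := by
  rw [← weF_neg, neg_sub]

lemma inv_max_lip {ρ : ℝ} (hρ : 0 < ρ) (a b : ℝ) :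
    |(max a ρ)⁻¹ - (max b ρ)⁻¹| ≤ ρ⁻¹ ^ 2 * |a - b| := by
  have ha : 0 < max a ρ := lt_max_of_lt_right hρ
  have hb : 0 < max b ρ := lt_max_of_lt_right hρ
  have ha' : ρ ≤ max a ρ := le_max_right _ _
  have hb' : ρ ≤ max b ρ := le_max_right _ _
  have e : (max a ρ)⁻¹ - (max b ρ)⁻¹ = (max b ρ - max a ρ) * ((max a ρ)⁻¹ * (max b ρ)⁻¹) := by
    field_simp
  rw [e, abs_mul, abs_of_pos (by positivity : 0 < (max a ρ)⁻¹ * (max b ρ)⁻¹), abs_sub_comm]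
  have h1 : |max a ρ - max b ρ| ≤ |a - b| := abs_max_sub_max_le_abs _ _ _
  have h2 : (max a ρ)⁻¹ * (max b ρ)⁻¹ ≤ ρ⁻¹ ^ 2 := by
    rw [sq]
    gcongr
  calc |max a ρ - max b ρ| * ((max a ρ)⁻¹ * (max b ρ)⁻¹) ≤ |a - b| * ρ⁻¹ ^ 2 := by gcongr
    _ = _ := mul_comm _ _

lemma weF_lip {ρ : ℝ} (hρ : 0 < ρ) (z z' : E d) :
    |weF n ρ z - weF n ρ z'| ≤ (n + 1) * ρ⁻¹ ^ (n + 2) * ‖z - z'‖ := by
  unfold weF
  rw [← inv_pow, ← inv_pow]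
  refine (abs_pow_sub_pow_le _ _ _).trans ?_
  have ha : 0 < max ‖z‖ ρ := lt_max_of_lt_right hρ
  have hb : 0 < max ‖z'‖ ρ := lt_max_of_lt_right hρ
  have ha' : ρ ≤ max ‖z‖ ρ := le_max_right _ _
  have hb' : ρ ≤ max ‖z'‖ ρ := le_max_right _ _
  have h1 : max |(max ‖z‖ ρ)⁻¹| |(max ‖z'‖ ρ)⁻¹| ≤ ρ⁻¹ := by
    rw [abs_of_pos (by positivity), abs_of_pos (by positivity)]
    exact max_le (by gcongr) (by gcongr)
  have h2 := inv_max_lip hρ ‖z‖ ‖z'‖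
  have h3 : |‖z‖ - ‖z'‖| ≤ ‖z - z'‖ := abs_norm_sub_norm_le z z'
  have h4 : max |(max ‖z‖ ρ)⁻¹| |(max ‖z'‖ ρ)⁻¹| ^ (n + 1 - 1) ≤ ρ⁻¹ ^ n := by
    rw [Nat.add_sub_cancel]
    have : 0 ≤ max |(max ‖z‖ ρ)⁻¹| |(max ‖z'‖ ρ)⁻¹| := le_max_of_le_left (abs_nonneg _)
    gcongr
  calc |(max ‖z‖ ρ)⁻¹ - (max ‖z'‖ ρ)⁻¹| * ((n + 1 : ℕ) : ℝ) *
        max |(max ‖z‖ ρ)⁻¹| |(max ‖z'‖ ρ)⁻¹| ^ (n + 1 - 1)
      ≤ (ρ⁻¹ ^ 2 * ‖z - z'‖) * ((n + 1 : ℕ) : ℝ) * ρ⁻¹ ^ n := by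
        have h5 : |(max ‖z‖ ρ)⁻¹ - (max ‖z'‖ ρ)⁻¹| ≤ ρ⁻¹ ^ 2 * ‖z - z'‖ :=
          h2.trans (by gcongr)
        have h6 : 0 ≤ ρ⁻¹ ^ 2 * ‖z - z'‖ := by positivity
        gcongr
    _ = _ := by push_cast; ring

lemma weF_continuous {ρ : ℝ} (hρ : 0 < ρ) : Continuous (weF n ρ : E d → ℝ) := by
  unfold weF
  refine Continuous.inv₀ (by fun_prop) fun z => ?_
  have : 0 < max ‖z‖ ρ := lt_max_of_lt_right hρ
  positivity

/-- Far from the origin the kernel is almost constant. -/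
lemma weF_sub_far {ρ : ℝ} (hρ : 0 < ρ) {x y : E d} (h1 : 4 * ‖x‖ ≤ ‖y‖) (h2 : 2 * ρ ≤ ‖y‖) :
    |weF n ρ (x - y) - weF n ρ (-y)| ≤ (n + 1) * 2 ^ (n + 2) * ‖x‖ * (‖y‖ ^ (n + 2))⁻¹ := by
  have hy : 0 < ‖y‖ := by linarith
  have hx := norm_nonneg x
  have h3 : ‖y‖ - ‖x‖ ≤ ‖x - y‖ := by
    rw [norm_sub_rev]
    exact norm_sub_norm_le y x
  have h4 : ‖y‖ / 2 ≤ ‖x - y‖ := by linarith
  rw [weF_eq (z := x - y) (by linarith), weF_eq (z := -y) (by rw [norm_neg]; linarith), norm_neg,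
    ← inv_pow, ← inv_pow]
  refine (abs_pow_sub_pow_le _ _ _).trans ?_
  have hb : 0 < ‖x - y‖ := by linarith
  have e : ‖x - y‖⁻¹ - ‖y‖⁻¹ = (‖y‖ - ‖x - y‖) * (‖x - y‖⁻¹ * ‖y‖⁻¹) := by
    field_simp
  have h5 : |‖y‖ - ‖x - y‖| ≤ ‖x‖ := by
    have h := abs_norm_sub_norm_le y (y - x)
    rw [norm_sub_rev y x] at h
    refine h.trans (le_of_eq ?_)
    congr 1
    abel
  have h6 : ‖x - y‖⁻¹ ≤ 2 * ‖y‖⁻¹ := by
    have : ‖x - y‖⁻¹ ≤ (‖y‖ / 2)⁻¹ := by gcongr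
    refine this.trans (le_of_eq ?_)
    rw [inv_div, div_eq_mul_inv]
  have h7 : |‖x - y‖⁻¹ - ‖y‖⁻¹| ≤ ‖x‖ * (2 * ‖y‖⁻¹ * ‖y‖⁻¹) := by
    rw [e, abs_mul, abs_of_pos (by positivity : 0 < ‖x - y‖⁻¹ * ‖y‖⁻¹)]
    gcongr
  have h8 : max |‖x - y‖⁻¹| |‖y‖⁻¹| ^ (n + 1 - 1) ≤ (2 * ‖y‖⁻¹) ^ n := by
    rw [Nat.add_sub_cancel, abs_of_pos (by positivity), abs_of_pos (by positivity)]
    have h9 : max ‖x - y‖⁻¹ ‖y‖⁻¹ ≤ 2 * ‖y‖⁻¹ := by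
      refine max_le h6 ?_
      have : 0 < ‖y‖⁻¹ := by positivity
      linarith
    have : 0 ≤ max ‖x - y‖⁻¹ ‖y‖⁻¹ := le_max_of_le_left (by positivity)
    gcongr
  calc |‖x - y‖⁻¹ - ‖y‖⁻¹| * ((n + 1 : ℕ) : ℝ) * max |‖x - y‖⁻¹| |‖y‖⁻¹| ^ (n + 1 - 1)
      ≤ (‖x‖ * (2 * ‖y‖⁻¹ * ‖y‖⁻¹)) * ((n + 1 : ℕ) : ℝ) * (2 * ‖y‖⁻¹) ^ n := by gcongr
    _ = (n + 1) * 2 ^ (n + 1) * ‖x‖ * ‖y‖⁻¹ ^ (n + 2) := by push_cast; ring
    _ ≤ (n + 1) * 2 ^ (n + 2) * ‖x‖ * ‖y‖⁻¹ ^ (n + 2) := by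
        gcongr
        · norm_num
        · omega
    _ = _ := by rw [inv_pow]

/-! ### integrability for finite measures with bounded support -/

section Fin

variable {ν : Measure (E d)} {C : ℝ}

lemma we_ae_mem (hb : ∃ R0, ν (closedBall 0 R0)ᶜ = 0) :
    ∃ R0, 0 < R0 ∧ (∀ᵐ y ∂ν, y ∈ closedBall (0 : E d) R0) := by
  obtain ⟨R0, hR⟩ := hb
  refine ⟨max R0 1, lt_max_of_lt_right one_pos, ?_⟩
  have h : ∀ᵐ y ∂ν, y ∈ closedBall (0 : E d) R0 := by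
    rw [ae_iff]
    exact hR
  filter_upwards [h] with y hy
  exact closedBall_subset_closedBall (le_max_left _ _) hy

lemma we_int_cont {F : Type*} [NormedAddCommGroup F] [IsFiniteMeasure ν]
    (hb : ∃ R0, ν (closedBall 0 R0)ᶜ = 0) {f : E d → F} (hf : Continuous f) : Integrable f ν := by
  obtain ⟨R0, -, hR⟩ := we_ae_mem hb
  have h : ν.restrict (closedBall 0 R0) = ν := Measure.restrict_eq_self_of_ae_mem hR
  rw [← h]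
  exact hf.continuousOn.integrableOn_compact (isCompact_closedBall _ _)

lemma we_ae_mem_prod [SFinite ν] {R0 : ℝ} (hR : ∀ᵐ y ∂ν, y ∈ closedBall (0 : E d) R0) :
    ∀ᵐ p ∂(ν.prod ν), p ∈ closedBall (0 : E d) R0 ×ˢ closedBall (0 : E d) R0 := by
  have h1 : ∀ᵐ p ∂(ν.prod ν), p.1 ∈ closedBall (0 : E d) R0 :=
    Measure.quasiMeasurePreserving_fst.ae hR
  have h2 : ∀ᵐ p ∂(ν.prod ν), p.2 ∈ closedBall (0 : E d) R0 :=
    Measure.quasiMeasurePreserving_snd.ae hR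
  filter_upwards [h1, h2] with p hp1 hp2
  exact ⟨hp1, hp2⟩

lemma we_int_cont2 {F : Type*} [NormedAddCommGroup F] [IsFiniteMeasure ν]
    (hb : ∃ R0, ν (closedBall 0 R0)ᶜ = 0) {f : E d × E d → F} (hf : Continuous f) :
    Integrable f (ν.prod ν) := by
  obtain ⟨R0, -, hR⟩ := we_ae_mem hb
  have h : (ν.prod ν).restrict (closedBall (0 : E d) R0 ×ˢ closedBall (0 : E d) R0) = ν.prod ν :=
    Measure.restrict_eq_self_of_ae_mem (we_ae_mem_prod hR)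
  rw [← h]
  exact hf.continuousOn.integrableOn_compact
    ((isCompact_closedBall _ _).prod (isCompact_closedBall _ _))

lemma we_int_sq (hU : UB n ν C) (hb : ∃ R0, ν (closedBall 0 R0)ᶜ = 0) :
    Integrable (fun p : E d × E d => ‖p.1 - p.2‖ ^ 2 * wt n p.1 p.2) (ν.prod ν) := by
  have hl : ∀ i : Fin d, Lip (fun y : E d => y i) := by
    intro i
    refine ⟨1, LipschitzWith.of_dist_le_mul fun x y => ?_⟩
    rw [NNReal.coe_one, one_mul, Real.dist_eq, dist_eq_norm]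
    have := PiLp.norm_apply_le (x - y) i
    rwa [Real.norm_eq_abs] at this
  have h : (fun p : E d × E d => ‖p.1 - p.2‖ ^ 2 * wt n p.1 p.2) =
      fun p => ∑ i, (p.1 i - p.2 i) * (p.1 i - p.2 i) * wt n p.1 p.2 := by
    funext p
    rw [← Finset.sum_mul, EuclideanSpace.norm_sq_eq]
    congr 1
    refine Finset.sum_congr rfl fun i _ => ?_
    rw [Real.norm_eq_abs, sq_abs, sq]
    rfl
  rw [h]
  refine integrable_finsetSum _ fun i _ => ?_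
  have h1 := En_integrable hU hb (hl i) (hl i)
  exact h1

end Fin

end Vale.Agent.P120
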