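import Vale.Agent.Lib.P120.UR.WeakEqErr

/-!
The limit along the blow-up sequence, for the module WeakEq.
-/

open MeasureTheory Filter Set Metric Module
open scoped Topology ENNReal NNReal RealInnerProductSpace

namespace Vale.Agent.P120



variable {d n : ℕ}

section Gen

variable {ν : Measure (E d)} {C : ℝ}

/-- The integrand of `weT`. -/
noncomputable def weG (n : ℕ) (R ρ : ℝ) (ψ : E d → ℝ) (x y : E d) : ℝ :=
  cut R x * (cut R y * (ψ x - ψ y) * weF n ρ (x - y))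

lemma weG_zero {R ρ : ℝ} (hR : 0 < R) (ψ : E d → ℝ) (x : E d) {y : E d} (hy : 2 * R ≤ ‖y‖) :
    weG n R ρ ψ x y = 0 := by
  unfold weG
  rw [we_cut_eq_zero hR hy]
  ring

lemma weG_continuous {R ρ : ℝ} (hρ : 0 < ρ) {ψ : E d → ℝ} (hψ : Continuous ψ) (x : E d) :
    Continuous (weG n R ρ ψ x) := by
  have h1 := we_cut_continuous (d := d) R
  have h2 := weF_continuous (n := n) (d := d) hρ
  unfold weG
  fun_prop

lemma weG_hcs {R ρ : ℝ} (hR : 0 < R) (ψ : E d → ℝ) (x : E d) :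
    HasCompactSupport (weG n R ρ ψ x) := by
  refine HasCompactSupport.intro (isCompact_closedBall (0 : E d) (2 * R)) fun y hy => ?_
  rw [mem_closedBall, dist_zero_right, not_le] at hy
  exact weG_zero hR ψ x hy.le

lemma weT_eq (ν : Measure (E d)) (R ρ : ℝ) (ψ : E d → ℝ) (x : E d) :
    weT n ν R ρ ψ x = ∫ y, weG n R ρ ψ x y ∂ν := by
  unfold weT weG
  rw [integral_const_mul]

lemma weG_int (hU : UB n ν C) {R ρ : ℝ} (hR : 0 < R) (hρ : 0 < ρ) {ψ : E d → ℝ}
    (hψ : Continuous ψ) (x : E d) : Integrable (weG n R ρ ψ x) ν := by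
  have := UB.isLocallyFinite hU
  exact (weG_continuous hρ hψ x).integrable_of_hasCompactSupport (weG_hcs hR ψ x)

lemma weT_zero {R ρ : ℝ} (hR : 0 < R) (ψ : E d → ℝ) {x : E d} (hx : 2 * R < ‖x‖) :
    weT n ν R ρ ψ x = 0 := by
  unfold weT
  rw [we_cut_eq_zero hR hx.le, zero_mul]

lemma we_ball_mass (hU : UB n ν C) {R : ℝ} (hR : 0 < R) :
    ν.real (closedBall (0 : E d) (2 * R)) ≤ C * (2 * R) ^ n := by
  have hC := hU.1
  rw [measureReal_def]
  exact ENNReal.toReal_le_of_le_ofReal (by positivity) (hU.2 _ _ (by positivity))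

lemma we_int_ind (hU : UB n ν C) {R : ℝ} (_hR : 0 < R) (a : ℝ) :
    Integrable ((closedBall (0 : E d) (2 * R)).indicator fun _ => a) ν :=
  (integrable_indicator_iff measurableSet_closedBall).mpr
    (integrableOn_const (hU.closedBall_lt_top _ _).ne)

lemma we_abs_int_le (hU : UB n ν C) {R : ℝ} (hR : 0 < R) {f : E d → ℝ} {a : ℝ} (ha : 0 ≤ a)
    (hf : ∀ y, |f y| ≤ a) (hf0 : ∀ y, 2 * R ≤ ‖y‖ → f y = 0) :
    |∫ y, f y ∂ν| ≤ a * (C * (2 * R) ^ n) := by
  have h : ∀ y, ‖f y‖ ≤ (closedBall (0 : E d) (2 * R)).indicator (fun _ => a) y := by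
    intro y
    by_cases hy : y ∈ closedBall (0 : E d) (2 * R)
    · rw [indicator_of_mem hy]
      exact hf y
    · rw [indicator_of_notMem hy]
      rw [mem_closedBall, dist_zero_right, not_le] at hy
      rw [hf0 y hy.le, norm_zero]
  have h2 := norm_integral_le_of_norm_le (we_int_ind hU hR a) (Eventually.of_forall h)
  rw [integral_indicator measurableSet_closedBall, integral_const, smul_eq_mul,
    measureReal_restrict_apply_univ] at h2
  rw [Real.norm_eq_abs] at h2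
  refine h2.trans ?_
  rw [mul_comm]
  have := we_ball_mass hU hR
  gcongr

lemma weT_bound (hU : UB n ν C) {R ρ : ℝ} (hR : 0 < R) (hρ : 0 < ρ) {ψ : E d → ℝ} {B : ℝ}
    (hB : ∀ y, |ψ y| ≤ B) (x : E d) :
    |weT n ν R ρ ψ x| ≤ (2 * B * (ρ ^ (n + 1))⁻¹) * (C * (2 * R) ^ n) := by
  have hB0 : 0 ≤ B := (abs_nonneg _).trans (hB 0)
  rw [weT_eq]
  refine we_abs_int_le hU hR (by positivity) (fun y => ?_) fun y hy => weG_zero hR ψ x hy
  unfold weG
  rw [abs_mul, abs_mul, abs_mul, abs_of_nonneg (we_cut_nonneg R x),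
    abs_of_nonneg (we_cut_nonneg R y), abs_of_nonneg (weF_nonneg hρ (x - y))]
  have h1 := we_cut_le_one R x
  have h2 := we_cut_le_one R y
  have h1' := we_cut_nonneg R x
  have h2' := we_cut_nonneg R y
  have h3 := weF_le (n := n) hρ (x - y)
  have h3' := weF_nonneg (n := n) hρ (x - y)
  have h4 : |ψ x - ψ y| ≤ 2 * B := by
    refine (abs_sub _ _).trans ?_
    have := hB x
    have := hB y
    linarith
  calc cut R x * (cut R y * |ψ x - ψ y| * weF n ρ (x - y))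
      ≤ 1 * (1 * (2 * B) * (ρ ^ (n + 1))⁻¹) := by gcongr
    _ = _ := by ring

/-- Lipschitz constant of `weT`. -/
noncomputable def weLip (n : ℕ) (C R ρ K B : ℝ) : ℝ :=
  (R⁻¹ * (2 * B) * (ρ ^ (n + 1))⁻¹ + K * (ρ ^ (n + 1))⁻¹ +
    2 * B * ((n + 1) * ρ⁻¹ ^ (n + 2))) * (C * (2 * R) ^ n)

lemma weT_lip (hU : UB n ν C) {R ρ : ℝ} (hR : 0 < R) (hρ : 0 < ρ) {ψ : E d → ℝ} {K : ℝ}
    (hK : 0 ≤ K) (hψ : ∀ x y, |ψ x - ψ y| ≤ K * ‖x - y‖) {B : ℝ}
    (hB : ∀ y, |ψ y| ≤ B) :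
    LipschitzWith (Real.toNNReal (weLip n C R ρ K B)) (weT n ν R ρ ψ) := by
  have hC := hU.1
  have hB0 : 0 ≤ B := (abs_nonneg _).trans (hB 0)
  have hL0 : 0 ≤ weLip n C R ρ K B := by
    unfold weLip
    positivity
  have hψc : Continuous ψ := by
    have : LipschitzWith (Real.toNNReal K) ψ := LipschitzWith.of_dist_le_mul fun x y => by
      rw [Real.coe_toNNReal _ hK, Real.dist_eq, dist_eq_norm]
      exact hψ x y
    exact this.continuous
  refine LipschitzWith.of_dist_le_mul fun x x' => ?_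
  rw [Real.coe_toNNReal _ hL0, Real.dist_eq, dist_eq_norm, weT_eq, weT_eq,
    ← integral_sub (weG_int hU hR hρ hψc x) (weG_int hU hR hρ hψc x')]
  set a : ℝ := (R⁻¹ * (2 * B) * (ρ ^ (n + 1))⁻¹ + K * (ρ ^ (n + 1))⁻¹ +
    2 * B * ((n + 1) * ρ⁻¹ ^ (n + 2))) * ‖x - x'‖ with ha
  have hmain : ∀ y, |weG n R ρ ψ x y - weG n R ρ ψ x' y| ≤ a := by
    intro y
    unfold weG
    have e : cut R x * (cut R y * (ψ x - ψ y) * weF n ρ (x - y)) -
        cut R x' * (cut R y * (ψ x' - ψ y) * weF n ρ (x' - y)) =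
        cut R y * ((cut R x - cut R x') * (ψ x - ψ y) * weF n ρ (x - y) +
          cut R x' * (ψ x - ψ x') * weF n ρ (x - y) +
          cut R x' * (ψ x' - ψ y) * (weF n ρ (x - y) - weF n ρ (x' - y))) := by ring
    rw [e, abs_mul, abs_of_nonneg (we_cut_nonneg R y)]
    have c1 := we_cut_le_one R y
    have c1' := we_cut_nonneg R y
    have c2 := we_cut_le_one R x'
    have c2' := we_cut_nonneg R x'
    have c3 := we_cut_lip hR x x'
    have f1 := weF_le (n := n) hρ (x - y)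
    have f1' := weF_nonneg (n := n) hρ (x - y)
    have f2 : |weF n ρ (x - y) - weF n ρ (x' - y)| ≤ (n + 1) * ρ⁻¹ ^ (n + 2) * ‖x - x'‖ := by
      have := weF_lip (n := n) hρ (x - y) (x' - y)
      rwa [sub_sub_sub_cancel_right] at this
    have b1 : |ψ x - ψ y| ≤ 2 * B := by
      refine (abs_sub _ _).trans ?_
      have := hB x
      have := hB y
      linarith
    have b2 : |ψ x' - ψ y| ≤ 2 * B := by
      refine (abs_sub _ _).trans ?_
      have := hB x'
      have := hB y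
      linarith
    have t1 : |(cut R x - cut R x') * (ψ x - ψ y) * weF n ρ (x - y)| ≤
        (R⁻¹ * ‖x - x'‖) * (2 * B) * (ρ ^ (n + 1))⁻¹ := by
      rw [abs_mul, abs_mul, abs_of_nonneg f1']
      gcongr
    have t2 : |cut R x' * (ψ x - ψ x') * weF n ρ (x - y)| ≤
        1 * (K * ‖x - x'‖) * (ρ ^ (n + 1))⁻¹ := by
      rw [abs_mul, abs_mul, abs_of_nonneg f1', abs_of_nonneg c2']
      have := hψ x x'
      gcongr
    have t3 : |cut R x' * (ψ x' - ψ y) * (weF n ρ (x - y) - weF n ρ (x' - y))| ≤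
        1 * (2 * B) * ((n + 1) * ρ⁻¹ ^ (n + 2) * ‖x - x'‖) := by
      rw [abs_mul, abs_mul, abs_of_nonneg c2']
      gcongr
    have t4 := abs_add_three ((cut R x - cut R x') * (ψ x - ψ y) * weF n ρ (x - y))
      (cut R x' * (ψ x - ψ x') * weF n ρ (x - y))
      (cut R x' * (ψ x' - ψ y) * (weF n ρ (x - y) - weF n ρ (x' - y)))
    have t5 : |(cut R x - cut R x') * (ψ x - ψ y) * weF n ρ (x - y) +
          cut R x' * (ψ x - ψ x') * weF n ρ (x - y) +
          cut R x' * (ψ x' - ψ y) * (weF n ρ (x - y) - weF n ρ (x' - y))| ≤ a := by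
      refine t4.trans ((add_le_add (add_le_add t1 t2) t3).trans (le_of_eq ?_))
      rw [ha]
      ring
    have h0 := abs_nonneg ((cut R x - cut R x') * (ψ x - ψ y) * weF n ρ (x - y) +
          cut R x' * (ψ x - ψ x') * weF n ρ (x - y) +
          cut R x' * (ψ x' - ψ y) * (weF n ρ (x - y) - weF n ρ (x' - y)))
    nlinarith only [c1, t5, h0]
  have ha0 : 0 ≤ a := by rw [ha]; positivity
  refine (we_abs_int_le hU hR ha0 hmain fun y hy => ?_).trans (le_of_eq ?_)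
  · rw [weG_zero hR ψ x hy, weG_zero hR ψ x' hy, sub_zero]
  · rw [ha]
    unfold weLip
    ring

end Gen

/-- uniform convergence of `weT` -/
lemma weT_unif {C : ℝ} {ν : ℕ → Measure (E d)} (hU : ∀ k, UB n (ν k) C) {σ : Measure (E d)}
    (h : IsUL ν σ) {R ρ : ℝ} (hR : 0 < R) (hρ : 0 < ρ) {ψ : E d → ℝ} {K : ℝ}
    (hK : 0 ≤ K) (hψ : ∀ x y, |ψ x - ψ y| ≤ K * ‖x - y‖) {B : ℝ} (hB : ∀ y, |ψ y| ≤ B) :
    Continuous (weT n σ R ρ ψ) ∧ ∀ ε > 0, ∀ᶠ k in (hyperfilter ℕ : Filter ℕ), ∀ y,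
      |weT n (ν k) R ρ ψ y - weT n σ R ρ ψ y| ≤ ε := by
  have hψc : Continuous ψ := by
    have : LipschitzWith (Real.toNNReal K) ψ := LipschitzWith.of_dist_le_mul fun x y => by
      rw [Real.coe_toNNReal _ hK, Real.dist_eq, dist_eq_norm]
      exact hψ x y
    exact this.continuous
  have hl := uniform_of_pointwise (fun k => weT n (ν k) R ρ ψ) (weT n σ R ρ ψ)
    (Real.toNNReal (weLip n C R ρ K B)) (fun k => weT_lip (hU k) hR hρ hK hψ hB) (2 * R)
    (fun k y hy => weT_zero hR ψ hy) (fun y => by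
      simp only [weT_eq]
      exact h _ (weG_continuous hρ hψc y) (weG_hcs hR ψ y))
  exact ⟨hl.1.continuous, hl.2.2⟩

end Vale.Agent.P120
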