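import Vale.Agent.Lib.P120.UR.WeakEqCore

/-!
The middle part and the far part, for the module WeakEq.
-/

open MeasureTheory Filter Set Metric Module
open scoped Topology ENNReal NNReal RealInnerProductSpace

namespace Vale.Agent.P120



variable {d n : ℕ}

section Fin

variable {ν : Measure (E d)} {C : ℝ}

/-- The middle part. -/
lemma we_middle [IsFiniteMeasure ν] (hb : ∃ R0, ν (closedBall 0 R0)ᶜ = 0) {ψ χ F : E d → ℝ}
    {u : E d → E d} (hψ : Continuous ψ) (hχ : Continuous χ) (hF : Continuous F)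
    (hu : Continuous u) (hFe : ∀ z, F (-z) = F z) :
    (1 / 2 : ℝ) • ∫ p : E d × E d, (χ p.1 * χ p.2 * (ψ p.1 - ψ p.2) * F (p.1 - p.2)) •
      (u p.1 - u p.2) ∂(ν.prod ν) =
    ∫ x, (χ x * ∫ y, χ y * (ψ x - ψ y) * F (x - y) ∂ν) • u x ∂ν := by
  set I : E d × E d → E d := fun p => (χ p.1 * χ p.2 * (ψ p.1 - ψ p.2) * F (p.1 - p.2)) • u p.1
    with hI
  have hIc : Continuous I := by
    rw [hI]
    fun_prop
  have hIi : Integrable I (ν.prod ν) := we_int_cont2 hb hIc
  have e1 : (fun p : E d × E d => (χ p.1 * χ p.2 * (ψ p.1 - ψ p.2) * F (p.1 - p.2)) •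
      (u p.1 - u p.2)) = fun p => I p + I p.swap := by
    funext p
    simp only [hI, Prod.fst_swap, Prod.snd_swap]
    rw [← neg_sub p.1 p.2, hFe]
    rw [smul_sub, sub_eq_add_neg, ← neg_smul]
    congr 2
    ring
  have e2 : ∫ p, I p.swap ∂(ν.prod ν) = ∫ p, I p ∂(ν.prod ν) := integral_prod_swap I
  have hsw : Integrable (fun p => I p.swap) (ν.prod ν) := hIi.swap
  rw [e1, integral_add hIi hsw, e2, ← two_smul ℝ, smul_smul]
  norm_num
  rw [integral_prod I hIi]
  refine integral_congr_ae (Eventually.of_forall fun x => ?_)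
  simp only [hI]
  rw [integral_smul_const]
  congr 1
  rw [← integral_const_mul]
  refine integral_congr_ae (Eventually.of_forall fun y => ?_)
  simp only
  ring

/-- Rewriting of the far part. -/
lemma we_far_eq [IsFiniteMeasure ν] (hb : ∃ R0, ν (closedBall 0 R0)ᶜ = 0) {ψ χ F : E d → ℝ}
    {u : E d → E d} (hψ : Continuous ψ) (hχ : Continuous χ) (hF : Continuous F)
    (hu : Continuous u) (hFe : ∀ z, F (-z) = F z) (hχψ : ∀ x, ψ x = 0 ∨ χ x = 1)
    (h0 : ∫ y, ψ y ∂ν = 0) :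
    (1 / 2 : ℝ) • ∫ p : E d × E d, ((1 - χ p.1 * χ p.2) * (ψ p.1 - ψ p.2) * F (p.1 - p.2)) •
      (u p.1 - u p.2) ∂(ν.prod ν) =
    ∫ p : E d × E d, (ψ p.1 * (1 - χ p.2) * F (p.1 - p.2)) • u p.1 ∂(ν.prod ν) -
    ∫ p : E d × E d, (ψ p.1 * (1 - χ p.2) * (F (p.1 - p.2) - F (-p.2))) • u p.2 ∂(ν.prod ν) := by
  set P : E d × E d → E d := fun p => (ψ p.1 * (1 - χ p.2) * F (p.1 - p.2)) • (u p.1 - u p.2)
    with hP
  have hPc : Continuous P := by
    rw [hP]
    fun_prop
  have hPi : Integrable P (ν.prod ν) := we_int_cont2 hb hPc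
  have e1 : (fun p : E d × E d => ((1 - χ p.1 * χ p.2) * (ψ p.1 - ψ p.2) * F (p.1 - p.2)) •
      (u p.1 - u p.2)) = fun p => P p + P p.swap := by
    funext p
    simp only [hP, Prod.fst_swap, Prod.snd_swap]
    rw [← neg_sub p.1 p.2, hFe, ← neg_sub (u p.1) (u p.2), smul_neg, ← neg_smul, ← add_smul]
    congr 1
    rcases hχψ p.1 with h1 | h1 <;> rcases hχψ p.2 with h2 | h2
    · rw [h1, h2]; ring
    · rw [h1, h2]; ring
    · rw [h1, h2]; ring
    · rw [h1, h2]; ring
  have e2 : ∫ p, P p.swap ∂(ν.prod ν) = ∫ p, P p ∂(ν.prod ν) := integral_prod_swap P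
  have hsw : Integrable (fun p => P p.swap) (ν.prod ν) := hPi.swap
  rw [e1, integral_add hPi hsw, e2, ← two_smul ℝ, smul_smul]
  norm_num
  have hz : ∫ p : E d × E d, (ψ p.1) • ((1 - χ p.2) * F (-p.2)) • u p.2 ∂(ν.prod ν) = 0 := by
    have := integral_prod_smul (μ := ν) (ν := ν) ψ (fun y => ((1 - χ y) * F (-y)) • u y)
    rw [this, h0, zero_smul]
  have i1 : Integrable (fun p : E d × E d => (ψ p.1 * (1 - χ p.2) * F (p.1 - p.2)) • u p.1)
      (ν.prod ν) := we_int_cont2 hb (by fun_prop)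
  have i2 : Integrable (fun p : E d × E d => (ψ p.1 * (1 - χ p.2) *
      (F (p.1 - p.2) - F (-p.2))) • u p.2) (ν.prod ν) := we_int_cont2 hb (by fun_prop)
  have i3 : Integrable (fun p : E d × E d => (ψ p.1) • ((1 - χ p.2) * F (-p.2)) • u p.2)
      (ν.prod ν) := we_int_cont2 hb (by fun_prop)
  have e3 : P = fun p => ((ψ p.1 * (1 - χ p.2) * F (p.1 - p.2)) • u p.1 -
      (ψ p.1 * (1 - χ p.2) * (F (p.1 - p.2) - F (-p.2))) • u p.2) -
      (ψ p.1) • ((1 - χ p.2) * F (-p.2)) • u p.2 := by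
    funext p
    simp only [hP, smul_sub, smul_smul]
    have : ψ p.1 * (1 - χ p.2) * F (p.1 - p.2) =
      ψ p.1 * (1 - χ p.2) * (F (p.1 - p.2) - F (-p.2)) + ψ p.1 * ((1 - χ p.2) * F (-p.2)) := by
      ring
    nth_rw 2 [this]
    rw [add_smul]
    abel
  have i12 : Integrable (fun p : E d × E d => (ψ p.1 * (1 - χ p.2) * F (p.1 - p.2)) • u p.1 -
      (ψ p.1 * (1 - χ p.2) * (F (p.1 - p.2) - F (-p.2))) • u p.2) (ν.prod ν) := i1.sub i2
  rw [e3]
  refine (integral_sub i12 i3).trans ?_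
  rw [hz, sub_zero, integral_sub i1 i2]

/-- The far part. -/
lemma we_far (hU : UB n ν C) (hb : ∃ R0, ν (closedBall 0 R0)ᶜ = 0) {ψ : E d → ℝ}
    (hψ : Continuous ψ) {B : ℝ} (hB : ∀ y, |ψ y| ≤ B) {r2 : ℝ} (hr2 : 1 ≤ r2)
    (hs : ∀ y, r2 < ‖y‖ → ψ y = 0) (h0 : ∫ y, ψ y ∂ν = 0) {u : E d → E d} (hu : Continuous u)
    (hg : ∀ t : ℝ, 1 ≤ t → ∫ y in ball 0 t, ‖u y‖ ^ 2 ∂ν ≤ t ^ (n + 3)) {R1 : ℝ}
    (hR1 : r2 < R1) {R ρ : ℝ} (hR : 4 * r2 ≤ R) (hρ : 0 < ρ) (hρ1 : ρ ≤ 1) :
    ‖(1 / 2 : ℝ) • ∫ p : E d × E d, ((1 - cut R p.1 * cut R p.2) * (ψ p.1 - ψ p.2) *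
      weF n ρ (p.1 - p.2)) • (u p.1 - u p.2) ∂(ν.prod ν)‖ ≤
      ((B ^ 2 * (C * R1 ^ n) + R1 ^ (n + 3)) * (2 ^ (n + 1) * C)
        + (n + 1) * 2 ^ (n + 2) * r2 * (B * (C * R1 ^ n)) * (4 ^ (n + 3) + C * 4 ^ n)) / √R := by
  have hC := hU.1
  have := UB.isFiniteMeasure hU hb
  have hR0 : 0 < R := by linarith
  have hR1' : 1 ≤ R1 := by linarith
  have hR10 : 0 < R1 := by linarith
  have hRR : 1 ≤ R := by linarith
  have hsR : 0 < √R := Real.sqrt_pos.mpr hR0
  have hB0 : 0 ≤ B := (abs_nonneg _).trans (hB 0)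
  have hχψ : ∀ x, ψ x = 0 ∨ cut R x = 1 := by
    intro x
    rcases lt_or_ge r2 ‖x‖ with h | h
    · exact Or.inl (hs x h)
    · exact Or.inr (we_cut_eq_one hR0 (by linarith))
  rw [we_far_eq hb hψ (we_cut_continuous R) (weF_continuous hρ) hu (weF_neg ρ) hχψ h0]
  have hmass : ν.real (ball (0 : E d) R1) ≤ C * R1 ^ n := by
    rw [measureReal_def]
    exact ENNReal.toReal_le_of_le_ofReal (by positivity) (hU.ball _ hR10)
  have hψball : ∀ x, x ∉ ball (0 : E d) R1 → ψ x = 0 := by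
    intro x hx
    rw [mem_ball, dist_zero_right, not_lt] at hx
    exact hs x (by linarith)
  -- first part
  have hA : ‖∫ p : E d × E d, (ψ p.1 * (1 - cut R p.2) * weF n ρ (p.1 - p.2)) • u p.1
      ∂(ν.prod ν)‖ ≤ (B ^ 2 * (C * R1 ^ n) + R1 ^ (n + 3)) * (2 ^ (n + 1) * C) / √R := by
    set f1 : E d × E d → ℝ := fun p => |ψ p.1| * ‖u p.1‖ * ((1 - cut R p.2) *
      weF n ρ (p.1 - p.2)) with hf1
    have hf1c : Continuous f1 := by
      have h1 := we_cut_continuous (d := d) R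
      have h2 := weF_continuous (n := n) (d := d) hρ
      rw [hf1]
      fun_prop
    have hf1i : Integrable f1 (ν.prod ν) := we_int_cont2 hb hf1c
    have hle : ∀ p : E d × E d, ‖(ψ p.1 * (1 - cut R p.2) * weF n ρ (p.1 - p.2)) • u p.1‖ ≤
        f1 p := by
      intro p
      have h1 := we_cut_le_one R p.2
      have h2 := weF_nonneg (n := n) hρ (p.1 - p.2)
      rw [norm_smul, norm_mul, norm_mul, Real.norm_eq_abs, Real.norm_eq_abs, Real.norm_eq_abs,
        abs_of_nonneg h2, abs_of_nonneg (by linarith : 0 ≤ 1 - cut R p.2)]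
      refine le_of_eq ?_
      simp only [hf1]
      ring
    refine (norm_integral_le_of_norm_le hf1i (Eventually.of_forall hle)).trans ?_
    rw [integral_prod _ hf1i]
    have hin : ∀ x : E d, ∫ y, f1 (x, y) ∂ν ≤ (ball (0 : E d) R1).indicator
        (fun x => (1 / 2) * (B ^ 2 + ‖u x‖ ^ 2) * (2 ^ (n + 1) * C / (R / 2))) x := by
      intro x
      by_cases hx : x ∈ ball (0 : E d) R1
      swap
      · rw [indicator_of_notMem hx]
        have e : (fun y => f1 (x, y)) = fun _ => 0 := by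
          funext y
          simp only [hf1, hψball x hx, abs_zero, zero_mul]
        rw [e, integral_zero]
      rw [indicator_of_mem hx]
      by_cases hx2 : r2 < ‖x‖
      · have e : (fun y => f1 (x, y)) = fun _ => 0 := by
          funext y
          simp only [hf1, hs x hx2, abs_zero, zero_mul]
        rw [e, integral_zero]
        positivity
      push Not at hx2
      have e : ∫ y, f1 (x, y) ∂ν = |ψ x| * ‖u x‖ * ∫ y, (1 - cut R y) * weF n ρ (x - y) ∂ν := by
        simp only [hf1]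
        rw [integral_const_mul]
      rw [e]
      obtain ⟨hti, htb⟩ := UB.tail hU x (s := R / 2) (by linarith)
      have h3 : ∫ y, (1 - cut R y) * weF n ρ (x - y) ∂ν ≤ 2 ^ (n + 1) * C / (R / 2) := by
        refine le_trans ?_ htb
        have hm : MeasurableSet (ball x (R / 2))ᶜ := measurableSet_ball.compl
        rw [← integral_indicator hm]
        refine integral_mono (we_int_cont hb ?_) (hti.integrable_indicator hm) fun y => ?_
        · have h1 := we_cut_continuous (d := d) R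
          have h2 := weF_continuous (n := n) (d := d) hρ
          fun_prop
        simp only
        have h1 := we_cut_le_one R y
        have h1' := we_cut_nonneg R y
        have h2 := weF_nonneg (n := n) hρ (x - y)
        by_cases hy : y ∈ (ball x (R / 2))ᶜ
        · rw [indicator_of_mem hy]
          rw [mem_compl_iff, mem_ball, dist_comm, dist_eq_norm, not_lt] at hy
          rw [weF_eq (by linarith), wt]
          have : 0 ≤ (‖x - y‖ ^ (n + 1))⁻¹ := by positivity
          nlinarith only [h1', this]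
        · rw [indicator_of_notMem hy]
          rw [mem_compl_iff, not_not, mem_ball, dist_eq_norm] at hy
          have : ‖y‖ ≤ R := by
            have := norm_le_norm_add_norm_sub' y x
            linarith
          rw [we_cut_eq_one hR0 this, sub_self, zero_mul]
      have h4 : |ψ x| * ‖u x‖ ≤ (1 / 2) * (B ^ 2 + ‖u x‖ ^ 2) := by
        have h5 := hB x
        have h6 := norm_nonneg (u x)
        linarith only [sq_nonneg (B - ‖u x‖), mul_le_mul_of_nonneg_right h5 h6]
      have h5 : 0 ≤ ∫ y, (1 - cut R y) * weF n ρ (x - y) ∂ν := by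
        refine integral_nonneg fun y => ?_
        have h1 := we_cut_le_one R y
        exact mul_nonneg (by linarith) (weF_nonneg hρ _)
      gcongr
    have hu2 : Integrable (fun y => ‖u y‖ ^ 2) ν := we_int_cont hb (by fun_prop)
    have hbu : Integrable (fun x => (1 / 2) * (B ^ 2 + ‖u x‖ ^ 2) *
        (2 ^ (n + 1) * C / (R / 2))) ν := we_int_cont hb (by fun_prop)
    refine (integral_mono hf1i.integral_prod_left (hbu.indicator measurableSet_ball) hin).trans ?_
    rw [integral_indicator measurableSet_ball, integral_mul_const, integral_const_mul,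
      integral_add (integrable_const _) hu2.integrableOn, integral_const, smul_eq_mul,
      measureReal_restrict_apply_univ]
    have h7 := hg R1 hR1'
    have h8 : 1 / R ≤ 1 / √R := by
      apply one_div_le_one_div_of_le hsR
      rw [Real.sqrt_le_left (by linarith)]
      nlinarith only [hRR]
    have h9 : 0 ≤ ∫ y in ball 0 R1, ‖u y‖ ^ 2 ∂ν := integral_nonneg fun y => by positivity
    calc (1 / 2) * (ν.real (ball (0 : E d) R1) * B ^ 2 + ∫ y in ball 0 R1, ‖u y‖ ^ 2 ∂ν) *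
          (2 ^ (n + 1) * C / (R / 2))
        ≤ (1 / 2) * ((C * R1 ^ n) * B ^ 2 + R1 ^ (n + 3)) * (2 ^ (n + 1) * C / (R / 2)) := by
          gcongr
      _ = (B ^ 2 * (C * R1 ^ n) + R1 ^ (n + 3)) * (2 ^ (n + 1) * C) * (1 / R) := by
          field_simp
      _ ≤ (B ^ 2 * (C * R1 ^ n) + R1 ^ (n + 3)) * (2 ^ (n + 1) * C) * (1 / √R) := by gcongr
      _ = _ := by ring
  -- second part
  obtain ⟨hTi, hTb⟩ := we_tail hU hb hu hg hRR
  have hSm : MeasurableSet {y : E d | R ≤ ‖y‖} := measurableSet_le measurable_const measurable_norm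
  have hA2 : ‖∫ p : E d × E d, (ψ p.1 * (1 - cut R p.2) * (weF n ρ (p.1 - p.2) -
      weF n ρ (-p.2))) • u p.2 ∂(ν.prod ν)‖ ≤
      ((n + 1) * 2 ^ (n + 2) * r2 * (B * (C * R1 ^ n)) * (4 ^ (n + 3) + C * 4 ^ n)) / √R := by
    set T : E d → ℝ := {y : E d | R ≤ ‖y‖}.indicator (fun y => ‖u y‖ * (‖y‖ ^ (n + 2))⁻¹) with hT
    have hTint : Integrable T ν := hTi.integrable_indicator hSm
    have hψi : Integrable (fun x => |ψ x|) ν := we_int_cont hb (by fun_prop)
    set f2 : E d × E d → ℝ := fun p => ((n + 1) * 2 ^ (n + 2) * r2 * |ψ p.1|) * T p.2 with hf2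
    have hf2i : Integrable f2 (ν.prod ν) := (hψi.const_mul _).mul_prod hTint
    have hle : ∀ p : E d × E d, ‖(ψ p.1 * (1 - cut R p.2) * (weF n ρ (p.1 - p.2) -
        weF n ρ (-p.2))) • u p.2‖ ≤ f2 p := by
      intro p
      have h1 := we_cut_le_one R p.2
      have h1' := we_cut_nonneg R p.2
      have hTnn : 0 ≤ T p.2 := indicator_nonneg (fun y _ => by positivity) _
      have hRHS : 0 ≤ f2 p := by
        simp only [hf2]
        positivity
      by_cases hp1 : r2 < ‖p.1‖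
      · rw [hs _ hp1, zero_mul, zero_mul, zero_smul, norm_zero]
        exact hRHS
      push Not at hp1
      by_cases hp2 : R ≤ ‖p.2‖
      swap
      · push Not at hp2
        rw [we_cut_eq_one hR0 hp2.le, sub_self, mul_zero, zero_mul, zero_smul, norm_zero]
        exact hRHS
      have e : T p.2 = ‖u p.2‖ * (‖p.2‖ ^ (n + 2))⁻¹ :=
        indicator_of_mem (show p.2 ∈ {y : E d | R ≤ ‖y‖} from hp2) _
      have h3 := weF_sub_far (n := n) hρ (x := p.1) (y := p.2) (by linarith) (by linarith)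
      rw [norm_smul, norm_mul, norm_mul, Real.norm_eq_abs, Real.norm_eq_abs, Real.norm_eq_abs,
        abs_of_nonneg (by linarith : 0 ≤ 1 - cut R p.2)]
      simp only [hf2, e]
      calc |ψ p.1| * (1 - cut R p.2) * |weF n ρ (p.1 - p.2) - weF n ρ (-p.2)| * ‖u p.2‖
          ≤ |ψ p.1| * 1 * ((n + 1) * 2 ^ (n + 2) * r2 * (‖p.2‖ ^ (n + 2))⁻¹) * ‖u p.2‖ := by
            have h4 : 1 - cut R p.2 ≤ 1 := by linarith
            have h5 : |weF n ρ (p.1 - p.2) - weF n ρ (-p.2)| ≤
                (n + 1) * 2 ^ (n + 2) * r2 * (‖p.2‖ ^ (n + 2))⁻¹ := h3.trans (by gcongr)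
            have h6 : 0 ≤ 1 - cut R p.2 := by linarith
            gcongr
        _ = _ := by ring
    refine (norm_integral_le_of_norm_le hf2i (Eventually.of_forall hle)).trans ?_
    have e2 : ∫ p, f2 p ∂(ν.prod ν) = (∫ x, (n + 1) * 2 ^ (n + 2) * r2 * |ψ x| ∂ν) *
        ∫ y, T y ∂ν :=
      integral_prod_mul (μ := ν) (ν := ν) (fun x => (n + 1) * 2 ^ (n + 2) * r2 * |ψ x|) T
    rw [e2, integral_const_mul, hT, integral_indicator hSm]
    have h10 : ∫ x, |ψ x| ∂ν ≤ B * (C * R1 ^ n) := by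
      have h11 : ∀ x, |ψ x| ≤ (ball (0 : E d) R1).indicator (fun _ => B) x := by
        intro x
        by_cases hx : x ∈ ball (0 : E d) R1
        · rw [indicator_of_mem hx]
          exact hB x
        · rw [indicator_of_notMem hx, hψball x hx, abs_zero]
      refine (integral_mono hψi ((integrable_const _).indicator measurableSet_ball) h11).trans ?_
      rw [integral_indicator measurableSet_ball, integral_const, smul_eq_mul,
        measureReal_restrict_apply_univ, mul_comm]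
      gcongr
    have h12 : 0 ≤ ∫ x, |ψ x| ∂ν := integral_nonneg fun x => abs_nonneg _
    have h13 : 0 ≤ ∫ y in {y : E d | R ≤ ‖y‖}, ‖u y‖ * (‖y‖ ^ (n + 2))⁻¹ ∂ν :=
      integral_nonneg fun y => by positivity
    calc (n + 1) * 2 ^ (n + 2) * r2 * (∫ x, |ψ x| ∂ν) *
          ∫ y in {y : E d | R ≤ ‖y‖}, ‖u y‖ * (‖y‖ ^ (n + 2))⁻¹ ∂ν
        ≤ (n + 1) * 2 ^ (n + 2) * r2 * (B * (C * R1 ^ n)) *
          ((4 ^ (n + 3) + C * 4 ^ n) / √R) := by gcongr
      _ = _ := by ring
  refine (norm_sub_le _ _).trans ((add_le_add hA hA2).trans (le_of_eq ?_))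
  ring

end Fin

end Vale.Agent.P120
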